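import Vale.Agent.P137.Interface

/-! # P137 module H: from the two functional bounds to an integrable weak derivative -/

namespace Vale.Agent.P137

open MeasureTheory Set Filter Topology
open scoped RealInnerProductSpace ENNReal Pointwise

section AbsContAux

variable {d : ℕ}

/-- an integral bound on all bounded sets gives a bound on the whole space. -/
theorem lintegral_le_of_forall_bounded {F : Pt d → ℝ} (hF : AEMeasurable F) (hF0 : ∀ x, 0 ≤ F x)
    {c : ℝ} (hint : ∀ R : ℝ, IntegrableOn F (Metric.closedBall 0 R))
    (h : ∀ R : ℝ, ∫ x in Metric.closedBall (0 : Pt d) R, F x ≤ c) :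
    Integrable F ∧ ∫ x, F x ≤ c := by
  have hc : 0 ≤ c := le_trans (integral_nonneg hF0) (h 0)
  have key : ∫⁻ x, ENNReal.ofReal (F x) ≤ ENNReal.ofReal c := by
    have hU : (⋃ k : ℕ, Metric.closedBall (0 : Pt d) k) = univ := Metric.iUnion_closedBall_nat 0
    rw [← setLIntegral_univ, ← hU, setLIntegral_iUnion_of_directed]
    · refine iSup_le fun k => ?_
      rw [← ofReal_integral_eq_lintegral_ofReal (hint _) (Eventually.of_forall hF0)]
      exact ENNReal.ofReal_le_ofReal (h _)
    · exact directed_of_isDirected_le fun a b hab =>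
        Metric.closedBall_subset_closedBall (by exact_mod_cast hab)
  have hi : Integrable F := by
    refine ⟨hF.aestronglyMeasurable, ?_⟩
    rw [hasFiniteIntegral_iff_ofReal (Eventually.of_forall hF0)]
    exact key.trans_lt ENNReal.ofReal_lt_top
  refine ⟨hi, ?_⟩
  rw [← ENNReal.ofReal_le_ofReal_iff hc,
    ofReal_integral_eq_lintegral_ofReal hi (Eventually.of_forall hF0)]
  exact key

/-- a bounded measurable function with compact support is a test object. -/
def IsTest (φ : Pt d → ℝ) (M : ℝ) : Prop :=
  Measurable φ ∧ HasCompactSupport φ ∧ ∀ x, |φ x| ≤ M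

theorem IsTest.integrable {φ : Pt d → ℝ} {M : ℝ} (h : IsTest φ M) : Integrable φ := by
  have h1 : IntegrableOn φ (tsupport φ) :=
    Measure.integrableOn_of_bounded h.2.1.isCompact.measure_lt_top.ne
      h.1.aestronglyMeasurable (M := M)
      (Eventually.of_forall fun x => by simpa [Real.norm_eq_abs] using h.2.2 x)
  exact (integrableOn_iff_integrable_of_support_subset (subset_tsupport φ)).1 h1

theorem IsTest.memLp_two {φ : Pt d → ℝ} {M : ℝ} (h : IsTest φ M) : MemLp φ 2 := by
  refine (memLp_two_iff_integrable_sq h.1.aestronglyMeasurable).2 ?_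
  refine Integrable.mono' (h.integrable.norm.const_mul M) (h.1.pow_const 2).aestronglyMeasurable
    (Eventually.of_forall fun x => ?_)
  rw [Real.norm_eq_abs, abs_pow, pow_two, Real.norm_eq_abs]
  exact mul_le_mul_of_nonneg_right (h.2.2 x) (abs_nonneg _)

theorem isTest_indicator_sign {g : Pt d → ℝ} (hg : Measurable g) {A : Set (Pt d)}
    (hA : MeasurableSet A) {R : ℝ} (hR : A ⊆ Metric.closedBall 0 R) :
    IsTest (A.indicator fun x => if 0 ≤ g x then (1 : ℝ) else -1) 1 := by
  refine ⟨?_, ?_, fun x => ?_⟩
  · exact (Measurable.ite (measurableSet_le measurable_const hg) measurable_const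
      measurable_const).indicator hA
  · refine HasCompactSupport.of_support_subset_isCompact (isCompact_closedBall 0 R) ?_
    exact (support_indicator_subset).trans hR
  · by_cases hx : x ∈ A
    · rw [indicator_of_mem hx]; split_ifs <;> simp
    · rw [indicator_of_notMem hx]; simp

theorem integral_mul_indicator_sign {g : Pt d → ℝ} {A : Set (Pt d)} (hA : MeasurableSet A) :
    ∫ x, g x * A.indicator (fun x => if 0 ≤ g x then (1 : ℝ) else -1) x
      = ∫ x in A, |g x| := by
  rw [← integral_indicator hA]
  refine integral_congr_ae (Eventually.of_forall fun x => ?_)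
  by_cases hx : x ∈ A
  · simp only [indicator_of_mem hx]
    split_ifs with hs
    · rw [mul_one, abs_of_nonneg hs]
    · rw [mul_neg_one, abs_of_neg (not_le.1 hs)]
  · simp [indicator_of_notMem hx]

/-- bounded sequences in a real Hilbert space have weak limits along ultrafilters. -/
theorem exists_weakLimit {H : Type*} [NormedAddCommGroup H] [InnerProductSpace ℝ H]
    [CompleteSpace H] (U : Ultrafilter ℕ) (G : ℕ → H) {B : ℝ} (hB : ∀ n, ‖G n‖ ≤ B) :
    ∃ g : H, ∀ ψ : H, Tendsto (fun n => ⟪G n, ψ⟫) U (𝓝 ⟪g, ψ⟫) := by
  have hex : ∀ ψ : H, ∃ a : ℝ, |a| ≤ B * ‖ψ‖ ∧ Tendsto (fun n => ⟪G n, ψ⟫) U (𝓝 a) := by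
    intro ψ
    have hmem : ∀ n, ⟪G n, ψ⟫ ∈ Metric.closedBall (0 : ℝ) (B * ‖ψ‖) := fun n => by
      rw [mem_closedBall_zero_iff, Real.norm_eq_abs]
      exact (abs_real_inner_le_norm _ _).trans
        (mul_le_mul_of_nonneg_right (hB n) (norm_nonneg _))
    obtain ⟨a, ha, hlim⟩ := (isCompact_closedBall (0 : ℝ) (B * ‖ψ‖)).ultrafilter_le_nhds
      (U.map fun n => ⟪G n, ψ⟫) (by
        rw [Ultrafilter.coe_map, le_principal_iff, mem_map]
        exact Eventually.of_forall hmem)
    exact ⟨a, by simpa [mem_closedBall_zero_iff] using ha, hlim⟩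
  choose a ha hlim using hex
  let Φ : H →ₗ[ℝ] ℝ :=
    { toFun := a
      map_add' := fun x y => tendsto_nhds_unique (hlim (x + y))
        (by simpa [inner_add_right] using (hlim x).add (hlim y))
      map_smul' := fun c x => tendsto_nhds_unique (hlim (c • x))
        (by simpa [inner_smul_right] using (hlim x).const_mul c) }
  let Φc : StrongDual ℝ H := Φ.mkContinuous B fun ψ => by
    simpa [Φ, Real.norm_eq_abs] using ha ψ
  refine ⟨(InnerProductSpace.toDual ℝ H).symm Φc, fun ψ => ?_⟩
  rw [InnerProductSpace.toDual_symm_apply]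
  exact hlim ψ

/-- mollifiers. -/
noncomputable def moll (n : ℕ) : Pt d → ℝ :=
  (ContDiffBump.mk (c := (0 : Pt d)) (1 / (2 * ((n : ℝ) + 1))) (1 / ((n : ℝ) + 1))
    (by positivity) (one_div_lt_one_div_of_lt (by positivity)
      (by linarith [(Nat.cast_nonneg n : (0 : ℝ) ≤ n)]))).normed volume

theorem moll_contDiff (n : ℕ) : ContDiff ℝ (⊤ : ℕ∞) (moll (d := d) n) :=
  ContDiffBump.contDiff_normed _

theorem moll_hasCompactSupport (n : ℕ) : HasCompactSupport (moll (d := d) n) :=
  ContDiffBump.hasCompactSupport_normed _

theorem moll_nonneg (n : ℕ) (x : Pt d) : 0 ≤ moll n x := ContDiffBump.nonneg_normed _ x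

theorem integral_moll (n : ℕ) : ∫ x, moll (d := d) n x = 1 := ContDiffBump.integral_normed _

/-- smoothing of a test object. -/
noncomputable def sm (n : ℕ) (φ : Pt d → ℝ) : Pt d → ℝ :=
  convolution φ (moll n) (ContinuousLinearMap.lsmul ℝ ℝ) volume

theorem sm_props (n : ℕ) {φ : Pt d → ℝ} {M : ℝ} (h : IsTest φ M) :
    ContDiff ℝ (⊤ : ℕ∞) (sm n φ) ∧ HasCompactSupport (sm n φ) ∧ (∀ x, |sm n φ x| ≤ M) ∧
      ∫ x, |sm n φ x| ≤ ∫ x, |φ x| := by
  have hli : LocallyIntegrable φ volume := h.integrable.locallyIntegrable
  have hsmooth : ContDiff ℝ (⊤ : ℕ∞) (sm n φ) :=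
    (moll_hasCompactSupport n).contDiff_convolution_right _ hli (moll_contDiff n)
  have hsupp : HasCompactSupport (sm n φ) := h.2.1.convolution _ (moll_hasCompactSupport n)
  have hmoll : Integrable (moll (d := d) n) :=
    (moll_contDiff n).continuous.integrable_of_hasCompactSupport (moll_hasCompactSupport n)
  have hM : ∀ y, |sm n φ y| ≤ M := fun y => by
    rw [sm, convolution_lsmul, ← Real.norm_eq_abs]
    refine (norm_integral_le_of_norm_le
      (g := fun t => M * moll n (y - t)) ((hmoll.comp_sub_left y).const_mul M)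
      (Eventually.of_forall fun t => ?_)).trans ?_
    · rw [smul_eq_mul, norm_mul, Real.norm_eq_abs, Real.norm_of_nonneg (moll_nonneg n _)]
      exact mul_le_mul_of_nonneg_right (h.2.2 t) (moll_nonneg n _)
    · rw [integral_const_mul, integral_sub_left_eq_self (fun t => moll n t) volume y,
        integral_moll, mul_one]
  refine ⟨hsmooth, hsupp, hM, ?_⟩
  have hab : Integrable fun x => |φ x| := h.integrable.norm
  calc ∫ x, |sm n φ x| ≤
      ∫ x, convolution (fun t => |φ t|) (moll n) (ContinuousLinearMap.lsmul ℝ ℝ) volume x := by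
        refine integral_mono (hsmooth.continuous.integrable_of_hasCompactSupport hsupp).norm
          (hab.integrable_convolution _ hmoll) fun x => ?_
        rw [sm, convolution_lsmul, convolution_lsmul]
        refine (abs_integral_le_integral_abs).trans (le_of_eq ?_)
        refine integral_congr_ae (Eventually.of_forall fun t => ?_)
        simp only [smul_eq_mul]
        rw [abs_mul, abs_of_nonneg (moll_nonneg n _)]
    _ = ∫ x, |φ x| := by
        rw [integral_convolution _ hab hmoll, integral_moll]
        simp

/-- smoothed derivative of `u` in direction `e`. -/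
noncomputable def molDeriv (u : Pt d → ℝ) (e : Pt d) (n : ℕ) (x : Pt d) : ℝ :=
  -∫ y, u y * fderiv ℝ (moll n) (y - x) e

theorem continuous_molDeriv {u : Pt d → ℝ} (hu : LocallyIntegrable u) (e : Pt d) (n : ℕ) :
    Continuous (molDeriv u e n) := by
  set k : Pt d → ℝ := fun z => fderiv ℝ (moll n) (-z) e with hk
  have hkc : Continuous k :=
    (((moll_contDiff n).continuous_fderiv (by simp)).comp continuous_neg).clm_apply
      continuous_const
  have hks : HasCompactSupport k := by
    have := (((moll_hasCompactSupport (d := d) n).fderiv ℝ).comp_left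
      (g := fun L : Pt d →L[ℝ] ℝ => L e) (by simp)).comp_homeomorph (Homeomorph.neg (Pt d))
    exact this
  have := (hks.continuous_convolution_right (ContinuousLinearMap.lsmul ℝ ℝ) hu hkc).neg
  refine this.congr fun x => ?_
  rw [Pi.neg_apply, convolution_lsmul, molDeriv]
  simp [hk]

/-- the duality between the smoothed derivative and smoothing of tests. -/
theorem integral_molDeriv_mul {u : Pt d → ℝ} (hu : LocallyIntegrable u) (e : Pt d) (n : ℕ)
    {φ : Pt d → ℝ} {M : ℝ} (h : IsTest φ M) :
    ∫ x, molDeriv u e n x * φ x = -∫ y, u y * fderiv ℝ (sm n φ) y e := by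
  set k : Pt d → ℝ := fun z => fderiv ℝ (moll n) z e with hk
  have hkc : Continuous k :=
    ((moll_contDiff n).continuous_fderiv (by simp)).clm_apply continuous_const
  have hks : HasCompactSupport k :=
    ((moll_hasCompactSupport (d := d) n).fderiv ℝ).comp_left
      (g := fun L : Pt d →L[ℝ] ℝ => L e) (by simp)
  have hd : ∀ y, fderiv ℝ (sm n φ) y e = ∫ t, φ t * k (y - t) := fun y => by
    rw [sm, ((moll_hasCompactSupport n).hasFDerivAt_convolution_right _
      h.integrable.locallyIntegrable ((moll_contDiff n).of_le (by simp)) y).fderiv,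
      convolution_precompR_apply _ h.integrable.locallyIntegrable
        ((moll_hasCompactSupport n).fderiv ℝ) ((moll_contDiff n).continuous_fderiv (by simp)),
      convolution_lsmul]
    simp [hk]
  obtain ⟨Bk, hBk⟩ := hkc.bounded_above_of_compact_support hks
  set K' : Set (Pt d) := tsupport φ + tsupport k
  have hK' : IsCompact K' := h.2.1.isCompact.add hks.isCompact
  have huK : Integrable (K'.indicator u) :=
    (integrable_indicator_iff hK'.measurableSet).2 (hu.integrableOn_isCompact hK')
  have hF : Integrable (fun p : Pt d × Pt d => u p.1 * (φ p.2 * k (p.1 - p.2)))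
      (volume.prod volume) := by
    refine Integrable.mono' (huK.norm.mul_prod (h.integrable.norm.const_mul Bk)) ?_ ?_
    · exact hu.aestronglyMeasurable.comp_fst.mul
        ((h.1.comp measurable_snd).mul
          (hkc.measurable.comp (measurable_fst.sub measurable_snd))).aestronglyMeasurable
    · refine Eventually.of_forall fun p => ?_
      rw [norm_mul, norm_mul]
      by_cases h1 : φ p.2 = 0
      · simp only [h1, norm_zero, zero_mul, mul_zero]; rfl
      by_cases h2 : k (p.1 - p.2) = 0
      · simp only [h2, norm_zero, mul_zero]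
        exact mul_nonneg (norm_nonneg _)
          (mul_nonneg ((norm_nonneg (k 0)).trans (hBk 0)) (norm_nonneg _))
      have : p.1 ∈ K' :=
        ⟨p.2, subset_tsupport φ h1, p.1 - p.2, subset_tsupport k h2, add_sub_cancel _ _⟩
      rw [indicator_of_mem this]
      calc ‖u p.1‖ * (‖φ p.2‖ * ‖k (p.1 - p.2)‖) ≤ ‖u p.1‖ * (‖φ p.2‖ * Bk) :=
            mul_le_mul_of_nonneg_left (mul_le_mul_of_nonneg_left (hBk _) (norm_nonneg _))
              (norm_nonneg _)
        _ = ‖u p.1‖ * (Bk * ‖φ p.2‖) := by ring
  calc ∫ x, molDeriv u e n x * φ x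
      = -∫ t, ∫ y, u y * (φ t * k (y - t)) := by
        rw [← integral_neg]
        refine integral_congr_ae (Eventually.of_forall fun t => ?_)
        simp only [molDeriv, neg_mul, neg_inj, ← integral_mul_const]
        refine integral_congr_ae (Eventually.of_forall fun y => ?_)
        simp only [hk]; ring
    _ = -∫ y, ∫ t, u y * (φ t * k (y - t)) := by
        rw [integral_integral_swap (f := fun y t => u y * (φ t * k (y - t))) hF]
    _ = -∫ y, u y * fderiv ℝ (sm n φ) y e := by
        simp only [hd, integral_const_mul]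

/-- for smooth tests the smoothed derivative converges to the functional. -/
theorem tendsto_integral_molDeriv {u : Pt d → ℝ} (hu : LocallyIntegrable u) (e : Pt d)
    {φ : Pt d → ℝ} {M : ℝ} (hφ : ContDiff ℝ (⊤ : ℕ∞) φ) (hs : HasCompactSupport φ)
    (hM : ∀ x, |φ x| ≤ M) :
    Tendsto (fun n => ∫ x, molDeriv u e n x * φ x) atTop
      (𝓝 (-∫ y, u y * fderiv ℝ φ y e)) := by
  have htest : IsTest φ M := ⟨hφ.continuous.measurable, hs, hM⟩
  simp_rw [integral_molDeriv_mul hu e _ htest]
  refine Tendsto.neg ?_
  set ψ : Pt d → ℝ := fun y => fderiv ℝ φ y e with hψ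
  have hψc : Continuous ψ := (hφ.continuous_fderiv (by simp)).clm_apply continuous_const
  have hψs : HasCompactSupport ψ :=
    (hs.fderiv ℝ).comp_left (g := fun L : Pt d →L[ℝ] ℝ => L e) (by simp)
  obtain ⟨B, hB⟩ := hψc.bounded_above_of_compact_support hψs
  have hd : ∀ n y, fderiv ℝ (sm n φ) y e
      = convolution (moll n) ψ (ContinuousLinearMap.lsmul ℝ ℝ) volume y := fun n y => by
    have hcomm : sm n φ = convolution (moll n) φ (ContinuousLinearMap.lsmul ℝ ℝ) volume := by
      funext z
      rw [sm, convolution_lsmul_swap, convolution_lsmul]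
      simp [mul_comm]
    rw [hcomm, (hs.hasFDerivAt_convolution_right _ (moll_contDiff n).continuous.locallyIntegrable
      (hφ.of_le (by simp)) y).fderiv,
      convolution_precompR_apply _ (moll_contDiff n).continuous.locallyIntegrable (hs.fderiv ℝ)
        (hφ.continuous_fderiv (by simp))]
  simp_rw [hd]
  set K : Set (Pt d) := tsupport ψ + Metric.closedBall (0 : Pt d) 1
  have hK : IsCompact K := hψs.isCompact.add (isCompact_closedBall 0 1)
  have hr : Tendsto (fun n : ℕ => 1 / ((n : ℝ) + 1)) atTop (𝓝 0) :=
    tendsto_one_div_add_atTop_nhds_zero_nat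
  refine tendsto_integral_of_dominated_convergence (fun y => K.indicator (fun y => B * ‖u y‖) y)
    (fun n => ?_) ?_ (fun n => ?_) (Eventually.of_forall fun y => ?_)
  · exact hu.aestronglyMeasurable.mul
      (hψs.continuous_convolution_right _ (moll_contDiff n).continuous.locallyIntegrable
        hψc).aestronglyMeasurable
  · exact (integrable_indicator_iff hK.measurableSet).2
      ((hu.integrableOn_isCompact hK).norm.const_mul B)
  · refine Eventually.of_forall fun y => ?_
    rw [norm_mul]
    by_cases hy : y ∈ K
    · rw [indicator_of_mem hy, mul_comm B]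
      refine mul_le_mul_of_nonneg_left ?_ (norm_nonneg _)
      rw [convolution_lsmul]
      have hmi : Integrable (moll (d := d) n) :=
        (moll_contDiff n).continuous.integrable_of_hasCompactSupport (moll_hasCompactSupport n)
      refine (norm_integral_le_of_norm_le (g := fun t => moll n t * B) (hmi.mul_const B)
        (Eventually.of_forall fun t => ?_)).trans ?_
      · rw [norm_smul, Real.norm_of_nonneg (moll_nonneg n t)]
        exact mul_le_mul_of_nonneg_left (hB _) (moll_nonneg n t)
      · rw [integral_mul_const, integral_moll, one_mul]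
    · rw [indicator_of_notMem hy]
      have hz : ∀ t, moll (d := d) n t • ψ (y - t) = 0 := fun t => by
        by_cases ht : moll n t = 0
        · simp [ht]
        · by_cases hp : ψ (y - t) = 0
          · simp [hp]
          · refine absurd ⟨y - t, subset_tsupport ψ hp, t, ?_, sub_add_cancel _ _⟩ hy
            have h1 : t ∈ Function.support (moll (d := d) n) := ht
            rw [moll, ContDiffBump.support_normed_eq] at h1
            refine Metric.ball_subset_closedBall (Metric.ball_subset_ball ?_ h1)
            rw [div_le_one (by positivity)]; simp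
      rw [convolution_lsmul, integral_eq_zero_of_ae (Eventually.of_forall hz)]
      simp
  · refine Tendsto.const_mul _ ?_
    exact ContDiffBump.convolution_tendsto_right_of_continuous (by exact hr) hψc y

theorem norm_clamp {L a : ℝ} (hL : 0 ≤ L) :
    |a - max (-L) (min L a)| = max (|a| - L) 0 ∧ |max (-L) (min L a)| ≤ L ∧
      |max (-L) (min L a)| ≤ |a| := by
  rcases le_total L a with h | h
  · rw [min_eq_left h, max_eq_right (by linarith), abs_of_nonneg (by linarith : 0 ≤ a - L),
      abs_of_nonneg (le_trans hL h), max_eq_left (by linarith), abs_of_nonneg hL]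
    exact ⟨rfl, le_rfl, h⟩
  · rw [min_eq_right h]
    rcases le_total (-L) a with h' | h'
    · rw [max_eq_right h', sub_self, abs_zero]
      have : |a| ≤ L := abs_le.2 ⟨h', h⟩
      rw [max_eq_right (by linarith)]
      exact ⟨rfl, this, le_rfl⟩
    · rw [max_eq_left h', abs_of_nonpos (by linarith : a - -L ≤ 0),
        abs_of_nonpos (by linarith : a ≤ 0), max_eq_left (by linarith), abs_neg, abs_of_nonneg hL]
      exact ⟨by ring, le_rfl, by linarith⟩

end AbsContAux

/-- FunctionalToGrad. -/
theorem functionalToGrad : FunctionalToGrad := by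
  intro d u i C₀ hC₀ hu hb1 hb2
  set e : Pt d := EuclideanSpace.single i (1 : ℝ)
  set T : (Pt d → ℝ) → ℝ := fun φ => ∫ x, u x * fderiv ℝ φ x e
  set h : ℕ → Pt d → ℝ := molDeriv u e
  have hhc : ∀ n, Continuous (h n) := fun n => continuous_molDeriv hu e n
  have hT1 : ∀ n φ M, IsTest φ M → |∫ x, h n x * φ x| ≤ C₀ * M := fun n φ M ht => by
    obtain ⟨s1, s2, s3, -⟩ := sm_props n ht
    rw [integral_molDeriv_mul hu e n ht, abs_neg]
    exact hb1 _ M s1 s2 s3
  choose L₀ hL₀ using fun k : ℕ => hb2 (1 / ((k : ℝ) + 1)) (by positivity)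
  set η : ℕ → ℝ := fun k => 1 / ((k : ℝ) + 1)
  set L : ℕ → ℝ := fun k => max (L₀ k) 0
  have hη0 : ∀ k, 0 < η k := fun k => by positivity
  have hL0 : ∀ k, 0 ≤ L k := fun k => le_max_right _ _
  have hT2 : ∀ k n φ M, IsTest φ M →
      |∫ x, h n x * φ x| ≤ L k * (∫ x, |φ x|) + η k * M := fun k n φ M ht => by
    obtain ⟨s1, s2, s3, s4⟩ := sm_props n ht
    rw [integral_molDeriv_mul hu e n ht, abs_neg]
    refine (hL₀ k _ M s1 s2 s3).trans (add_le_add ?_ le_rfl)
    calc L₀ k * ∫ x, |sm n φ x| ≤ L k * ∫ x, |sm n φ x| :=
          mul_le_mul_of_nonneg_right (le_max_left _ _) (integral_nonneg fun _ => abs_nonneg _)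
      _ ≤ L k * ∫ x, |φ x| := mul_le_mul_of_nonneg_left s4 (hL0 k)
  -- the smoothed derivatives are bounded in `L¹`
  have hh1 : ∀ n, Integrable (fun x => |h n x|) ∧ ∫ x, |h n x| ≤ C₀ := fun n =>
    lintegral_le_of_forall_bounded (hhc n).abs.measurable.aemeasurable (fun _ => abs_nonneg _)
      (fun R => (hhc n).abs.continuousOn.integrableOn_compact (isCompact_closedBall _ _))
      fun R => by
        rw [← integral_mul_indicator_sign measurableSet_closedBall]
        exact (le_abs_self _).trans
          ((hT1 n _ 1 (isTest_indicator_sign (hhc n).measurable measurableSet_closedBall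
            subset_rfl)).trans_eq (mul_one _))
  -- and uniformly integrable
  have hh2 : ∀ k n, ∫ x, max (|h n x| - L k) 0 ≤ η k := fun k n => by
    refine (lintegral_le_of_forall_bounded
      (((hhc n).abs.sub continuous_const).max continuous_const).measurable.aemeasurable
      (fun _ => le_max_right _ _)
      (fun R => (((hhc n).abs.sub continuous_const).max continuous_const).continuousOn
        |>.integrableOn_compact (isCompact_closedBall _ _)) fun R => ?_).2
    set A : Set (Pt d) := Metric.closedBall 0 R ∩ {x | L k < |h n x|}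
    have hA : MeasurableSet A := measurableSet_closedBall.inter
      (measurableSet_lt measurable_const (hhc n).abs.measurable)
    have hbd := hT2 k n _ 1 (isTest_indicator_sign (hhc n).measurable hA inter_subset_left)
    rw [integral_mul_indicator_sign hA] at hbd
    have hAfin : volume A ≠ ∞ :=
      ((measure_mono inter_subset_left).trans_lt
        (isCompact_closedBall (0 : Pt d) R).measure_lt_top).ne
    have habs : ∫ x, |A.indicator (fun x => if 0 ≤ h n x then (1 : ℝ) else -1) x|
        = volume.real A := by
      rw [← setIntegral_one_eq_measureReal, ← integral_indicator hA]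
      refine integral_congr_ae (Eventually.of_forall fun x => ?_)
      by_cases hx : x ∈ A
      · simp only [indicator_of_mem hx]; split_ifs <;> simp
      · simp [indicator_of_notMem hx]
    rw [habs] at hbd
    calc ∫ x in Metric.closedBall 0 R, max (|h n x| - L k) 0
        = ∫ x in A, (|h n x| - L k) := by
          rw [← integral_indicator hA, ← integral_indicator measurableSet_closedBall]
          refine integral_congr_ae (Eventually.of_forall fun x => ?_)
          by_cases hx : x ∈ Metric.closedBall (0 : Pt d) R
          · simp only [indicator_of_mem hx]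
            by_cases hl : L k < |h n x|
            · rw [indicator_of_mem (show x ∈ A from ⟨hx, hl⟩), max_eq_left (by linarith)]
            · rw [indicator_of_notMem (show x ∉ A from fun c => hl c.2),
                max_eq_right (by linarith)]
          · simp only [indicator_of_notMem hx]
            rw [indicator_of_notMem (show x ∉ A from fun c => hx c.1)]
      _ = (∫ x in A, |h n x|) - volume.real A * L k := by
          rw [integral_sub (hh1 n).1.integrableOn (integrableOn_const hAfin), setIntegral_const,
            smul_eq_mul]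
      _ ≤ η k := by
          have := (le_abs_self _).trans hbd
          linarith
  -- truncations
  set g : ℕ → ℕ → Pt d → ℝ := fun k n x => max (-(L k)) (min (L k) (h n x))
  have hgc : ∀ k n, Continuous (g k n) := fun k n =>
    continuous_const.max (continuous_const.min (hhc n))
  have hgint : ∀ k n, Integrable (g k n) ∧ ∫ x, |g k n x| ≤ C₀ := fun k n => by
    have hi : Integrable (g k n) := (hh1 n).1.mono' (hgc k n).aestronglyMeasurable
      (Eventually.of_forall fun x => (norm_clamp (hL0 k)).2.2)
    exact ⟨hi, (integral_mono hi.norm (hh1 n).1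
      fun x => (norm_clamp (hL0 k)).2.2).trans (hh1 n).2⟩
  have hg2 : ∀ k n, MemLp (g k n) 2 := fun k n => by
    refine (memLp_two_iff_integrable_sq (hgc k n).aestronglyMeasurable).2 ?_
    refine ((hgint k n).1.norm.const_mul (L k)).mono' ((hgc k n).pow 2).aestronglyMeasurable
      (Eventually.of_forall fun x => ?_)
    rw [norm_pow, pow_two, Real.norm_eq_abs]
    exact mul_le_mul_of_nonneg_right (norm_clamp (hL0 k)).2.1 (abs_nonneg _)
  set G : ℕ → ℕ → Lp ℝ 2 (volume : Measure (Pt d)) := fun k n => (hg2 k n).toLp (g k n)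
  have hGn : ∀ k n, ‖G k n‖ ≤ √(L k * C₀) := fun k n => by
    refine Real.le_sqrt_of_sq_le ?_
    rw [← real_inner_self_eq_norm_sq, L2.inner_def]
    calc ∫ x, ⟪G k n x, G k n x⟫ = ∫ x, g k n x * g k n x := by
          refine integral_congr_ae ?_
          filter_upwards [(hg2 k n).coeFn_toLp] with x hx
          simp [G, hx, pow_two]
      _ ≤ ∫ x, L k * |g k n x| := by
          refine integral_mono ?_ ((hgint k n).1.norm.const_mul _) fun x => ?_
          · simpa [pow_two] using (hg2 k n).integrable_sq
          · rw [← abs_mul_abs_self]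
            exact mul_le_mul_of_nonneg_right (norm_clamp (hL0 k)).2.1 (abs_nonneg _)
      _ ≤ L k * C₀ := by
          rw [integral_const_mul]
          exact mul_le_mul_of_nonneg_left (hgint k n).2 (hL0 k)
  set U : Ultrafilter ℕ := Ultrafilter.of atTop
  choose GG hGG using fun k => exists_weakLimit U (G k) (hGn k)
  have hlim : ∀ k φ M, IsTest φ M →
      Tendsto (fun n => ∫ x, g k n x * φ x) U (𝓝 (∫ x, GG k x * φ x)) := fun k φ M ht => by
    have e1 : ∀ F : Lp ℝ 2 (volume : Measure (Pt d)),
        ⟪F, ht.memLp_two.toLp φ⟫ = ∫ x, F x * φ x := fun F => by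
      rw [L2.inner_def]
      refine integral_congr_ae ?_
      filter_upwards [ht.memLp_two.coeFn_toLp] with x hx
      simp [hx, mul_comm]
    have e2 : ∀ n, ∫ x, g k n x * φ x = ⟪G k n, ht.memLp_two.toLp φ⟫ := fun n => by
      rw [e1]
      refine integral_congr_ae ?_
      filter_upwards [(hg2 k n).coeFn_toLp] with x hx
      simp [G, hx]
    simp_rw [e2, ← e1]
    exact hGG k _
  have hmulint : ∀ (k n : ℕ) (φ : Pt d → ℝ) (M : ℝ), IsTest φ M →
      Integrable fun x => g k n x * φ x := fun k n φ M ht =>
    ((hgint k n).1.norm.mul_const M).mono'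
      ((hgc k n).measurable.mul ht.1).aestronglyMeasurable
      (Eventually.of_forall fun x => by
        rw [norm_mul]
        exact mul_le_mul_of_nonneg_left (ht.2.2 x) (norm_nonneg _))
  have hLI : ∀ k, LocallyIntegrable (fun x => GG k x) volume := fun k =>
    (Lp.memLp (GG k)).locallyIntegrable (by norm_num)
  have hGG1 : ∀ k, Integrable (fun x => GG k x) ∧ ∫ x, |GG k x| ≤ C₀ := fun k => by
    have hm : Measurable fun x => GG k x := (Lp.stronglyMeasurable (GG k)).measurable
    have hb := lintegral_le_of_forall_bounded (F := fun x => |GG k x|) hm.abs.aemeasurable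
      (fun _ => abs_nonneg _)
      (fun R => ((hLI k).integrableOn_isCompact (isCompact_closedBall _ _)).norm)
      (c := C₀) fun R => by
        rw [← integral_mul_indicator_sign measurableSet_closedBall]
        have ht := isTest_indicator_sign hm (measurableSet_closedBall (x := (0 : Pt d)) (ε := R))
          subset_rfl
        refine le_of_tendsto (hlim k _ 1 ht) (Eventually.of_forall fun n => ?_)
        refine ((integral_mono (hmulint k n _ 1 ht) (hgint k n).1.norm fun x => ?_)).trans
          (hgint k n).2
        refine (le_abs_self _).trans ?_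
        rw [abs_mul]
        exact mul_le_of_le_one_right (abs_nonneg _) (ht.2.2 x)
    exact ⟨(integrable_norm_iff hm.aestronglyMeasurable).1 hb.1, hb.2⟩
  have hdiff : ∀ k j, ∫ x, |GG k x - GG j x| ≤ η k + η j := fun k j => by
    have hm : Measurable fun x => GG k x - GG j x :=
      (Lp.stronglyMeasurable (GG k)).measurable.sub (Lp.stronglyMeasurable (GG j)).measurable
    refine (lintegral_le_of_forall_bounded (F := fun x => |GG k x - GG j x|) hm.abs.aemeasurable
      (fun _ => abs_nonneg _) (fun R => ((hGG1 k).1.sub (hGG1 j).1).norm.integrableOn)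
      fun R => ?_).2
    rw [← integral_mul_indicator_sign measurableSet_closedBall]
    have ht := isTest_indicator_sign hm (measurableSet_closedBall (x := (0 : Pt d)) (ε := R))
      subset_rfl
    set φ : Pt d → ℝ := (Metric.closedBall (0 : Pt d) R).indicator
      (fun x => if 0 ≤ GG k x - GG j x then (1 : ℝ) else -1)
    have hGi : ∀ m, Integrable fun x => GG m x * φ x := fun m =>
      (hGG1 m).1.norm.mono' ((Lp.stronglyMeasurable (GG m)).measurable.mul ht.1).aestronglyMeasurable
        (Eventually.of_forall fun x => by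
          rw [norm_mul]
          exact mul_le_of_le_one_right (norm_nonneg _) (ht.2.2 x))
    have heq : ∫ x, (GG k x - GG j x) * φ x = (∫ x, GG k x * φ x) - ∫ x, GG j x * φ x := by
      rw [← integral_sub (hGi k) (hGi j)]
      simp [sub_mul]
    rw [heq]
    refine le_of_tendsto ((hlim k _ 1 ht).sub (hlim j _ 1 ht)) (Eventually.of_forall fun n => ?_)
    rw [← integral_sub (hmulint k n _ 1 ht) (hmulint j n _ 1 ht)]
    have i1 : ∀ m, Integrable fun x => max (|h n x| - L m) 0 := fun m => by
      refine ((hh1 n).1.sub (hgint m n).1.norm).mono'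
        (((hhc n).abs.sub continuous_const).max continuous_const).aestronglyMeasurable
        (Eventually.of_forall fun x => ?_)
      obtain ⟨-, c2, c3⟩ := norm_clamp (a := h n x) (hL0 m)
      simp only [Real.norm_eq_abs, Pi.sub_apply]
      rw [abs_of_nonneg (le_max_right _ _)]
      exact max_le (by linarith) (by linarith)
    refine (integral_mono ((hmulint k n _ 1 ht).sub (hmulint j n _ 1 ht))
      ((i1 k).add (i1 j)) fun x => ?_).trans ?_
    · simp only [Pi.sub_apply, Pi.add_apply, ← sub_mul]
      refine (le_abs_self _).trans ?_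
      rw [abs_mul]
      refine (mul_le_of_le_one_right (abs_nonneg _) (ht.2.2 x)).trans ?_
      rw [← (norm_clamp (a := h n x) (hL0 k)).1, ← (norm_clamp (a := h n x) (hL0 j)).1]
      calc |g k n x - g j n x| ≤ |g k n x - h n x| + |h n x - g j n x| := abs_sub_le _ _ _
        _ = _ := by rw [abs_sub_comm (g k n x)]
    · simp only [Pi.add_apply]
      rw [integral_add (i1 k) (i1 j)]
      exact add_le_add (hh2 k n) (hh2 j n)
  -- limit in `L¹`
  set P : ℕ → Lp ℝ 1 (volume : Measure (Pt d)) := fun k =>
    (memLp_one_iff_integrable.2 (hGG1 k).1).toLp _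
  have hPd : ∀ k j, dist (P k) (P j) = ∫ x, |GG k x - GG j x| := fun k j => by
    rw [L1.dist_eq_integral_dist]
    refine integral_congr_ae ?_
    filter_upwards [(memLp_one_iff_integrable.2 (hGG1 k).1).coeFn_toLp,
      (memLp_one_iff_integrable.2 (hGG1 j).1).coeFn_toLp] with x hk hj
    simp [P, hk, hj, Real.dist_eq]
  have hηlim : Tendsto η atTop (𝓝 0) := tendsto_one_div_add_atTop_nhds_zero_nat
  have hηmono : ∀ a b, a ≤ b → η b ≤ η a := fun a b hab =>
    one_div_le_one_div_of_le (by positivity) (by gcongr)
  have hcau : CauchySeq P := cauchySeq_of_le_tendsto_0 (fun N => η N + η N)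
    (fun a b N ha hb => by
      rw [hPd]
      exact (hdiff a b).trans (add_le_add (hηmono N a ha) (hηmono N b hb)))
    (by simpa using hηlim.add hηlim)
  obtain ⟨Hf, hHf⟩ := cauchySeq_tendsto_of_complete hcau
  refine ⟨fun x => Hf x, L1.integrable_coeFn Hf, fun φ hφ hφs => ?_, ?_⟩
  · obtain ⟨M, hM⟩ := hφ.continuous.bounded_above_of_compact_support hφs
    simp only [Real.norm_eq_abs] at hM
    have ht : IsTest φ M := ⟨hφ.continuous.measurable, hφs, hM⟩
    have hM0 : 0 ≤ M := (abs_nonneg (φ 0)).trans (hM 0)
    have hkey : ∀ k, |(∫ x, GG k x * φ x) - -T φ| ≤ η k * M := fun k => by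
      have h1 : Tendsto (fun n => (∫ x, g k n x * φ x) - ∫ x, h n x * φ x) U
          (𝓝 ((∫ x, GG k x * φ x) - -T φ)) :=
        (hlim k φ M ht).sub
          ((tendsto_integral_molDeriv hu e hφ hφs hM).mono_left (Ultrafilter.of_le _))
      refine le_of_tendsto h1.abs (Eventually.of_forall fun n => ?_)
      have hi : Integrable fun x => h n x * φ x :=
        ((hh1 n).1.mul_const M).mono' ((hhc n).mul hφ.continuous).aestronglyMeasurable
          (Eventually.of_forall fun x => by
            rw [norm_mul]
            exact mul_le_mul_of_nonneg_left (hM x) (norm_nonneg _))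
      rw [← integral_sub (hmulint k n φ M ht) hi]
      refine abs_integral_le_integral_abs.trans ?_
      refine (integral_mono ((hmulint k n φ M ht).sub hi).norm
        (g := fun x => max (|h n x| - L k) 0 * M) ?_ fun x => ?_).trans ?_
      · refine Integrable.mul_const ?_ M
        refine ((hh1 n).1.sub (hgint k n).1.norm).mono'
          (((hhc n).abs.sub continuous_const).max continuous_const).aestronglyMeasurable
          (Eventually.of_forall fun x => ?_)
        obtain ⟨-, c2, c3⟩ := norm_clamp (a := h n x) (hL0 k)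
        simp only [Real.norm_eq_abs, Pi.sub_apply]
        rw [abs_of_nonneg (le_max_right _ _)]
        exact max_le (by linarith) (by linarith)
      · simp only [Real.norm_eq_abs, Pi.sub_apply]
        rw [← sub_mul, abs_mul, ← (norm_clamp (a := h n x) (hL0 k)).1, abs_sub_comm]
        exact mul_le_mul_of_nonneg_left (hM x) (abs_nonneg _)
      · rw [integral_mul_const]
        exact mul_le_mul_of_nonneg_right (hh2 k n) hM0
    have h2 : Tendsto (fun k => ∫ x, GG k x * φ x) atTop (𝓝 (∫ x, Hf x * φ x)) := by
      rw [tendsto_iff_dist_tendsto_zero]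
      refine squeeze_zero (fun k => dist_nonneg) (fun k => ?_)
        (g := fun k => dist (P k) Hf * M) ?_
      · have i1 : Integrable fun x => GG k x * φ x :=
          ((hGG1 k).1.norm.mul_const M).mono'
            ((Lp.stronglyMeasurable (GG k)).measurable.mul ht.1).aestronglyMeasurable
            (Eventually.of_forall fun x => by
              rw [norm_mul]
              exact mul_le_mul_of_nonneg_left (hM x) (norm_nonneg _))
        have i2 : Integrable fun x => Hf x * φ x :=
          ((L1.integrable_coeFn Hf).norm.mul_const M).mono'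
            ((Lp.stronglyMeasurable Hf).measurable.mul ht.1).aestronglyMeasurable
            (Eventually.of_forall fun x => by
              rw [norm_mul]
              exact mul_le_mul_of_nonneg_left (hM x) (norm_nonneg _))
        rw [Real.dist_eq, ← integral_sub i1 i2, L1.dist_eq_integral_dist, ← integral_mul_const]
        refine abs_integral_le_integral_abs.trans (integral_mono_ae (i1.sub i2).norm
          (((L1.integrable_coeFn (P k)).sub (L1.integrable_coeFn Hf)).norm.mul_const M |>.congr
            (Eventually.of_forall fun x => by simp [Real.dist_eq])) ?_)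
        filter_upwards [(memLp_one_iff_integrable.2 (hGG1 k).1).coeFn_toLp] with x hx
        simp only [P, hx, Real.dist_eq]
        rw [← sub_mul, abs_mul]
        exact mul_le_mul_of_nonneg_left (hM x) (abs_nonneg _)
      · simpa using (tendsto_iff_dist_tendsto_zero.1 hHf).mul_const M
    have h3 : Tendsto (fun k => ∫ x, GG k x * φ x) atTop (𝓝 (-T φ)) := by
      rw [tendsto_iff_dist_tendsto_zero]
      refine squeeze_zero (fun k => dist_nonneg) (fun k => ?_)
        (g := fun k => η k * M) (by simpa using hηlim.mul_const M)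
      rw [Real.dist_eq]; exact hkey k
    have h4 := tendsto_nhds_unique h2 h3
    rw [h4, neg_neg]
  · have h1 : Tendsto (fun k => ∫ x, |P k x|) atTop (𝓝 (∫ x, |Hf x|)) := by
      have := hHf.norm
      simpa [L1.norm_eq_integral_norm, Real.norm_eq_abs] using this
    refine le_of_tendsto h1 (Eventually.of_forall fun k => ?_)
    refine le_of_eq_of_le (integral_congr_ae ?_) (hGG1 k).2
    filter_upwards [(memLp_one_iff_integrable.2 (hGG1 k).1).coeFn_toLp] with x hx
    simp [P, hx]

/-- MainResult from MaxBound. -/
theorem mainResult_of_maxBound (hMB : MaxBound) : MainResult := by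
  intro d hd
  obtain ⟨C, hC⟩ := hMB d hd
  refine ⟨(d : ℝ) * max C 0, fun f G hf hG => ?_⟩
  set f' : Pt d → ℝ := hf.1.mk f
  have hae : f =ᵐ[volume] f' := hf.1.ae_eq_mk
  have hfm : Measurable f' := hf.1.stronglyMeasurable_mk.measurable
  have hG' : ∀ i, Integrable (G i) ∧ IsWeakPartial f' (G i) i := fun i => by
    refine ⟨(hG i).1, fun φ hφ hφs => ?_⟩
    rw [← (hG i).2 φ hφ hφs]
    refine integral_congr_ae ?_
    filter_upwards [hae] with x hx
    rw [hx]
  have hmax : maxFn f = maxFn f' := by
    funext x
    refine iSup_congr fun c => iSup_congr fun r => iSup_congr fun _ => ?_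
    congr 1
    refine lintegral_congr_ae ?_
    filter_upwards [ae_restrict_of_ae hae] with y hy
    rw [hy]
  rw [hmax]
  obtain ⟨h1, h2, h3⟩ := hC f' G (hf.congr hae) hfm hG'
  refine ⟨h1, h2, ?_⟩
  set I := ∫ x, gradNorm G x
  have hI : 0 ≤ I := integral_nonneg fun x => Real.sqrt_nonneg _
  have hex : ∀ i, ∃ Hi : Pt d → ℝ, Integrable Hi ∧
      IsWeakPartial (fun x => (maxFn f' x).toReal) Hi i ∧ ∫ x, |Hi x| ≤ max C 0 * I := fun i => by
    refine functionalToGrad d _ i (max C 0 * I) (mul_nonneg (le_max_right _ _) hI) h2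
      (fun φ M hφ hs hM => ?_) (h3 i).2
    have hM0 : 0 ≤ M := (abs_nonneg (φ 0)).trans (hM 0)
    calc _ ≤ C * M * I := (h3 i).1 φ M hφ hs hM
      _ ≤ max C 0 * M * I := mul_le_mul_of_nonneg_right
          (mul_le_mul_of_nonneg_right (le_max_left _ _) hM0) hI
      _ = max C 0 * I * M := by ring
  choose H hH1 hH2 hH3 using hex
  refine ⟨H, fun i => ⟨hH1 i, hH2 i⟩, ?_⟩
  have hle : ∀ x, gradNorm H x ≤ ∑ i, |H i x| := fun x => by
    rw [gradNorm, Real.sqrt_le_iff]
    refine ⟨Finset.sum_nonneg fun i _ => abs_nonneg _, ?_⟩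
    simp_rw [← sq_abs (H _ x)]
    exact Finset.sum_sq_le_sq_sum_of_nonneg fun i _ => abs_nonneg _
  calc ∫ x, gradNorm H x ≤ ∫ x, ∑ i, |H i x| :=
        integral_mono_of_nonneg (Eventually.of_forall fun x => Real.sqrt_nonneg _)
          (integrable_finsetSum _ fun i _ => (hH1 i).norm) (Eventually.of_forall hle)
    _ = ∑ i, ∫ x, |H i x| := integral_finsetSum _ fun i _ => (hH1 i).norm
    _ ≤ ∑ _i : Fin d, max C 0 * I := Finset.sum_le_sum fun i _ => hH3 i
    _ = (d : ℝ) * max C 0 * I := by simp [mul_assoc]

end Vale.Agent.P137
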