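import Vale.Agent.P137.Interface

/-! # P137 module G: from the local inequality to the two functional bounds

Layer `t` of the maximal function is the union of `{t < big}` (`big` = supremum over balls of radius at
least `δ`, a Lipschitz function) and of small balls that are active at `t`; the active balls of one class
form a set that is star shaped around a core, so a translation by `v` moves at most `C |v| r^(d-1)` volume.
-/

namespace Vale.Agent.P137

open MeasureTheory Set Filter Topology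
open scoped RealInnerProductSpace ENNReal

variable {d : ℕ}

namespace BV

/-- volume of the unit ball. -/
noncomputable def unitVol (d : ℕ) : ℝ := (volume (Metric.ball (0 : Pt d) 1)).toReal

theorem unitVol_pos (d : ℕ) : 0 < unitVol d :=
  ENNReal.toReal_pos (Metric.measure_ball_pos volume (0 : Pt d) one_pos).ne' measure_ball_lt_top.ne

theorem vol_ball (c : Pt d) {r : ℝ} (hr : 0 < r) :
    volume (Metric.ball c r) = ENNReal.ofReal (r ^ d * unitVol d) := by
  rw [Measure.addHaar_ball_of_pos volume c hr, finrank_euclideanSpace_fin,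
    ENNReal.ofReal_mul (by positivity), unitVol, ENNReal.ofReal_toReal measure_ball_lt_top.ne]

theorem bavg_eq (g : Pt d → ℝ) (c : Pt d) {r : ℝ} (hr : 0 < r) :
    bavg g c r = (∫ y in Metric.ball c r, g y) / (r ^ d * unitVol d) := by
  have := unitVol_pos d
  rw [bavg, vol_ball c hr, ENNReal.toReal_ofReal (by positivity)]

theorem bavg_nonneg {g : Pt d → ℝ} (hg0 : ∀ x, 0 ≤ g x) (c : Pt d) (r : ℝ) : 0 ≤ bavg g c r :=
  div_nonneg (integral_nonneg hg0) ENNReal.toReal_nonneg

theorem bavg_le {g : Pt d → ℝ} (hg : Integrable g) (hg0 : ∀ x, 0 ≤ g x) (c : Pt d) {r δ : ℝ}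
    (hδ : 0 < δ) (hr : δ ≤ r) : bavg g c r ≤ (∫ y, g y) / (δ ^ d * unitVol d) := by
  have := unitVol_pos d
  rw [bavg_eq g c (hδ.trans_le hr)]
  exact div_le_div₀ (integral_nonneg hg0) (setIntegral_le_integral hg (Eventually.of_forall hg0))
    (by positivity) (by gcongr)

/-- enlarging a ball loses at most the volume ratio. -/
theorem bavg_mono {g : Pt d → ℝ} (hg : Integrable g) (hg0 : ∀ x, 0 ≤ g x) {c c' : Pt d} {r r' : ℝ}
    (hr : 0 < r) (hr' : 0 < r') (hsub : Metric.ball c r ⊆ Metric.ball c' r') :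
    bavg g c r * (r / r') ^ d ≤ bavg g c' r' := by
  have := unitVol_pos d
  rw [bavg_eq g c hr, bavg_eq g c' hr']
  calc (∫ y in Metric.ball c r, g y) / (r ^ d * unitVol d) * (r / r') ^ d
      = (∫ y in Metric.ball c r, g y) / (r' ^ d * unitVol d) := by
        rw [div_pow]; field_simp
    _ ≤ _ := div_le_div_of_nonneg_right
        (setIntegral_mono_set hg.integrableOn (Eventually.of_forall hg0) hsub.eventuallyLE)
        (by positivity)

/-- the supremum of the averages over balls of radius at least `δ` containing the point. -/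
noncomputable def bigFn (g : Pt d → ℝ) (δ : ℝ) (x : Pt d) : ℝ :=
  sSup {y | ∃ c r, δ ≤ r ∧ x ∈ Metric.ball c r ∧ y = bavg g c r}

section big

variable {g : Pt d → ℝ} (hg : Integrable g) (hg0 : ∀ x, 0 ≤ g x) {δ : ℝ} (hδ : 0 < δ)
include hg hg0 hδ

theorem le_bigFn {x c : Pt d} {r : ℝ} (hr : δ ≤ r) (hx : x ∈ Metric.ball c r) :
    bavg g c r ≤ bigFn g δ x := by
  refine le_csSup ⟨(∫ y, g y) / (δ ^ d * unitVol d), ?_⟩ ⟨c, r, hr, hx, rfl⟩
  rintro y ⟨c', r', hr', -, rfl⟩
  exact bavg_le hg hg0 c' hδ hr'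

theorem bigFn_le {x : Pt d} {b : ℝ}
    (h : ∀ c r, δ ≤ r → x ∈ Metric.ball c r → bavg g c r ≤ b) : bigFn g δ x ≤ b := by
  refine csSup_le ⟨_, x, δ, le_rfl, Metric.mem_ball_self hδ, rfl⟩ ?_
  rintro y ⟨c, r, hr, hx, rfl⟩
  exact h c r hr hx

theorem bigFn_le_const (x : Pt d) : bigFn g δ x ≤ (∫ y, g y) / (δ ^ d * unitVol d) :=
  bigFn_le hg hg0 hδ fun c _ hr _ => bavg_le hg hg0 c hδ hr

theorem bigFn_nonneg (x : Pt d) : 0 ≤ bigFn g δ x :=
  (bavg_nonneg hg0 x δ).trans (le_bigFn hg hg0 hδ le_rfl (Metric.mem_ball_self hδ))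

theorem bigFn_sub_le (x y : Pt d) :
    bigFn g δ x - bigFn g δ y
      ≤ d * (∫ z, g z) / (δ ^ (d + 1) * unitVol d) * ‖x - y‖ := by
  have hv := unitVol_pos d
  set N := ∫ z, g z
  rw [sub_le_iff_le_add]
  refine bigFn_le hg hg0 hδ fun c r hr hx => ?_
  have hr0 : 0 < r := hδ.trans_le hr
  set s := ‖x - y‖
  have hs : 0 ≤ s := norm_nonneg _
  have hrs : 0 < r + s := by linarith
  have hy : y ∈ Metric.ball c (r + s) := by
    rw [Metric.mem_ball] at hx ⊢
    calc dist y c ≤ dist y x + dist x c := dist_triangle _ _ _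
      _ < r + s := by rw [dist_comm y x, dist_eq_norm x y]; linarith
  have h1 : bavg g c r * (r / (r + s)) ^ d ≤ bigFn g δ y :=
    (bavg_mono hg hg0 hr0 hrs (Metric.ball_subset_ball (by linarith))).trans
      (le_bigFn hg hg0 hδ (by linarith) hy)
  have h2 : 1 - d * (s / δ) ≤ (r / (r + s)) ^ d := by
    have hs1 : s / (r + s) ≤ 1 := by rw [div_le_one hrs]; linarith
    have h3 := one_add_mul_le_pow (a := -(s / (r + s))) (by linarith) d
    have h4 : 1 + -(s / (r + s)) = r / (r + s) := by field_simp; ring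
    have h5 : s / (r + s) ≤ s / δ := by gcongr; linarith
    rw [h4] at h3
    nlinarith [(Nat.cast_nonneg d : (0 : ℝ) ≤ d)]
  have h6 : bavg g c r * (1 - d * (s / δ)) ≤ bigFn g δ y :=
    (mul_le_mul_of_nonneg_left h2 (bavg_nonneg hg0 c r)).trans h1
  have h7 : bavg g c r * (d * (s / δ)) ≤ N / (δ ^ d * unitVol d) * (d * (s / δ)) :=
    mul_le_mul_of_nonneg_right (bavg_le hg hg0 c hδ hr) (by positivity)
  have h8 : d * N / (δ ^ (d + 1) * unitVol d) * s = N / (δ ^ d * unitVol d) * (d * (s / δ)) := by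
    rw [pow_succ]; field_simp
  nlinarith

theorem abs_bigFn_sub_le (x y : Pt d) :
    |bigFn g δ x - bigFn g δ y|
      ≤ d * (∫ z, g z) / (δ ^ (d + 1) * unitVol d) * ‖x - y‖ := by
  refine abs_sub_le_iff.2 ⟨bigFn_sub_le hg hg0 hδ x y, ?_⟩
  rw [norm_sub_rev]
  exact bigFn_sub_le hg hg0 hδ y x

theorem continuous_bigFn : Continuous (bigFn g δ) :=
  (LipschitzWith.of_dist_le' (K := d * (∫ z, g z) / (δ ^ (d + 1) * unitVol d)) fun x y => by
    rw [Real.dist_eq, dist_eq_norm]
    exact abs_bigFn_sub_le hg hg0 hδ x y).continuous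

end big

/-- what the local inequality supplies for a fixed function. -/
structure Chain (g : Pt d → ℝ) where
  nx : Pt d × ℝ → Pt d × ℝ
  cls : Pt d × ℝ → ℤ × (Fin d → ℤ)
  mid : ℤ × (Fin d → ℤ) → ℝ
  w : ℤ × (Fin d → ℤ) → ℝ
  w_nonneg : ∀ q, 0 ≤ w q
  sub : ∀ b, 0 < b.2 → Metric.ball b.1 b.2 ⊆ Metric.ball (nx b).1 (nx b).2
  dbl : ∀ b, 0 < b.2 → 2 * b.2 ≤ (nx b).2
  inClass : ∀ b, 0 < b.2 → InClass (cls b).1 (cls b).2 b.1 b.2
  osc : ∀ b, 0 < b.2 → bavg g (nx b).1 (nx b).2 < bavg g b.1 b.2 →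
    Ico (bavg g (nx b).1 (nx b).2) (bavg g b.1 b.2) ⊆ Icc (mid (cls b) - w (cls b)) (mid (cls b) + w (cls b))

namespace Chain

variable {g : Pt d → ℝ} (P : Chain g)

theorem iter_rad (b : Pt d × ℝ) (hb : 0 < b.2) (j : ℕ) :
    0 < (P.nx^[j] b).2 ∧ 2 ^ j * b.2 ≤ (P.nx^[j] b).2 := by
  induction j with
  | zero => simp [hb]
  | succ j ih =>
    rw [Function.iterate_succ_apply']
    have := P.dbl _ ih.1
    refine ⟨by linarith, le_trans ?_ this⟩
    rw [pow_succ]; nlinarith [ih.2]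

open Classical in
/-- the balls of class `q` and radius below `δ` that are active at height `t`, as a set of pairs. -/
noncomputable def act (F : Finset (Pt d × ℝ)) (δ : ℝ) (q : ℤ × (Fin d → ℤ)) : Set (Pt d × ℝ) :=
  ⋃ b ∈ F.filter (fun b => 0 < b.2 ∧ b.2 < δ ∧ P.cls b = q),
    Metric.ball b.1 b.2 ×ˢ Ico (bavg g (P.nx b).1 (P.nx b).2) (bavg g b.1 b.2)

theorem mem_act {F : Finset (Pt d × ℝ)} {δ : ℝ} {q : ℤ × (Fin d → ℤ)} {x : Pt d} {t : ℝ} :
    (x, t) ∈ P.act F δ q ↔ ∃ b ∈ F, (0 < b.2 ∧ b.2 < δ ∧ P.cls b = q) ∧ x ∈ Metric.ball b.1 b.2 ∧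
      t ∈ Ico (bavg g (P.nx b).1 (P.nx b).2) (bavg g b.1 b.2) := by
  classical
  simp only [act, mem_iUnion, Finset.mem_filter, mem_prod, exists_prop]
  exact ⟨fun ⟨b, ⟨h1, h2⟩, h3⟩ => ⟨b, h1, h2, h3⟩, fun ⟨b, h1, h2, h3⟩ => ⟨b, ⟨h1, h2⟩, h3⟩⟩

theorem measurableSet_act (F : Finset (Pt d × ℝ)) (δ : ℝ) (q : ℤ × (Fin d → ℤ)) :
    MeasurableSet (P.act F δ q) :=
  Finset.measurableSet_biUnion _ fun _ _ => measurableSet_ball.prod measurableSet_Ico

/-- sup of `bigFn` and the averages over a finite family. -/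
noncomputable def supFn (_P : Chain g) (F : Finset (Pt d × ℝ)) (δ : ℝ) (x : Pt d) : ℝ :=
  F.fold max (bigFn g δ x) fun b => (Metric.ball b.1 b.2).indicator (fun _ => bavg g b.1 b.2) x

theorem measurable_supFn (hg : Integrable g) (hg0 : ∀ x, 0 ≤ g x) {δ : ℝ} (hδ : 0 < δ)
    (F : Finset (Pt d × ℝ)) : Measurable (P.supFn F δ) := by
  classical
  induction F using Finset.induction with
  | empty =>
    have : P.supFn ∅ δ = bigFn g δ := by funext x; simp [supFn]
    rw [this]
    exact (continuous_bigFn hg hg0 hδ).measurable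
  | insert b F hb ih =>
    have : P.supFn (insert b F) δ = fun x =>
        max ((Metric.ball b.1 b.2).indicator (fun _ => bavg g b.1 b.2) x) (P.supFn F δ x) := by
      funext x; simp [supFn, Finset.fold_insert hb]
    rw [this]
    exact (measurable_const.indicator measurableSet_ball).max ih

theorem lt_supFn {F : Finset (Pt d × ℝ)} {δ : ℝ} {x : Pt d} {t : ℝ} (ht : 0 ≤ t) :
    t < P.supFn F δ x ↔
      t < bigFn g δ x ∨ ∃ b ∈ F, x ∈ Metric.ball b.1 b.2 ∧ t < bavg g b.1 b.2 := by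
  rw [supFn, Finset.lt_fold_max]
  refine or_congr Iff.rfl (exists_congr fun b => and_congr Iff.rfl ?_)
  by_cases h : x ∈ Metric.ball b.1 b.2
  · simp [h]
  · simp [h, not_lt.2 ht]

theorem supFn_nonneg (hg : Integrable g) (hg0 : ∀ x, 0 ≤ g x) {δ : ℝ} (hδ : 0 < δ)
    (F : Finset (Pt d × ℝ)) (x : Pt d) : 0 ≤ P.supFn F δ x := by
  rw [supFn, Finset.le_fold_max]
  exact Or.inl (bigFn_nonneg hg hg0 hδ x)

/-- `F` is closed under the chain map until the radius reaches `δ`. -/
def Closed (F : Finset (Pt d × ℝ)) (δ : ℝ) : Prop :=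
  ∀ b ∈ F, 0 < b.2 ∧ ∃ N : ℕ, δ ≤ 2 ^ N * b.2 ∧ ∀ j, j ≤ N → P.nx^[j] b ∈ F

open Classical in
/-- the classes of the small balls of `F`. -/
noncomputable def classes (F : Finset (Pt d × ℝ)) (δ : ℝ) : Finset (ℤ × (Fin d → ℤ)) :=
  (F.filter fun b => 0 < b.2 ∧ b.2 < δ).image P.cls

/-- a point above height `t` is seen by the big balls or by an active small one. -/
theorem layer {F : Finset (Pt d × ℝ)} {δ : ℝ} (hg : Integrable g) (hg0 : ∀ x, 0 ≤ g x)
    (hδ : 0 < δ) (hF : P.Closed F δ) {x : Pt d} {t : ℝ} (ht : 0 ≤ t) :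
    t < P.supFn F δ x ↔ t < bigFn g δ x ∨ ∃ q ∈ P.classes F δ, (x, t) ∈ P.act F δ q := by
  classical
  rw [P.lt_supFn ht]
  refine ⟨?_, ?_⟩
  · rintro (h | ⟨b, hb, hx, hav⟩)
    · exact Or.inl h
    by_contra hcon
    obtain ⟨hb0, N, hN, hmem⟩ := hF b hb
    have key : ∀ j, j ≤ N → x ∈ Metric.ball (P.nx^[j] b).1 (P.nx^[j] b).2 ∧
        t < bavg g (P.nx^[j] b).1 (P.nx^[j] b).2 ∧ (P.nx^[j] b).2 < δ := by
      intro j
      induction j with
      | zero =>
        intro _
        refine ⟨hx, hav, lt_of_not_ge fun h => hcon (Or.inl ?_)⟩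
        exact lt_of_lt_of_le hav (le_bigFn hg hg0 hδ h hx)
      | succ j ih =>
        intro hj
        obtain ⟨h1, h2, h3⟩ := ih (by omega)
        set c := P.nx^[j] b with hc
        have hc0 := (P.iter_rad b hb0 j).1
        rw [Function.iterate_succ_apply', ← hc]
        have hx' := P.sub c hc0 h1
        have hav' : t < bavg g (P.nx c).1 (P.nx c).2 := lt_of_not_ge fun h => hcon (Or.inr
          ⟨P.cls c, Finset.mem_image.2 ⟨c, Finset.mem_filter.2 ⟨hmem j (by omega), hc0, h3⟩, rfl⟩,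
            P.mem_act.2 ⟨c, hmem j (by omega), ⟨hc0, h3, rfl⟩, h1, h, h2⟩⟩)
        exact ⟨hx', hav', lt_of_not_ge fun h =>
          hcon (Or.inl (lt_of_lt_of_le hav' (le_bigFn hg hg0 hδ h hx')))⟩
    obtain ⟨-, -, h3⟩ := key N le_rfl
    linarith [(P.iter_rad b hb0 N).2]
  · rintro (h | ⟨q, -, hq⟩)
    · exact Or.inl h
    · obtain ⟨b, hb, -, hx, ht'⟩ := P.mem_act.1 hq
      exact Or.inr ⟨b, hb, hx, ht'.2⟩

/-- shift of the first coordinate. -/
def shiftPair (v : Pt d) (p : Pt d × ℝ) : Pt d × ℝ := (p.1 + v, p.2)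

theorem shiftPair_measurable (v : Pt d) : Measurable (shiftPair v) :=
  (measurable_fst.add_const v).prodMk measurable_snd

/-- where exactly one of `(x, t)` and `(x + v, t)` is active. -/
noncomputable def jump (F : Finset (Pt d × ℝ)) (δ : ℝ) (q : ℤ × (Fin d → ℤ)) (v : Pt d) :
    Set (Pt d × ℝ) :=
  (shiftPair v ⁻¹' P.act F δ q \ P.act F δ q) ∪ (P.act F δ q \ shiftPair v ⁻¹' P.act F δ q)

theorem measurableSet_jump (F : Finset (Pt d × ℝ)) (δ : ℝ) (q : ℤ × (Fin d → ℤ)) (v : Pt d) :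
    MeasurableSet (P.jump F δ q v) :=
  (((shiftPair_measurable v) (P.measurableSet_act F δ q)).diff (P.measurableSet_act F δ q)).union
    ((P.measurableSet_act F δ q).diff ((shiftPair_measurable v) (P.measurableSet_act F δ q)))

theorem ofReal_sub_le {F : Finset (Pt d × ℝ)} {δ : ℝ} (hg : Integrable g) (hg0 : ∀ x, 0 ≤ g x)
    (hδ : 0 < δ) (hF : P.Closed F δ) (x y : Pt d) (T : ℤ × (Fin d → ℤ) → Set (Pt d × ℝ))
    (hT : ∀ q t, (x, t) ∈ P.act F δ q → (y, t) ∉ P.act F δ q → t ∈ Prod.mk y ⁻¹' T q) :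
    ENNReal.ofReal (P.supFn F δ x - P.supFn F δ y) ≤ ENNReal.ofReal |bigFn g δ x - bigFn g δ y|
      + ∑ q ∈ P.classes F δ, volume (Prod.mk y ⁻¹' T q) := by
  have hsub : Ico (P.supFn F δ y) (P.supFn F δ x) ⊆ Ico (bigFn g δ y) (bigFn g δ x) ∪
      ⋃ q ∈ P.classes F δ, Prod.mk y ⁻¹' T q := by
    intro t ht
    have ht0 : 0 ≤ t := le_trans (P.supFn_nonneg hg hg0 hδ F y) ht.1
    have hy : ¬ (t < bigFn g δ y ∨ ∃ q ∈ P.classes F δ, (y, t) ∈ P.act F δ q) := fun h =>
      not_lt.2 ht.1 ((P.layer hg hg0 hδ hF ht0).2 h)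
    push Not at hy
    rcases (P.layer hg hg0 hδ hF ht0).1 ht.2 with h | ⟨q, hq, hx⟩
    · exact Or.inl ⟨hy.1, h⟩
    · exact Or.inr (mem_biUnion hq (hT q t hx (hy.2 q hq)))
  rw [← Real.volume_Ico]
  refine (measure_mono hsub).trans ((measure_union_le _ _).trans (add_le_add ?_ ?_))
  · rw [Real.volume_Ico]; exact ENNReal.ofReal_le_ofReal (le_abs_self _)
  · exact measure_biUnion_finset_le _ _

theorem abs_supFn_sub_le {F : Finset (Pt d × ℝ)} {δ : ℝ} (hg : Integrable g) (hg0 : ∀ x, 0 ≤ g x)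
    (hδ : 0 < δ) (hF : P.Closed F δ) (x v : Pt d) :
    ENNReal.ofReal |P.supFn F δ (x + v) - P.supFn F δ x|
      ≤ ENNReal.ofReal |bigFn g δ (x + v) - bigFn g δ x|
        + ∑ q ∈ P.classes F δ, volume (Prod.mk x ⁻¹' P.jump F δ q v) := by
  rcases le_total (P.supFn F δ x) (P.supFn F δ (x + v)) with h | h
  · rw [abs_of_nonneg (sub_nonneg.2 h)]
    exact P.ofReal_sub_le hg hg0 hδ hF _ _ _ fun q t h1 h2 => Or.inl ⟨h1, h2⟩
  · rw [abs_of_nonpos (sub_nonpos.2 h), neg_sub, abs_sub_comm (bigFn g δ (x + v))]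
    have hsub : Ico (P.supFn F δ (x + v)) (P.supFn F δ x) ⊆ Ico (bigFn g δ (x + v)) (bigFn g δ x) ∪
        ⋃ q ∈ P.classes F δ, Prod.mk x ⁻¹' P.jump F δ q v := by
      intro t ht
      have ht0 : 0 ≤ t := le_trans (P.supFn_nonneg hg hg0 hδ F (x + v)) ht.1
      have hy : ¬ (t < bigFn g δ (x + v) ∨ ∃ q ∈ P.classes F δ, (x + v, t) ∈ P.act F δ q) :=
        fun h => not_lt.2 ht.1 ((P.layer hg hg0 hδ hF ht0).2 h)
      push Not at hy
      rcases (P.layer hg hg0 hδ hF ht0).1 ht.2 with h | ⟨q, hq, hx⟩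
      · exact Or.inl ⟨hy.1, h⟩
      · exact Or.inr (mem_biUnion hq (Or.inr ⟨hx, hy.2 q hq⟩))
    rw [← Real.volume_Ico]
    refine (measure_mono hsub).trans ((measure_union_le _ _).trans (add_le_add ?_ ?_))
    · rw [Real.volume_Ico]; exact ENNReal.ofReal_le_ofReal (le_abs_self _)
    · exact measure_biUnion_finset_le _ _

/-- the active part of a class at height `t`, as a subset of space. -/
def slice (F : Finset (Pt d × ℝ)) (δ : ℝ) (q : ℤ × (Fin d → ℤ)) (t : ℝ) : Set (Pt d) :=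
  {x | (x, t) ∈ P.act F δ q}

theorem slice_eq_empty {F : Finset (Pt d × ℝ)} {δ : ℝ} {q : ℤ × (Fin d → ℤ)} {t : ℝ}
    (ht : t ∉ Icc (P.mid q - P.w q) (P.mid q + P.w q)) : P.slice F δ q t = ∅ := by
  refine eq_empty_iff_forall_notMem.2 fun x hx => ht ?_
  obtain ⟨b, -, ⟨hb0, -, hq⟩, -, htb⟩ := P.mem_act.1 hx
  have := P.osc b hb0 (lt_of_le_of_lt htb.1 htb.2) htb
  rwa [hq] at this

theorem mem_dilation {F : Finset (Pt d × ℝ)} {δ : ℝ} {q : ℤ × (Fin d → ℤ)} {t s : ℝ} {y u : Pt d}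
    (hs : 0 ≤ s) (hu : ‖u‖ ≤ s * ((2 : ℝ) ^ q.1 / 2)) (hy : y ∈ P.slice F δ q t) :
    y + u ∈ AffineMap.homothety (classPt q.1 q.2) (1 + s) '' P.slice F δ q t := by
  obtain ⟨b, hb, hbq, hyb, htb⟩ := P.mem_act.1 hy
  set z := classPt q.1 q.2
  set r := (2 : ℝ) ^ q.1
  have hr : 0 < r := zpow_pos two_pos _
  have hic := P.inClass b hbq.1
  rw [hbq.2.2] at hic
  obtain ⟨hr1, -, hcz⟩ := hic
  have hcz' : ‖b.1 - z‖ ≤ r / 2 := by
    refine hcz.trans ?_
    have : ((d : ℝ) + 1) * tau d = 1 / 100 := by rw [tau]; field_simp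
    rw [this]; linarith
  refine ⟨(1 + s)⁻¹ • (y + u - z) + z,
    P.mem_act.2 ⟨b, hb, hbq, ?_, htb⟩, ?_⟩
  · rw [Metric.mem_ball, dist_eq_norm]
    have h1 : (1 + s)⁻¹ • (y + u - z) + z - b.1
        = (1 + s)⁻¹ • ((y - b.1) + (u - s • (b.1 - z))) := by
      have : (1 + s) ≠ 0 := by linarith
      rw [eq_inv_smul_iff₀ this, smul_sub, smul_add, smul_inv_smul₀ this]
      module
    rw [h1, norm_smul, Real.norm_of_nonneg (by positivity), inv_mul_lt_iff₀ (by linarith)]
    have hyb' : ‖y - b.1‖ < b.2 := by rwa [← dist_eq_norm]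
    calc ‖(y - b.1) + (u - s • (b.1 - z))‖ ≤ ‖y - b.1‖ + (‖u‖ + ‖s • (b.1 - z)‖) :=
          (norm_add_le _ _).trans (add_le_add le_rfl (norm_sub_le _ _))
      _ < (1 + s) * b.2 := by
          rw [norm_smul, Real.norm_of_nonneg hs]
          nlinarith [norm_nonneg (b.1 - z)]
  · rw [AffineMap.homothety_apply, vsub_eq_sub, vadd_eq_add, add_sub_cancel_right,
      smul_inv_smul₀ (by linarith : (1 + s) ≠ 0), sub_add_cancel]

theorem volume_slice_le (F : Finset (Pt d × ℝ)) (δ : ℝ) (q : ℤ × (Fin d → ℤ)) (t : ℝ) :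
    volume (P.slice F δ q t) ≤ ENNReal.ofReal ((3 * (2 : ℝ) ^ q.1) ^ d * unitVol d) := by
  have hr : (0 : ℝ) < 2 ^ q.1 := zpow_pos two_pos _
  rw [← vol_ball (classPt q.1 q.2) (by positivity)]
  refine measure_mono fun x hx => ?_
  obtain ⟨b, -, hbq, hxb, -⟩ := P.mem_act.1 hx
  have hic := P.inClass b hbq.1
  rw [hbq.2.2] at hic
  obtain ⟨-, hr2, hcz⟩ := hic
  have : ((d : ℝ) + 1) * tau d = 1 / 100 := by rw [tau]; field_simp
  rw [this] at hcz
  rw [Metric.mem_ball] at hxb ⊢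
  calc dist x (classPt q.1 q.2) ≤ dist x b.1 + dist b.1 (classPt q.1 q.2) := dist_triangle _ _ _
    _ < 3 * 2 ^ q.1 := by rw [dist_eq_norm b.1]; linarith

theorem measurableSet_slice (F : Finset (Pt d × ℝ)) (δ : ℝ) (q : ℤ × (Fin d → ℤ)) (t : ℝ) :
    MeasurableSet (P.slice F δ q t) :=
  measurable_prodMk_right (P.measurableSet_act F δ q)

/-- a translation moves little volume of the active part of a class. -/
theorem volume_shift_diff_le (F : Finset (Pt d × ℝ)) (δ : ℝ) (q : ℤ × (Fin d → ℤ)) (t : ℝ)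
    (v : Pt d) :
    volume ((fun x => x + v) ⁻¹' P.slice F δ q t \ P.slice F δ q t)
      ≤ ENNReal.ofReal (4 * 6 ^ d * unitVol d * ‖v‖ * ((2 : ℝ) ^ q.1) ^ (d - 1)) := by
  rcases Nat.eq_zero_or_pos d with hd | hd
  · subst hd
    have : v = 0 := Subsingleton.elim _ _
    simp [this]
  set V := P.slice F δ q t
  set r := (2 : ℝ) ^ q.1
  have hr : 0 < r := zpow_pos two_pos _
  have hv := unitVol_pos d
  set s := 2 * ‖v‖ / r with hs
  have hs0 : 0 ≤ s := by positivity
  have hVv : volume V ≤ ENNReal.ofReal ((3 * r) ^ d * unitVol d) := P.volume_slice_le F δ q t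
  have hVfin : volume V ≠ ∞ := ne_top_of_le_ne_top ENNReal.ofReal_ne_top hVv
  have hgoal : (4 : ℝ) * 6 ^ d * unitVol d * ‖v‖ * r ^ (d - 1)
      = 2 * 2 ^ d * s * ((3 * r) ^ d * unitVol d) := by
    obtain ⟨m, rfl⟩ : ∃ m, d = m + 1 := ⟨d - 1, by omega⟩
    rw [hs, mul_pow, show (6 : ℝ) = 2 * 3 by norm_num, mul_pow, Nat.add_sub_cancel]
    field_simp
    ring
  rw [hgoal]
  rcases lt_or_ge 1 s with h1 | h1
  · refine (measure_mono sdiff_subset).trans ?_
    rw [measure_preimage_add_right]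
    refine hVv.trans (ENNReal.ofReal_le_ofReal ?_)
    refine le_mul_of_one_le_left (by positivity) ?_
    nlinarith [one_le_pow₀ (one_le_two : (1 : ℝ) ≤ 2) (n := d)]
  · set D := AffineMap.homothety (classPt q.1 q.2) (1 + s) '' V
    have hu : ‖v‖ ≤ s * (r / 2) := le_of_eq (by rw [hs]; field_simp)
    have hVD : V ⊆ D := fun y hy => by
      have h := P.mem_dilation (u := 0) hs0 (by rw [norm_zero]; positivity) hy
      rwa [add_zero] at h
    have hsub : (fun x => x + v) ⁻¹' V \ V ⊆ D \ V := fun x hx => by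
      refine ⟨?_, hx.2⟩
      have h := P.mem_dilation (u := -v) hs0 (by rwa [norm_neg]) hx.1
      rwa [add_neg_cancel_right] at h
    refine (measure_mono hsub).trans ?_
    rw [measure_sdiff hVD (P.measurableSet_slice F δ q t).nullMeasurableSet hVfin,
      Measure.addHaar_image_homothety, finrank_euclideanSpace_fin,
      abs_of_nonneg (by positivity : (0 : ℝ) ≤ (1 + s) ^ d)]
    have hpow : (1 + s) ^ d ≤ 1 + 2 ^ d * s := by
      have : ∀ n : ℕ, (1 + s) ^ n ≤ 1 + (2 ^ n - 1) * s := fun n => by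
        induction n with
        | zero => simp
        | succ n ih =>
          calc (1 + s) ^ (n + 1) ≤ (1 + (2 ^ n - 1) * s) * (1 + s) := by
                rw [pow_succ]; exact mul_le_mul_of_nonneg_right ih (by linarith)
            _ ≤ 1 + (2 ^ (n + 1) - 1) * s := by
                have h2 : (1 : ℝ) ≤ 2 ^ n := one_le_pow₀ one_le_two
                rw [pow_succ (2 : ℝ) n]
                nlinarith [mul_le_mul_of_nonneg_left h1 (mul_nonneg (sub_nonneg.2 h2) hs0)]
      nlinarith [this d]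
    calc ENNReal.ofReal ((1 + s) ^ d) * volume V - volume V
        ≤ ENNReal.ofReal (2 ^ d * s) * volume V := by
          rw [tsub_le_iff_right]
          calc ENNReal.ofReal ((1 + s) ^ d) * volume V
              ≤ (ENNReal.ofReal (2 ^ d * s) + 1) * volume V := by
                gcongr
                rw [← ENNReal.ofReal_one, ← ENNReal.ofReal_add (by positivity) zero_le_one]
                exact ENNReal.ofReal_le_ofReal (by linarith)
            _ = _ := by rw [add_mul, one_mul]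
      _ ≤ ENNReal.ofReal (2 ^ d * s) * ENNReal.ofReal ((3 * r) ^ d * unitVol d) := by gcongr
      _ ≤ _ := by
          rw [← ENNReal.ofReal_mul (by positivity)]
          refine ENNReal.ofReal_le_ofReal (mul_le_mul_of_nonneg_right ?_ (by positivity))
          nlinarith [mul_nonneg (pow_nonneg (zero_le_two (α := ℝ)) d) hs0]

theorem prod_le_of_slices {S : Set (Pt d × ℝ)} (hS : MeasurableSet S) (q : ℤ × (Fin d → ℤ))
    {c : ℝ≥0∞} (h0 : ∀ t ∉ Icc (P.mid q - P.w q) (P.mid q + P.w q),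
      volume ((fun x => (x, t)) ⁻¹' S) = 0)
    (hc : ∀ t, volume ((fun x => (x, t)) ⁻¹' S) ≤ c) :
    ∫⁻ x, volume (Prod.mk x ⁻¹' S) ≤ ENNReal.ofReal (2 * P.w q) * c := by
  rw [← Measure.prod_apply hS, Measure.prod_apply_symm hS]
  calc ∫⁻ t, volume ((fun x => (x, t)) ⁻¹' S)
      ≤ ∫⁻ t, (Icc (P.mid q - P.w q) (P.mid q + P.w q)).indicator (fun _ => c) t := by
        refine lintegral_mono fun t => ?_
        by_cases ht : t ∈ Icc (P.mid q - P.w q) (P.mid q + P.w q)
        · rw [indicator_of_mem ht]; exact hc t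
        · rw [indicator_of_notMem ht]; exact (h0 t ht).le
    _ = _ := by
        rw [lintegral_indicator_const measurableSet_Icc, Real.volume_Icc, mul_comm]
        congr 2; ring

theorem integral_jump_le (F : Finset (Pt d × ℝ)) (δ : ℝ) (q : ℤ × (Fin d → ℤ)) (v : Pt d) :
    ∫⁻ x, volume (Prod.mk x ⁻¹' P.jump F δ q v) ≤ ENNReal.ofReal (2 * P.w q) *
      ENNReal.ofReal (8 * 6 ^ d * unitVol d * ‖v‖ * ((2 : ℝ) ^ q.1) ^ (d - 1)) := by
  have hv := unitVol_pos d
  have hslice : ∀ t, (fun x => (x, t)) ⁻¹' P.jump F δ q v =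
      ((fun x => x + v) ⁻¹' P.slice F δ q t \ P.slice F δ q t) ∪
        (P.slice F δ q t \ (fun x => x + v) ⁻¹' P.slice F δ q t) := fun t => rfl
  refine P.prod_le_of_slices (P.measurableSet_jump F δ q v) q (fun t ht => ?_) (fun t => ?_)
  · rw [hslice, P.slice_eq_empty ht]; simp
  · rw [hslice]
    refine (measure_union_le _ _).trans ((add_le_add (P.volume_shift_diff_le F δ q t v)
      (?_ : _ ≤ ENNReal.ofReal (4 * 6 ^ d * unitVol d * ‖-v‖ * ((2 : ℝ) ^ q.1) ^ (d - 1)))).trans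
      (le_of_eq ?_))
    · have h : volume (P.slice F δ q t \ (fun x => x + v) ⁻¹' P.slice F δ q t)
          = volume ((fun x => x + -v) ⁻¹' P.slice F δ q t \ P.slice F δ q t) := by
        rw [← measure_preimage_add_right volume (-v)]
        simp [preimage_sdiff, preimage_preimage]
      rw [h]
      exact P.volume_shift_diff_le F δ q t (-v)
    · rw [norm_neg, ← ENNReal.ofReal_add (by positivity) (by positivity)]
      congr 1; ring

end Chain

/-- weighted sum of the local charges of the classes of scale below `2 ^ K`. -/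
noncomputable def tail {g : Pt d → ℝ} (P : Chain g) (K : ℤ) : ℝ≥0∞ :=
  ∑' q : ℤ × (Fin d → ℤ),
    if q.1 < K then ENNReal.ofReal (((2 : ℝ) ^ q.1) ^ (d - 1) * P.w q) else 0

/-- constant in the shift estimate. -/
noncomputable def shiftConst (d : ℕ) : ℝ := 16 * 6 ^ d * unitVol d

namespace Chain

variable {g : Pt d → ℝ} (P : Chain g)

theorem classes_lt {F : Finset (Pt d × ℝ)} {K : ℤ} {q : ℤ × (Fin d → ℤ)}
    (hq : q ∈ P.classes F ((2 : ℝ) ^ K)) : q.1 < K := by
  classical
  obtain ⟨b, hb, rfl⟩ := Finset.mem_image.1 hq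
  obtain ⟨-, h0, h1⟩ := Finset.mem_filter.1 hb
  exact (zpow_lt_zpow_iff_right₀ (one_lt_two : (1 : ℝ) < 2)).1
    (lt_of_le_of_lt (P.inClass b h0).1 h1)

theorem sum_classes_le (F : Finset (Pt d × ℝ)) (K : ℤ) {a : ℝ} (ha : 0 ≤ a) :
    ∑ q ∈ P.classes F ((2 : ℝ) ^ K),
        ENNReal.ofReal (a * (((2 : ℝ) ^ q.1) ^ (d - 1) * P.w q))
      ≤ ENNReal.ofReal a * tail P K := by
  simp_rw [ENNReal.ofReal_mul ha, ← Finset.mul_sum]
  gcongr
  refine le_trans (Finset.sum_le_sum fun q hq => ?_) (ENNReal.sum_le_tsum _)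
  rw [if_pos (P.classes_lt hq)]

theorem lintegral_shift_le (hg : Integrable g) (hg0 : ∀ x, 0 ≤ g x) (K : ℤ)
    {F : Finset (Pt d × ℝ)} (hF : P.Closed F ((2 : ℝ) ^ K)) (v : Pt d) {φ : Pt d → ℝ}
    (hφ : Integrable φ) (hφm : Measurable φ) {M : ℝ} (hM : ∀ x, |φ x| ≤ M) :
    ∫⁻ x, ENNReal.ofReal (|φ x| * |P.supFn F ((2 : ℝ) ^ K) (x + v) - P.supFn F ((2 : ℝ) ^ K) x|)
      ≤ ENNReal.ofReal (d * (∫ z, g z) / (((2 : ℝ) ^ K) ^ (d + 1) * unitVol d) * ‖v‖ * ∫ x, |φ x|)
        + ENNReal.ofReal (shiftConst d * ‖v‖ * M) * tail P K := by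
  set δ := (2 : ℝ) ^ K
  have hδ : 0 < δ := zpow_pos two_pos _
  have hv := unitVol_pos d
  have hM0 : 0 ≤ M := (abs_nonneg (φ 0)).trans (hM 0)
  set L := d * (∫ z, g z) / (δ ^ (d + 1) * unitVol d)
  have hL : 0 ≤ L := div_nonneg (mul_nonneg (Nat.cast_nonneg d) (integral_nonneg hg0)) (by positivity)
  have hmq : ∀ q, Measurable fun x => volume (Prod.mk x ⁻¹' P.jump F δ q v) := fun q =>
    measurable_measure_prodMk_left (P.measurableSet_jump F δ q v)
  calc ∫⁻ x, ENNReal.ofReal (|φ x| * |P.supFn F δ (x + v) - P.supFn F δ x|)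
      ≤ ∫⁻ x, (ENNReal.ofReal (L * ‖v‖) * ENNReal.ofReal |φ x|
          + ENNReal.ofReal M * ∑ q ∈ P.classes F δ, volume (Prod.mk x ⁻¹' P.jump F δ q v)) := by
        refine lintegral_mono fun x => ?_
        rw [ENNReal.ofReal_mul (abs_nonneg _)]
        refine (mul_le_mul_right (P.abs_supFn_sub_le hg hg0 hδ hF x v) _).trans ?_
        rw [mul_add, mul_comm (ENNReal.ofReal (L * ‖v‖))]
        gcongr
        · refine (abs_bigFn_sub_le hg hg0 hδ _ _).trans_eq ?_
          rw [add_sub_cancel_left]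
        · exact hM x
    _ = ENNReal.ofReal (L * ‖v‖) * (∫⁻ x, ENNReal.ofReal |φ x|)
          + ENNReal.ofReal M * ∑ q ∈ P.classes F δ, ∫⁻ x, volume (Prod.mk x ⁻¹' P.jump F δ q v) := by
        rw [lintegral_add_left (hφm.abs.ennreal_ofReal.const_mul _),
          lintegral_const_mul _ hφm.abs.ennreal_ofReal,
          lintegral_const_mul _ (Finset.measurable_sum _ fun q _ => hmq q),
          lintegral_finsetSum _ fun q _ => hmq q]
    _ ≤ _ := by
        refine add_le_add (le_of_eq ?_) ?_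
        · rw [← ofReal_integral_eq_lintegral_ofReal hφ.abs
            (Eventually.of_forall fun x => abs_nonneg _), ← ENNReal.ofReal_mul (by positivity)]
        · refine le_trans ?_ (le_of_le_of_eq
            (mul_le_mul_right (P.sum_classes_le F K
              (a := shiftConst d * ‖v‖) (by unfold shiftConst; positivity)) (ENNReal.ofReal M)) ?_)
          · gcongr with q
            refine (P.integral_jump_le F δ q v).trans_eq ?_
            rw [← ENNReal.ofReal_mul (by linarith [P.w_nonneg q]), shiftConst]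
            congr 1; ring
          · rw [← mul_assoc, ← ENNReal.ofReal_mul hM0, mul_comm M]

theorem lintegral_supFn_le (hg : Integrable g) (hg0 : ∀ x, 0 ≤ g x) (hd : 1 ≤ d)
    {F : Finset (Pt d × ℝ)} (hF : P.Closed F ((2 : ℝ) ^ (0 : ℤ))) (S : Set (Pt d)) :
    ∫⁻ x in S, ENNReal.ofReal (P.supFn F ((2 : ℝ) ^ (0 : ℤ)) x)
      ≤ ENNReal.ofReal ((∫ y, g y) / unitVol d) * volume S
        + ENNReal.ofReal (2 * 3 ^ d * unitVol d) * tail P 0 := by
  set δ := (2 : ℝ) ^ (0 : ℤ)
  have hδ : 0 < δ := zpow_pos two_pos _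
  have hv := unitVol_pos d
  have hpt : ∀ x, ENNReal.ofReal (P.supFn F δ x) ≤ ENNReal.ofReal ((∫ y, g y) / unitVol d)
      + ∑ q ∈ P.classes F δ, volume (Prod.mk x ⁻¹' P.act F δ q) := fun x => by
    have hsub : Ico 0 (P.supFn F δ x) ⊆
        Ico 0 (bigFn g δ x) ∪ ⋃ q ∈ P.classes F δ, Prod.mk x ⁻¹' P.act F δ q := fun t ht => by
      rcases (P.layer hg hg0 hδ hF ht.1).1 ht.2 with h | ⟨q, hq, hx⟩
      · exact Or.inl ⟨ht.1, h⟩
      · exact Or.inr (mem_biUnion hq hx)
    have h0 : volume (Ico 0 (P.supFn F δ x)) = ENNReal.ofReal (P.supFn F δ x) := by simp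
    rw [← h0]
    refine (measure_mono hsub).trans ((measure_union_le _ _).trans (add_le_add ?_ ?_))
    · rw [Real.volume_Ico, sub_zero]
      refine ENNReal.ofReal_le_ofReal ((bigFn_le_const hg hg0 hδ x).trans_eq ?_)
      simp [δ]
    · exact measure_biUnion_finset_le _ _
  have hmq : ∀ q, Measurable fun x => volume (Prod.mk x ⁻¹' P.act F δ q) := fun q =>
    measurable_measure_prodMk_left (P.measurableSet_act F δ q)
  refine (lintegral_mono hpt).trans ?_
  rw [lintegral_add_left measurable_const, setLIntegral_const]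
  refine add_le_add le_rfl ((setLIntegral_le_lintegral _ _).trans ?_)
  rw [lintegral_finsetSum _ fun q _ => hmq q]
  refine le_trans (Finset.sum_le_sum fun q hq => ?_)
    (P.sum_classes_le F 0 (a := 2 * 3 ^ d * unitVol d) (by positivity))
  refine (P.prod_le_of_slices (P.measurableSet_act F δ q) q (fun t ht => ?_)
    (P.volume_slice_le F δ q)).trans ?_
  · change volume (P.slice F δ q t) = 0
    rw [P.slice_eq_empty ht, measure_empty]
  rw [← ENNReal.ofReal_mul (by linarith [P.w_nonneg q])]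
  refine ENNReal.ofReal_le_ofReal ?_
  have hr : (0 : ℝ) < 2 ^ q.1 := zpow_pos two_pos _
  have hr1 : ((2 : ℝ) ^ q.1) ≤ 1 := zpow_le_one_of_nonpos₀ one_le_two (P.classes_lt hq).le
  have hpd : ((2 : ℝ) ^ q.1) ^ d ≤ ((2 : ℝ) ^ q.1) ^ (d - 1) :=
    pow_le_pow_of_le_one hr.le hr1 (Nat.sub_le d 1)
  rw [mul_pow]
  have := mul_le_mul_of_nonneg_left hpd
    (mul_nonneg (by positivity : (0 : ℝ) ≤ 2 * 3 ^ d * unitVol d) (P.w_nonneg q))
  linarith

end Chain

/-- countably many balls. -/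
noncomputable def seedBall (d : ℕ) (j : ℕ) : Pt d × ℝ :=
  ((TopologicalSpace.denseSeq (Pt d × ℝ) j).1,
    if 0 < (TopologicalSpace.denseSeq (Pt d × ℝ) j).2 then
      (TopologicalSpace.denseSeq (Pt d × ℝ) j).2 else 1)

theorem seedBall_pos (d j : ℕ) : 0 < (seedBall d j).2 := by
  unfold seedBall; dsimp only; split_ifs with h
  · exact h
  · exact one_pos

theorem exists_seedBall {g : Pt d → ℝ} (hg : Integrable g) (hg0 : ∀ x, 0 ≤ g x) {x c : Pt d}
    {r y : ℝ} (hr : 0 < r) (hx : x ∈ Metric.ball c r) (hy : y < bavg g c r) :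
    ∃ j, x ∈ Metric.ball (seedBall d j).1 (seedBall d j).2 ∧
      y < bavg g (seedBall d j).1 (seedBall d j).2 := by
  have hc : ContinuousAt (fun s : ℝ => bavg g c r * (r / (r + 2 * s)) ^ d) 0 :=
    continuousAt_const.mul ((continuousAt_const.div (by fun_prop) (by simpa using hr.ne')).pow d)
  have hlim : ∀ᶠ s in 𝓝[>] (0 : ℝ), y < bavg g c r * (r / (r + 2 * s)) ^ d :=
    (hc.eventually_const_lt (by simpa [hr.ne'] using hy)).filter_mono nhdsWithin_le_nhds
  obtain ⟨s, hs1, hs0⟩ := (hlim.and self_mem_nhdsWithin).exists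
  have hs0 : 0 < s := hs0
  obtain ⟨j, hj⟩ := (TopologicalSpace.denseRange_denseSeq (Pt d × ℝ)).exists_dist_lt
    (c, r + 3 / 2 * s) (half_pos hs0)
  rw [Prod.dist_eq, max_lt_iff, Real.dist_eq, abs_lt] at hj
  obtain ⟨hj1, hj2, hj3⟩ := hj
  dsimp only at hj1 hj2 hj3
  have hpos : 0 < (TopologicalSpace.denseSeq (Pt d × ℝ) j).2 := by linarith
  have h2 : (seedBall d j).2 = (TopologicalSpace.denseSeq (Pt d × ℝ) j).2 := by
    simp [seedBall, hpos]
  have hsub : Metric.ball c r ⊆ Metric.ball (seedBall d j).1 (seedBall d j).2 := by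
    refine Metric.ball_subset_ball' ?_
    have h1 : (seedBall d j).1 = (TopologicalSpace.denseSeq (Pt d × ℝ) j).1 := rfl
    rw [h1, h2]; linarith
  refine ⟨j, hsub hx, hs1.trans_le (le_trans ?_ (bavg_mono hg hg0 hr (seedBall_pos d j) hsub))⟩
  refine mul_le_mul_of_nonneg_left ?_ (bavg_nonneg hg0 c r)
  have := seedBall_pos d j
  gcongr
  rw [h2]; linarith

theorem lintegral_ball_div (f : Pt d → ℝ) (hf : Integrable f) (c : Pt d) {r : ℝ} (hr : 0 < r) :
    (∫⁻ y in Metric.ball c r, ENNReal.ofReal |f y|) / volume (Metric.ball c r)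
      = ENNReal.ofReal (bavg (fun y => |f y|) c r) := by
  have := unitVol_pos d
  rw [← ofReal_integral_eq_lintegral_ofReal hf.abs.integrableOn
    (Eventually.of_forall fun y => abs_nonneg _), bavg_eq _ c hr, vol_ball c hr,
    ← ENNReal.ofReal_div_of_pos (by positivity)]

theorem le_maxFn {f : Pt d → ℝ} (hf : Integrable f) {x c : Pt d} {r : ℝ}
    (hx : x ∈ Metric.ball c r) :
    ENNReal.ofReal (bavg (fun y => |f y|) c r) ≤ maxFn f x := by
  rw [← lintegral_ball_div f hf c (Metric.pos_of_mem_ball hx)]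
  exact le_iSup_of_le c (le_iSup_of_le r (le_iSup_of_le hx le_rfl))

theorem lt_maxFn {f : Pt d → ℝ} (hf : Integrable f) {x : Pt d} {y : ℝ≥0∞} (hy : y < maxFn f x) :
    ∃ c r, x ∈ Metric.ball c r ∧ y < ENNReal.ofReal (bavg (fun y => |f y|) c r) := by
  simp only [maxFn, lt_iSup_iff] at hy
  obtain ⟨c, r, hx, h⟩ := hy
  rw [lintegral_ball_div f hf c (Metric.pos_of_mem_ball hx)] at h
  exact ⟨c, r, hx, h⟩

section approx

variable {f : Pt d → ℝ} (hf : Integrable f) (P : Chain (fun y => |f y|)) {δ : ℝ} (hδ : 0 < δ)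

open Classical in
/-- the first `n + 1` seeds with their chains, until the radius exceeds `δ`. -/
noncomputable def family {g : Pt d → ℝ} (P : Chain g) (δ : ℝ) (n : ℕ) : Finset (Pt d × ℝ) :=
  (Finset.range (n + 1)).biUnion fun j =>
    (Finset.range (⌈δ / (seedBall d j).2⌉₊ + 1)).image fun i => P.nx^[i] (seedBall d j)

theorem family_closed {g : Pt d → ℝ} (P : Chain g) (δ : ℝ) (n : ℕ) :
    P.Closed (family P δ n) δ := by
  classical
  intro b hb
  simp only [family, Finset.mem_biUnion, Finset.mem_image, Finset.mem_range] at hb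
  obtain ⟨j, hj, i, hi, rfl⟩ := hb
  have hs := seedBall_pos d j
  obtain ⟨h0, h1⟩ := P.iter_rad _ hs i
  set N := ⌈δ / (seedBall d j).2⌉₊ with hN
  refine ⟨h0, N - i, ?_, fun l hl => ?_⟩
  · have hN1 : δ / (seedBall d j).2 ≤ (2 : ℝ) ^ N := by
      refine (Nat.le_ceil _).trans ?_
      rw [← hN]
      exact_mod_cast Nat.lt_two_pow_self.le
    rw [div_le_iff₀ hs] at hN1
    calc δ ≤ 2 ^ N * (seedBall d j).2 := hN1
      _ = 2 ^ (N - i) * (2 ^ i * (seedBall d j).2) := by
          rw [← mul_assoc, ← pow_add, Nat.sub_add_cancel (by omega)]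
      _ ≤ _ := by gcongr
  · simp only [family, Finset.mem_biUnion, Finset.mem_image, Finset.mem_range]
    exact ⟨j, hj, l + i, by omega, Function.iterate_add_apply _ _ _ _⟩

theorem seed_mem_family {g : Pt d → ℝ} (P : Chain g) (δ : ℝ) {n j : ℕ} (hj : j ≤ n) :
    seedBall d j ∈ family P δ n := by
  classical
  simp only [family, Finset.mem_biUnion, Finset.mem_image, Finset.mem_range]
  exact ⟨j, by omega, 0, by omega, rfl⟩

include hf hδ

theorem supFn_le_maxFn (n : ℕ) (x : Pt d) :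
    ENNReal.ofReal (P.supFn (family P δ n) δ x) ≤ maxFn f x := by
  refine le_of_forall_lt_imp_le_of_dense fun y hy => ?_
  have hyf : y ≠ ∞ := ne_top_of_lt hy
  have : y.toReal < P.supFn (family P δ n) δ x := by
    have := (ENNReal.toReal_lt_toReal hyf ENNReal.ofReal_ne_top).2 hy
    rwa [ENNReal.toReal_ofReal (P.supFn_nonneg hf.abs (fun _ => abs_nonneg _) hδ _ x)] at this
  rw [← ENNReal.ofReal_toReal hyf]
  rcases (P.lt_supFn ENNReal.toReal_nonneg).1 this with h | ⟨b, -, hx, h⟩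
  · by_contra hcon
    rw [not_le] at hcon
    have hm : maxFn f x ≠ ∞ := ne_top_of_lt hcon
    have := bigFn_le hf.abs (fun _ => abs_nonneg _) hδ (x := x) (b := (maxFn f x).toReal)
      fun c r _ hx => by
        have := ENNReal.toReal_mono hm (le_maxFn hf hx)
        rwa [ENNReal.toReal_ofReal (bavg_nonneg (fun _ => abs_nonneg _) c r)] at this
    have h2 := (ENNReal.lt_ofReal_iff_toReal_lt hm).1 hcon
    linarith
  · exact (ENNReal.ofReal_le_ofReal h.le).trans (le_maxFn hf hx)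

theorem eventually_lt_supFn (x : Pt d) {y : ℝ≥0∞} (hy : y < maxFn f x) :
    ∀ᶠ n in atTop, y < ENNReal.ofReal (P.supFn (family P δ n) δ x) := by
  obtain ⟨c, r, hx, h⟩ := lt_maxFn hf hy
  have hyf : y ≠ ∞ := ne_top_of_lt h
  rw [ENNReal.lt_ofReal_iff_toReal_lt hyf] at h
  obtain ⟨j, hxj, hj⟩ := exists_seedBall hf.abs (fun _ => abs_nonneg _)
    (Metric.pos_of_mem_ball hx) hx h
  filter_upwards [eventually_ge_atTop j] with n hn
  rw [ENNReal.lt_ofReal_iff_toReal_lt hyf]
  exact (P.lt_supFn ENNReal.toReal_nonneg).2 (Or.inr ⟨_, seed_mem_family P δ hn, hxj, hj⟩)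

theorem tendsto_supFn (x : Pt d) :
    Tendsto (fun n => ENNReal.ofReal (P.supFn (family P δ n) δ x)) atTop (𝓝 (maxFn f x)) :=
  tendsto_order.2 ⟨fun _ hy => eventually_lt_supFn hf P hδ x hy,
    fun _ hy => Eventually.of_forall fun n => lt_of_le_of_lt (supFn_le_maxFn hf P hδ n x) hy⟩

end approx

theorem maxFn_measurable {f : Pt d → ℝ} (hf : Integrable f) (P : Chain (fun y => |f y|)) :
    Measurable (maxFn f) :=
  ENNReal.measurable_of_tendsto' atTop
    (fun n => (P.measurable_supFn hf.abs (fun _ => abs_nonneg _) one_pos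
      (family P 1 n)).ennreal_ofReal)
    (tendsto_pi_nhds.2 fun x => tendsto_supFn hf P one_pos x)

theorem lintegral_maxFn_lt_top {f : Pt d → ℝ} (hf : Integrable f) (hd : 1 ≤ d)
    (P : Chain (fun y => |f y|)) (hP : tail P 0 ≠ ∞) {S : Set (Pt d)} (hS : volume S ≠ ∞) :
    ∫⁻ x in S, maxFn f x < ∞ := by
  have hδ : (0 : ℝ) < 2 ^ (0 : ℤ) := by norm_num
  have hm : ∀ n, Measurable fun x =>
      ENNReal.ofReal (P.supFn (family P ((2 : ℝ) ^ (0 : ℤ)) n) ((2 : ℝ) ^ (0 : ℤ)) x) := fun n =>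
    (P.measurable_supFn hf.abs (fun _ => abs_nonneg _) hδ _).ennreal_ofReal
  calc ∫⁻ x in S, maxFn f x
      = ∫⁻ x in S, liminf (fun n =>
          ENNReal.ofReal (P.supFn (family P ((2 : ℝ) ^ (0 : ℤ)) n) ((2 : ℝ) ^ (0 : ℤ)) x)) atTop :=
        lintegral_congr fun x => (tendsto_supFn hf P hδ x).liminf_eq.symm
    _ ≤ _ := lintegral_liminf_le hm
    _ ≤ ENNReal.ofReal ((∫ y, |f y|) / unitVol d) * volume S
          + ENNReal.ofReal (2 * 3 ^ d * unitVol d) * tail P 0 :=
        liminf_le_of_frequently_le' (Frequently.of_forall fun n =>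
          P.lintegral_supFn_le hf.abs (fun _ => abs_nonneg _) hd (family_closed P _ n) S)
    _ < ∞ := ENNReal.add_lt_top.2 ⟨ENNReal.mul_lt_top ENNReal.ofReal_lt_top hS.lt_top,
        ENNReal.mul_lt_top ENNReal.ofReal_lt_top hP.lt_top⟩

theorem shift_maxFn_le {f : Pt d → ℝ} (hf : Integrable f) (P : Chain (fun y => |f y|)) (K : ℤ)
    (hfin : ∀ᵐ x : Pt d, maxFn f x < ∞) (v : Pt d) {φ : Pt d → ℝ}
    (hφ : Integrable φ) (hφm : Measurable φ) {M : ℝ} (hM : ∀ x, |φ x| ≤ M) :
    ∫⁻ x, ENNReal.ofReal (|φ x| * |(maxFn f (x + v)).toReal - (maxFn f x).toReal|)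
      ≤ ENNReal.ofReal (d * (∫ z, |f z|) / (((2 : ℝ) ^ K) ^ (d + 1) * unitVol d) * ‖v‖ * ∫ x, |φ x|)
        + ENNReal.ofReal (shiftConst d * ‖v‖ * M) * tail P K := by
  set δ := (2 : ℝ) ^ K
  have hδ : 0 < δ := zpow_pos two_pos _
  set U := fun n => P.supFn (family P δ n) δ
  have hU : ∀ n, Measurable (U n) := fun n => P.measurable_supFn hf.abs (fun _ => abs_nonneg _) hδ _
  have hlim : ∀ z, maxFn f z < ∞ → Tendsto (fun n => U n z) atTop (𝓝 (maxFn f z).toReal) :=
    fun z hz => ((ENNReal.tendsto_toReal hz.ne).comp (tendsto_supFn hf P hδ z)).congr fun n =>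
      ENNReal.toReal_ofReal (P.supFn_nonneg hf.abs (fun _ => abs_nonneg _) hδ _ z)
  have hfin' : ∀ᵐ x : Pt d, maxFn f (x + v) < ∞ :=
    (quasiMeasurePreserving_add_right volume v).ae hfin
  calc ∫⁻ x, ENNReal.ofReal (|φ x| * |(maxFn f (x + v)).toReal - (maxFn f x).toReal|)
      = ∫⁻ x, liminf (fun n => ENNReal.ofReal (|φ x| * |U n (x + v) - U n x|)) atTop := by
        refine lintegral_congr_ae ?_
        filter_upwards [hfin, hfin'] with x h1 h2
        exact (ENNReal.tendsto_ofReal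
          (((hlim _ h2).sub (hlim _ h1)).abs.const_mul |φ x|)).liminf_eq.symm
    _ ≤ _ := lintegral_liminf_le fun n => (hφm.abs.mul
        (((hU n).comp (measurable_add_const v)).sub (hU n)).abs).ennreal_ofReal
    _ ≤ _ := liminf_le_of_frequently_le' (Frequently.of_forall fun n =>
        P.lintegral_shift_le hf.abs (fun _ => abs_nonneg _) K (family_closed P δ n) v hφ hφm hM)

theorem deriv_maxFn_le {f : Pt d → ℝ} (hf : Integrable f) (P : Chain (fun y => |f y|)) (K : ℤ)
    (hK : tail P K ≠ ∞) (hfin : ∀ᵐ x : Pt d, maxFn f x < ∞)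
    (hli : LocallyIntegrable fun x => (maxFn f x).toReal) {e : Pt d} (he : ‖e‖ = 1)
    {φ : Pt d → ℝ} {M : ℝ} (hφ : ContDiff ℝ (⊤ : ℕ∞) φ) (hs : HasCompactSupport φ)
    (hM : ∀ x, |φ x| ≤ M) :
    |∫ x, (maxFn f x).toReal * fderiv ℝ φ x e|
      ≤ d * (∫ z, |f z|) / (((2 : ℝ) ^ K) ^ (d + 1) * unitVol d) * (∫ x, |φ x|)
        + shiftConst d * M * (tail P K).toReal := by
  set U := fun x => (maxFn f x).toReal with hU
  set L := d * (∫ z, |f z|) / (((2 : ℝ) ^ K) ^ (d + 1) * unitVol d)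
  have hv := unitVol_pos d
  have hM0 : 0 ≤ M := (abs_nonneg (φ 0)).trans (hM 0)
  have hL : 0 ≤ L := div_nonneg
    (mul_nonneg (Nat.cast_nonneg d) (integral_nonneg fun _ => abs_nonneg _)) (by positivity)
  have hSC : 0 ≤ shiftConst d := by unfold shiftConst; positivity
  have hφc : Continuous φ := hφ.continuous
  set h : ℕ → ℝ := fun m => 1 / ((m : ℝ) + 1) with hh
  have hh0 : ∀ m, 0 < h m := fun m => by positivity
  have hh1 : ∀ m, h m ≤ 1 := fun m => by
    rw [hh, div_le_one (by positivity)]; linarith [(Nat.cast_nonneg m : (0 : ℝ) ≤ m)]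
  have hUm : Measurable U := (maxFn_measurable hf P).ennreal_toReal
  have hmul : ∀ ψ : Pt d → ℝ, Continuous ψ → HasCompactSupport ψ →
      Integrable fun x => U x * ψ x := fun ψ hψ hψs => by
    simpa [mul_comm] using hli.integrable_smul_left_of_hasCompactSupport hψ hψs
  -- one difference quotient
  have key : ∀ m, |∫ x, U x * ((φ (x + h m • e) - φ x) / h m)|
      ≤ L * (∫ x, |φ x|) + shiftConst d * M * (tail P K).toReal := by
    intro m
    set v := h m • e
    have hsh : HasCompactSupport fun x => φ (x + v) := hs.comp_homeomorph (Homeomorph.addRight v)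
    have i1 : Integrable fun x => U x * φ (x + v) := hmul _ (by fun_prop) hsh
    have i2 : Integrable fun x => U x * φ x := hmul _ hφc hs
    have i3 : Integrable fun x => U (x + -v) * φ x := by
      have := i1.comp_add_right (-v)
      simpa [add_assoc] using this
    have e1 : ∫ x, U x * φ (x + v) = ∫ x, U (x + -v) * φ x := by
      rw [← integral_add_right_eq_self (fun x => U x * φ (x + v)) (-v)]
      simp [add_assoc]
    have e2 : ∫ x, U x * ((φ (x + v) - φ x) / h m) = (∫ x, φ x * (U (x + -v) - U x)) / h m := by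
      simp_rw [← mul_div_assoc, integral_div, mul_sub]
      rw [integral_sub i1 i2, e1, integral_sub
        (by simpa [mul_comm] using i3) (by simpa [mul_comm] using i2)]
      simp [mul_comm]
    have hb := shift_maxFn_le hf P K hfin (-v) (hφc.integrable_of_hasCompactSupport hs)
      hφc.measurable hM
    have hnv : ‖-v‖ = h m := by simp [v, norm_smul, he, abs_of_pos (hh0 m)]
    rw [hnv] at hb
    rw [e2, abs_div, abs_of_pos (hh0 m), div_le_iff₀ (hh0 m)]
    have hnn : 0 ≤ L * (∫ x, |φ x|) + shiftConst d * M * (tail P K).toReal :=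
      add_nonneg (mul_nonneg hL (integral_nonneg fun _ => abs_nonneg _))
        (mul_nonneg (mul_nonneg hSC hM0) ENNReal.toReal_nonneg)
    refine abs_integral_le_integral_abs.trans
      ((ENNReal.ofReal_le_ofReal_iff (mul_nonneg hnn (hh0 m).le)).1 ?_)
    have i4 : Integrable fun x => φ x * (U (x + -v) - U x) := by
      simp_rw [mul_sub]
      exact (by simpa [mul_comm] using i3 : Integrable fun x => φ x * U (x + -v)).sub
        (by simpa [mul_comm] using i2)
    rw [ofReal_integral_eq_lintegral_ofReal i4.abs (Eventually.of_forall fun _ => abs_nonneg _)]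
    simp_rw [abs_mul]
    refine hb.trans_eq ?_
    rw [← ENNReal.ofReal_toReal hK, ← ENNReal.ofReal_mul (by positivity),
      ← ENNReal.ofReal_add (mul_nonneg (mul_nonneg hL (hh0 m).le)
        (integral_nonneg fun _ => abs_nonneg _)) (mul_nonneg (by positivity) ENNReal.toReal_nonneg),
      ENNReal.toReal_ofReal ENNReal.toReal_nonneg]
    congr 1; ring
  -- limit of the quotients
  obtain ⟨B, hB⟩ := (hφ.continuous_fderiv (by simp)).bounded_above_of_compact_support
    (hs.fderiv ℝ)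
  set S := Metric.cthickening 1 (tsupport φ)
  have hS : IsCompact S := hs.isCompact.cthickening
  have hlip : ∀ x y, |φ y - φ x| ≤ B * ‖y - x‖ := fun x y => by
    simpa [Real.norm_eq_abs] using convex_univ.norm_image_sub_le_of_norm_fderiv_le
      (𝕜 := ℝ) (fun z _ => (hφ.differentiable (by simp) z)) (fun z _ => hB z) (mem_univ x) (mem_univ y)
  have hlim : Tendsto (fun m => ∫ x, U x * ((φ (x + h m • e) - φ x) / h m)) atTop
      (𝓝 (∫ x, U x * fderiv ℝ φ x e)) := by
    refine tendsto_integral_of_dominated_convergence (fun x => S.indicator (fun x => B * ‖U x‖) x)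
      (fun m => (hUm.mul (((hφc.comp (continuous_add_const _)).sub hφc).div_const _
        ).measurable).aestronglyMeasurable)
      ((integrable_indicator_iff hS.measurableSet).2
        ((hli.integrableOn_isCompact hS).norm.const_mul B))
      (fun m => Eventually.of_forall fun x => ?_) (Eventually.of_forall fun x => ?_)
    · by_cases hx : x ∈ S
      · rw [indicator_of_mem hx, norm_mul, mul_comm B]
        refine mul_le_mul_of_nonneg_left ?_ (norm_nonneg _)
        rw [Real.norm_eq_abs, abs_div, abs_of_pos (hh0 m), div_le_iff₀ (hh0 m)]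
        refine (hlip x _).trans_eq ?_
        simp [norm_smul, he, abs_of_pos (hh0 m)]
      · rw [indicator_of_notMem hx]
        have h1 : x ∉ tsupport φ := fun h => hx (Metric.self_subset_cthickening _ h)
        have h2 : x + h m • e ∉ tsupport φ := fun h' => hx
          (Metric.mem_cthickening_of_dist_le x (x + h m • e) 1 _ h'
            (by simpa [dist_eq_norm, norm_smul, he, abs_of_pos (hh0 m)] using hh1 m))
        simp [image_eq_zero_of_notMem_tsupport h1, image_eq_zero_of_notMem_tsupport h2]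
    · refine Tendsto.const_mul (U x) ?_
      have hd := ((hφ.differentiable (by simp) x).hasFDerivAt.hasLineDerivAt e).tendsto_slope_zero
      refine ((hd.comp (tendsto_nhdsWithin_iff.2 ⟨tendsto_one_div_add_atTop_nhds_zero_nat,
        Eventually.of_forall fun m => (hh0 m).ne'⟩)).congr fun m => ?_)
      simp [hh, div_eq_inv_mul, smul_eq_mul]
  exact le_of_tendsto hlim.abs (Eventually.of_forall key)

theorem exists_class (c : Pt d) {ρ : ℝ} (hρ : 0 < ρ) :
    ∃ q : ℤ × (Fin d → ℤ), InClass q.1 q.2 c ρ := by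
  obtain ⟨k, hk1, hk2⟩ := exists_mem_Ico_zpow hρ (one_lt_two : (1 : ℝ) < 2)
  set s := tau d * (2 : ℝ) ^ k
  have hs : 0 < s := by unfold s tau; positivity
  refine ⟨(k, fun i => ⌊c i / s⌋), hk1, by rwa [zpow_add_one₀ two_ne_zero, mul_comm] at hk2, ?_⟩
  rw [show ((d : ℝ) + 1) * tau d * (2 : ℝ) ^ k = ((d : ℝ) + 1) * s by rw [mul_assoc],
    EuclideanSpace.norm_eq, Real.sqrt_le_iff]
  refine ⟨by positivity, ?_⟩
  calc ∑ i, ‖(c - classPt k fun i => ⌊c i / s⌋) i‖ ^ 2 ≤ ∑ _i : Fin d, s ^ 2 := by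
        refine Finset.sum_le_sum fun i _ => pow_le_pow_left₀ (norm_nonneg _) ?_ 2
        have h1 := mul_le_mul_of_nonneg_right (Int.floor_le (c i / s)) hs.le
        have h2 := mul_le_mul_of_nonneg_right (Int.lt_floor_add_one (c i / s)).le hs.le
        rw [div_mul_cancel₀ _ hs.ne'] at h1 h2
        simp only [classPt, gridPt, PiLp.sub_apply, Real.norm_eq_abs]
        rw [abs_le]; constructor <;> nlinarith
    _ ≤ (((d : ℝ) + 1) * s) ^ 2 := by
        simp only [Finset.sum_const, Finset.card_univ, Fintype.card_fin, nsmul_eq_mul, mul_pow]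
        gcongr
        nlinarith [(Nat.cast_nonneg d : (0 : ℝ) ≤ d)]

/-- a chain and its total charge from the local inequality and the layer budget. -/
theorem exists_chain (hL : LocalIneq) (hB : BudgetLayers) (hd : 2 ≤ d) :
    ∃ C : ℝ, 0 < C ∧ ∀ (f : Pt d → ℝ) (G : Fin d → Pt d → ℝ), Integrable f → Measurable f →
      (∀ i, Integrable (G i) ∧ IsWeakPartial f (G i) i) →
      ∃ P : Chain (fun y => |f y|),
        ∑' q : ℤ × (Fin d → ℤ), ENNReal.ofReal (((2 : ℝ) ^ q.1) ^ (d - 1) * P.w q)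
          ≤ ENNReal.ofReal (C * ∫ x, gradNorm G x) := by
  obtain ⟨C, W, hC, hW1, hW2⟩ := hL d hd
  refine ⟨C, hC, fun f G hf hfm hG => ?_⟩
  set WW : ℤ × (Fin d → ℤ) → ℝ≥0∞ := fun q => ∫⁻ s in Ioi (0 : ℝ), W {x | s < |f x|} q.1 q.2
  set wt' : ℤ × (Fin d → ℤ) → ℝ≥0∞ := fun q => ENNReal.ofReal (((2 : ℝ) ^ q.1) ^ (d - 1))
  have hgn : Integrable fun x => gradNorm G x := by
    refine Integrable.mono' (integrable_finsetSum Finset.univ fun i _ => (hG i).1.norm) ?_
      (Eventually.of_forall fun x => ?_)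
    · exact Real.continuous_sqrt.comp_aestronglyMeasurable
        (Finset.aestronglyMeasurable_fun_sum _ fun i _ => ((hG i).1.1.aemeasurable.pow_const 2
          ).aestronglyMeasurable)
    · rw [gradNorm, Real.norm_of_nonneg (Real.sqrt_nonneg _), Real.sqrt_le_iff]
      refine ⟨Finset.sum_nonneg fun i _ => norm_nonneg _, ?_⟩
      simp_rw [Real.norm_eq_abs, ← sq_abs (G _ x)]
      exact Finset.sum_sq_le_sq_sum_of_nonneg fun i _ => abs_nonneg _
  have hfinA : ∀ s : ℝ, 0 < s → volume {x | s < |f x|} < ∞ := fun s hs => by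
    refine lt_of_le_of_lt (measure_mono fun x hx => ?_) (hf.norm.measure_ge_lt_top hs)
    simpa [Real.norm_eq_abs] using le_of_lt hx
  have htot : ∑' q, wt' q * WW q ≤ ENNReal.ofReal (C * ∫ x, gradNorm G x) := by
    have hsum : ∀ s : Finset (ℤ × (Fin d → ℤ)), ∑ q ∈ s, wt' q * WW q
        ≤ ∫⁻ t in Ioi (0 : ℝ), ∑ q ∈ s, wt' q * W {x | t < |f x|} q.1 q.2 := fun s => by
      classical
      induction s using Finset.induction with
      | empty => simp
      | insert a s ha ih =>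
        simp only [Finset.sum_insert ha]
        exact le_trans (add_le_add (lintegral_const_mul_le _ _) ih) (le_lintegral_add _ _)
    rw [ENNReal.tsum_eq_iSup_sum]
    refine iSup_le fun s => (hsum s).trans ?_
    calc ∫⁻ t in Ioi (0 : ℝ), ∑ q ∈ s, wt' q * W {x | t < |f x|} q.1 q.2
        ≤ ∫⁻ t in Ioi (0 : ℝ), ENNReal.ofReal C * gper {x | t < |f x|} := by
          refine setLIntegral_mono' measurableSet_Ioi fun t ht => ?_
          refine le_trans (ENNReal.sum_le_tsum _) ?_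
          rw [ENNReal.tsum_prod']
          exact hW1 _ (measurableSet_lt measurable_const hfm.abs) (hfinA t ht)
      _ = ENNReal.ofReal C * ∫⁻ t in Ioi (0 : ℝ), gper {x | t < |f x|} :=
          lintegral_const_mul' _ _ ENNReal.ofReal_ne_top
      _ ≤ ENNReal.ofReal C * ∫⁻ x, ENNReal.ofReal (gradNorm G x) := by
          gcongr
          exact hB d f G hf hfm hG
      _ = _ := by
          rw [← ofReal_integral_eq_lintegral_ofReal hgn
            (Eventually.of_forall fun x => Real.sqrt_nonneg _), ← ENNReal.ofReal_mul hC.le]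
  have hWWfin : ∀ q, WW q ≠ ∞ := fun q h => by
    have h1 : wt' q * WW q ≠ ∞ :=
      ne_top_of_le_ne_top ENNReal.ofReal_ne_top ((ENNReal.le_tsum q).trans htot)
    rw [h, ENNReal.mul_top (by simpa [wt'] using pow_pos (zpow_pos two_pos _) _)] at h1
    exact h1 rfl
  have hstep : ∀ b : Pt d × ℝ, ∃ (q : ℤ × (Fin d → ℤ)) (b' : Pt d × ℝ), 0 < b.2 →
      InClass q.1 q.2 b.1 b.2 ∧ Metric.ball b.1 b.2 ⊆ Metric.ball b'.1 b'.2 ∧ 2 * b.2 ≤ b'.2 ∧
      (bavg (fun y => |f y|) b'.1 b'.2 < bavg (fun y => |f y|) b.1 b.2 →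
        ENNReal.ofReal (|bavg (fun y => |f y|) b.1 b.2
              - bavg (fun y => |f y|) (classPt q.1 q.2) ((2 : ℝ) ^ q.1 / 4)|
            + |bavg (fun y => |f y|) b'.1 b'.2
              - bavg (fun y => |f y|) (classPt q.1 q.2) ((2 : ℝ) ^ q.1 / 4)|) ≤ WW q) := by
    intro b
    by_cases hb : 0 < b.2
    · obtain ⟨q, hq⟩ := exists_class b.1 hb
      obtain ⟨c', ρ', h1, h2, h3⟩ :=
        hW2 (fun y => |f y|) hfm.abs hf.abs (fun _ => abs_nonneg _) q.1 q.2 b.1 b.2 hq
      exact ⟨q, (c', ρ'), fun _ => ⟨hq, h1, h2, h3⟩⟩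
    · exact ⟨(0, 0), b, fun h => absurd h hb⟩
  choose cls nx hnx using hstep
  refine ⟨{
    nx := nx
    cls := cls
    mid := fun q => bavg (fun y => |f y|) (classPt q.1 q.2) ((2 : ℝ) ^ q.1 / 4)
    w := fun q => (WW q).toReal
    w_nonneg := fun q => ENNReal.toReal_nonneg
    sub := fun b hb => (hnx b hb).2.1
    dbl := fun b hb => (hnx b hb).2.2.1
    inClass := fun b hb => (hnx b hb).1
    osc := fun b hb hlt t ht => by
      have h := (ENNReal.ofReal_le_iff_le_toReal (hWWfin _)).1 ((hnx b hb).2.2.2 hlt)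
      set a := bavg (fun y => |f y|) b.1 b.2
      set a' := bavg (fun y => |f y|) (nx b).1 (nx b).2
      set m := bavg (fun y => |f y|) (classPt (cls b).1 (cls b).2) ((2 : ℝ) ^ (cls b).1 / 4)
      have := le_abs_self (a - m)
      have := neg_abs_le (a' - m)
      have := abs_nonneg (a - m)
      have := abs_nonneg (a' - m)
      exact ⟨by linarith [ht.1], by linarith [ht.2]⟩ }, ?_⟩
  refine le_of_eq_of_le (tsum_congr fun q => ?_) htot
  rw [ENNReal.ofReal_mul (by positivity), ENNReal.ofReal_toReal (hWWfin q)]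

end BV

open BV in
/-- the local inequality and the layer budget give the two functional bounds. -/
theorem maxBound (hL : LocalIneq) (hB : BudgetLayers) : MaxBound := by
  intro d hd
  obtain ⟨C, hC, hchain⟩ := exists_chain (d := d) hL hB hd
  refine ⟨shiftConst d * C, fun f G hf hfm hG => ?_⟩
  obtain ⟨P, hP⟩ := hchain f G hf hfm hG
  have hv := unitVol_pos d
  have hSC : 0 ≤ shiftConst d := by unfold shiftConst; positivity
  have hI : 0 ≤ ∫ x, gradNorm G x := integral_nonneg fun x => Real.sqrt_nonneg _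
  set tot := ∑' q : ℤ × (Fin d → ℤ), ENNReal.ofReal (((2 : ℝ) ^ q.1) ^ (d - 1) * P.w q) with htotdef
  have htot : tot ≠ ∞ := ne_top_of_le_ne_top ENNReal.ofReal_ne_top hP
  have htl : ∀ K, tail P K ≤ tot := fun K => ENNReal.tsum_le_tsum fun q => by
    split_ifs
    · exact le_rfl
    · exact zero_le
  have htlfin : ∀ K, tail P K ≠ ∞ := fun K => ne_top_of_le_ne_top htot (htl K)
  have hfinS : ∀ R : ℝ, ∫⁻ x in Metric.closedBall (0 : Pt d) R, maxFn f x < ∞ := fun R =>
    lintegral_maxFn_lt_top hf (by omega) P (htlfin 0) measure_closedBall_lt_top.ne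
  have hmax := maxFn_measurable hf P
  have hfin : ∀ᵐ x : Pt d, maxFn f x < ∞ := by
    have h : ∀ᵐ x ∂volume.restrict (⋃ k : ℕ, Metric.closedBall (0 : Pt d) k), maxFn f x < ∞ :=
      (ae_restrict_iUnion_iff _ _).2 fun k => ae_lt_top hmax (hfinS k).ne
    rwa [Metric.iUnion_closedBall_nat, Measure.restrict_univ] at h
  have hli : LocallyIntegrable fun x => (maxFn f x).toReal := by
    refine locallyIntegrable_iff.2 fun S hS => ?_
    obtain ⟨R, hR⟩ := hS.isBounded.subset_closedBall 0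
    exact IntegrableOn.mono_set
      (integrable_toReal_of_lintegral_ne_top hmax.aemeasurable (hfinS R).ne) hR
  refine ⟨hfin, hli, fun i => ⟨fun φ M hφ hs hM => ?_, fun η hη => ?_⟩⟩
  · have hM0 : 0 ≤ M := (abs_nonneg (φ 0)).trans (hM 0)
    have hb : ∀ n : ℕ, |∫ x, (maxFn f x).toReal * fderiv ℝ φ x (EuclideanSpace.single i (1 : ℝ))|
        ≤ d * (∫ z, |f z|) / unitVol d * (∫ x, |φ x|) * (1 / 2) ^ n
          + shiftConst d * C * M * ∫ x, gradNorm G x := fun n => by
      refine (deriv_maxFn_le hf P n (htlfin _) hfin hli (by simp) hφ hs hM).trans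
        (add_le_add ?_ ?_)
      · have hA : (0 : ℝ) ≤ d * (∫ z, |f z|) :=
          mul_nonneg (Nat.cast_nonneg _) (integral_nonneg fun _ => abs_nonneg _)
        have hB' : 0 ≤ ∫ x, |φ x| := integral_nonneg fun _ => abs_nonneg _
        rw [zpow_natCast, one_div, inv_pow, ← div_eq_mul_inv]
        rw [div_mul_eq_mul_div, div_mul_eq_mul_div, div_div, mul_comm (unitVol d)]
        gcongr
        calc (2 : ℝ) ^ n = ((2 : ℝ) ^ n) ^ 1 := (pow_one _).symm
          _ ≤ ((2 : ℝ) ^ n) ^ (d + 1) := pow_le_pow_right₀ (one_le_pow₀ one_le_two) (by omega)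
      · have hle := ENNReal.toReal_mono ENNReal.ofReal_ne_top ((htl n).trans hP)
        rw [ENNReal.toReal_ofReal (mul_nonneg hC.le hI)] at hle
        calc shiftConst d * M * (tail P n).toReal
            ≤ shiftConst d * M * (C * ∫ x, gradNorm G x) :=
              mul_le_mul_of_nonneg_left hle (mul_nonneg hSC hM0)
          _ = _ := by ring
    have hl : Tendsto (fun n : ℕ => d * (∫ z, |f z|) / unitVol d * (∫ x, |φ x|) * (1 / 2 : ℝ) ^ n
        + shiftConst d * C * M * ∫ x, gradNorm G x) atTop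
        (𝓝 (shiftConst d * C * M * ∫ x, gradNorm G x)) := by
      simpa using ((tendsto_pow_atTop_nhds_zero_of_lt_one (by norm_num : (0 : ℝ) ≤ 1 / 2)
        (by norm_num)).const_mul (d * (∫ z, |f z|) / unitVol d * ∫ x, |φ x|)).add_const
          (shiftConst d * C * M * ∫ x, gradNorm G x)
    exact ge_of_tendsto hl (Eventually.of_forall hb)
  · obtain ⟨s, hs'⟩ := ((ENNReal.tendsto_tsum_compl_atTop_zero htot).eventually_le_const
      (show (0 : ℝ≥0∞) < ENNReal.ofReal (η / (shiftConst d + 1)) by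
        rw [ENNReal.ofReal_pos]; positivity)).exists
    obtain ⟨K, hK⟩ := (s.image Prod.fst).bddBelow
    have htail : (tail P K).toReal ≤ η / (shiftConst d + 1) := by
      refine ENNReal.toReal_le_of_le_ofReal (by positivity) (le_trans ?_ hs')
      refine le_trans ?_ (le_of_eq (tsum_subtype {q | q ∉ s} fun q : ℤ × (Fin d → ℤ) =>
        ENNReal.ofReal (((2 : ℝ) ^ q.1) ^ (d - 1) * P.w q)).symm)
      refine ENNReal.tsum_le_tsum fun q => ?_
      split_ifs with h
      · rw [indicator_of_mem]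
        exact fun hq => absurd (hK (Finset.mem_image_of_mem _ hq)) (not_le.2 h)
      · exact zero_le
    refine ⟨d * (∫ z, |f z|) / (((2 : ℝ) ^ K) ^ (d + 1) * unitVol d), fun φ M hφ hs hM => ?_⟩
    have hM0 : 0 ≤ M := (abs_nonneg (φ 0)).trans (hM 0)
    refine (deriv_maxFn_le hf P K (htlfin _) hfin hli (by simp) hφ hs hM).trans
      (add_le_add le_rfl ?_)
    calc shiftConst d * M * (tail P K).toReal ≤ (shiftConst d + 1) * M * (η / (shiftConst d + 1)) :=
          mul_le_mul (mul_le_mul_of_nonneg_right (by linarith) hM0) htail ENNReal.toReal_nonneg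
            (by positivity)
      _ = η * M := by field_simp

end Vale.Agent.P137
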