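import Vale.Agent.P137.Gauss

/-! # P137, module B: budgets

`budgetLayers`: the Gaussian perimeters of the layers of a Sobolev function integrate to at most
its total variation (mollify, replace the indicator by a ramp, integrate by parts, Fatou).
`excessSum`: the excesses at relative level `2 ^ (-j)` over all scales and grid points sum to at
most `C (j + 1)` times the Gaussian perimeter (telescoping). -/

namespace Vale.Agent.P137

open MeasureTheory Set Filter Topology Real
open scoped RealInnerProductSpace ENNReal NNReal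

variable {d : ℕ}

/-- The gradient of a tuple of partial derivatives as a vector. -/
noncomputable def gradVec (G : Fin d → Pt d → ℝ) (x : Pt d) : Pt d :=
  WithLp.toLp 2 fun i => G i x

lemma norm_gradVec (G : Fin d → Pt d → ℝ) (x : Pt d) : ‖gradVec G x‖ = gradNorm G x := by
  rw [EuclideanSpace.norm_eq, gradNorm]
  simp [gradVec]

lemma integrable_gradVec {G : Fin d → Pt d → ℝ} (hG : ∀ i, Integrable (G i)) :
    Integrable (gradVec G) := by
  have h : Integrable (fun x => ∑ i, G i x • EuclideanSpace.single i (1 : ℝ) : Pt d → Pt d) :=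
    integrable_finsetSum _ fun i _ => (hG i).smul_const _
  refine h.congr (Eventually.of_forall fun x => ?_)
  simpa [gradVec, EuclideanSpace.basisFun_apply] using
    (EuclideanSpace.basisFun (Fin d) ℝ).sum_repr (gradVec G x)

lemma weakPartial_dir {f : Pt d → ℝ} {G : Fin d → Pt d → ℝ} (hf : Integrable f)
    (hG : ∀ i, Integrable (G i) ∧ IsWeakPartial f (G i) i) (ψ : Pt d → ℝ)
    (hψ : ContDiff ℝ (⊤ : ℕ∞) ψ) (hψc : HasCompactSupport ψ) (u : Pt d) :
    ∫ y, f y * fderiv ℝ ψ y u = -∫ y, ψ y * ⟪gradVec G y, u⟫ := by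
  obtain ⟨B, hB⟩ := (hψc.fderiv ℝ).exists_bound_of_continuous (hψ.continuous_fderiv (by simp))
  obtain ⟨B', hB'⟩ := hψc.exists_bound_of_continuous hψ.continuous
  have hu : u = ∑ i, u i • EuclideanSpace.single i (1 : ℝ) := by
    simpa [EuclideanSpace.basisFun_apply] using
      ((EuclideanSpace.basisFun (Fin d) ℝ).sum_repr u).symm
  have e1 : ∀ y, f y * fderiv ℝ ψ y u =
      ∑ i, u i * (f y * fderiv ℝ ψ y (EuclideanSpace.single i (1 : ℝ))) := by
    intro y
    conv_lhs => rw [hu]
    rw [map_sum, Finset.mul_sum]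
    exact Finset.sum_congr rfl fun i _ => by rw [map_smul, smul_eq_mul]; ring
  have e2 : ∀ y, ψ y * ⟪gradVec G y, u⟫ = ∑ i, u i * (G i y * ψ y) := by
    intro y
    rw [PiLp.inner_apply, Finset.mul_sum]
    refine Finset.sum_congr rfl fun i _ => ?_
    simp [gradVec]
    ring
  simp_rw [e1, e2]
  rw [integral_finsetSum, integral_finsetSum, ← Finset.sum_neg_distrib]
  · refine Finset.sum_congr rfl fun i _ => ?_
    rw [integral_const_mul, integral_const_mul, (hG i).2 ψ hψ hψc, mul_neg]
  · exact fun i _ => ((hG i).1.mul_bdd hψ.continuous.aestronglyMeasurable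
      (Eventually.of_forall hB')).const_mul _
  · intro i _
    refine (hf.mul_bdd (c := B * ‖EuclideanSpace.single i (1 : ℝ)‖)
      ((hψ.continuous_fderiv (by simp)).clm_apply continuous_const).aestronglyMeasurable
      (Eventually.of_forall fun y => ?_)).const_mul _
    exact ((fderiv ℝ ψ y).le_opNorm _).trans (mul_le_mul_of_nonneg_right (hB y) (norm_nonneg _))

lemma fderiv_gauss {l : ℝ} (v u : Pt d) : fderiv ℝ (gauss l) v u = ⟪kvec l v, u⟫ := by
  have h := ((((hasStrictFDerivAt_norm_sq v).hasFDerivAt.neg).mul_const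
    (2 * l ^ 2)⁻¹).exp.const_mul (((√(2 * π) * l) ^ d)⁻¹))
  have e : gauss l = fun v : Pt d =>
      ((√(2 * π) * l) ^ d)⁻¹ * Real.exp ((-fun x : Pt d => ‖x‖ ^ 2) v * (2 * l ^ 2)⁻¹) := by
    funext w
    simp [gauss, div_eq_mul_inv]
  rw [e, h.fderiv, kvec, gauss, inner_smul_left]
  simp [div_eq_mul_inv]
  ring

lemma differentiable_gauss (l : ℝ) : Differentiable ℝ (fun v : Pt d => gauss l v) := by
  unfold gauss
  have h : Differentiable ℝ (fun v : Pt d => -‖v‖ ^ 2 / (2 * l ^ 2)) := by
    have h0 : Differentiable ℝ (fun v : Pt d => ‖v‖ ^ 2) :=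
      (differentiable_id (𝕜 := ℝ) (E := Pt d)).norm_sq ℝ
    fun_prop
  exact h.exp.const_mul _

lemma fderiv_gauss_sub {l : ℝ} (x y u : Pt d) :
    fderiv ℝ (fun y => gauss l (x - y)) y u = -⟪kvec l (x - y), u⟫ := by
  have h : HasFDerivAt (fun y => gauss l (x - y))
      ((fderiv ℝ (gauss l) (x - y)).comp (-ContinuousLinearMap.id ℝ (Pt d))) y :=
    ((differentiable_gauss l) (x - y)).hasFDerivAt.comp y ((hasFDerivAt_id y).const_sub x)
  rw [h.fderiv]
  simp [fderiv_gauss]

/-! ## the ramp -/

lemma deriv_smoothTransition_nonneg (t : ℝ) : 0 ≤ deriv Real.smoothTransition t :=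
  Real.smoothTransition.monotone.deriv_nonneg

lemma continuous_deriv_smoothTransition : Continuous (deriv Real.smoothTransition) :=
  (Real.smoothTransition.contDiff (n := 1)).continuous_deriv le_rfl

lemma hasDerivAt_smoothTransition (t : ℝ) :
    HasDerivAt Real.smoothTransition (deriv Real.smoothTransition t) t :=
  ((Real.smoothTransition.contDiff (n := 1)).differentiable (by simp) t).hasDerivAt

lemma exists_bound_deriv_smoothTransition :
    ∃ B : ℝ, 0 ≤ B ∧ ∀ t, deriv Real.smoothTransition t ≤ B := by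
  obtain ⟨B, hB⟩ := (isCompact_Icc (a := (-1 : ℝ)) (b := 2)).exists_bound_of_continuousOn
    continuous_deriv_smoothTransition.continuousOn
  refine ⟨max B 0, le_max_right _ _, fun t => ?_⟩
  rcases lt_or_ge t (-1) with ht | ht
  · have h : Real.smoothTransition =ᶠ[𝓝 t] fun _ => (0 : ℝ) := by
      filter_upwards [Iio_mem_nhds ht] with s hs
      exact Real.smoothTransition.zero_of_nonpos (by linarith [Set.mem_Iio.1 hs])
    rw [h.deriv_eq, deriv_const]
    exact le_max_right _ _
  rcases lt_or_ge 2 t with ht2 | ht2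
  · have h : Real.smoothTransition =ᶠ[𝓝 t] fun _ => (1 : ℝ) := by
      filter_upwards [Ioi_mem_nhds ht2] with s hs
      exact Real.smoothTransition.one_of_one_le (by linarith [Set.mem_Ioi.1 hs])
    rw [h.deriv_eq, deriv_const]
    exact le_max_right _ _
  · exact ((Real.le_norm_self _).trans (hB t ⟨ht, ht2⟩)).trans (le_max_left _ _)

/-- density in the level `s` of the two ramps. -/
noncomputable def rampDens (η s a : ℝ) : ℝ :=
  (deriv Real.smoothTransition ((a - s) / η) + deriv Real.smoothTransition ((-a - s) / η)) / η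

lemma rampDens_nonneg {η : ℝ} (hη : 0 < η) (s a : ℝ) : 0 ≤ rampDens η s a :=
  div_nonneg (add_nonneg (deriv_smoothTransition_nonneg _) (deriv_smoothTransition_nonneg _))
    hη.le

lemma lintegral_ramp_one {η : ℝ} (hη : 0 < η) (a : ℝ) :
    ∫⁻ s in Ioi (0 : ℝ), ENNReal.ofReal (deriv Real.smoothTransition ((a - s) / η) / η) =
      ENNReal.ofReal (Real.smoothTransition (a / η)) := by
  have hd : ∀ s ∈ Ici (0 : ℝ), HasDerivAt (fun s => -Real.smoothTransition ((a - s) / η))
      (deriv Real.smoothTransition ((a - s) / η) / η) s := by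
    intro s _
    have h1 := ((hasDerivAt_id s).const_sub a).div_const η
    refine (((hasDerivAt_smoothTransition _).comp s h1).neg).congr_deriv ?_
    simp [div_eq_mul_inv]
  have hpos : ∀ s ∈ Ioi (0 : ℝ), 0 ≤ deriv Real.smoothTransition ((a - s) / η) / η :=
    fun s _ => div_nonneg (deriv_smoothTransition_nonneg _) hη.le
  have hlim : Tendsto (fun s => -Real.smoothTransition ((a - s) / η)) atTop (𝓝 0) := by
    refine tendsto_const_nhds.congr' ?_
    filter_upwards [eventually_ge_atTop a] with s hs
    simp [Real.smoothTransition.zero_of_nonpos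
      (div_nonpos_of_nonpos_of_nonneg (sub_nonpos.2 hs) hη.le)]
  rw [← ofReal_integral_eq_lintegral_ofReal (integrableOn_Ioi_deriv_of_nonneg' hd hpos hlim)
    (by filter_upwards [ae_restrict_mem measurableSet_Ioi] with s hs using hpos s hs)]
  rw [integral_Ioi_of_hasDerivAt_of_nonneg' hd hpos hlim]
  simp

lemma lintegral_rampDens_le {η : ℝ} (hη : 0 < η) (a : ℝ) :
    ∫⁻ s in Ioi (0 : ℝ), ENNReal.ofReal (rampDens η s a) ≤ 1 := by
  have e : ∀ s, ENNReal.ofReal (rampDens η s a) =
      ENNReal.ofReal (deriv Real.smoothTransition ((a - s) / η) / η) +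
      ENNReal.ofReal (deriv Real.smoothTransition ((-a - s) / η) / η) := by
    intro s
    rw [← ENNReal.ofReal_add (div_nonneg (deriv_smoothTransition_nonneg _) hη.le)
      (div_nonneg (deriv_smoothTransition_nonneg _) hη.le), ← add_div]
    rfl
  simp_rw [e]
  have hm : Measurable fun s : ℝ =>
      ENNReal.ofReal (deriv Real.smoothTransition ((a - s) / η) / η) :=
    ENNReal.measurable_ofReal.comp ((continuous_deriv_smoothTransition.comp
      ((continuous_const.sub continuous_id).div_const η)).div_const η).measurable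
  rw [lintegral_add_left hm,
    lintegral_ramp_one hη a, lintegral_ramp_one hη (-a),
    ← ENNReal.ofReal_add (Real.smoothTransition.nonneg _) (Real.smoothTransition.nonneg _),
    ← ENNReal.ofReal_one]
  refine ENNReal.ofReal_le_ofReal ?_
  rcases le_total a 0 with ha | ha
  · rw [Real.smoothTransition.zero_of_nonpos (div_nonpos_of_nonpos_of_nonneg ha hη.le), zero_add]
    exact Real.smoothTransition.le_one _
  · rw [Real.smoothTransition.zero_of_nonpos
      (div_nonpos_of_nonpos_of_nonneg (neg_nonpos.2 ha) hη.le), add_zero]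
    exact Real.smoothTransition.le_one _

/-- the smoothed indicator of `{s < |h|}`. -/
noncomputable def rampInd (η s : ℝ) (h : Pt d → ℝ) (y : Pt d) : ℝ :=
  Real.smoothTransition ((h y - s) / η) + Real.smoothTransition ((-h y - s) / η)

lemma abs_rampInd_le (η s : ℝ) (h : Pt d → ℝ) (y : Pt d) : |rampInd η s h y| ≤ 2 := by
  unfold rampInd
  rw [abs_le]
  constructor <;>
    linarith [Real.smoothTransition.le_one ((h y - s) / η),
      Real.smoothTransition.le_one ((-h y - s) / η),
      Real.smoothTransition.nonneg ((h y - s) / η),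
      Real.smoothTransition.nonneg ((-h y - s) / η)]

lemma integrable_rampInd_smul {l : ℝ} (hl : 0 < l) (η s : ℝ) {h : Pt d → ℝ} (hh : Continuous h)
    (x : Pt d) : Integrable (fun y => rampInd η s h y • kvec l (x - y)) :=
  (integrable_kvec_sub hl x).bdd_smul 2
    (((Real.smoothTransition.continuous.comp ((hh.sub continuous_const).div_const η)).add
      (Real.smoothTransition.continuous.comp
        ((hh.neg.sub continuous_const).div_const η))).aestronglyMeasurable)
    (Eventually.of_forall (abs_rampInd_le η s h))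

/-- integration by parts for one ramp. -/
lemma norm_rampGrad_le {h : Pt d → ℝ} (hh : ContDiff ℝ 1 h)
    (hD : Integrable (fun y => ‖fderiv ℝ h y‖)) {η l : ℝ} (hη : 0 < η) (hl : 0 < l) (s : ℝ)
    (x : Pt d) :
    ‖∫ y, rampInd η s h y • kvec l (x - y)‖ ≤
      ∫ y, gauss l (x - y) * (rampDens η s (h y) * ‖fderiv ℝ h y‖) := by
  obtain ⟨B, hB0, hB⟩ := exists_bound_deriv_smoothTransition
  set v := ∫ y, rampInd η s h y • kvec l (x - y) with hv
  set Φ := ∫ y, gauss l (x - y) * (rampDens η s (h y) * ‖fderiv ℝ h y‖) with hΦ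
  have hΦ0 : 0 ≤ Φ := integral_nonneg fun y =>
    mul_nonneg (gauss_nonneg hl.le _) (mul_nonneg (rampDens_nonneg hη _ _) (norm_nonneg _))
  have hq : Continuous (fun y => rampDens η s (h y)) :=
    (((continuous_deriv_smoothTransition.comp
      ((hh.continuous.sub continuous_const).div_const η)).add
      (continuous_deriv_smoothTransition.comp
        ((hh.continuous.neg.sub continuous_const).div_const η))).div_const η)
  have hqD : Integrable (fun y => rampDens η s (h y) * ‖fderiv ℝ h y‖) := by
    refine hD.bdd_mul hq.aestronglyMeasurable (c := (B + B) / η) (Eventually.of_forall fun y => ?_)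
    rw [Real.norm_eq_abs, abs_of_nonneg (rampDens_nonneg hη _ _)]
    exact div_le_div_of_nonneg_right (add_le_add (hB _) (hB _)) hη.le
  have hg : Integrable (fun y => gauss l (x - y) * (rampDens η s (h y) * ‖fderiv ℝ h y‖)) := by
    refine hqD.bdd_mul ((continuous_gauss l).comp
      (continuous_const.sub continuous_id)).aestronglyMeasurable
      (c := ((√(2 * π) * l) ^ d)⁻¹) (Eventually.of_forall fun y => ?_)
    rw [Real.norm_eq_abs, abs_of_nonneg (gauss_nonneg hl.le _)]
    exact gauss_le_const hl _
  have hdiff : ∀ (t : ℝ → ℝ), ContDiff ℝ 1 t →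
      ∀ y, DifferentiableAt ℝ (fun y => t (h y)) y :=
    fun t ht y => (ht.comp hh).differentiable (by simp) y
  have hΘd : ∀ y, HasFDerivAt (rampInd η s h)
      (((deriv Real.smoothTransition ((h y - s) / η) -
        deriv Real.smoothTransition ((-h y - s) / η)) / η) • fderiv ℝ h y) y := by
    intro y
    have hd : HasFDerivAt h (fderiv ℝ h y) y := (hh.differentiable (by simp) y).hasFDerivAt
    have h1 := (hasDerivAt_smoothTransition ((h y - s) / η)).comp_hasFDerivAt y
      ((hd.sub_const s).mul_const η⁻¹)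
    have h2 := (hasDerivAt_smoothTransition ((-h y - s) / η)).comp_hasFDerivAt y
      ((hd.neg.sub_const s).mul_const η⁻¹)
    refine (h1.add h2).congr_fderiv ?_
    ext w
    simp [div_eq_mul_inv]
    ring
  have key : ∀ u : Pt d, ⟪v, u⟫ ≤ ‖u‖ * Φ := by
    intro u
    have hI : ∀ y, |fderiv ℝ (rampInd η s h) y u| ≤
        rampDens η s (h y) * ‖fderiv ℝ h y‖ * ‖u‖ := by
      intro y
      rw [(hΘd y).fderiv, smul_apply, smul_eq_mul, abs_mul, mul_assoc]
      refine mul_le_mul ?_ ((fderiv ℝ h y).le_opNorm u) (abs_nonneg _) (rampDens_nonneg hη _ _)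
      rw [abs_div, abs_of_pos hη]
      refine div_le_div_of_nonneg_right (abs_le.2 ⟨?_, ?_⟩) hη.le <;>
        linarith [deriv_smoothTransition_nonneg ((h y - s) / η),
          deriv_smoothTransition_nonneg ((-h y - s) / η)]
    have hcΘ : Continuous (rampInd η s h) :=
      continuous_iff_continuousAt.2 fun y => (hΘd y).continuousAt
    have hf'g : Integrable
        (fun y => fderiv ℝ (rampInd η s h) y u * gauss l (x - y)) := by
      refine Integrable.mono' (hg.mul_const ‖u‖) ?_ (Eventually.of_forall fun y => ?_)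
      · exact (((measurable_fderiv_apply_const ℝ (rampInd η s h) u)).mul
          ((continuous_gauss l).comp (continuous_const.sub continuous_id)).measurable
          ).aestronglyMeasurable
      · rw [norm_mul, Real.norm_eq_abs, Real.norm_eq_abs, abs_of_nonneg (gauss_nonneg hl.le _)]
        refine (mul_le_mul_of_nonneg_right (hI y) (gauss_nonneg hl.le _)).trans_eq ?_
        ring
    have hfg' : Integrable (fun y =>
        rampInd η s h y * fderiv ℝ (fun y => gauss l (x - y)) y u) := by
      simp_rw [fderiv_gauss_sub]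
      exact ((integrable_kvec_sub hl x).inner_const u).neg.bdd_mul hcΘ.aestronglyMeasurable
        (Eventually.of_forall (abs_rampInd_le η s h))
    have hfg : Integrable (fun y => rampInd η s h y * gauss l (x - y)) :=
      (integrable_gauss_sub hl x).bdd_mul hcΘ.aestronglyMeasurable
        (Eventually.of_forall (abs_rampInd_le η s h))
    have ibp := integral_mul_fderiv_eq_neg_fderiv_mul_of_integrable hf'g hfg' hfg
      (fun y _ => (hΘd y).differentiableAt)
      (fun y _ => ((differentiable_gauss l).comp (differentiable_id.const_sub x)) y)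
    have e : ⟪v, u⟫ = ∫ y, fderiv ℝ (rampInd η s h) y u * gauss l (x - y) := by
      rw [hv, real_inner_comm, ← integral_inner (integrable_rampInd_smul hl η s hh.continuous x)]
      simp_rw [fderiv_gauss_sub, mul_neg, integral_neg, neg_inj] at ibp
      rw [← ibp]
      simp_rw [inner_smul_right, real_inner_comm u]
    rw [e, hΦ, mul_comm, ← integral_mul_const]
    refine integral_mono hf'g (hg.mul_const _) fun y => ?_
    refine (le_abs_self _).trans ?_
    rw [abs_mul, abs_of_nonneg (gauss_nonneg hl.le _)]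
    refine (mul_le_mul_of_nonneg_right (hI y) (gauss_nonneg hl.le _)).trans_eq ?_
    ring
  have h1 := key v
  rw [real_inner_self_eq_norm_sq] at h1
  rcases eq_or_ne v 0 with hv0 | hv0
  · rw [hv0]; simpa using hΦ0
  · have : 0 < ‖v‖ := norm_pos_iff.2 hv0
    nlinarith

/-! ## mollification of a Sobolev function -/

/-- the bump function of radius `1 / (j + 2)`. -/
noncomputable def bump (j : ℕ) : ContDiffBump (0 : Pt d) where
  rIn := 1 / (2 * ((j : ℝ) + 2))
  rOut := 1 / ((j : ℝ) + 2)
  rIn_pos := by positivity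
  rIn_lt_rOut := one_div_lt_one_div_of_lt (by positivity) (by linarith [(j.cast_nonneg : (0:ℝ) ≤ j)])

/-- mollification of `f`. -/
noncomputable def mollify (f : Pt d → ℝ) (j : ℕ) : Pt d → ℝ :=
  convolution ((bump j).normed volume) f (ContinuousLinearMap.lsmul ℝ ℝ) volume

lemma contDiff_mollify {f : Pt d → ℝ} (hf : Integrable f) (j : ℕ) :
    ContDiff ℝ 1 (mollify f j) :=
  (bump j).hasCompactSupport_normed.contDiff_convolution_left _ (bump j).contDiff_normed
    hf.locallyIntegrable

lemma ae_tendsto_mollify {f : Pt d → ℝ} (hf : Integrable f) :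
    ∀ᵐ x, Tendsto (fun j => mollify f j x) atTop (𝓝 (f x)) := by
  refine ContDiffBump.ae_convolution_tendsto_right_of_locallyIntegrable (K := 2) ?_ ?_
    hf.locallyIntegrable
  · refine (tendsto_const_nhds.div_atTop ?_ : Tendsto (fun j : ℕ => 1 / ((j : ℝ) + 2)) atTop (𝓝 0))
    exact tendsto_atTop_add_const_right _ _ tendsto_natCast_atTop_atTop
  · refine Eventually.of_forall fun j => le_of_eq ?_
    simp only [bump]
    field_simp

lemma norm_fderiv_mollify_le {f : Pt d → ℝ} {G : Fin d → Pt d → ℝ} (hf : Integrable f)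
    (hG : ∀ i, Integrable (G i) ∧ IsWeakPartial f (G i) i) (j : ℕ) (x : Pt d) :
    ‖fderiv ℝ (mollify f j) x‖ ≤
      ∫ y, (bump j).normed volume (x - y) * ‖gradVec G y‖ := by
  set ψ := (bump j).normed (volume : Measure (Pt d)) with hψ
  have hψc : HasCompactSupport ψ := (bump j).hasCompactSupport_normed
  have hψd : ContDiff ℝ (⊤ : ℕ∞) ψ := (bump j).contDiff_normed
  have hψ1 : ContDiff ℝ 1 ψ := (bump j).contDiff_normed
  have hsub : ContDiff ℝ (⊤ : ℕ∞) (fun y => ψ (x - y)) :=
    hψd.comp (contDiff_const.sub contDiff_id)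
  have hsubc : HasCompactSupport (fun y => ψ (x - y)) :=
    hψc.comp_homeomorph (Homeomorph.subLeft x)
  have hd := hψc.hasFDerivAt_convolution_left (ContinuousLinearMap.lsmul ℝ ℝ) hψ1
    hf.locallyIntegrable x
  have hint : Integrable (fun t => ((ContinuousLinearMap.lsmul ℝ ℝ).precompL (Pt d))
      (fderiv ℝ ψ t) (f (x - t))) :=
    HasCompactSupport.convolutionExists_left _ (hψc.fderiv ℝ)
      (hψ1.continuous_fderiv one_ne_zero) hf.locallyIntegrable x
  have hGi : Integrable (fun y => ψ (x - y) • gradVec G y) := by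
    obtain ⟨B, hB⟩ := hψc.exists_bound_of_continuous hψd.continuous
    exact (integrable_gradVec fun i => (hG i).1).bdd_smul B
      (hsub.continuous.aestronglyMeasurable) (Eventually.of_forall fun y => hB _)
  have he : ∀ u, fderiv ℝ (mollify f j) x u = ⟪∫ y, ψ (x - y) • gradVec G y, u⟫ := by
    intro u
    rw [mollify, hd.fderiv, convolution_def, ContinuousLinearMap.integral_apply hint]
    simp only [ContinuousLinearMap.precompL_apply, ContinuousLinearMap.lsmul_apply, smul_eq_mul]
    have h2 := weakPartial_dir hf hG _ hsub hsubc u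
    have e3 : ∀ y, fderiv ℝ (fun y => ψ (x - y)) y u = -fderiv ℝ ψ (x - y) u := by
      intro y
      have h : HasFDerivAt (fun y => ψ (x - y))
          ((fderiv ℝ ψ (x - y)).comp (-ContinuousLinearMap.id ℝ (Pt d))) y :=
        (hψ1.differentiable (by simp) (x - y)).hasFDerivAt.comp y
          ((hasFDerivAt_id y).const_sub x)
      rw [h.fderiv]
      simp
    simp_rw [e3, mul_neg, integral_neg, neg_inj] at h2
    rw [← integral_sub_left_eq_self (fun t => fderiv ℝ ψ t u * f (x - t)) volume x]
    simp only [sub_sub_cancel]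
    simp_rw [mul_comm _ (f _)]
    rw [h2, real_inner_comm, ← integral_inner hGi]
    simp_rw [inner_smul_right, real_inner_comm u]
  refine (fderiv ℝ (mollify f j) x).opNorm_le_bound
    (integral_nonneg fun y => mul_nonneg ((bump j).nonneg_normed _) (norm_nonneg _)) fun u => ?_
  rw [he, Real.norm_eq_abs]
  refine (abs_real_inner_le_norm _ _).trans (mul_le_mul_of_nonneg_right ?_ (norm_nonneg _))
  refine (norm_integral_le_integral_norm _).trans_eq ?_
  refine integral_congr_ae (Eventually.of_forall fun y => ?_)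
  simp only [norm_smul, Real.norm_eq_abs]
  rw [abs_of_nonneg]
  exact (bump j).nonneg_normed _

lemma lintegral_fderiv_mollify_le {f : Pt d → ℝ} {G : Fin d → Pt d → ℝ} (hf : Integrable f)
    (hG : ∀ i, Integrable (G i) ∧ IsWeakPartial f (G i) i) (j : ℕ) :
    ∫⁻ x, ENNReal.ofReal ‖fderiv ℝ (mollify f j) x‖ ≤ ∫⁻ y, ENNReal.ofReal (gradNorm G y) := by
  set ψ := (bump j).normed (volume : Measure (Pt d)) with hψ
  have hψ1 : Continuous ψ := (bump j).continuous_normed
  have hGv := integrable_gradVec fun i => (hG i).1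
  have hint : ∀ x, Integrable (fun y => ψ (x - y) * ‖gradVec G y‖) := by
    intro x
    obtain ⟨B, hB⟩ := (bump j).hasCompactSupport_normed.exists_bound_of_continuous hψ1
      (f := ψ)
    exact hGv.norm.bdd_mul (hψ1.comp (continuous_const.sub continuous_id)).aestronglyMeasurable
      (Eventually.of_forall fun y => hB _)
  have hnn : ∀ x y, 0 ≤ ψ (x - y) * ‖gradVec G y‖ := fun x y =>
    mul_nonneg ((bump j).nonneg_normed _) (norm_nonneg _)
  have hψi : ∫⁻ x, ENNReal.ofReal (ψ x) = 1 := by
    rw [← ofReal_integral_eq_lintegral_ofReal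
      (hψ1.integrable_of_hasCompactSupport (bump j).hasCompactSupport_normed)
      (Eventually.of_forall fun _ => (bump j).nonneg_normed _), (bump j).integral_normed]
    simp
  calc ∫⁻ x, ENNReal.ofReal ‖fderiv ℝ (mollify f j) x‖
      ≤ ∫⁻ x, ∫⁻ y, ENNReal.ofReal (ψ (x - y)) * ENNReal.ofReal ‖gradVec G y‖ := by
        refine lintegral_mono fun x => ?_
        refine (ENNReal.ofReal_le_ofReal (norm_fderiv_mollify_le hf hG j x)).trans_eq ?_
        rw [ofReal_integral_eq_lintegral_ofReal (hint x) (Eventually.of_forall (hnn x))]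
        exact lintegral_congr fun y => ENNReal.ofReal_mul ((bump j).nonneg_normed _)
    _ = ∫⁻ y, ∫⁻ x, ENNReal.ofReal (ψ (x - y)) * ENNReal.ofReal ‖gradVec G y‖ := by
        refine lintegral_lintegral_swap ?_
        exact ((ENNReal.measurable_ofReal.comp
          (hψ1.comp (continuous_fst.sub continuous_snd)).measurable).aemeasurable).mul
          ((hGv.aestronglyMeasurable.norm.aemeasurable.ennreal_ofReal).comp_quasiMeasurePreserving
            Measure.quasiMeasurePreserving_snd)
    _ = _ := by
        refine lintegral_congr fun y => ?_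
        rw [lintegral_mul_const' _ _ ENNReal.ofReal_ne_top,
          lintegral_sub_right_eq_self (fun x => ENNReal.ofReal (ψ x)) y, hψi, one_mul,
          norm_gradVec]

/-! ## layers -/

lemma tendsto_rampInd {h : ℕ → ℝ} {a s : ℝ} (hh : Tendsto h atTop (𝓝 a)) (hs : 0 < s)
    (hne : |a| ≠ s) :
    Tendsto (fun j : ℕ => Real.smoothTransition ((h j - s) / (1 / ((j : ℝ) + 1))) +
      Real.smoothTransition ((-h j - s) / (1 / ((j : ℝ) + 1)))) atTop
      (𝓝 ((Ioi s).indicator (fun _ => (1 : ℝ)) |a|)) := by
  have one : ∀ (g : ℕ → ℝ) (b : ℝ), Tendsto g atTop (𝓝 b) → s < b →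
      ∀ᶠ j : ℕ in atTop, Real.smoothTransition ((g j - s) / (1 / ((j : ℝ) + 1))) = 1 := by
    intro g b hg hb
    have h1 : Tendsto (fun j => (g j - s) * ((j : ℝ) + 1)) atTop atTop :=
      Tendsto.pos_mul_atTop (sub_pos.2 hb) (hg.sub_const s)
        (tendsto_atTop_add_const_right _ _ tendsto_natCast_atTop_atTop)
    filter_upwards [h1.eventually_ge_atTop 1] with j hj
    exact Real.smoothTransition.one_of_one_le (by rwa [div_div_eq_mul_div, div_one])
  have zero : ∀ (g : ℕ → ℝ) (b : ℝ), Tendsto g atTop (𝓝 b) → b < s →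
      ∀ᶠ j : ℕ in atTop, Real.smoothTransition ((g j - s) / (1 / ((j : ℝ) + 1))) = 0 := by
    intro g b hg hb
    filter_upwards [hg.eventually_le_const hb] with j hj
    exact Real.smoothTransition.zero_of_nonpos
      (div_nonpos_of_nonpos_of_nonneg (sub_nonpos.2 hj) (by positivity))
  refine tendsto_nhds_of_eventually_eq ?_
  rcases lt_or_gt_of_ne hne with hlt | hgt
  · rw [Set.indicator_of_notMem (by simpa using hlt.le)]
    rw [abs_lt] at hlt
    filter_upwards [zero h a hh hlt.2, zero (fun j => -h j) (-a) hh.neg (by linarith)] with j h1 h2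
    rw [h1, h2, add_zero]
  · rw [Set.indicator_of_mem (Set.mem_Ioi.2 hgt)]
    rcases lt_abs.1 hgt with h1 | h1
    · filter_upwards [one h a hh h1, zero (fun j => -h j) (-a) hh.neg (by linarith)] with j e1 e2
      rw [e1, e2, add_zero]
    · filter_upwards [zero h a hh (by linarith), one (fun j => -h j) (-a) hh.neg h1] with j e1 e2
      rw [e1, e2, zero_add]

/-- the mass of the `j`-th ramp at level `s`. -/
noncomputable def rampMass (f : Pt d → ℝ) (j : ℕ) (s : ℝ) : ℝ≥0∞ :=
  ∫⁻ y, ENNReal.ofReal (rampDens (1 / ((j : ℝ) + 1)) s (mollify f j y) *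
    ‖fderiv ℝ (mollify f j) y‖)

lemma measurable_rampMass {f : Pt d → ℝ} (hf : Integrable f) (j : ℕ) :
    Measurable (rampMass f j) := by
  have hc : Continuous (mollify f j) := (contDiff_mollify hf j).continuous
  have hD : Continuous (fun y => ‖fderiv ℝ (mollify f j) y‖) :=
    ((contDiff_mollify hf j).continuous_fderiv one_ne_zero).norm
  refine Measurable.lintegral_prod_right' (f := fun p : ℝ × Pt d => ENNReal.ofReal
    (rampDens (1 / ((j : ℝ) + 1)) p.1 (mollify f j p.2) * ‖fderiv ℝ (mollify f j) p.2‖)) ?_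
  refine ENNReal.measurable_ofReal.comp (Continuous.measurable ?_)
  unfold rampDens
  exact ((((continuous_deriv_smoothTransition.comp
    (((hc.comp continuous_snd).sub continuous_fst).div_const _)).add
    (continuous_deriv_smoothTransition.comp
      (((hc.comp continuous_snd).neg.sub continuous_fst).div_const _))).div_const _).mul
    (hD.comp continuous_snd))

lemma lintegral_rampMass_le {f : Pt d → ℝ} {G : Fin d → Pt d → ℝ} (hf : Integrable f)
    (hG : ∀ i, Integrable (G i) ∧ IsWeakPartial f (G i) i) (j : ℕ) :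
    ∫⁻ s in Ioi (0 : ℝ), rampMass f j s ≤ ∫⁻ y, ENNReal.ofReal (gradNorm G y) := by
  have hη : (0 : ℝ) < 1 / ((j : ℝ) + 1) := by positivity
  have hc : Continuous (mollify f j) := (contDiff_mollify hf j).continuous
  have hD : Continuous (fun y => ‖fderiv ℝ (mollify f j) y‖) :=
    ((contDiff_mollify hf j).continuous_fderiv one_ne_zero).norm
  unfold rampMass
  rw [lintegral_lintegral_swap]
  · refine le_trans (lintegral_mono fun y => ?_) (lintegral_fderiv_mollify_le hf hG j)
    simp only [ENNReal.ofReal_mul (rampDens_nonneg hη _ _)]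
    rw [lintegral_mul_const' _ _ ENNReal.ofReal_ne_top]
    exact mul_le_of_le_one_left zero_le (lintegral_rampDens_le hη _)
  · refine (ENNReal.measurable_ofReal.comp (Continuous.measurable ?_)).aemeasurable
    unfold rampDens
    exact ((((continuous_deriv_smoothTransition.comp
      (((hc.comp continuous_snd).sub continuous_fst).div_const _)).add
      (continuous_deriv_smoothTransition.comp
        (((hc.comp continuous_snd).neg.sub continuous_fst).div_const _))).div_const _).mul
      (hD.comp continuous_snd))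

lemma lintegral_gradInd_le_liminf {f : Pt d → ℝ} {G : Fin d → Pt d → ℝ} (hf : Integrable f)
    (hfm : Measurable f) (hG : ∀ i, Integrable (G i) ∧ IsWeakPartial f (G i) i) {s l : ℝ}
    (hs : 0 < s) (hnull : volume {y | |f y| = s} = 0) (hl : 0 < l) :
    ∫⁻ x, ENNReal.ofReal ‖gradInd {y | s < |f y|} l x‖ ≤
      atTop.liminf fun j => rampMass f j s := by
  have hD : ∀ j, Integrable (fun y => ‖fderiv ℝ (mollify f j) y‖) := by
    intro j
    refine ⟨((contDiff_mollify hf j).continuous_fderiv one_ne_zero).norm.aestronglyMeasurable, ?_⟩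
    rw [hasFiniteIntegral_iff_ofReal (Eventually.of_forall fun y => norm_nonneg _)]
    refine (lintegral_fderiv_mollify_le hf hG j).trans_lt ?_
    simp_rw [← norm_gradVec G]
    rw [← hasFiniteIntegral_iff_ofReal (Eventually.of_forall fun y => norm_nonneg _)]
    exact (integrable_gradVec fun i => (hG i).1).norm.2
  set v := fun (j : ℕ) (x : Pt d) =>
    ∫ y, rampInd (1 / ((j : ℝ) + 1)) s (mollify f j) y • kvec l (x - y) with hv
  have hvm : ∀ j, Measurable (fun x => ENNReal.ofReal ‖v j x‖) := by
    intro j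
    have hc : Continuous (mollify f j) := (contDiff_mollify hf j).continuous
    have hcF : Continuous (fun p : Pt d × Pt d =>
        rampInd (1 / ((j : ℝ) + 1)) s (mollify f j) p.2 • kvec l (p.1 - p.2)) := by
      unfold rampInd
      exact ((Real.smoothTransition.continuous.comp
        (((hc.comp continuous_snd).sub continuous_const).div_const _)).add
        (Real.smoothTransition.continuous.comp
          (((hc.comp continuous_snd).neg.sub continuous_const).div_const _))).smul
        ((continuous_kvec l).comp (continuous_fst.sub continuous_snd))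
    exact ENNReal.measurable_ofReal.comp
      hcF.stronglyMeasurable.integral_prod_right'.measurable.norm
  have hA : MeasurableSet {y | s < |f y|} := measurableSet_lt measurable_const hfm.abs
  have hlim : ∀ x, Tendsto (fun j => v j x) atTop (𝓝 (gradInd {y | s < |f y|} l x)) := by
    intro x
    rw [gradInd_eq, ← integral_indicator hA]
    refine tendsto_integral_of_dominated_convergence (fun y => 2 * ‖kvec l (x - y)‖)
      (fun j => (integrable_rampInd_smul hl _ s (contDiff_mollify hf j).continuous x).1)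
      ((integrable_kvec_sub hl x).norm.const_mul 2)
      (fun j => Eventually.of_forall fun y => ?_) ?_
    · rw [norm_smul]
      exact mul_le_mul_of_nonneg_right (abs_rampInd_le _ s _ y) (norm_nonneg _)
    · have hne : ∀ᵐ y, |f y| ≠ s := by
        rw [ae_iff]; simpa using hnull
      filter_upwards [ae_tendsto_mollify hf, hne] with y hy hyne
      have := (tendsto_rampInd hy hs hyne).smul_const (kvec l (x - y))
      convert! this using 2
      by_cases hm : s < |f y| <;> simp [Set.indicator, hm]
  calc ∫⁻ x, ENNReal.ofReal ‖gradInd {y | s < |f y|} l x‖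
      = ∫⁻ x, atTop.liminf fun j => ENNReal.ofReal ‖v j x‖ := by
        refine lintegral_congr fun x => ?_
        exact (((ENNReal.continuous_ofReal.comp continuous_norm).tendsto _).comp
          (hlim x)).liminf_eq.symm
    _ ≤ atTop.liminf fun j => ∫⁻ x, ENNReal.ofReal ‖v j x‖ := lintegral_liminf_le hvm
    _ ≤ atTop.liminf fun j => rampMass f j s := by
        refine liminf_le_liminf (Eventually.of_forall fun j => ?_)
        have hη : (0 : ℝ) < 1 / ((j : ℝ) + 1) := by positivity
        have hc : Continuous (mollify f j) := (contDiff_mollify hf j).continuous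
        have hcD : Continuous (fun y => ‖fderiv ℝ (mollify f j) y‖) :=
          ((contDiff_mollify hf j).continuous_fderiv one_ne_zero).norm
        set Q := fun y => rampDens (1 / ((j : ℝ) + 1)) s (mollify f j y) *
          ‖fderiv ℝ (mollify f j) y‖ with hQ
        have hQc : Continuous Q := by
          rw [hQ]; unfold rampDens
          exact (((continuous_deriv_smoothTransition.comp
            ((hc.sub continuous_const).div_const _)).add
            (continuous_deriv_smoothTransition.comp
              ((hc.neg.sub continuous_const).div_const _))).div_const _).mul hcD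
        have hQ0 : ∀ y, 0 ≤ Q y := fun y =>
          mul_nonneg (rampDens_nonneg hη _ _) (norm_nonneg _)
        calc ∫⁻ x, ENNReal.ofReal ‖v j x‖
            ≤ ∫⁻ x, ∫⁻ y, ENNReal.ofReal (gauss l (x - y)) * ENNReal.ofReal (Q y) := by
              refine lintegral_mono fun x => ?_
              refine (ENNReal.ofReal_le_ofReal
                (norm_rampGrad_le (contDiff_mollify hf j) (hD j) hη hl s x)).trans ?_
              by_cases hi : Integrable (fun y => gauss l (x - y) * Q y)
              · rw [ofReal_integral_eq_lintegral_ofReal hi (Eventually.of_forall fun y =>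
                  mul_nonneg (gauss_nonneg hl.le _) (hQ0 y))]
                exact le_of_eq (lintegral_congr fun y =>
                  ENNReal.ofReal_mul (gauss_nonneg hl.le _))
              · rw [integral_undef hi]; simp
          _ = ∫⁻ y, ∫⁻ x, ENNReal.ofReal (gauss l (x - y)) * ENNReal.ofReal (Q y) :=
              lintegral_lintegral_swap
                (((ENNReal.measurable_ofReal.comp ((continuous_gauss l).comp
                  (continuous_fst.sub continuous_snd)).measurable)).mul
                  (ENNReal.measurable_ofReal.comp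
                    (hQc.comp continuous_snd).measurable)).aemeasurable
          _ = rampMass f j s := by
              refine lintegral_congr fun y => ?_
              rw [lintegral_mul_const' _ _ ENNReal.ofReal_ne_top,
                lintegral_gauss_sub_right hl, one_mul]

theorem budgetLayers : BudgetLayers := by
  intro d f G hf hfm hG
  have hnull : ∀ᵐ s : ℝ, volume {y | |f y| = s} = 0 := by
    have hc : Set.Countable {t : ℝ | 0 < volume {a : Pt d | |f a| = t}} :=
      Measure.countable_meas_level_set_pos hfm.abs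
    filter_upwards [hc.ae_notMem volume] with s hs
    simpa using hs
  calc ∫⁻ s in Ioi (0 : ℝ), gper {x | s < |f x|}
      ≤ ∫⁻ s in Ioi (0 : ℝ), atTop.liminf fun j => rampMass f j s := by
        refine lintegral_mono_ae ?_
        filter_upwards [ae_restrict_mem measurableSet_Ioi, ae_restrict_of_ae hnull] with s hs hn
        exact iSup₂_le fun l hl => lintegral_gradInd_le_liminf hf hfm hG hs hn hl
    _ ≤ atTop.liminf fun j => ∫⁻ s in Ioi (0 : ℝ), rampMass f j s :=
        lintegral_liminf_le fun j => measurable_rampMass hf j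
    _ ≤ _ := by
        refine liminf_le_of_frequently_le' (Eventually.frequently ?_)
        exact Eventually.of_forall fun j => lintegral_rampMass_le hf hG j

/-! ## sum of the excesses -/

/-- total variation of a mollified indicator. -/
noncomputable def gtv (A : Set (Pt d)) (l : ℝ) : ℝ := ∫ x, ‖gradInd A l x‖

lemma lintegral_gradInd_mono {A : Set (Pt d)} (hA : MeasurableSet A) {l l' : ℝ} (hl : 0 < l)
    (hll : l ≤ l') :
    ∫⁻ x, ENNReal.ofReal ‖gradInd A l' x‖ ≤ ∫⁻ x, ENNReal.ofReal ‖gradInd A l x‖ := by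
  rcases hll.eq_or_lt with rfl | hlt
  · exact le_rfl
  have hr : 0 < √(l' ^ 2 - l ^ 2) := Real.sqrt_pos.2 (by nlinarith)
  calc ∫⁻ x, ENNReal.ofReal ‖gradInd A l' x‖
      ≤ ∫⁻ x, ∫⁻ y, ENNReal.ofReal (gauss (√(l' ^ 2 - l ^ 2)) (x - y)) *
          ENNReal.ofReal ‖gradInd A l y‖ := by
        refine lintegral_mono fun x => ?_
        refine (ENNReal.ofReal_le_ofReal (norm_gradInd_conv_le hA hl hlt x)).trans_eq ?_
        rw [ofReal_integral_eq_lintegral_ofReal (integrable_gauss_mul_bdd hr x
          (continuous_gradInd A hl).norm fun y => by rw [abs_norm]; exact norm_gradInd_le A hl y)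
          (Eventually.of_forall fun y => mul_nonneg (gauss_nonneg hr.le _) (norm_nonneg _))]
        exact lintegral_congr fun y => ENNReal.ofReal_mul (gauss_nonneg hr.le _)
    _ = ∫⁻ y, ∫⁻ x, ENNReal.ofReal (gauss (√(l' ^ 2 - l ^ 2)) (x - y)) *
          ENNReal.ofReal ‖gradInd A l y‖ := by
        have hm : Measurable (fun p : Pt d × Pt d =>
            ENNReal.ofReal (gauss (√(l' ^ 2 - l ^ 2)) (p.1 - p.2)) *
              ENNReal.ofReal ‖gradInd A l p.2‖) :=
          ((ENNReal.measurable_ofReal.comp ((continuous_gauss _).comp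
            (continuous_fst.sub continuous_snd)).measurable).mul
            (ENNReal.measurable_ofReal.comp
              ((continuous_gradInd A hl).norm.comp continuous_snd).measurable))
        exact lintegral_lintegral_swap (f := fun x y =>
          ENNReal.ofReal (gauss (√(l' ^ 2 - l ^ 2)) (x - y)) *
            ENNReal.ofReal ‖gradInd A l y‖) hm.aemeasurable
    _ = _ := by
        refine lintegral_congr fun y => ?_
        rw [lintegral_mul_const' _ _ ENNReal.ofReal_ne_top, lintegral_gauss_sub_right hr, one_mul]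

lemma integrable_norm_gradInd {A : Set (Pt d)} (hfin : gper A < ∞) {l : ℝ} (hl : 0 < l) :
    Integrable (fun x => ‖gradInd A l x‖) := by
  refine ⟨(continuous_gradInd A hl).norm.aestronglyMeasurable, ?_⟩
  rw [hasFiniteIntegral_iff_ofReal (Eventually.of_forall fun x => norm_nonneg _)]
  exact lt_of_le_of_lt (le_iSup₂ (f := fun l (_ : 0 < l) =>
    ∫⁻ x, ENNReal.ofReal ‖gradInd A l x‖) l hl) hfin

lemma ofReal_gtv {A : Set (Pt d)} (hfin : gper A < ∞) {l : ℝ} (hl : 0 < l) :
    ENNReal.ofReal (gtv A l) = ∫⁻ x, ENNReal.ofReal ‖gradInd A l x‖ :=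
  ofReal_integral_eq_lintegral_ofReal (integrable_norm_gradInd hfin hl)
    (Eventually.of_forall fun x => norm_nonneg _)

lemma gtv_anti {A : Set (Pt d)} (hA : MeasurableSet A) (hfin : gper A < ∞) {l l' : ℝ}
    (hl : 0 < l) (hll : l ≤ l') : gtv A l' ≤ gtv A l := by
  refine (ENNReal.ofReal_le_ofReal_iff (show 0 ≤ gtv A l from
    integral_nonneg fun x => norm_nonneg _)).1 ?_
  rw [ofReal_gtv hfin hl, ofReal_gtv hfin (hl.trans_le hll)]
  exact lintegral_gradInd_mono hA hl hll

lemma gridPt_dist {s : ℝ} (hs : 0 ≤ s) {z z' : Fin d → ℤ} (h : z ≠ z') :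
    s ≤ dist (gridPt s z) (gridPt s z') := by
  obtain ⟨i, hi⟩ := Function.ne_iff.1 h
  rw [dist_eq_norm]
  refine le_trans ?_ (PiLp.norm_apply_le (p := 2) _ i)
  simp only [gridPt, WithLp.ofLp_sub, Pi.sub_apply, Real.norm_eq_abs, ← mul_sub, abs_mul,
    abs_of_nonneg hs]
  refine le_mul_of_one_le_right hs ?_
  exact_mod_cast Int.one_le_abs (sub_ne_zero.2 hi)

/-- constant of the excess summation. -/
noncomputable def excConst (d : ℕ) (lam : ℝ) : ℝ :=
  3 ^ d * Real.exp (lam ^ 2 / 24) /
    ((lam / 2) ^ d * (volume (Metric.ball (0 : Pt d) 1)).toReal)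

lemma excConst_pos (d : ℕ) {lam : ℝ} (hlam : 0 < lam) : 0 < excConst d lam := by
  have : 0 < (volume (Metric.ball (0 : Pt d) 1)).toReal :=
    ENNReal.toReal_pos (Metric.measure_ball_pos volume _ one_pos).ne' measure_ball_lt_top.ne
  unfold excConst
  positivity

lemma exc_grid_le {A : Set (Pt d)} (hA : MeasurableSet A) {lam S l : ℝ} (hS : 0 < S) (hl : 0 < l)
    (hlS : l ≤ S / 2) (z : Fin d → ℤ) {c : Pt d}
    (hc : c ∈ Metric.ball (gridPt (lam * S) z) (lam * S / 2)) :
    exc A S (gridPt (lam * S) z) l ≤ 3 ^ d * Real.exp (lam ^ 2 / 24) * S ^ d *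
      ((∫ x, gauss (√((2 * S) ^ 2 - l ^ 2)) (c - x) * ‖gradInd A l x‖)
        - ‖gradInd A (2 * S) c‖) := by
  set c₀ := gridPt (lam * S) z
  set n : Pt d := ‖gradInd A (2 * S) c‖⁻¹ • gradInd A (2 * S) c with hn_def
  have hn : ‖n‖ ≤ 1 := by
    rw [hn_def, norm_smul, norm_inv, norm_norm]
    exact inv_mul_le_one
  have hinner : ⟪gradInd A (2 * S) c, n⟫ = ‖gradInd A (2 * S) c‖ := by
    rw [hn_def, inner_smul_right, real_inner_self_eq_norm_sq]
    rcases eq_or_ne ‖gradInd A (2 * S) c‖ 0 with h0 | h0
    · rw [h0]; simp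
    · field_simp
  have hlt : l < S := by linarith
  have hq : 0 < S ^ 2 - l ^ 2 := by nlinarith
  set R := √(S ^ 2 - l ^ 2) with hR_def
  set R' := √((2 * S) ^ 2 - l ^ 2) with hR'_def
  have hR : 0 < R := Real.sqrt_pos.2 hq
  have hq' : 0 < (2 * S) ^ 2 - l ^ 2 := by nlinarith
  have hR' : 0 < R' := Real.sqrt_pos.2 hq'
  have hRR : R < R' := Real.sqrt_lt_sqrt hq.le (by nlinarith)
  have hratio : R' / R ≤ 3 := by
    rw [div_le_iff₀ hR, show (3 : ℝ) = √9 by norm_num [show (9:ℝ) = 3 ^ 2 by norm_num],
      hR_def, hR'_def, ← Real.sqrt_mul (by norm_num)]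
    exact Real.sqrt_le_sqrt (by nlinarith)
  have hdiff : R' ^ 2 - R ^ 2 = 3 * S ^ 2 := by
    rw [Real.sq_sqrt hq.le, Real.sq_sqrt hq'.le]; ring
  have hdist : ‖c₀ - c‖ ^ 2 ≤ (lam * S / 2) ^ 2 := by
    rw [← dist_eq_norm, dist_comm]
    exact pow_le_pow_left₀ dist_nonneg (Metric.mem_ball.1 hc).le 2
  have hK : ∀ x, gauss R (c₀ - x) ≤ 3 ^ d * Real.exp (lam ^ 2 / 24) * gauss R' (c - x) := by
    intro x
    rw [gauss_sub_comm R c₀ x, gauss_sub_comm R' c x]
    refine (gaussDom d R R' x c₀ c hR hRR).trans ?_
    refine mul_le_mul_of_nonneg_right (mul_le_mul (pow_le_pow_left₀ (by positivity) hratio d)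
      (Real.exp_le_exp.2 ?_) (Real.exp_pos _).le (by positivity)) (gauss_nonneg hR'.le _)
    rw [hdiff, div_le_iff₀ (by positivity)]
    nlinarith
  refine (exc_le_excess hA hn hl hlt c₀).trans ?_
  have hdef : ∀ x, 0 ≤ defect A n l x := fun x => by
    unfold defect
    nlinarith [real_inner_le_norm (gradInd A l x) n, norm_nonneg (gradInd A l x), norm_nonneg n]
  have hcd : Continuous (defect A n l) :=
    (continuous_gradInd A hl).norm.sub ((continuous_gradInd A hl).inner continuous_const)
  have hbd : ∀ x, |defect A n l x| ≤ 2 * (√d / l) := fun x => by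
    rw [abs_of_nonneg (hdef x)]
    unfold defect
    have h1 := norm_gradInd_le A hl x
    have h2 := neg_le_of_abs_le (abs_real_inner_le_norm (gradInd A l x) n)
    nlinarith [norm_nonneg (gradInd A l x), norm_nonneg n]
  have h1 : S ^ d * (∫ x, gauss R (c₀ - x) * defect A n l x) ≤
      S ^ d * ∫ x, 3 ^ d * Real.exp (lam ^ 2 / 24) * (gauss R' (c - x) * defect A n l x) := by
    refine mul_le_mul_of_nonneg_left (integral_mono (integrable_gauss_mul_bdd hR c₀ hcd hbd)
      ((integrable_gauss_mul_bdd hR' c hcd hbd).const_mul _) fun x => ?_) (by positivity)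
    exact (mul_le_mul_of_nonneg_right (hK x) (hdef x)).trans_eq (mul_assoc _ _ _)
  refine h1.trans_eq ?_
  have h2 := excess_eq hA n hl (by linarith : l < 2 * S) c
  rw [excess, hinner, ← hR'_def] at h2
  have h3 : (2 * S) ^ d ≠ 0 := by positivity
  have h4 := mul_left_cancel₀ h3 h2
  rw [integral_const_mul, h4]
  ring

lemma excess_row_le {A : Set (Pt d)} (hA : MeasurableSet A) (hfin : gper A < ∞) {lam S l : ℝ}
    (hlam : 0 < lam) (hS : 0 < S) (hl : 0 < l) (hlS : l ≤ S / 2) :
    ∑' z : Fin d → ℤ, ENNReal.ofReal (exc A S (gridPt (lam * S) z) l) ≤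
      ENNReal.ofReal (excConst d lam * (gtv A l - gtv A (2 * S))) := by
  have hl2 : l < 2 * S := by linarith
  set R' := √((2 * S) ^ 2 - l ^ 2) with hR'_def
  have hR' : 0 < R' := Real.sqrt_pos.2 (by nlinarith)
  set P := fun c => ∫ x, gauss R' (c - x) * ‖gradInd A l x‖ with hP
  set Φ := fun c => P c - ‖gradInd A (2 * S) c‖ with hΦ
  have hΦ0 : ∀ c, 0 ≤ Φ c := fun c => sub_nonneg.2 (norm_gradInd_conv_le hA hl hl2 c)
  have hP0 : ∀ c, 0 ≤ P c := fun c =>
    integral_nonneg fun x => mul_nonneg (gauss_nonneg hR'.le _) (norm_nonneg _)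
  have hPm : StronglyMeasurable P := by
    have hc : Continuous (fun p : Pt d × Pt d => gauss R' (p.1 - p.2) * ‖gradInd A l p.2‖) :=
      ((continuous_gauss R').comp (continuous_fst.sub continuous_snd)).mul
        ((continuous_gradInd A hl).norm.comp continuous_snd)
    exact hc.stronglyMeasurable.integral_prod_right'
  have hPL : ∫⁻ c, ENNReal.ofReal (P c) = ∫⁻ x, ENNReal.ofReal ‖gradInd A l x‖ := by
    have e : ∀ c, ENNReal.ofReal (P c) = ∫⁻ x, ENNReal.ofReal (gauss R' (c - x)) *
        ENNReal.ofReal ‖gradInd A l x‖ := fun c => by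
      rw [ofReal_integral_eq_lintegral_ofReal (integrable_gauss_mul_bdd hR' c
        (continuous_gradInd A hl).norm fun y => by rw [abs_norm]; exact norm_gradInd_le A hl y)
        (Eventually.of_forall fun y => mul_nonneg (gauss_nonneg hR'.le _) (norm_nonneg _))]
      exact lintegral_congr fun y => ENNReal.ofReal_mul (gauss_nonneg hR'.le _)
    simp_rw [e]
    rw [lintegral_lintegral_swap ((ENNReal.measurable_ofReal.comp ((continuous_gauss _).comp
      (continuous_fst.sub continuous_snd)).measurable).mul (ENNReal.measurable_ofReal.comp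
        ((continuous_gradInd A hl).norm.comp continuous_snd).measurable)).aemeasurable]
    refine lintegral_congr fun y => ?_
    rw [lintegral_mul_const' _ _ ENNReal.ofReal_ne_top, lintegral_gauss_sub_right hR', one_mul]
  have hPi : Integrable P := by
    refine ⟨hPm.aestronglyMeasurable, ?_⟩
    rw [hasFiniteIntegral_iff_ofReal (Eventually.of_forall hP0), hPL, ← ofReal_gtv hfin hl]
    exact ENNReal.ofReal_lt_top
  have hPint : ∫ c, P c = gtv A l := by
    rw [integral_eq_lintegral_of_nonneg_ae (Eventually.of_forall hP0) hPm.aestronglyMeasurable,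
      hPL, ← ofReal_gtv hfin hl,
      ENNReal.toReal_ofReal (show 0 ≤ gtv A l from integral_nonneg fun x => norm_nonneg _)]
  have h2S : 0 < 2 * S := by linarith
  have hΦi : Integrable Φ := hPi.sub (integrable_norm_gradInd hfin h2S)
  have hΦint : ∫ c, Φ c = gtv A l - gtv A (2 * S) := by
    rw [hΦ, integral_sub hPi (integrable_norm_gradInd hfin h2S), hPint]; rfl
  set K := 3 ^ d * Real.exp (lam ^ 2 / 24) * S ^ d with hK_def
  set ω := (volume (Metric.ball (0 : Pt d) 1)).toReal with hω_def
  have hω : 0 < ω :=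
    ENNReal.toReal_pos (Metric.measure_ball_pos volume _ one_pos).ne' measure_ball_lt_top.ne
  have hr : 0 < lam * S / 2 := by positivity
  have hvol : ∀ z : Fin d → ℤ, volume (Metric.ball (gridPt (lam * S) z) (lam * S / 2)) =
      ENNReal.ofReal ((lam * S / 2) ^ d * ω) := fun z => by
    rw [Measure.addHaar_ball_of_pos volume _ hr, finrank_euclideanSpace_fin,
      ENNReal.ofReal_mul (by positivity), hω_def, ENNReal.ofReal_toReal measure_ball_lt_top.ne]
  have hdisj : Pairwise (Function.onFun Disjoint
      fun z : Fin d → ℤ => Metric.ball (gridPt (lam * S) z) (lam * S / 2)) := fun z z' hne => by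
    refine Metric.ball_disjoint_ball ?_
    linarith [gridPt_dist (by positivity : 0 ≤ lam * S) hne]
  have hmain : (∑' z : Fin d → ℤ, ENNReal.ofReal (exc A S (gridPt (lam * S) z) l)) *
      ENNReal.ofReal ((lam * S / 2) ^ d * ω) ≤ ENNReal.ofReal (K * (gtv A l - gtv A (2 * S))) := by
    rw [← ENNReal.tsum_mul_right]
    calc ∑' z : Fin d → ℤ, ENNReal.ofReal (exc A S (gridPt (lam * S) z) l) *
          ENNReal.ofReal ((lam * S / 2) ^ d * ω)
        ≤ ∑' z : Fin d → ℤ, ∫⁻ c in Metric.ball (gridPt (lam * S) z) (lam * S / 2),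
            ENNReal.ofReal (K * Φ c) := by
          refine ENNReal.tsum_le_tsum fun z => ?_
          rw [← hvol z, ← setLIntegral_const]
          refine setLIntegral_mono' measurableSet_ball fun c hc => ?_
          exact ENNReal.ofReal_le_ofReal (exc_grid_le hA hS hl hlS z hc)
      _ = ∫⁻ c in ⋃ z, Metric.ball (gridPt (lam * S) z) (lam * S / 2),
            ENNReal.ofReal (K * Φ c) :=
          (lintegral_iUnion (fun z => measurableSet_ball) hdisj _).symm
      _ ≤ ∫⁻ c, ENNReal.ofReal (K * Φ c) := setLIntegral_le_lintegral _ _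
      _ = _ := by
          rw [← ofReal_integral_eq_lintegral_ofReal (hΦi.const_mul K)
            (Eventually.of_forall fun c => mul_nonneg (by positivity) (hΦ0 c)),
            integral_const_mul, hΦint]
  have hne : ENNReal.ofReal ((lam * S / 2) ^ d * ω) ≠ 0 :=
    (ENNReal.ofReal_pos.2 (by positivity)).ne'
  refine (ENNReal.le_div_iff_mul_le (Or.inl hne) (Or.inl ENNReal.ofReal_ne_top)).2 hmain
    |>.trans_eq ?_
  rw [← ENNReal.ofReal_div_of_pos (by positivity)]
  congr 1
  rw [hK_def, excConst, ← hω_def, show (lam * S / 2) ^ d = (lam / 2) ^ d * S ^ d by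
    rw [← mul_pow]; congr 1; ring]
  field_simp

theorem excessSum : ExcessSum := by
  intro d lam hlam
  refine ⟨excConst d lam, fun A hA _ j hj => ?_⟩
  set C := excConst d lam
  have hC : 0 < C := excConst_pos d hlam
  by_cases hfin : gper A = ∞
  · rw [hfin, ENNReal.mul_top (ENNReal.ofReal_pos.2 (by positivity)).ne']
    exact le_top
  replace hfin : gper A < ∞ := lt_top_iff_ne_top.2 hfin
  set T := fun m : ℤ => gtv A ((2 : ℝ) ^ m) with hT
  set D := fun m : ℤ => ENNReal.ofReal (T m - T (m + 1)) with hD
  have hmono : ∀ m, T (m + 1) ≤ T m := fun m =>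
    gtv_anti hA hfin (zpow_pos two_pos m) (zpow_le_zpow_right₀ one_le_two (by omega))
  have htel : ∀ (a : ℤ) (N : ℕ), ∑ k ∈ Finset.range N, D (a + (k : ℤ)) =
      ENNReal.ofReal (T a - T (a + (N : ℤ))) := by
    intro a N
    rw [hD, ← ENNReal.ofReal_sum_of_nonneg fun k _ => sub_nonneg.2 (hmono _)]
    congr 1
    have := Finset.sum_range_sub' (fun k : ℕ => T (a + (k : ℤ))) N
    simpa [add_assoc] using this
  have htot : ∑' m, D m ≤ gper A := by
    rw [ENNReal.tsum_eq_iSup_sum]
    refine iSup_le fun s => ?_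
    set N := s.sup Int.natAbs
    have hsub : s ⊆ (Finset.range (2 * N + 1)).image (fun k : ℕ => -(N : ℤ) + (k : ℤ)) := by
      intro m hm
      have : m.natAbs ≤ N := Finset.le_sup (f := Int.natAbs) hm
      rw [Finset.mem_image]
      exact ⟨(m + N).toNat, Finset.mem_range.2 (by omega), by omega⟩
    refine (Finset.sum_le_sum_of_subset hsub).trans ?_
    rw [Finset.sum_image fun a _ b _ h => by omega, htel]
    refine le_trans ?_ (le_iSup₂ (f := fun l (_ : 0 < l) =>
      ∫⁻ x, ENNReal.ofReal ‖gradInd A l x‖) ((2 : ℝ) ^ (-(N : ℤ))) (zpow_pos two_pos _))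
    rw [← ofReal_gtv hfin (zpow_pos two_pos _)]
    refine ENNReal.ofReal_le_ofReal (sub_le_self _ ?_)
    exact integral_nonneg fun x => norm_nonneg _
  calc ∑' (i : ℤ) (z : Fin d → ℤ), ENNReal.ofReal
        (exc A ((2 : ℝ) ^ i) (gridPt (lam * (2 : ℝ) ^ i) z) ((2 : ℝ) ^ (i - (j : ℤ))))
      ≤ ∑' i : ℤ, ENNReal.ofReal C * ∑ k ∈ Finset.range (j + 1), D (i - j + (k : ℤ)) := by
        refine ENNReal.tsum_le_tsum fun i => ?_
        refine (excess_row_le hA hfin hlam (zpow_pos two_pos i) (zpow_pos two_pos _) ?_).trans_eq ?_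
        · rw [le_div_iff₀ two_pos, ← zpow_add_one₀ two_ne_zero]
          exact zpow_le_zpow_right₀ one_le_two (by omega)
        · rw [ENNReal.ofReal_mul hC.le, htel, hT]
          simp only
          rw [show i - (j : ℤ) + ((j + 1 : ℕ) : ℤ) = i + 1 by push_cast; ring,
            zpow_add_one₀ two_ne_zero i, mul_comm ((2 : ℝ) ^ i) 2]
    _ = ENNReal.ofReal C * ∑ k ∈ Finset.range (j + 1), ∑' i : ℤ, D (i - j + (k : ℤ)) := by
        rw [ENNReal.tsum_mul_left, Summable.tsum_finsetSum fun k _ => ENNReal.summable]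
    _ = ENNReal.ofReal C * ((j + 1 : ℕ) * ∑' m, D m) := by
        have : ∀ k : ℕ, ∑' i : ℤ, D (i - j + (k : ℤ)) = ∑' m, D m := fun k => by
          rw [← (Equiv.addRight ((k : ℤ) - j)).tsum_eq D]
          exact tsum_congr fun i => by simp [sub_add_eq_add_sub, add_sub_assoc]
        simp [this]
    _ ≤ _ := by
        rw [← mul_assoc, ENNReal.ofReal_mul hC.le]
        refine mul_le_mul (le_of_eq ?_) htot zero_le zero_le
        congr 1
        rw [show (j : ℝ) + 1 = ((j + 1 : ℕ) : ℝ) by push_cast; ring, ENNReal.ofReal_natCast]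

end Vale.Agent.P137
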