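import Vale.Agent.P137.LocalBase

/-! # P137, module D: cells

`cellProfile`: small excess forces the mollification to be a steep monotone profile;
`cellFlux`: such a profile carries flux at the large scale.
-/

namespace Vale.Agent.P137

open MeasureTheory Set Filter Topology
open scoped RealInnerProductSpace ENNReal

namespace Cell

variable {d : ℕ}

theorem one_le_dim {n : Pt d} (hn : ‖n‖ = 1) : 1 ≤ d := by
  rcases Nat.eq_zero_or_pos d with rfl | h
  · rw [Subsingleton.elim n 0, norm_zero] at hn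
    exact absurd hn zero_ne_one
  · exact h

theorem gauss_pos {l : ℝ} (hl : 0 < l) (x : Pt d) : 0 < gauss l x := by
  unfold gauss; positivity

theorem gauss_sub_comm (l : ℝ) (x y : Pt d) : gauss l (x - y) = gauss l (y - x) := by
  simp only [gauss, norm_sub_rev x y]

theorem continuous_gauss (l : ℝ) : Continuous (gauss l : Pt d → ℝ) := by
  unfold gauss; fun_prop

theorem integral_exp_norm {a : ℝ} (ha : 0 < a) :
    ∫ z : Pt d, Real.exp (-a * ‖z‖ ^ 2) = (Real.pi / a) ^ ((d : ℝ) / 2) := by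
  rw [GaussianFourier.integral_rexp_neg_mul_sq_norm ha, finrank_euclideanSpace_fin]

theorem integrable_exp_norm {a : ℝ} (ha : 0 < a) :
    Integrable fun z : Pt d => Real.exp (-a * ‖z‖ ^ 2) := by
  by_contra h
  have h0 := integral_undef h
  rw [integral_exp_norm ha] at h0
  exact absurd h0 (Real.rpow_pos_of_pos (div_pos Real.pi_pos ha) _).ne'

theorem gauss_eq (l : ℝ) (z : Pt d) :
    gauss l z = ((√(2 * Real.pi) * l) ^ d)⁻¹ * Real.exp (-(1 / (2 * l ^ 2)) * ‖z‖ ^ 2) := by
  simp only [gauss]; congr 2; ring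

theorem integrable_gauss {l : ℝ} (hl : 0 < l) : Integrable (gauss l : Pt d → ℝ) := by
  refine ((integrable_exp_norm (d := d) (a := 1 / (2 * l ^ 2)) (by positivity)).const_mul
    ((√(2 * Real.pi) * l) ^ d)⁻¹).congr (Eventually.of_forall fun z => ?_)
  exact (gauss_eq l z).symm

theorem integral_gauss {l : ℝ} (hl : 0 < l) : ∫ z : Pt d, gauss l z = 1 := by
  simp only [gauss_eq]
  rw [integral_const_mul, integral_exp_norm (by positivity)]
  have e : Real.pi / (1 / (2 * l ^ 2)) = (√(2 * Real.pi) * l) ^ 2 := by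
    rw [mul_pow, Real.sq_sqrt (by positivity)]
    field_simp
  rw [e, ← Real.rpow_natCast _ 2, ← Real.rpow_mul (by positivity)]
  have : (((2 : ℕ) : ℝ) * ((d : ℝ) / 2)) = (d : ℝ) := by push_cast; ring
  rw [this, Real.rpow_natCast, inv_mul_cancel₀ (by positivity)]

theorem defect_nonneg (A : Set (Pt d)) {n : Pt d} (hn : ‖n‖ = 1) (l : ℝ) (x : Pt d) :
    0 ≤ defect A n l x := by
  have := real_inner_le_norm (gradInd A l x) n
  rw [hn, mul_one] at this
  unfold defect; linarith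

/-- pointwise defect from the excess at a smaller level. -/
theorem defect_point (hB : SmoothBasics) (hC : SmoothConv) (hD : GaussDom) {A : Set (Pt d)}
    (hA : MeasurableSet A) {n : Pt d} (hn : ‖n‖ = 1) {S l h : ℝ} (c x : Pt d)
    (hl : 0 < l) (hlh : l < h) (hhS : h < S) :
    defect A n h x ≤ (√(S ^ 2 - l ^ 2) / √(h ^ 2 - l ^ 2)) ^ d *
      Real.exp (‖x - c‖ ^ 2 / (2 * (S ^ 2 - h ^ 2))) * (excess A n S c l / S ^ d) := by
  obtain ⟨-, -, hgc, hgb, -⟩ := hB d A hA l hl
  set a := √(h ^ 2 - l ^ 2) with ha_def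
  set b := √(S ^ 2 - l ^ 2) with hb_def
  have ha : 0 < a := Real.sqrt_pos.2 (by nlinarith)
  have hab : a < b := Real.sqrt_lt_sqrt (by nlinarith) (by nlinarith)
  have hba : b ^ 2 - a ^ 2 = S ^ 2 - h ^ 2 := by
    rw [ha_def, hb_def, Real.sq_sqrt (by nlinarith), Real.sq_sqrt (by nlinarith)]; ring
  have hconv : gradInd A h x = ∫ y, gauss a (x - y) • gradInd A l y := (hC d A hA l h hl hlh x).2
  have hcd : Continuous fun y => defect A n l y := by
    unfold defect; fun_prop
  have hdb : ∀ y, ‖defect A n l y‖ ≤ 2 * (√d / l) := by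
    intro y
    rw [Real.norm_eq_abs, abs_of_nonneg (defect_nonneg A hn l y)]
    have h1 := abs_real_inner_le_norm (gradInd A l y) n
    rw [hn, mul_one] at h1
    have := hgb y
    have := neg_abs_le ⟪gradInd A l y, n⟫
    unfold defect; linarith
  have hG : ∀ (s : ℝ), 0 < s → ∀ p : Pt d, Integrable fun y => gauss s (p - y) :=
    fun s hs p => (integrable_gauss hs).comp_sub_left p
  have hv : Integrable fun y => gauss a (x - y) • gradInd A l y := by
    refine Integrable.mono' ((hG a ha x).mul_const (√d / l))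
      (((continuous_gauss a).comp (continuous_const.sub continuous_id)).smul hgc).aestronglyMeasurable
      (Eventually.of_forall fun y => ?_)
    rw [norm_smul, Real.norm_eq_abs, abs_of_pos (gauss_pos ha _)]
    exact mul_le_mul_of_nonneg_left (hgb y) (gauss_pos ha _).le
  have hI : ∀ (s : ℝ), 0 < s → ∀ p : Pt d,
      Integrable fun y => gauss s (p - y) * defect A n l y := fun s hs p =>
    (hG s hs p).mul_bdd hcd.aestronglyMeasurable (Eventually.of_forall hdb)
  have h1 : defect A n h x ≤ ∫ y, gauss a (x - y) * defect A n l y := by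
    have e1 : ⟪gradInd A h x, n⟫ = ∫ y, gauss a (x - y) * ⟪gradInd A l y, n⟫ := by
      rw [hconv, real_inner_comm, ← integral_inner hv n]
      exact integral_congr_ae (Eventually.of_forall fun y => by
        simp only [real_inner_smul_right, real_inner_comm (gradInd A l y) n])
    have e2 : ‖gradInd A h x‖ ≤ ∫ y, gauss a (x - y) * ‖gradInd A l y‖ := by
      rw [hconv]
      refine (norm_integral_le_integral_norm _).trans (le_of_eq ?_)
      exact integral_congr_ae (Eventually.of_forall fun y => by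
        simp only [norm_smul, Real.norm_eq_abs, abs_of_pos (gauss_pos ha _)])
    have i1 : Integrable fun y => gauss a (x - y) * ‖gradInd A l y‖ := by
      refine hv.norm.congr (Eventually.of_forall fun y => ?_)
      simp only [norm_smul, Real.norm_eq_abs, abs_of_pos (gauss_pos ha _)]
    have i2 : Integrable fun y => gauss a (x - y) * ⟪gradInd A l y, n⟫ := by
      refine (i1.sub (hI a ha x)).congr (Eventually.of_forall fun y => ?_)
      simp only [Pi.sub_apply, defect]; ring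
    have e3 : ∫ y, gauss a (x - y) * defect A n l y =
        (∫ y, gauss a (x - y) * ‖gradInd A l y‖) -
          ∫ y, gauss a (x - y) * ⟪gradInd A l y, n⟫ := by
      rw [← integral_sub i1 i2]
      exact integral_congr_ae (Eventually.of_forall fun y => by simp only [defect]; ring)
    rw [defect, e1, e3]; linarith
  refine h1.trans ?_
  set Q := (b / a) ^ d * Real.exp (‖x - c‖ ^ 2 / (2 * (S ^ 2 - h ^ 2))) with hQ
  have hS : 0 < S ^ d := pow_pos (by linarith) d
  have e4 : excess A n S c l / S ^ d = ∫ y, gauss b (c - y) * defect A n l y := by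
    rw [excess, mul_div_assoc]; field_simp; rfl
  rw [e4, ← integral_const_mul]
  refine integral_mono (hI a ha x) ((hI b (ha.trans hab) c).const_mul Q) fun y => ?_
  have h2 := hD d a b y x c ha hab
  rw [hba] at h2
  rw [gauss_sub_comm a x y, gauss_sub_comm b c y]
  calc gauss a (y - x) * defect A n l y
      ≤ (Q * gauss b (y - c)) * defect A n l y :=
        mul_le_mul_of_nonneg_right h2 (defect_nonneg A hn l y)
    _ = Q * (gauss b (y - c) * defect A n l y) := by ring

theorem excess_nonneg (A : Set (Pt d)) {n : Pt d} (hn : ‖n‖ = 1) {S : ℝ} (hS : 0 ≤ S)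
    (c : Pt d) (l : ℝ) : 0 ≤ excess A n S c l := by
  refine mul_nonneg (pow_nonneg hS d) (integral_nonneg fun y => ?_)
  refine mul_nonneg ?_ (defect_nonneg A hn l y)
  unfold gauss; positivity

/-- every level of `wsum`. -/
theorem excess_le_of_wsum {A : Set (Pt d)} {n c : Pt d} {S X : ℝ} (hX : 0 ≤ X)
    (h : wsum A n S c ≤ ENNReal.ofReal X) (j : ℕ) :
    excess A n S c ((1 / 2) ^ j * (S / 8)) ≤ (4 / 3) ^ j * X := by
  have h1 := (ENNReal.le_tsum j).trans h
  rw [ENNReal.ofReal_le_ofReal_iff hX] at h1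
  have e : ((4 : ℝ) / 3) ^ j * (3 / 4) ^ j = 1 := by rw [← mul_pow]; norm_num
  calc excess A n S c ((1 / 2) ^ j * (S / 8))
      = (4 / 3) ^ j * ((3 / 4) ^ j * excess A n S c ((1 / 2) ^ j * (S / 8))) := by
        rw [← mul_assoc, e, one_mul]
    _ ≤ (4 / 3) ^ j * X := mul_le_mul_of_nonneg_left h1 (by positivity)

/-- volume bound for the intermediate values of the mollification. -/
theorem mixed_le (hB : SmoothBasics) (hL : SmoothLimit) {C Ar : ℝ} (hC : 0 ≤ C)
    (hAr : 0 ≤ Ar) {A : Set (Pt d)} (hA : MeasurableSet A) {n : Pt d} {S h η o : ℝ} {c : Pt d}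
    {P : Set (Pt d)} (J : ℕ) (hS : 0 < S) (hη : 0 ≤ η) (hh : 0 < h)
    (hJh : (1 / 2) ^ J * (S / 8) ≤ h) (hh4 : h ≤ S / 4)
    (hw : wsum A n S c ≤ ENNReal.ofReal (η * S ^ (d - 1)))
    (hP : volume (P ∩ slab n) ≤ ENNReal.ofReal (Ar * S ^ (d - 1)))
    (hstep : ∀ l l', 0 < l → l ≤ l' → l' ≤ S / 4 →
      ∫⁻ y in P, ENNReal.ofReal
          (wt o (S / 4) ⟪y, n⟫ * |smoothInd A l' y - smoothInd A l y|)
        ≤ ENNReal.ofReal (C * l') *
          (ENNReal.ofReal (excess A n S c l) + volume (P ∩ slab n))) :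
    ∫⁻ y in P, ENNReal.ofReal
        (wt o (S / 4) ⟪y, n⟫ * (smoothInd A h y * (1 - smoothInd A h y)))
      ≤ ENNReal.ofReal (C * h * (((4 / 3) ^ J * η + Ar) * S ^ (d - 1)) +
          C * S * ((η / 2 + (1 / 2) ^ J * Ar / 4) * S ^ (d - 1))) := by
  have hp : (0 : ℝ) ≤ S ^ (d - 1) := by positivity
  set w : Pt d → ℝ := fun y => wt o (S / 4) ⟪y, n⟫ with hw_def
  have hw0 : ∀ y, 0 ≤ w y := fun y => (Real.exp_pos _).le
  have hwc : Continuous w := by simp only [hw_def, wt]; fun_prop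
  set l : ℕ → ℝ := fun j => (1 / 2) ^ j * (S / 8) with hl_def
  have hlpos : ∀ j, 0 < l j := fun j => by positivity
  have hl8 : ∀ j, l j ≤ S / 4 := fun j => by
    have : ((1 : ℝ) / 2) ^ j ≤ 1 := pow_le_one₀ (by norm_num) (by norm_num)
    simp only [hl_def]; nlinarith
  have hvc : ∀ {s : ℝ}, 0 < s → Continuous (smoothInd A s) := fun hs => (hB d A hA _ hs).2.1
  have hterm : ∀ (j : ℕ) (s : ℝ), l j ≤ s → s ≤ S / 4 →
      ∫⁻ y in P, ENNReal.ofReal (w y * |smoothInd A s y - smoothInd A (l j) y|)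
        ≤ ENNReal.ofReal (C * s * (((4 / 3) ^ j * η + Ar) * S ^ (d - 1))) := by
    intro j s hj hs
    refine (hstep (l j) s (hlpos j) hj hs).trans ?_
    rw [ENNReal.ofReal_mul (q := ((4 / 3) ^ j * η + Ar) * S ^ (d - 1))
      (mul_nonneg hC ((hlpos j).le.trans hj)), add_mul,
      ENNReal.ofReal_add (by positivity) (by positivity)]
    refine mul_le_mul_right (add_le_add (ENNReal.ofReal_le_ofReal ?_) hP) _
    have := excess_le_of_wsum (by positivity) hw j
    linarith
  set T : ℕ → Pt d → ℝ≥0∞ := fun i y =>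
    ENNReal.ofReal (w y * |smoothInd A (l (i + J)) y - smoothInd A (l (i + J + 1)) y|) with hT
  have hTm : ∀ i, Measurable (T i) := fun i => ENNReal.measurable_ofReal.comp
    (hwc.mul (((hvc (hlpos _)).sub (hvc (hlpos _))).abs)).measurable
  have hae : ∀ᵐ y ∂volume.restrict P,
      ENNReal.ofReal (w y * (smoothInd A h y * (1 - smoothInd A h y))) ≤
        ENNReal.ofReal (w y * |smoothInd A h y - smoothInd A (l J) y|) + ∑' i, T i y := by
    refine ae_restrict_of_ae ?_
    filter_upwards [hL d A hA (S / 8) (by positivity)] with y hy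
    have hlim : Tendsto (fun N => smoothInd A (l (N + J)) y) atTop
        (𝓝 (A.indicator (fun _ => (1 : ℝ)) y)) := hy.comp (tendsto_add_atTop_nat J)
    have hcont : Continuous fun r : ℝ => ENNReal.ofReal (w y * |smoothInd A h y - r|) :=
      ENNReal.continuous_ofReal.comp (by fun_prop)
    have h1 : ENNReal.ofReal (w y * (smoothInd A h y * (1 - smoothInd A h y))) ≤
        ENNReal.ofReal (w y * |smoothInd A h y - A.indicator (fun _ => (1 : ℝ)) y|) := by
      refine ENNReal.ofReal_le_ofReal (mul_le_mul_of_nonneg_left ?_ (hw0 y))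
      obtain ⟨v0, v1⟩ := (hB d A hA h hh).1 y
      by_cases hyA : y ∈ A
      · rw [Set.indicator_of_mem hyA, abs_of_nonpos (by linarith)]
        nlinarith
      · rw [Set.indicator_of_notMem hyA, sub_zero, abs_of_nonneg v0]
        nlinarith
    refine h1.trans (le_of_tendsto' ((hcont.tendsto _).comp hlim) fun N => ?_)
    simp only [Function.comp_apply]
    have h2 := dist_le_range_sum_dist (fun i => smoothInd A (l (i + J)) y) N
    simp only [Real.dist_eq, zero_add] at h2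
    have h3 : w y * |smoothInd A h y - smoothInd A (l (N + J)) y| ≤
        w y * |smoothInd A h y - smoothInd A (l J) y| + ∑ i ∈ Finset.range N,
          w y * |smoothInd A (l (i + J)) y - smoothInd A (l (i + J + 1)) y| := by
      rw [← Finset.mul_sum, ← mul_add]
      refine mul_le_mul_of_nonneg_left ((abs_sub_le _ (smoothInd A (l J) y) _).trans ?_) (hw0 y)
      refine add_le_add le_rfl (h2.trans (le_of_eq (Finset.sum_congr rfl fun i _ => ?_)))
      rw [add_right_comm]
    refine (ENNReal.ofReal_le_ofReal h3).trans ?_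
    rw [ENNReal.ofReal_add (mul_nonneg (hw0 y) (abs_nonneg _))
      (Finset.sum_nonneg fun i _ => mul_nonneg (hw0 y) (abs_nonneg _)),
      ENNReal.ofReal_sum_of_nonneg fun i _ => mul_nonneg (hw0 y) (abs_nonneg _)]
    exact add_le_add le_rfl (ENNReal.sum_le_tsum _)
  refine (lintegral_mono_ae hae).trans ?_
  rw [lintegral_add_left (show Measurable fun y =>
        ENNReal.ofReal (w y * |smoothInd A h y - smoothInd A (l J) y|) from
      ENNReal.measurable_ofReal.comp (hwc.mul (((hvc hh).sub (hvc (hlpos _))).abs)).measurable),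
    lintegral_tsum (fun i => (hTm i).aemeasurable),
    ENNReal.ofReal_add (by positivity) (by positivity)]
  refine add_le_add (hterm J h hJh hh4) ?_
  set g : ℕ → ℝ := fun i =>
    C * S * S ^ (d - 1) * (η / 6) * (2 / 3) ^ i +
      C * S * S ^ (d - 1) * ((1 / 2) ^ J * Ar / 8) * (1 / 2) ^ i with hg
  have hgle : ∀ i, ∫⁻ y in P, T i y ≤ ENNReal.ofReal (g i) := by
    intro i
    refine (hterm (i + J + 1) (l (i + J)) ?_ (hl8 _)).trans (ENNReal.ofReal_le_ofReal ?_)
    · simp only [hl_def, pow_succ]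
      have : (0 : ℝ) < (1 / 2) ^ (i + J) * (S / 8) := by positivity
      linarith
    · simp only [hl_def, hg]
      have e : ((1 : ℝ) / 2) ^ (i + J) * (4 / 3) ^ (i + J) = (2 / 3) ^ (i + J) := by
        rw [← mul_pow]; norm_num
      have e2 : ((2 : ℝ) / 3) ^ (i + J) ≤ (2 / 3) ^ i :=
        pow_le_pow_of_le_one (by norm_num) (by norm_num) (by omega)
      have : C * ((1 / 2) ^ (i + J) * (S / 8)) *
          (((4 / 3) ^ (i + J + 1) * η + Ar) * S ^ (d - 1)) =
          C * S * S ^ (d - 1) * (η / 6) * ((1 / 2) ^ (i + J) * (4 / 3) ^ (i + J)) +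
            C * S * S ^ (d - 1) * ((1 / 2) ^ J * Ar / 8) * (1 / 2) ^ i := by
        rw [pow_succ, pow_add (1 / 2 : ℝ)]; ring
      rw [this, e]
      have h0 : 0 ≤ C * S * S ^ (d - 1) * (η / 6) := by positivity
      nlinarith [mul_le_mul_of_nonneg_left e2 h0]
  refine (ENNReal.tsum_le_tsum hgle).trans (le_of_eq ?_)
  have hs : Summable g :=
    ((summable_geometric_of_lt_one (by norm_num) (by norm_num)).mul_left _).add
      ((summable_geometric_of_lt_one (by norm_num) (by norm_num)).mul_left _)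
  rw [← ENNReal.ofReal_tsum_of_nonneg (fun i => by simp only [hg]; positivity) hs]
  congr 1
  simp only [hg]
  rw [Summable.tsum_add ((summable_geometric_of_lt_one (by norm_num) (by norm_num)).mul_left _)
      ((summable_geometric_of_lt_one (by norm_num) (by norm_num)).mul_left _),
    tsum_mul_left, tsum_mul_left, tsum_geometric_of_lt_one (by norm_num) (by norm_num),
    tsum_geometric_of_lt_one (by norm_num) (by norm_num)]
  ring

theorem exists_inner_gradInd (hB : SmoothBasics) {A : Set (Pt d)} (hA : MeasurableSet A) {l : ℝ}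
    (hl : 0 < l) (y u : Pt d) : ∃ τ ∈ Icc (0 : ℝ) 1,
      smoothInd A l (y + u) - smoothInd A l y = ⟪gradInd A l (y + τ • u), u⟫ := by
  have hd := (hB d A hA l hl).2.2.2.2.2.2 y u
  obtain ⟨τ, hτ, h⟩ := exists_hasDerivAt_eq_slope (fun t : ℝ => smoothInd A l (y + t • u))
    (fun t : ℝ => ⟪gradInd A l (y + t • u), u⟫) zero_lt_one
    (fun t _ => (hd t).continuousAt.continuousWithinAt) (fun t _ => hd t)
  refine ⟨τ, Ioo_subset_Icc_self hτ, ?_⟩
  rw [h]; simp

theorem abs_inner_le_defect {g u n : Pt d} (hn : ‖n‖ = 1) (hu : ⟪u, n⟫ = 0) {G D : ℝ}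
    (hG : ‖g‖ ≤ G) (hD : ‖g‖ - ⟪g, n⟫ ≤ D) : |⟪g, u⟫| ≤ √(2 * G * D) * ‖u‖ := by
  have h1 : ⟪g, u⟫ = ⟪linePt n g 0, u⟫ := by
    simp only [linePt, inner_add_left, real_inner_smul_left, real_inner_comm u n, hu]
    simp
  rw [h1]
  refine (abs_real_inner_le_norm _ _).trans (mul_le_mul_of_nonneg_right ?_ (norm_nonneg _))
  refine Real.le_sqrt_of_sq_le ?_
  have hs := norm_sq_split hn g
  have h2 := abs_real_inner_le_norm g n
  rw [hn, mul_one] at h2
  obtain ⟨h3, h4⟩ := abs_le.1 h2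
  have : (‖g‖ - ⟪g, n⟫) * (‖g‖ + ⟪g, n⟫) ≤ D * (2 * G) :=
    mul_le_mul hD (by linarith) (by linarith) (by linarith)
  nlinarith

theorem seg_mem {c y u : Pt d} {R τ : ℝ} (h0 : y ∈ Metric.closedBall c R)
    (h1 : y + u ∈ Metric.closedBall c R) (hτ : τ ∈ Icc (0 : ℝ) 1) :
    y + τ • u ∈ Metric.closedBall c R := by
  have := (convex_closedBall c R).add_smul_sub_mem h0 h1 hτ
  simpa using this

theorem near_facts {n c z : Pt d} (hn : ‖n‖ = 1) {m r : ℝ}
    (hz : z ∈ Metric.ball (c + m • n) r) :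
    |⟪z - c, n⟫ - m| ≤ r ∧ ‖linePt n z 0 - linePt n c 0‖ ≤ r ∧ ‖z - c‖ ≤ |m| + r := by
  rw [Metric.mem_ball, dist_eq_norm] at hz
  refine ⟨?_, ?_, ?_⟩
  · have := abs_real_inner_le_norm (z - (c + m • n)) n
    rw [hn, mul_one] at this
    have e : ⟪z - (c + m • n), n⟫ = ⟪z - c, n⟫ - m := by
      rw [← sub_sub, inner_sub_left, real_inner_smul_left, inner_self_one hn, mul_one]
    rw [e] at this
    linarith
  · have e : linePt n z 0 - linePt n c 0 = linePt n (z - (c + m • n)) 0 := by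
      rw [linePt_zero_sub, linePt_add_smul hn]
    rw [e]
    exact (norm_linePt_zero_le hn _).trans hz.le
  · have e : z - c = (z - (c + m • n)) + m • n := by module
    rw [e]
    refine (norm_add_le _ _).trans ?_
    rw [norm_smul, hn, mul_one, Real.norm_eq_abs]
    linarith

/-- the fundamental gap: a ball of intermediate values costs mixed volume. -/
theorem ball_mixed {A : Set (Pt d)} {n c : Pt d} (hn : ‖n‖ = 1) {S h K ε m R : ℝ} (hS : 0 < S)
    (hε : 0 < ε) (hε2 : ε ≤ 1 / 2) (hK : 1 ≤ K) (hm : |m| ≤ K * S + S / 2)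
    (hv : ∀ z ∈ Metric.ball (c + m • n) (ε * S / 4),
      ε / 2 ≤ smoothInd A h z ∧ smoothInd A h z ≤ 1 - ε / 2)
    (hint : ∫⁻ y in cyl n c S, ENNReal.ofReal
      (wt ⟪c, n⟫ (S / 4) ⟪y, n⟫ * (smoothInd A h y * (1 - smoothInd A h y)))
      ≤ ENNReal.ofReal R) (hR : 0 ≤ R) :
    Real.exp (-(32 * K ^ 2)) * (ε ^ 2 / 4) * ((ε / 4) ^ d * unitVol d) * S ^ d ≤ R := by
  have hsub : Metric.ball (c + m • n) (ε * S / 4) ⊆ cyl n c S := fun z hz =>
    ((near_facts hn hz).2.1.trans (by nlinarith) : ‖linePt n z 0 - linePt n c 0‖ ≤ S)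
  have h1 : ∫⁻ _ in Metric.ball (c + m • n) (ε * S / 4),
      ENNReal.ofReal (Real.exp (-(32 * K ^ 2)) * (ε ^ 2 / 4)) ≤ ENNReal.ofReal R := by
    refine le_trans ?_ ((lintegral_mono_set hsub).trans hint)
    refine setLIntegral_mono' measurableSet_ball fun z hz => ENNReal.ofReal_le_ofReal ?_
    obtain ⟨v0, v1⟩ := hv z hz
    refine mul_le_mul ?_ (by nlinarith) (by positivity) (Real.exp_pos _).le
    refine Real.exp_le_exp.2 ?_
    obtain ⟨a1, a2⟩ := abs_le.1 (near_facts hn hz).1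
    obtain ⟨b1, b2⟩ := abs_le.1 hm
    rw [← inner_sub_left, neg_div]
    refine neg_le_neg ?_
    rw [div_le_iff₀ (by positivity)]
    have hK2 : |⟪z - c, n⟫| ≤ 2 * K * S := abs_le.2 ⟨by nlinarith, by nlinarith⟩
    have := pow_le_pow_left₀ (abs_nonneg _) hK2 2
    rw [sq_abs] at this
    nlinarith
  rw [setLIntegral_const, Measure.addHaar_ball_of_pos volume _ (by positivity),
    finrank_euclideanSpace_fin] at h1
  have hV : volume (Metric.ball (0 : Pt d) 1) = ENNReal.ofReal (unitVol d) :=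
    (ENNReal.ofReal_toReal measure_ball_lt_top.ne).symm
  rw [hV, ← ENNReal.ofReal_mul (by positivity), ← ENNReal.ofReal_mul (by positivity),
    ENNReal.ofReal_le_ofReal_iff hR] at h1
  refine le_trans (le_of_eq ?_) h1
  rw [show ε * S / 4 = ε / 4 * S by ring, mul_pow]
  ring

/-- a monotone steep profile from pointwise closeness and the gap. -/
theorem profile_of_bounds {A : Set (Pt d)} {n c : Pt d} (hn : ‖n‖ = 1) {S h K ε τ : ℝ}
    (hS : 0 < S) (hε : 0 < ε) (hε2 : ε ≤ 1 / 2) (hK : 1 ≤ K) (hτ : τ ≤ ε / 12)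
    (hnear : ∀ y ∈ Metric.closedBall c (2 * K * S),
      |smoothInd A h y - smoothInd A h (c + ⟪y - c, n⟫ • n)| ≤ τ)
    (hmono : ∀ t t', -(2 * K * S) ≤ t → t ≤ t' → t' ≤ 2 * K * S →
      smoothInd A h (c + t • n) - τ ≤ smoothInd A h (c + t' • n))
    (hgap : ∀ m, |m| ≤ K * S + S / 2 →
      ¬ ∀ z ∈ Metric.ball (c + m • n) (ε * S / 4),
        ε / 2 ≤ smoothInd A h z ∧ smoothInd A h z ≤ 1 - ε / 2) :
    ∃ b : ℝ, ∀ y ∈ Metric.closedBall c (K * S),
      (b + ε * S ≤ ⟪y - c, n⟫ → 1 - ε ≤ smoothInd A h y) ∧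
      (⟪y - c, n⟫ ≤ b - ε * S → smoothInd A h y ≤ ε) := by
  have hKS : 0 < K * S := by positivity
  have hSK : S ≤ K * S := le_mul_of_one_le_left hS.le hK
  have hεS : ε * S ≤ S / 2 := by nlinarith
  have hεS0 : 0 < ε * S := by positivity
  set B : Set ℝ :=
    insert (2 * K * S) {t | t ∈ Icc (-(2 * K * S)) (2 * K * S) ∧
      1 / 2 ≤ smoothInd A h (c + t • n)} with hB
  have hne : B.Nonempty := ⟨2 * K * S, Or.inl rfl⟩
  have hbd : BddBelow B := ⟨-(2 * K * S), by
    rintro t (rfl | ⟨ht, -⟩)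
    · linarith
    · exact ht.1⟩
  have hb2 : sInf B ≤ 2 * K * S := csInf_le hbd (Or.inl rfl)
  refine ⟨sInf B, fun y hy => ?_⟩
  have hyn : ‖y - c‖ ≤ K * S := by rwa [Metric.mem_closedBall, dist_eq_norm] at hy
  have hy2 : y ∈ Metric.closedBall c (2 * K * S) :=
    Metric.closedBall_subset_closedBall (by linarith) hy
  have ht := abs_real_inner_le_norm (y - c) n
  rw [hn, mul_one] at ht
  obtain ⟨ht1, ht2⟩ := abs_le.1 (ht.trans hyn)
  obtain ⟨n1, n2⟩ := abs_le.1 (hnear y hy2)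
  have hzball : ∀ m, |m| ≤ K * S + S / 2 → ∀ z ∈ Metric.ball (c + m • n) (ε * S / 4),
      z ∈ Metric.closedBall c (2 * K * S) := by
    intro m hm z hz
    rw [Metric.mem_closedBall, dist_eq_norm]
    exact ((near_facts hn hz).2.2).trans (by linarith)
  set t := ⟪y - c, n⟫ with ht_def
  constructor
  · intro hbt
    by_contra hv
    rw [not_le] at hv
    obtain ⟨t₀, ht₀, hlt⟩ := exists_lt_of_csInf_lt hne
      (show sInf B < sInf B + ε * S / 4 by linarith)
    rcases ht₀ with rfl | ⟨⟨u1, u2⟩, u3⟩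
    · linarith
    have hm : |t - ε * S / 4| ≤ K * S + S / 2 := abs_le.2 ⟨by linarith, by linarith⟩
    refine hgap _ hm fun z hz => ?_
    obtain ⟨a1, a2⟩ := abs_le.1 (near_facts hn hz).1
    obtain ⟨z1, z2⟩ := abs_le.1 (hnear z (hzball _ hm z hz))
    have q1 := hmono t₀ ⟪z - c, n⟫ u1 (by linarith) (by linarith)
    have q2 := hmono ⟪z - c, n⟫ t (by linarith) (by linarith) (by linarith)
    exact ⟨by linarith, by linarith⟩
  · intro hbt
    by_contra hv
    rw [not_le] at hv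
    have hm : |t + ε * S / 4| ≤ K * S + S / 2 := abs_le.2 ⟨by linarith, by linarith⟩
    refine hgap _ hm fun z hz => ?_
    obtain ⟨a1, a2⟩ := abs_le.1 (near_facts hn hz).1
    obtain ⟨z1, z2⟩ := abs_le.1 (hnear z (hzball _ hm z hz))
    have q1 := hmono t ⟪z - c, n⟫ (by linarith) (by linarith) (by linarith)
    have q2 : smoothInd A h (c + ⟪z - c, n⟫ • n) < 1 / 2 := by
      by_contra hc
      rw [not_lt] at hc
      have := csInf_le hbd (show ⟪z - c, n⟫ ∈ B from Or.inr ⟨⟨by linarith, by linarith⟩, hc⟩)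
      linarith
    exact ⟨by linarith, by linarith⟩

/-- pointwise consequences of a small defect on a ball. -/
theorem bounds_of_defect (hB : SmoothBasics) {A : Set (Pt d)} (hA : MeasurableSet A) {n c : Pt d}
    (hn : ‖n‖ = 1) {h R D : ℝ} (hh : 0 < h) (hD0 : 0 ≤ D)
    (hD : ∀ x ∈ Metric.closedBall c R, defect A n h x ≤ D) :
    (∀ y ∈ Metric.closedBall c R,
      |smoothInd A h y - smoothInd A h (c + ⟪y - c, n⟫ • n)| ≤ √(2 * (√d / h) * D) * R) ∧
    (∀ t t', -R ≤ t → t ≤ t' → t' ≤ R →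
      smoothInd A h (c + t • n) - 2 * R * D ≤ smoothInd A h (c + t' • n)) := by
  have hgb := (hB d A hA h hh).2.2.2.1
  have hline : ∀ s, |s| ≤ R → c + s • n ∈ Metric.closedBall c R := by
    intro s hs
    rw [Metric.mem_closedBall, dist_eq_norm, add_sub_cancel_left, norm_smul, hn, mul_one]
    exact hs
  constructor
  · intro y hy
    set p := c + ⟪y - c, n⟫ • n
    have hy' : ‖y - c‖ ≤ R := by rwa [Metric.mem_closedBall, dist_eq_norm] at hy
    have hp : p ∈ Metric.closedBall c R := by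
      refine hline _ ?_
      have := abs_real_inner_le_norm (y - c) n
      rw [hn, mul_one] at this
      linarith
    obtain ⟨τ, hτ, he⟩ := exists_inner_gradInd hB hA hh p (y - p)
    rw [add_sub_cancel] at he
    rw [he]
    have hu : y - p = linePt n (y - c) 0 := by simp only [p, linePt]; module
    have hperp : ⟪y - p, n⟫ = 0 := by rw [hu, inner_linePt hn]
    have hmem := seg_mem hp (u := y - p) (by rwa [add_sub_cancel]) hτ
    refine (abs_inner_le_defect hn hperp (hgb _) (hD _ hmem)).trans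
      (mul_le_mul_of_nonneg_left ?_ (Real.sqrt_nonneg _))
    rw [hu]
    exact (norm_linePt_zero_le hn _).trans hy'
  · intro t t' h1 h2 h3
    obtain ⟨τ, hτ, he⟩ := exists_inner_gradInd hB hA hh (c + t • n) ((t' - t) • n)
    have e : c + t • n + (t' - t) • n = c + t' • n := by module
    rw [e] at he
    have hmem := seg_mem (hline t (abs_le.2 ⟨h1, by linarith⟩)) (u := (t' - t) • n)
      (by rw [e]; exact hline t' (abs_le.2 ⟨by linarith, h3⟩)) hτ
    have hdd := hD _ hmem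
    rw [real_inner_smul_right] at he
    set g := gradInd A h (c + t • n + τ • (t' - t) • n)
    have : -D ≤ ⟪g, n⟫ := by
      have := norm_nonneg g
      unfold defect at hdd; linarith
    have := mul_le_mul_of_nonneg_left this (show (0 : ℝ) ≤ t' - t by linarith)
    nlinarith [mul_le_mul_of_nonneg_right (show t' - t ≤ 2 * R by linarith) hD0]

/-- the defect on a ball from the weighted sum. -/
theorem defect_small (hB : SmoothBasics) (hC : SmoothConv) (hD : GaussDom) {A : Set (Pt d)}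
    (hA : MeasurableSet A) {n c x : Pt d} (hn : ‖n‖ = 1) {S δ η K : ℝ} (J : ℕ) (hS : 0 < S)
    (hδ : 0 < δ) (hδ8 : δ ≤ 1 / 8) (hη : 0 ≤ η) (hJ : (1 / 2) ^ J < δ)
    (hw : wsum A n S c ≤ ENNReal.ofReal (η * S ^ (d - 1)))
    (hx : x ∈ Metric.closedBall c (2 * K * S)) :
    defect A n (δ * S) x ≤ (2 / δ) ^ d * Real.exp (4 * K ^ 2) * (4 / 3) ^ J * η / S := by
  have hSd : S ^ d = S ^ (d - 1) * S := by rw [← pow_succ, Nat.sub_add_cancel (one_le_dim hn)]
  rw [Metric.mem_closedBall, dist_eq_norm] at hx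
  obtain ⟨l, hl⟩ : ∃ l, (1 / 2 : ℝ) ^ J * (S / 8) = l := ⟨_, rfl⟩
  have hl0 : 0 < l := hl ▸ by positivity
  have hlh : l ≤ δ * S / 2 := by
    rw [← hl]; nlinarith [mul_le_mul_of_nonneg_right hJ.le hS.le]
  have hh : δ * S ≤ S / 8 := by nlinarith
  have hh0 : 0 < δ * S := mul_pos hδ hS
  refine (defect_point hB hC hD hA hn (S := S) c x hl0 (by linarith) (by linarith)).trans ?_
  have he := excess_le_of_wsum (by positivity) hw J
  rw [hl] at he
  have e : (2 / δ) ^ d * Real.exp (4 * K ^ 2) * (4 / 3) ^ J * η / S =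
      (2 / δ) ^ d * Real.exp (4 * K ^ 2) * ((4 / 3) ^ J * (η * S ^ (d - 1)) / S ^ d) := by
    rw [hSd]; field_simp
  rw [e]
  refine mul_le_mul (mul_le_mul ?_ (Real.exp_le_exp.2 ?_) (Real.exp_pos _).le (by positivity))
    (div_le_div_of_nonneg_right he (by positivity))
    (div_nonneg (excess_nonneg A hn hS.le c l) (by positivity)) (by positivity)
  · refine pow_le_pow_left₀ (by positivity) ?_ d
    have h1 : √(S ^ 2 - l ^ 2) ≤ S := by
      rw [Real.sqrt_le_left hS.le]; nlinarith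
    have h2 : δ * S / 2 ≤ √((δ * S) ^ 2 - l ^ 2) := Real.le_sqrt_of_sq_le (by nlinarith)
    calc √(S ^ 2 - l ^ 2) / √((δ * S) ^ 2 - l ^ 2) ≤ S / (δ * S / 2) :=
          div_le_div₀ hS.le h1 (by positivity) h2
      _ = 2 / δ := by field_simp
  · have h1 : S ^ 2 / 2 ≤ S ^ 2 - (δ * S) ^ 2 := by nlinarith
    rw [div_le_iff₀ (by nlinarith)]
    have := pow_le_pow_left₀ (norm_nonneg _) hx 2
    nlinarith [sq_nonneg K]

theorem tau_arith {sd δ S P η K ε : ℝ} (hδ : 0 < δ) (hS : 0 < S) (hP : 0 ≤ P)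
    (hη : 0 ≤ η) (hK : 0 < K) (hε : 0 < ε) (h2 : 4 * K * P * η ≤ ε / 24)
    (h3 : 2 * (sd + 1) * P * η / δ ≤ (ε / (48 * K)) ^ 2) :
    √(2 * (sd / (δ * S)) * (P * η / S)) * (2 * K * S) ≤ ε / 24 ∧
      2 * (2 * K * S) * (P * η / S) ≤ ε / 24 := by
  constructor
  · have h1 : 2 * (sd / (δ * S)) * (P * η / S) ≤ (ε / (48 * K) / S) ^ 2 := by
      have e : 2 * (sd / (δ * S)) * (P * η / S) = 2 * sd * P * η / δ / S ^ 2 := by field_simp
      rw [e, div_pow _ S]
      refine div_le_div_of_nonneg_right (le_trans ?_ h3) (by positivity)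
      gcongr
      linarith
    have h4 := (Real.sqrt_le_sqrt h1).trans_eq (Real.sqrt_sq (by positivity))
    refine (mul_le_mul_of_nonneg_right h4 (by positivity)).trans (le_of_eq ?_)
    field_simp
    ring
  · refine le_trans (le_of_eq ?_) h2
    field_simp
    ring

theorem gap_arith {C δ pJ tJ η Ar q h S Sm : ℝ} (hC : 0 < C) (hδ : 0 < δ) (hδ8 : δ ≤ 1 / 8)
    (hpJ : pJ ≤ δ) (htJ : 0 ≤ tJ) (hη : 0 < η) (hAr : 0 < Ar) (hS : 0 < Sm * S)
    (hh : h = δ * S) (h1 : 8 * (C * (tJ + 1)) * η ≤ q) (h2 : 16 * (C * Ar) * δ ≤ q)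
    (hg : q * (Sm * S) ≤ C * h * ((tJ * η + Ar) * Sm) + C * S * ((η / 2 + pJ * Ar / 4) * Sm)) :
    False := by
  have e1 : C * h * ((tJ * η + Ar) * Sm) + C * S * ((η / 2 + pJ * Ar / 4) * Sm) =
      (C * δ * (tJ * η) + C * δ * Ar + C * η / 2 + C * Ar * pJ / 4) * (Sm * S) := by
    rw [hh]; ring
  rw [e1] at hg
  have h3 := le_of_mul_le_mul_right hg hS
  have h4 : C * δ * (tJ * η) ≤ C * (tJ * η) := by
    refine mul_le_mul_of_nonneg_right ?_ (by positivity)
    exact mul_le_of_le_one_right hC.le (by linarith)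
  have h5 : C * Ar * pJ ≤ C * Ar * δ := mul_le_mul_of_nonneg_left hpJ (by positivity)
  have h6 : 0 < C * η := by positivity
  have h7 : 0 ≤ C * (tJ * η) := by positivity
  linarith

/-- the parameters of `cellProfile`. -/
theorem exists_eta {C tJ P K ε δ q sd : ℝ} (hC : 0 < C) (htJ : 0 ≤ tJ) (hP : 0 < P) (hK : 0 < K)
    (hε : 0 < ε) (hδ : 0 < δ) (hq : 0 < q) (hsd : 0 ≤ sd) : ∃ η : ℝ, 0 < η ∧
      8 * (C * (tJ + 1)) * η ≤ q ∧ 4 * K * P * η ≤ ε / 24 ∧
      2 * (sd + 1) * P * η / δ ≤ (ε / (48 * K)) ^ 2 := by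
  set η := min (q / (8 * (C * (tJ + 1))))
    (min (ε / (24 * (4 * K * P))) ((ε / (48 * K)) ^ 2 * δ / (2 * (sd + 1) * P)))
  refine ⟨η, by positivity, ?_, ?_, ?_⟩
  · have : η ≤ q / (8 * (C * (tJ + 1))) := min_le_left _ _
    rw [le_div_iff₀ (by positivity)] at this
    linarith
  · have : η ≤ ε / (24 * (4 * K * P)) := (min_le_right _ _).trans (min_le_left _ _)
    rw [le_div_iff₀ (by positivity)] at this
    linarith
  · have : η ≤ (ε / (48 * K)) ^ 2 * δ / (2 * (sd + 1) * P) :=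
      (min_le_right _ _).trans (min_le_right _ _)
    rw [le_div_iff₀ (by positivity)] at this
    rw [div_le_iff₀ hδ]
    linarith

end Cell

open Cell in
theorem cellProfile (hB : SmoothBasics) (hC : SmoothConv) (hD : GaussDom) (hS : StepVol)
    (hL : SmoothLimit) (hF : LineFubini) : CellProfile := by
  intro d K ε₁ hK hε₁
  obtain ⟨ε, hεdef⟩ : ∃ ε, min ε₁ (1 / 2) = ε := ⟨_, rfl⟩
  have hε : 0 < ε := hεdef ▸ lt_min hε₁ (by norm_num)
  have hεle : ε ≤ ε₁ := hεdef ▸ min_le_left _ _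
  have hε2 : ε ≤ 1 / 2 := hεdef ▸ min_le_right _ _
  obtain ⟨C, hC0, hstep⟩ := hS d 1 le_rfl
  have huv : 0 < unitVol d := unitVol_pos
  obtain ⟨Ar, hAr⟩ : ∃ Ar, (2 : ℝ) ^ d * unitVol d = Ar := ⟨_, rfl⟩
  have hAr0 : 0 < Ar := hAr ▸ by positivity
  obtain ⟨q, hq⟩ : ∃ q,
      Real.exp (-(32 * K ^ 2)) * (ε ^ 2 / 4) * ((ε / 4) ^ d * unitVol d) = q := ⟨_, rfl⟩
  have hq0 : 0 < q := hq ▸ by positivity
  refine ⟨min (1 / 8) (q / (16 * (C * Ar))), lt_min (by norm_num) (by positivity),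
    fun δ hδ hδ₀ => ?_⟩
  have hδ8 : δ ≤ 1 / 8 := hδ₀.trans (min_le_left _ _)
  have hδq : 16 * (C * Ar) * δ ≤ q := by
    have := hδ₀.trans (min_le_right _ _)
    rw [le_div_iff₀ (by positivity)] at this
    linarith
  obtain ⟨J, hJ⟩ := exists_pow_lt_of_lt_one (show (0 : ℝ) < δ from hδ)
    (show (1 : ℝ) / 2 < 1 by norm_num)
  obtain ⟨P, hP⟩ : ∃ P, (2 / δ) ^ d * Real.exp (4 * K ^ 2) * (4 / 3) ^ J = P := ⟨_, rfl⟩
  have hP0 : 0 < P := hP ▸ by positivity
  obtain ⟨η, hη0, hη1, hη2, hη3⟩ := exists_eta (tJ := (4 / 3) ^ J) (sd := √d) hC0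
    (by positivity) hP0 (show 0 < K by linarith) hε hδ hq0 (Real.sqrt_nonneg _)
  refine ⟨η, hη0, fun A hA n S c hS0 hal hw => ?_⟩
  have hn := hal.1
  have hd := one_le_dim hn
  have hh0 : 0 < δ * S := by positivity
  have hh4 : δ * S ≤ S / 4 := by nlinarith
  have hJh : (1 / 2 : ℝ) ^ J * (S / 8) ≤ δ * S := by
    nlinarith [mul_le_mul_of_nonneg_right hJ.le hS0.le]
  have hdef : ∀ x ∈ Metric.closedBall c (2 * K * S), defect A n (δ * S) x ≤ P * η / S :=
    fun x hx => hP ▸ defect_small hB hC hD hA hn J hS0 hδ hδ8 hη0.le hJ hw hx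
  obtain ⟨hnear, hmono⟩ := bounds_of_defect hB hA hn hh0
    (show 0 ≤ P * η / S by positivity) hdef
  obtain ⟨hτ1, hτ2⟩ := tau_arith (sd := √d) hδ hS0 hP0.le hη0.le
    (show 0 < K by linarith) hε hη2 hη3
  have harea : volume (cyl n c S ∩ slab n) ≤ ENNReal.ofReal (Ar * S ^ (d - 1)) :=
    hAr ▸ area_cyl_le hF hn hd c hS0
  have hint := mixed_le hB hL hC0.le hAr0.le hA (o := ⟪c, n⟫) J hS0 hη0.le hh0 hJh hh4 hw harea
    (fun l l' h1 h2 h3 => hstep A hA n hn S ⟪c, n⟫ (S / 4) c l l' (cyl n c S) hS0 h1 h2 h3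
      (by positivity) le_rfl (by simp [hS0.le]) (measurableSet_cyl n c S) (lineInv_cyl hn c S)
      (by rw [one_mul]))
  obtain ⟨b, hb⟩ := profile_of_bounds (τ := ε / 12) hn hS0 hε hε2 hK le_rfl
    (fun y hy => (hnear y hy).trans (by linarith))
    (fun t t' h1 h2 h3 => by have := hmono t t' h1 h2 h3; linarith)
    (fun m hm hv => by
      have hgap := ball_mixed hn hS0 hε hε2 hK hm hv hint (by positivity)
      have hSd : S ^ d = S ^ (d - 1) * S := by rw [← pow_succ, Nat.sub_add_cancel hd]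
      rw [hq, hSd] at hgap
      exact gap_arith hC0 hδ hδ8 hJ.le (by positivity) hη0 hAr0 (by positivity) rfl hη1 hδq hgap)
  refine ⟨b, fun y hy => ⟨fun hy1 => ?_, fun hy1 => ?_⟩⟩
  · have := (hb y hy).1 (le_trans (by gcongr) hy1)
    linarith
  · have := (hb y hy).2 (le_trans hy1 (by gcongr))
    linarith

namespace Cell

variable {d : ℕ}

theorem norm_sq_gauss_le {l : ℝ} (hl : 0 < l) (z : Pt d) :
    ‖z‖ ^ 2 * gauss l z ≤ 4 * l ^ 2 * √2 ^ d * gauss (√2 * l) z := by
  have h1 : ‖z‖ ^ 2 / (4 * l ^ 2) ≤ Real.exp (‖z‖ ^ 2 / (4 * l ^ 2)) := by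
    have := Real.add_one_le_exp (‖z‖ ^ 2 / (4 * l ^ 2))
    linarith
  rw [div_le_iff₀ (by positivity)] at h1
  have h2 : √2 ^ d * gauss (√2 * l) z = gauss l z * Real.exp (‖z‖ ^ 2 / (4 * l ^ 2)) := by
    simp only [gauss]
    rw [mul_assoc ((√(2 * Real.pi) * l) ^ d)⁻¹, ← Real.exp_add, mul_pow √2 l,
      Real.sq_sqrt (by norm_num)]
    have e : -‖z‖ ^ 2 / (2 * l ^ 2) + ‖z‖ ^ 2 / (4 * l ^ 2) = -‖z‖ ^ 2 / (2 * (2 * l ^ 2)) := by
      field_simp; ring
    rw [e, mul_left_comm _ √2 l, mul_pow √2]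
    field_simp
  calc ‖z‖ ^ 2 * gauss l z
      ≤ Real.exp (‖z‖ ^ 2 / (4 * l ^ 2)) * (4 * l ^ 2) * gauss l z :=
        mul_le_mul_of_nonneg_right h1 (gauss_pos hl z).le
    _ = 4 * l ^ 2 * √2 ^ d * gauss (√2 * l) z := by rw [mul_assoc (4 * l ^ 2), h2]; ring

theorem integrable_norm_sq_gauss {l : ℝ} (hl : 0 < l) :
    Integrable fun z : Pt d => ‖z‖ ^ 2 * gauss l z := by
  refine ((integrable_gauss (l := √2 * l) (by positivity)).const_mul (4 * l ^ 2 * √2 ^ d)).mono'
    (((continuous_norm.pow 2).mul (continuous_gauss l)).aestronglyMeasurable)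
    (Eventually.of_forall fun z => ?_)
  rw [Real.norm_eq_abs, abs_of_nonneg (mul_nonneg (sq_nonneg _) (gauss_pos hl z).le)]
  exact norm_sq_gauss_le hl z

theorem integral_norm_sq_gauss_le {l : ℝ} (hl : 0 < l) :
    ∫ z : Pt d, ‖z‖ ^ 2 * gauss l z ≤ 4 * l ^ 2 * √2 ^ d := by
  refine (integral_mono (integrable_norm_sq_gauss hl)
    ((integrable_gauss (by positivity)).const_mul _) fun z => norm_sq_gauss_le hl z).trans ?_
  rw [integral_const_mul, integral_gauss (by positivity), mul_one]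

/-- derivative of the mollification through the semigroup. -/
theorem flux_eq (hB : SmoothBasics) (hC : SmoothConv) {A : Set (Pt d)} (hA : MeasurableSet A)
    {n : Pt d} (hn : ‖n‖ = 1) {S h : ℝ} (c : Pt d) (hh : 0 < h) (hhS : h < S) :
    (S ^ 2 - h ^ 2) * ⟪gradInd A S c, n⟫ =
      ∫ y, ⟪y - c, n⟫ * gauss (√(S ^ 2 - h ^ 2)) (y - c) * smoothInd A h y := by
  obtain ⟨R, hRdef⟩ : ∃ R, √(S ^ 2 - h ^ 2) = R := ⟨_, rfl⟩
  have hR : 0 < R := hRdef ▸ Real.sqrt_pos.2 (by nlinarith)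
  have hR2 : R ^ 2 = S ^ 2 - h ^ 2 := hRdef ▸ Real.sq_sqrt (by nlinarith)
  rw [hRdef, ← hR2]
  obtain ⟨hv01, hvc, -⟩ := hB d A hA h hh
  have hvb : ∀ y, |smoothInd A h y| ≤ 1 := fun y =>
    abs_le.2 ⟨by linarith [(hv01 y).1], (hv01 y).2⟩
  have hderiv := (hB d A hA S (hh.trans hhS)).2.2.2.2.2.2 c n 0
  simp only [zero_smul, add_zero] at hderiv
  have hfun : (fun t : ℝ => smoothInd A S (c + t • n)) =
      fun t => ∫ y, gauss R (c + t • n - y) * smoothInd A h y := by
    funext t; rw [← hRdef]; exact (hC d A hA h S hh hhS _).1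
  set κ := ((√(2 * Real.pi) * R) ^ d)⁻¹
  set a := 1 / (4 * R ^ 2) with ha
  have ha0 : 0 < a := by positivity
  set F' : ℝ → Pt d → ℝ := fun t y =>
    -(⟪c + t • n - y, n⟫ / R ^ 2) * gauss R (c + t • n - y) * smoothInd A h y with hF'
  set bound : Pt d → ℝ := fun y => κ * Real.exp (1 / (2 * R ^ 2)) / R ^ 2 *
    (1 + 1 / (2 * a)) * Real.exp (-(a / 2) * ‖c - y‖ ^ 2) with hbound
  have hb : ∀ t ∈ Metric.ball (0 : ℝ) 1, ∀ y, ‖F' t y‖ ≤ bound y := by
    intro t ht y
    rw [Metric.mem_ball, dist_zero_right, Real.norm_eq_abs] at ht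
    set w := c - y
    have hw : c + t • n - y = w + t • n := by simp only [w]; module
    have htn : ‖t • n‖ ≤ 1 := by rw [norm_smul, hn, mul_one]; exact ht.le
    have h1 : |⟪w + t • n, n⟫| ≤ ‖w‖ + 1 := by
      refine (abs_real_inner_le_norm _ _).trans ?_
      rw [hn, mul_one]; exact (norm_add_le _ _).trans (by linarith)
    have h2 : ‖w‖ ^ 2 / 2 - 1 ≤ ‖w + t • n‖ ^ 2 := by
      have h3 : ‖w‖ ≤ ‖w + t • n‖ + 1 := by
        have := norm_sub_le (w + t • n) (t • n)
        rw [add_sub_cancel_right] at this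
        linarith
      have h4 := pow_le_pow_left₀ (norm_nonneg _) h3 2
      nlinarith [sq_nonneg (‖w + t • n‖ - 1)]
    have h5 : gauss R (w + t • n) ≤
        κ * (Real.exp (1 / (2 * R ^ 2)) * Real.exp (-a * ‖w‖ ^ 2)) := by
      rw [gauss_eq, ← Real.exp_add]
      refine mul_le_mul_of_nonneg_left (Real.exp_le_exp.2 ?_) (by positivity)
      have := mul_le_mul_of_nonneg_left h2 (show 0 ≤ 1 / (2 * R ^ 2) by positivity)
      have e : 1 / (2 * R ^ 2) * (‖w‖ ^ 2 / 2 - 1) = a * ‖w‖ ^ 2 - 1 / (2 * R ^ 2) := by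
        rw [ha]; field_simp; ring
      linarith
    have h6 : ‖w‖ + 1 ≤ (1 + 1 / (2 * a)) * Real.exp (a / 2 * ‖w‖ ^ 2) := by
      have h7 := Real.add_one_le_exp (a / 2 * ‖w‖ ^ 2)
      have h8 : 0 ≤ a / 2 * (‖w‖ - 1 / a) ^ 2 := by positivity
      have e : a / 2 * (‖w‖ - 1 / a) ^ 2 = a / 2 * ‖w‖ ^ 2 - ‖w‖ + 1 / (2 * a) := by field_simp; ring
      have h9 : 1 / (2 * a) ≤ 1 / (2 * a) * Real.exp (a / 2 * ‖w‖ ^ 2) :=
        le_mul_of_one_le_right (by positivity) (Real.one_le_exp (by positivity))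
      linarith
    rw [hF', hbound]
    simp only [hw, Real.norm_eq_abs, abs_mul, abs_neg, abs_div, abs_of_pos (gauss_pos hR _),
      abs_of_pos (show (0 : ℝ) < R ^ 2 by positivity)]
    calc |⟪w + t • n, n⟫| / R ^ 2 * gauss R (w + t • n) * |smoothInd A h y|
        ≤ (1 + 1 / (2 * a)) * Real.exp (a / 2 * ‖w‖ ^ 2) / R ^ 2 *
            (κ * (Real.exp (1 / (2 * R ^ 2)) * Real.exp (-a * ‖w‖ ^ 2))) * 1 := by
          refine mul_le_mul (mul_le_mul (div_le_div_of_nonneg_right (h1.trans h6) (by positivity)) h5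
            (gauss_pos hR _).le (by positivity)) (hvb y) (abs_nonneg _) (by positivity)
      _ = κ * Real.exp (1 / (2 * R ^ 2)) / R ^ 2 * (1 + 1 / (2 * a)) *
            (Real.exp (a / 2 * ‖w‖ ^ 2) * Real.exp (-a * ‖w‖ ^ 2)) := by ring
      _ = κ * Real.exp (1 / (2 * R ^ 2)) / R ^ 2 * (1 + 1 / (2 * a)) *
            Real.exp (-(a / 2) * ‖w‖ ^ 2) := by rw [← Real.exp_add]; ring_nf
  have hcont : ∀ t : ℝ, Continuous fun y => gauss R (c + t • n - y) :=
    fun t => (continuous_gauss R).comp (continuous_const.sub continuous_id)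
  have hmain := (hasDerivAt_integral_of_dominated_loc_of_deriv_le
    (F := fun t y => gauss R (c + t • n - y) * smoothInd A h y) (F' := F') (x₀ := (0 : ℝ))
    (μ := (volume : Measure (Pt d))) (bound := bound)
    (Metric.ball_mem_nhds (0 : ℝ) one_pos)
    (Eventually.of_forall fun t => ((hcont t).mul hvc).aestronglyMeasurable)
    (((integrable_gauss hR).comp_sub_left _).mul_bdd (c := 1) hvc.aestronglyMeasurable
      (Eventually.of_forall fun y => by simpa using hvb y))
    (by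
      have : Continuous fun y => F' 0 y := by simp only [hF', gauss]; fun_prop
      exact this.aestronglyMeasurable)
    (Eventually.of_forall fun y t ht => hb t ht y)
    (((integrable_exp_norm (half_pos ha0)).comp_sub_left c).const_mul _)
    (Eventually.of_forall fun y t _ => by
      have e := ((((hasDerivAt_id t).smul_const n).const_add (c - y)).norm_sq).neg.div_const
        (2 * R ^ 2) |>.exp |>.const_mul κ |>.mul_const (smoothInd A h y)
      refine (e.congr_of_eventuallyEq (Eventually.of_forall fun s => ?_)).congr_deriv ?_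
      · simp only [gauss, id, κ, Pi.neg_apply]
        rw [show c + s • n - y = c - y + s • n by module]
      · simp only [hF', gauss, id, κ, one_smul, Pi.neg_apply]
        rw [show c + t • n - y = c - y + t • n by module]
        field_simp)).2
  rw [← hfun] at hmain
  rw [hderiv.unique hmain, ← integral_const_mul]
  refine integral_congr_ae (Eventually.of_forall fun y => ?_)
  simp only [hF', zero_smul, add_zero]
  rw [gauss_sub_comm R c y, ← neg_sub y c, inner_neg_left]
  field_simp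

theorem integral_odd_gauss (R : ℝ) (n c : Pt d) :
    ∫ y : Pt d, ⟪y - c, n⟫ * gauss R (y - c) = 0 := by
  rw [integral_sub_right_eq_self (fun z : Pt d => ⟪z, n⟫ * gauss R z) c]
  have h := integral_neg_eq_self (fun z : Pt d => ⟪z, n⟫ * gauss R z) volume
  have e : (fun z : Pt d => ⟪-z, n⟫ * gauss R (-z)) = fun z => -(⟪z, n⟫ * gauss R z) := by
    funext z; simp only [gauss, norm_neg, inner_neg_left]; ring
  simp only [e, integral_neg] at h
  linarith

theorem integrable_inner_gauss {n : Pt d} (hn : ‖n‖ = 1) {R : ℝ} (hR : 0 < R) (c : Pt d) :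
    Integrable fun y : Pt d => ⟪y - c, n⟫ * gauss R (y - c) := by
  refine (((integrable_gauss hR).add (integrable_norm_sq_gauss hR)).comp_sub_right c).mono'
    (Continuous.aestronglyMeasurable (by unfold gauss; fun_prop))
    (Eventually.of_forall fun y => ?_)
  rw [Real.norm_eq_abs, abs_mul, abs_of_pos (gauss_pos hR _), Pi.add_apply]
  have h1 := abs_real_inner_le_norm (y - c) n
  rw [hn, mul_one] at h1
  have h2 : |⟪y - c, n⟫| ≤ 1 + ‖y - c‖ ^ 2 := by nlinarith [sq_nonneg (‖y - c‖ - 1)]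
  have := mul_le_mul_of_nonneg_right h2 (gauss_pos hR (y - c)).le
  linarith

/-- the step along `n` at height `b`. -/
noncomputable def step (n c : Pt d) (b : ℝ) (y : Pt d) : ℝ := if b < ⟪y - c, n⟫ then 1 else 0

theorem measurable_step (n c : Pt d) (b : ℝ) : Measurable (step n c b) :=
  Measurable.ite (measurableSet_lt measurable_const (by fun_prop)) measurable_const measurable_const

theorem abs_step_le (n c : Pt d) (b : ℝ) (y : Pt d) : |step n c b y| ≤ 1 := by
  unfold step; split_ifs <;> simp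

/-- flux of the exact step. -/
theorem step_flux {n c : Pt d} (hn : ‖n‖ = 1) {S R K b : ℝ} (hS : 0 < S) (hR : 0 < R)
    (hK : 1 ≤ K) (hRS : R ≤ S) (hRS2 : 3 / 4 * S ^ 2 ≤ R ^ 2) (hb : |b| ≤ K * S) :
    (1 / 2) ^ (d + 1) * unitVol d * ((√(2 * Real.pi)) ^ d)⁻¹ *
        Real.exp (-((2 / 3) * (K + 2) ^ 2)) * S
      ≤ ∫ y, step n c b y * (⟪y - c, n⟫ * gauss R (y - c)) := by
  have hk := integrable_inner_gauss hn hR c
  obtain ⟨σ, hσ⟩ : ∃ σ : ℝ, (if b < 0 then (1 : ℝ) else 0) = σ := ⟨_, rfl⟩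
  have hi1 : Integrable fun y => step n c b y * (⟪y - c, n⟫ * gauss R (y - c)) :=
    hk.bdd_mul (measurable_step n c b).aestronglyMeasurable
      (Eventually.of_forall fun y => by simpa using abs_step_le n c b y)
  have e : ∫ y, step n c b y * (⟪y - c, n⟫ * gauss R (y - c)) =
      ∫ y, (step n c b y - σ) * (⟪y - c, n⟫ * gauss R (y - c)) := by
    simp only [sub_mul]
    rw [integral_sub hi1 (hk.const_mul σ), integral_const_mul, integral_odd_gauss, mul_zero,
      sub_zero]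
  rw [e]
  obtain ⟨m, hm, hmσ⟩ : ∃ m : ℝ, |m| = (K + 1) * S ∧
      ∀ t, |t - m| ≤ S / 2 → S / 2 ≤ ((if b < t then 1 else 0) - σ) * t := by
    obtain ⟨b1, b2⟩ := abs_le.1 hb
    have hKS : S ≤ K * S := le_mul_of_one_le_left hS.le hK
    by_cases hb0 : b < 0
    · refine ⟨-((K + 1) * S), by rw [abs_neg, abs_of_pos (by positivity)], fun t ht => ?_⟩
      obtain ⟨t1, t2⟩ := abs_le.1 ht
      rw [← hσ, if_pos hb0, if_neg (show ¬ b < t by linarith)]
      linarith
    · refine ⟨(K + 1) * S, abs_of_pos (by positivity), fun t ht => ?_⟩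
      obtain ⟨t1, t2⟩ := abs_le.1 ht
      rw [← hσ, if_neg hb0, if_pos (show b < t by linarith)]
      linarith
  have hnonneg : ∀ y, 0 ≤ (step n c b y - σ) * (⟪y - c, n⟫ * gauss R (y - c)) := by
    intro y
    rw [← mul_assoc]
    refine mul_nonneg ?_ (gauss_pos hR _).le
    rw [← hσ]; unfold step
    split_ifs with h1 h2 h2 <;> nlinarith [abs_le.1 hb]
  set gmin := ((√(2 * Real.pi) * S) ^ d)⁻¹ * Real.exp (-((2 / 3) * (K + 2) ^ 2))
  have hi2 : Integrable fun y => (step n c b y - σ) * (⟪y - c, n⟫ * gauss R (y - c)) :=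
    (hi1.sub (hk.const_mul σ)).congr (Eventually.of_forall fun y => by
      simp only [Pi.sub_apply]; ring)
  have h1 := setIntegral_ge_of_const_le_real (μ := (volume : Measure (Pt d))) (c := S / 2 * gmin)
    (measurableSet_ball (x := c + m • n) (ε := S / 2)) measure_ball_lt_top.ne
    (fun y hy => ?_) hi2.integrableOn
  · refine le_trans ?_ (h1.trans (setIntegral_le_integral hi2 (Eventually.of_forall hnonneg)))
    rw [measureReal_def, toReal_volume_ball _ (by positivity)]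
    refine le_of_eq ?_
    simp only [gmin]
    rw [mul_pow, div_pow, div_pow, one_pow, pow_succ]
    field_simp
  · obtain ⟨a1, -, a3⟩ := near_facts hn hy
    have := hmσ _ a1
    rw [← mul_assoc (step n c b y - σ)]
    refine mul_le_mul this ?_ (by positivity) (le_trans (by positivity) this)
    simp only [gmin, gauss]
    have hR' : (√(2 * Real.pi) * R) ^ d ≤ (√(2 * Real.pi) * S) ^ d := by gcongr
    refine mul_le_mul (inv_anti₀ (by positivity) hR') (Real.exp_le_exp.2 ?_) (by positivity)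
      (by positivity)
    rw [neg_div, neg_le_neg_iff, div_le_iff₀ (by positivity)]
    have h2 : ‖y - c‖ ≤ (K + 2) * S := by rw [hm] at a3; linarith
    have h3 := pow_le_pow_left₀ (norm_nonneg _) h2 2
    nlinarith [mul_le_mul_of_nonneg_left hRS2 (show 0 ≤ (K + 2) ^ 2 by positivity)]

/-- flux of an approximate step. -/
theorem flux_err (hF : LineFubini) {A : Set (Pt d)} {n c : Pt d} (hn : ‖n‖ = 1)
    {S R h K K' ε b : ℝ} (hS : 0 < S) (hR : 0 < R) (hRS : R ≤ S) (hSR : S / 2 ≤ R)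
    (hK' : 1 ≤ K') (hε : 0 < ε) (hε1 : ε ≤ 1) (hb : |b| ≤ K * S)
    (hvc : Continuous (smoothInd A h))
    (hv01 : ∀ y, 0 ≤ smoothInd A h y ∧ smoothInd A h y ≤ 1)
    (hprof : ∀ y ∈ Metric.closedBall c (K' * S),
      (b + ε * S ≤ ⟪y - c, n⟫ → 1 - ε ≤ smoothInd A h y) ∧
      (⟪y - c, n⟫ ≤ b - ε * S → smoothInd A h y ≤ ε)) :
    (∫ y, step n c b y * (⟪y - c, n⟫ * gauss R (y - c))) -
        (ε / 2 + (ε / 2 + 1 / K') * (4 * √2 ^ d) +
          ε * (2 * (K + 1) * (2 ^ d * unitVol d * K' ^ (d - 1)) *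
            ((√(2 * Real.pi) / 2) ^ d)⁻¹)) * S
      ≤ ∫ y, ⟪y - c, n⟫ * gauss R (y - c) * smoothInd A h y := by
  have hk := integrable_inner_gauss hn hR c
  obtain ⟨b1, b2⟩ := abs_le.1 hb
  have hKS : 0 ≤ K * S := (abs_nonneg b).trans hb
  have hεS : ε * S ≤ S := mul_le_of_le_one_left hS.le hε1
  set band := tube n (cyl n c (K' * S)) (⟪c, n⟫ + b - ε * S) (⟪c, n⟫ + b + ε * S) with hband
  obtain ⟨Gm, hGm⟩ : ∃ Gm, ((√(2 * Real.pi) * (S / 2)) ^ d)⁻¹ = Gm := ⟨_, rfl⟩
  have hGm0 : 0 < Gm := hGm ▸ by positivity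
  have hKpos : 0 < K' * S := by positivity
  have hvol : volume band ≤
      ENNReal.ofReal (2 * ε * S * (2 ^ d * unitVol d * (K' * S) ^ (d - 1))) := by
    rw [hband, volume_tube hF hn (measurableSet_cyl _ _ _) (lineInv_cyl hn _ _),
      ENNReal.ofReal_mul (p := 2 * ε * S) (by positivity),
      show ⟪c, n⟫ + b + ε * S - (⟪c, n⟫ + b - ε * S) = 2 * ε * S by ring]
    exact mul_le_mul_right (area_cyl_le hF hn (one_le_dim hn) c hKpos) _
  have hband_m : MeasurableSet band := measurableSet_tube (measurableSet_cyl _ _ _) _ _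
  set U : Pt d → ℝ := fun y => ε * S / 2 * gauss R (y - c) +
    (ε / (2 * S) + 1 / (K' * S)) * (‖y - c‖ ^ 2 * gauss R (y - c)) +
    band.indicator (fun _ => (K + 1) * S * Gm) y with hU
  have hU1 := ((integrable_gauss (d := d) hR).comp_sub_right c).const_mul (ε * S / 2)
  have hU2 := ((integrable_norm_sq_gauss (d := d) hR).comp_sub_right c).const_mul
    (ε / (2 * S) + 1 / (K' * S))
  have hU3 : Integrable (band.indicator (fun _ => (K + 1) * S * Gm)) :=
    (integrableOn_const (ne_top_of_le_ne_top ENNReal.ofReal_ne_top hvol)).integrable_indicator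
      hband_m
  have hUint : Integrable U := (hU1.add hU2).add hU3
  have hstep : Integrable fun y => step n c b y * (⟪y - c, n⟫ * gauss R (y - c)) :=
    hk.bdd_mul (measurable_step n c b).aestronglyMeasurable
      (Eventually.of_forall fun y => by simpa using abs_step_le n c b y)
  have hvk : Integrable fun y => ⟪y - c, n⟫ * gauss R (y - c) * smoothInd A h y :=
    hk.mul_bdd (c := 1) hvc.aestronglyMeasurable
      (Eventually.of_forall fun y => by simpa [abs_of_nonneg (hv01 y).1] using (hv01 y).2)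
  have hpt : ∀ y, step n c b y * (⟪y - c, n⟫ * gauss R (y - c)) -
      ⟪y - c, n⟫ * gauss R (y - c) * smoothInd A h y ≤ U y := by
    intro y
    have hg := gauss_pos hR (y - c)
    obtain ⟨v0, v1⟩ := hv01 y
    set t := ⟪y - c, n⟫ with ht
    set z := ‖y - c‖
    set g := gauss R (y - c) with hg_def
    set v := smoothInd A h y
    have htz : |t| ≤ z := by
      have := abs_real_inner_le_norm (y - c) n
      rwa [hn, mul_one] at this
    have hz : z ≤ S / 2 + z ^ 2 / (2 * S) := by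
      rw [← sub_nonneg]
      have : S / 2 + z ^ 2 / (2 * S) - z = (z - S) ^ 2 / (2 * S) := by field_simp; ring
      rw [this]; positivity
    obtain ⟨D, hD⟩ : ∃ D, step n c b y - v = D := ⟨_, rfl⟩
    have hD1 : |D| ≤ 1 := by
      rw [← hD, abs_le]; unfold step; split_ifs <;> constructor <;> linarith
    have hlhs : step n c b y * (t * g) - t * g * v ≤ |D| * |t| * g := by
      calc step n c b y * (t * g) - t * g * v = (D * t) * g := by rw [← hD]; ring
        _ ≤ |D| * |t| * g := mul_le_mul_of_nonneg_right (by rw [← abs_mul]; exact le_abs_self _) hg.le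
    refine hlhs.trans ?_
    have hz2 : 0 ≤ z ^ 2 * g := by positivity
    have hi0 : 0 ≤ band.indicator (fun _ => (K + 1) * S * Gm) y :=
      Set.indicator_nonneg (fun _ _ => mul_nonneg (by linarith) hGm0.le) y
    have hA1 : 0 ≤ ε * S / 2 * g := by positivity
    have hA2 : 0 ≤ ε / (2 * S) * (z ^ 2 * g) := by positivity
    have hA3 : 0 ≤ 1 / (K' * S) * (z ^ 2 * g) := by positivity
    simp only [hU]
    rw [← hg_def]
    rcases le_or_gt z (K' * S) with hzK | hzK
    · obtain ⟨p1, p2⟩ := hprof y (by rwa [Metric.mem_closedBall, dist_eq_norm])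
      by_cases hin : |t - b| < ε * S
      · obtain ⟨q1, q2⟩ := abs_lt.1 hin
        have hmem : y ∈ band := by
          refine ⟨?_, ?_, ?_⟩
          · show ‖linePt n y 0 - linePt n c 0‖ ≤ K' * S
            rw [← linePt_zero_sub]
            exact (norm_linePt_zero_le hn _).trans hzK
          · rw [ht, inner_sub_left] at q1; linarith
          · rw [ht, inner_sub_left] at q2; linarith
        rw [Set.indicator_of_mem hmem] at hi0 ⊢
        have h1 : |D| * |t| * g ≤ 1 * ((K + 1) * S) * Gm := by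
          refine mul_le_mul (mul_le_mul hD1 (abs_le.2 ⟨by linarith, by linarith⟩) (abs_nonneg _)
            zero_le_one) ?_ hg.le (by linarith)
          rw [hg_def, ← hGm, gauss]
          refine (mul_le_of_le_one_right (by positivity) (Real.exp_le_one_iff.2 ?_)).trans
            (inv_anti₀ (by positivity) (by gcongr))
          rw [neg_div, neg_nonpos]; positivity
        linarith
      · have hDε : |D| ≤ ε := by
          rw [← hD, abs_le]; unfold step
          rcases le_or_gt (ε * S) (t - b) with h' | h'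
          · have := p1 (by linarith)
            rw [if_pos (by nlinarith : b < t)]
            constructor <;> linarith
          · have h'' : t ≤ b - ε * S := by
              by_contra hc; exact hin (abs_lt.2 ⟨by linarith, h'⟩)
            have := p2 h''
            rw [if_neg (by nlinarith : ¬ b < t)]
            constructor <;> linarith
        have h1 : |D| * |t| * g ≤ ε * (S / 2 + z ^ 2 / (2 * S)) * g :=
          mul_le_mul_of_nonneg_right (mul_le_mul hDε (htz.trans hz) (abs_nonneg _) hε.le) hg.le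
        have e : ε * (S / 2 + z ^ 2 / (2 * S)) * g =
            ε * S / 2 * g + ε / (2 * S) * (z ^ 2 * g) := by ring
        linarith
    · have h1 : z ≤ z ^ 2 / (K' * S) := by
        rw [le_div_iff₀ hKpos]; nlinarith [norm_nonneg (y - c)]
      have h2 : |D| * |t| * g ≤ 1 * (z ^ 2 / (K' * S)) * g :=
        mul_le_mul_of_nonneg_right (mul_le_mul hD1 (htz.trans h1) (abs_nonneg _) zero_le_one) hg.le
      have e : 1 * (z ^ 2 / (K' * S)) * g = 1 / (K' * S) * (z ^ 2 * g) := by ring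
      linarith
  have h1 := integral_mono (hstep.sub hvk) hUint hpt
  simp only [Pi.sub_apply] at h1
  rw [integral_sub hstep hvk] at h1
  have h2 : ∫ y, U y ≤ ε * S / 2 + (ε / (2 * S) + 1 / (K' * S)) * (4 * R ^ 2 * √2 ^ d) +
      2 * ε * S * (2 ^ d * unitVol d * (K' * S) ^ (d - 1)) * ((K + 1) * S * Gm) := by
    rw [hU, integral_add (hU1.fun_add hU2) hU3, integral_add hU1 hU2, integral_const_mul,
      integral_const_mul, integral_sub_right_eq_self (fun z : Pt d => gauss R z) c,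
      integral_sub_right_eq_self (fun z : Pt d => ‖z‖ ^ 2 * gauss R z) c, integral_gauss hR,
      integral_indicator_const _ hband_m, mul_one, smul_eq_mul]
    gcongr
    · exact integral_norm_sq_gauss_le hR
    · exact mul_nonneg (by linarith) hGm0.le
    · rw [measureReal_def]
      exact ENNReal.toReal_le_of_le_ofReal (by have := unitVol_pos (d := d); positivity) hvol
  have h3 : ε * S / 2 + (ε / (2 * S) + 1 / (K' * S)) * (4 * R ^ 2 * √2 ^ d) +
      2 * ε * S * (2 ^ d * unitVol d * (K' * S) ^ (d - 1)) * ((K + 1) * S * Gm) ≤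
      (ε / 2 + (ε / 2 + 1 / K') * (4 * √2 ^ d) +
        ε * (2 * (K + 1) * (2 ^ d * unitVol d * K' ^ (d - 1)) *
          ((√(2 * Real.pi) / 2) ^ d)⁻¹)) * S := by
    have hR2 : R ^ 2 ≤ S ^ 2 := pow_le_pow_left₀ hR.le hRS 2
    have h4 : (ε / (2 * S) + 1 / (K' * S)) * (4 * R ^ 2 * √2 ^ d) ≤
        (ε / (2 * S) + 1 / (K' * S)) * (4 * S ^ 2 * √2 ^ d) := by gcongr
    have e4 : (ε / (2 * S) + 1 / (K' * S)) * (4 * S ^ 2 * √2 ^ d) =
        (ε / 2 + 1 / K') * (4 * √2 ^ d) * S := by field_simp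
    have e5 : 2 * ε * S * (2 ^ d * unitVol d * (K' * S) ^ (d - 1)) * ((K + 1) * S * Gm) =
        ε * (2 * (K + 1) * (2 ^ d * unitVol d * K' ^ (d - 1)) *
          ((√(2 * Real.pi) / 2) ^ d)⁻¹) * S := by
      have hSd : S ^ d = S ^ (d - 1) * S := by
        rw [← pow_succ, Nat.sub_add_cancel (one_le_dim hn)]
      rw [← hGm, mul_pow K', mul_div_assoc', mul_div_right_comm, mul_pow _ S, hSd]
      field_simp
    linarith
  linarith

theorem exists_flux_params {m X Y Z : ℝ} (K : ℝ) (d : ℕ) (hm : 0 < m) (hX : 0 ≤ X)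
    (hY : 0 ≤ Y) (hZ : 0 ≤ Z) (hK : 1 ≤ K) : ∃ K' ε : ℝ, K ≤ K' ∧ 1 ≤ K' ∧ 0 < ε ∧ ε ≤ 1 ∧
      ε / 2 + (ε / 2 + 1 / K') * X + ε * (Y * K' ^ (d - 1) * Z) ≤ m / 2 := by
  obtain ⟨K', h1, h2⟩ : ∃ K', K ≤ K' ∧ 4 * (X + 1) / m ≤ K' :=
    ⟨max K _, le_max_left _ _, le_max_right _ _⟩
  have hK' : 0 < K' := by linarith
  obtain ⟨W, hW⟩ : ∃ W, 1 / 2 + X / 2 + Y * K' ^ (d - 1) * Z = W := ⟨_, rfl⟩
  have hW0 : 0 < W := hW ▸ by positivity
  refine ⟨K', min 1 (m / (4 * W)), h1, by linarith, lt_min one_pos (by positivity),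
    min_le_left _ _, ?_⟩
  have hε := min_le_right 1 (m / (4 * W))
  rw [le_div_iff₀ (by positivity)] at hε
  generalize min 1 (m / (4 * W)) = e at hε ⊢
  rw [div_le_iff₀ hm] at h2
  have h3 : 1 / K' * X ≤ m / 4 := by
    rw [one_div_mul_eq_div, div_le_iff₀ hK']; linarith
  rw [← hW] at hε
  linarith

end Cell

open Cell in
theorem cellFlux (hB : SmoothBasics) (hC : SmoothConv) (hF : LineFubini) : CellFlux := by
  intro d K hK
  have huv : 0 < unitVol d := unitVol_pos
  obtain ⟨m, hm⟩ : ∃ m, (1 / 2) ^ (d + 1) * unitVol d * ((√(2 * Real.pi)) ^ d)⁻¹ *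
      Real.exp (-((2 / 3) * (K + 2) ^ 2)) = m := ⟨_, rfl⟩
  have hm0 : 0 < m := hm ▸ by positivity
  obtain ⟨K', ε, hKK, hK1, hε, hε1, hbound⟩ := exists_flux_params (m := m)
    (X := 4 * √2 ^ d) (Y := 2 * (K + 1) * (2 ^ d * unitVol d))
    (Z := ((√(2 * Real.pi) / 2) ^ d)⁻¹) K d hm0 (by positivity) (by positivity) (by positivity) hK
  refine ⟨K', ε, m / 2, 1 / 2, hKK, hε, half_pos hm0, by norm_num,
    fun A hA n S δ b c hS hn hδ hδ0 hb hprof => ?_⟩
  have hh : 0 < δ * S := by positivity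
  have hhS : δ * S ≤ S / 2 := by nlinarith
  obtain ⟨hv01, hvc, -⟩ := hB d A hA _ hh
  have hfl := flux_eq hB hC hA hn (S := S) c hh (by linarith)
  obtain ⟨R, hR⟩ : ∃ R, √(S ^ 2 - (δ * S) ^ 2) = R := ⟨_, rfl⟩
  have hRpos : 0 < R := hR ▸ Real.sqrt_pos.2 (by nlinarith)
  have hR2 : R ^ 2 = S ^ 2 - (δ * S) ^ 2 := hR ▸ Real.sq_sqrt (by nlinarith)
  rw [hR, ← hR2] at hfl
  have hRS : R ≤ S := by nlinarith
  have hR3 : 3 / 4 * S ^ 2 ≤ R ^ 2 := by nlinarith
  have h1 := step_flux (c := c) hn hS hRpos hK hRS hR3 hb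
  have h2 := flux_err hF hn hS hRpos hRS (by nlinarith) hK1 hε hε1 hb hvc hv01 hprof
  rw [hm] at h1
  have e : 2 * (K + 1) * (2 ^ d * unitVol d) * K' ^ (d - 1) =
      2 * (K + 1) * (2 ^ d * unitVol d * K' ^ (d - 1)) := by ring
  rw [e] at hbound
  have h3 := mul_le_mul_of_nonneg_right hbound hS.le
  have hJ : m / 2 * S ≤ R ^ 2 * ⟪gradInd A S c, n⟫ := by rw [hfl]; linarith
  have hg : 0 ≤ ⟪gradInd A S c, n⟫ :=
    (mul_nonneg_iff_of_pos_left (by positivity : (0 : ℝ) < R ^ 2)).1 (le_trans (by positivity) hJ)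
  have h4 := mul_le_mul_of_nonneg_right (pow_le_pow_left₀ hRpos.le hRS 2) hg
  nlinarith

end Vale.Agent.P137
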