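import Vale.Agent.P137.Interface

/-! # P137 module E: height chains (Poincare inequality for column heights) -/

namespace Vale.Agent.P137

open MeasureTheory Set Filter Topology
open scoped RealInnerProductSpace ENNReal

namespace ChainAux

variable {d : ℕ}

/-- horizontal part. -/
noncomputable def tp (n y : Pt d) : Pt d := y - ⟪y, n⟫ • n

theorem linePt_eq (n x : Pt d) (t : ℝ) : linePt n x t = tp n x + t • n := by
  simp only [linePt, tp, sub_smul]; abel

theorem linePt_add (n x u : Pt d) (t : ℝ) : linePt n (x + u) t = linePt n x t + tp n u := by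
  simp only [linePt_eq, tp, inner_add_left, add_smul]; abel

theorem inner_tp {n : Pt d} (hn : ‖n‖ = 1) (y : Pt d) : ⟪tp n y, n⟫ = 0 := by
  simp [tp, inner_sub_left, inner_smul_left, hn]

theorem norm_sq_split {n : Pt d} (hn : ‖n‖ = 1) (y : Pt d) :
    ‖y‖ ^ 2 = ⟪y, n⟫ ^ 2 + ‖tp n y‖ ^ 2 := by
  simp only [tp, norm_sub_sq_real, inner_smul_right, norm_smul, hn, mul_one,
    Real.norm_eq_abs, sq_abs]
  ring

theorem norm_tp_le {n : Pt d} (hn : ‖n‖ = 1) (y : Pt d) : ‖tp n y‖ ≤ ‖y‖ := by
  refine abs_norm (tp n y) ▸ abs_norm y ▸ (sq_le_sq.1 ?_)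
  rw [norm_sq_split hn y]
  nlinarith [sq_nonneg ⟪y, n⟫]

theorem tp_sub (n x y : Pt d) : tp n (x - y) = tp n x - tp n y := by
  simp only [tp, inner_sub_left, sub_smul]; abel

theorem inner_linePt {n : Pt d} (hn : ‖n‖ = 1) (x : Pt d) (t : ℝ) : ⟪linePt n x t, n⟫ = t := by
  rw [linePt_eq, inner_add_left, inner_tp hn, inner_smul_left, real_inner_self_eq_norm_sq, hn]
  simp

theorem tp_linePt {n : Pt d} (hn : ‖n‖ = 1) (x : Pt d) (t : ℝ) :
    tp n (linePt n x t) = tp n x := by
  conv_lhs => rw [tp, inner_linePt hn]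
  rw [linePt_eq]; abel

theorem norm_linePt_sub {n : Pt d} (hn : ‖n‖ = 1) (x c : Pt d) (t : ℝ) :
    ‖linePt n x t - c‖ ^ 2 = (t - ⟪c, n⟫) ^ 2 + ‖tp n x - tp n c‖ ^ 2 := by
  rw [norm_sq_split hn, inner_sub_left, inner_linePt hn, tp_sub, tp_linePt hn]

theorem mem_cyl {n c x : Pt d} {R : ℝ} : x ∈ cyl n c R ↔ ‖tp n x - tp n c‖ ≤ R := by
  simp [cyl, linePt_eq]

/-- Gaussian facts. -/
theorem gauss_nonneg' {l : ℝ} (hl : 0 < l) (x : Pt d) : 0 ≤ gauss l x :=
  mul_nonneg (inv_nonneg.2 (by positivity)) (Real.exp_nonneg _)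

theorem gauss1_nonneg' {l : ℝ} (hl : 0 < l) (t : ℝ) : 0 ≤ gauss1 l t :=
  mul_nonneg (inv_nonneg.2 (by positivity)) (Real.exp_nonneg _)

theorem continuous_gauss (l : ℝ) : Continuous (gauss (d := d) l) := by
  unfold gauss; fun_prop

theorem continuous_gauss1 (l : ℝ) : Continuous (gauss1 l) := by
  unfold gauss1; fun_prop

theorem integrable_gauss1 {l : ℝ} (hl : 0 < l) (o : ℝ) :
    Integrable fun t => gauss1 l (t - o) := by
  have h := ((integrable_exp_neg_mul_sq (b := 1 / (2 * l ^ 2)) (by positivity)).const_mul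
    (√(2 * Real.pi) * l)⁻¹).comp_sub_right o
  refine h.congr (Eventually.of_forall fun t => ?_)
  simp only [gauss1]; ring_nf

theorem integral_gauss1 {l : ℝ} (hl : 0 < l) (o : ℝ) : ∫ t, gauss1 l (t - o) = 1 := by
  rw [integral_sub_right_eq_self (fun t => gauss1 l t) o]
  have h : ∀ t, gauss1 l t = (√(2 * Real.pi) * l)⁻¹ * Real.exp (-(1 / (2 * l ^ 2)) * t ^ 2) :=
    fun t => by simp only [gauss1]; ring_nf
  simp_rw [h, integral_const_mul, integral_gaussian]
  have e : √(Real.pi / (1 / (2 * l ^ 2))) = √(2 * Real.pi) * l := by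
    rw [show Real.pi / (1 / (2 * l ^ 2)) = (√(2 * Real.pi) * l) ^ 2 by
      rw [mul_pow, Real.sq_sqrt (by positivity)]; field_simp, Real.sqrt_sq (by positivity)]
  rw [e, inv_mul_cancel₀ (by positivity)]

theorem lintegral_gauss1 {l : ℝ} (hl : 0 < l) (o : ℝ) :
    ∫⁻ t, ENNReal.ofReal (gauss1 l (t - o)) = 1 := by
  rw [← ofReal_integral_eq_lintegral_ofReal (integrable_gauss1 hl o)
    (Eventually.of_forall fun t => gauss1_nonneg' hl _), integral_gauss1 hl, ENNReal.ofReal_one]

theorem gauss1_conv {a b : ℝ} (ha : 0 < a) (hb : 0 < b) (x : ℝ) :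
    ∫⁻ τ, ENNReal.ofReal (gauss1 a τ * gauss1 b (x - τ))
      = ENNReal.ofReal (gauss1 √(a ^ 2 + b ^ 2) x) := by
  set s : ℝ := √(a ^ 2 + b ^ 2) with hs
  have hs0 : 0 < s := by positivity
  have hs2 : s ^ 2 = a ^ 2 + b ^ 2 := Real.sq_sqrt (by positivity)
  set w : ℝ := a * b / s with hw
  have hw0 : 0 < w := by positivity
  set μ : ℝ := x * a ^ 2 / s ^ 2
  have key : ∀ τ, gauss1 a τ * gauss1 b (x - τ) = gauss1 s x * gauss1 w (τ - μ) := fun τ => by
    simp only [gauss1]
    rw [mul_mul_mul_comm, mul_mul_mul_comm (√(2 * Real.pi) * s)⁻¹, ← Real.exp_add, ← Real.exp_add]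
    have hsw : s * w = a * b := by rw [hw]; field_simp
    congr 1
    · rw [← mul_inv, ← mul_inv, mul_mul_mul_comm _ a, mul_mul_mul_comm _ s, hsw]
    · congr 1
      simp only [μ, hw, div_pow]
      field_simp
      rw [hs2]
      ring
  simp_rw [key, ENNReal.ofReal_mul (gauss1_nonneg' hs0 x)]
  rw [lintegral_const_mul' _ _ ENNReal.ofReal_ne_top, lintegral_gauss1 hw0, mul_one]

theorem lintegral_gauss {l : ℝ} (hl : 0 < l) : ∫⁻ x : Pt d, ENNReal.ofReal (gauss l x) = 1 := by
  have hb : (0 : ℝ) < 1 / (2 * l ^ 2) := by positivity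
  have h : ∀ x : Pt d, gauss l x
      = ((√(2 * Real.pi) * l) ^ d)⁻¹ * Real.exp (-(1 / (2 * l ^ 2)) * ‖x‖ ^ 2) :=
    fun x => by simp only [gauss]; ring_nf
  have hi := GaussianFourier.integral_rexp_neg_mul_sq_norm (V := Pt d) hb
  have hint : Integrable fun x : Pt d => Real.exp (-(1 / (2 * l ^ 2)) * ‖x‖ ^ 2) :=
    Integrable.of_integral_ne_zero (by rw [hi]; positivity)
  simp_rw [h]
  rw [← ofReal_integral_eq_lintegral_ofReal (hint.const_mul _)
    (Eventually.of_forall fun x => by positivity), integral_const_mul, hi,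
    finrank_euclideanSpace_fin, ← ENNReal.ofReal_one]
  congr 1
  rw [show Real.pi / (1 / (2 * l ^ 2)) = (√(2 * Real.pi) * l) ^ 2 by
      rw [mul_pow, Real.sq_sqrt (by positivity)]; field_simp,
    ← Real.rpow_natCast _ 2, ← Real.rpow_mul (by positivity),
    show ((2 : ℕ) : ℝ) * ((d : ℝ) / 2) = (d : ℝ) by push_cast; ring, Real.rpow_natCast,
    inv_mul_cancel₀ (by positivity)]

theorem shift_conv {W G V : ℝ → ℝ≥0∞} (hW : Measurable W) (hG : Measurable G)
    (hV : Measurable V) :
    ∫⁻ t, ∫⁻ τ, W t * (G τ * V (t + τ)) = ∫⁻ t, (∫⁻ τ, W (t - τ) * G τ) * V t := by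
  have m1 : Measurable fun q : ℝ × ℝ => W q.1 * (G q.2 * V (q.1 + q.2)) :=
    (hW.comp measurable_fst).mul
      ((hG.comp measurable_snd).mul (hV.comp (measurable_fst.add measurable_snd)))
  have m2 : Measurable fun q : ℝ × ℝ => W (q.2 - q.1) * (G q.1 * V q.2) :=
    (hW.comp (measurable_snd.sub measurable_fst)).mul
      ((hG.comp measurable_fst).mul (hV.comp measurable_snd))
  calc ∫⁻ t, ∫⁻ τ, W t * (G τ * V (t + τ))
      = ∫⁻ τ, ∫⁻ t, W t * (G τ * V (t + τ)) := lintegral_lintegral_swap m1.aemeasurable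
    _ = ∫⁻ τ, ∫⁻ t, W (t - τ) * (G τ * V t) := by
        refine lintegral_congr fun τ => ?_
        rw [← lintegral_add_right_eq_self (fun t => W (t - τ) * (G τ * V t)) τ]
        simp
    _ = ∫⁻ t, ∫⁻ τ, W (t - τ) * (G τ * V t) := lintegral_lintegral_swap m2.aemeasurable
    _ = ∫⁻ t, (∫⁻ τ, W (t - τ) * G τ) * V t := by
        refine lintegral_congr fun t => ?_
        have hm : Measurable fun τ => W (t - τ) * G τ :=
          (hW.comp (measurable_const.sub measurable_id)).mul hG
        rw [← lintegral_mul_const _ hm]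
        exact lintegral_congr fun τ => by rw [mul_assoc]

theorem slab_swap {α : Type*} [MeasurableSpace α] (μ : Measure α) [SFinite μ]
    {W G : ℝ → ℝ≥0∞} {H : α → ℝ≥0∞} {V : α → ℝ → ℝ≥0∞} (hW : Measurable W) (hG : Measurable G)
    (hH : Measurable H) (hH' : ∀ w, H w ≠ ⊤) (hV : Measurable fun p : α × ℝ => V p.1 p.2) :
    ∫⁻ t, ∫⁻ w, ∫⁻ τ, W t * (H w * G τ * V w (t + τ)) ∂volume ∂μ
      = ∫⁻ w, (H w * ∫⁻ t, (∫⁻ τ, W (t - τ) * G τ) * V w t) ∂μ := by
  have m : Measurable fun q : (ℝ × α) × ℝ =>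
      W q.1.1 * (H q.1.2 * G q.2 * V q.1.2 (q.1.1 + q.2)) :=
    (hW.comp (measurable_fst.comp measurable_fst)).mul
      (((hH.comp (measurable_snd.comp measurable_fst)).mul (hG.comp measurable_snd)).mul
        (hV.comp ((measurable_snd.comp measurable_fst).prodMk
          ((measurable_fst.comp measurable_fst).add measurable_snd))))
  rw [lintegral_lintegral_swap m.lintegral_prod_right'.aemeasurable]
  refine lintegral_congr fun w => ?_
  have hVw : Measurable (V w) := hV.comp measurable_prodMk_left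
  have e1 : ∀ t, ∫⁻ τ, W t * (H w * G τ * V w (t + τ))
      = H w * ∫⁻ τ, W t * (G τ * V w (t + τ)) := fun t => by
    rw [← lintegral_const_mul' _ _ (hH' w)]
    exact lintegral_congr fun τ => by ring
  simp_rw [e1]
  rw [lintegral_const_mul' _ _ (hH' w), shift_conv hW hG hVw]

/-- horizontal kernel. -/
noncomputable def hor (a : ℝ) (z : Pt d) : ℝ := √(2 * Real.pi) * a * gauss a z

theorem gauss_linePt {n : Pt d} (hn : ‖n‖ = 1) {a : ℝ} (ha : 0 < a) (u : Pt d) (τ : ℝ) :
    gauss a (linePt n u τ) = gauss1 a τ * hor a (tp n u) := by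
  have h : ‖linePt n u τ‖ ^ 2 = τ ^ 2 + ‖tp n u‖ ^ 2 := by
    rw [norm_sq_split hn, inner_linePt hn, tp_linePt hn]
  have h0 : (√(2 * Real.pi) * a) ≠ 0 := by positivity
  simp only [gauss, gauss1, hor, h]
  rw [show -(τ ^ 2 + ‖tp n u‖ ^ 2) / (2 * a ^ 2)
      = -τ ^ 2 / (2 * a ^ 2) + -‖tp n u‖ ^ 2 / (2 * a ^ 2) by ring, Real.exp_add]
  field_simp

/-- Jensen for the square. -/
theorem sq_integral_le {α : Type*} [MeasurableSpace α] {μ : Measure α} {f g : α → ℝ}
    (hf : Integrable f μ) (hf0 : ∀ x, 0 ≤ f x) (hf1 : ∫ x, f x ∂μ = 1)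
    (hg : AEStronglyMeasurable g μ) {B : ℝ} (hB : ∀ x, |g x| ≤ B) :
    (∫ x, f x * g x ∂μ) ^ 2 ≤ ∫ x, f x * g x ^ 2 ∂μ := by
  have h1 : Integrable (fun x => f x * g x) μ :=
    hf.mul_bdd hg (Eventually.of_forall fun x => (Real.norm_eq_abs _).trans_le (hB x))
  have h2 : Integrable (fun x => f x * g x ^ 2) μ := by
    refine hf.mul_bdd (c := B ^ 2) (hg.pow 2) (Eventually.of_forall fun x => ?_)
    rw [norm_pow, Real.norm_eq_abs]
    exact pow_le_pow_left₀ (abs_nonneg _) (hB x) 2
  set m := ∫ x, f x * g x ∂μ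
  have h3 : 0 ≤ ∫ x, (f x * g x ^ 2 - 2 * m * (f x * g x) + m ^ 2 * f x) ∂μ := by
    refine integral_nonneg fun x => ?_
    have := mul_nonneg (hf0 x) (sq_nonneg (g x - m))
    simp only [Pi.zero_apply]
    linarith
  have i12 : Integrable (fun x => f x * g x ^ 2 - 2 * m * (f x * g x)) μ :=
    h2.sub (h1.const_mul _)
  have i3 : Integrable (fun x => m ^ 2 * f x) μ := hf.const_mul _
  rw [integral_add i12 i3, integral_sub h2 (h1.const_mul _), integral_const_mul,
    integral_const_mul, hf1] at h3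
  change 0 ≤ (∫ x, f x * g x ^ 2 ∂μ) - 2 * m * m + m ^ 2 * 1 at h3
  nlinarith [h3]

section Layer

variable {A : Set (Pt d)} {n : Pt d} (hA : MeasurableSet A) (hn : ‖n‖ = 1)
  (hS : SmoothBasics)

include hA hS

theorem cont_v {l : ℝ} (hl : 0 < l) : Continuous (smoothInd A l) := (hS d A hA l hl).2.1

theorem cont_g {l : ℝ} (hl : 0 < l) : Continuous (gradInd A l) := (hS d A hA l hl).2.2.1

theorem v_mem {l : ℝ} (hl : 0 < l) (x : Pt d) : 0 ≤ smoothInd A l x ∧ smoothInd A l x ≤ 1 :=
  (hS d A hA l hl).1 x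

theorem cont_defect {l : ℝ} (hl : 0 < l) : Continuous (defect A n l) := by
  have := cont_g hA hS hl
  unfold defect; fun_prop

include hn in
theorem defect_nonneg' (l : ℝ) (x : Pt d) : 0 ≤ defect A n l x := by
  have := real_inner_le_norm (gradInd A l x) n
  rw [hn, mul_one] at this
  unfold defect; linarith

include hn in
theorem inner_sq_le {l : ℝ} (hl : 0 < l) (x p : Pt d) (hp : ⟪p, n⟫ = 0) :
    ⟪gradInd A l x, p⟫ ^ 2 ≤ 2 * (√d / l) * ‖p‖ ^ 2 * defect A n l x := by
  set g := gradInd A l x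
  have h1 : ⟪g, p⟫ = ⟪tp n g, p⟫ := by
    simp [tp, inner_sub_left, inner_smul_left, real_inner_comm p n, hp]
  have h2 : ⟪tp n g, p⟫ ^ 2 ≤ ‖tp n g‖ ^ 2 * ‖p‖ ^ 2 := by
    rw [← mul_pow, ← sq_abs]
    exact pow_le_pow_left₀ (abs_nonneg _) (abs_real_inner_le_norm _ _) 2
  have h3 := norm_sq_split hn g
  have h4 : ‖g‖ ≤ √d / l := (hS d A hA l hl).2.2.2.1 x
  have h5 : ⟪g, n⟫ ≤ ‖g‖ := by simpa [hn] using real_inner_le_norm g n
  have h7 : ‖tp n g‖ ^ 2 ≤ 2 * (√d / l) * (‖g‖ - ⟪g, n⟫) := by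
    nlinarith [norm_nonneg g]
  calc ⟪g, p⟫ ^ 2 = ⟪tp n g, p⟫ ^ 2 := by rw [h1]
    _ ≤ ‖tp n g‖ ^ 2 * ‖p‖ ^ 2 := h2
    _ ≤ 2 * (√d / l) * (‖g‖ - ⟪g, n⟫) * ‖p‖ ^ 2 := mul_le_mul_of_nonneg_right h7 (sq_nonneg _)
    _ = _ := by simp only [defect, g]; ring

include hn in
theorem sq_sub_le {l : ℝ} (hl : 0 < l) (z p : Pt d) (hp : ⟪p, n⟫ = 0) :
    ENNReal.ofReal ((smoothInd A l (z + p) - smoothInd A l z) ^ 2) ≤
      ENNReal.ofReal (2 * (√d / l) * ‖p‖ ^ 2) *
        ∫⁻ s in Icc (0 : ℝ) 1, ENNReal.ofReal (defect A n l (z + s • p)) := by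
  set F : ℝ → ℝ := fun s => ⟪gradInd A l (z + s • p), p⟫
  have hFc : Continuous F := by
    have := cont_g hA hS hl
    exact (this.comp (by fun_prop)).inner continuous_const
  have hFTC : ∫ s in (0 : ℝ)..1, F s = smoothInd A l (z + p) - smoothInd A l z := by
    rw [intervalIntegral.integral_eq_sub_of_hasDerivAt
      (fun s _ => (hS d A hA l hl).2.2.2.2.2.2 z p s) (hFc.intervalIntegrable _ _)]
    simp
  have hbd : ∀ s, |F s| ≤ √d / l * ‖p‖ := fun s =>
    (abs_real_inner_le_norm _ _).trans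
      (mul_le_mul_of_nonneg_right ((hS d A hA l hl).2.2.2.1 _) (norm_nonneg _))
  have hJ := sq_integral_le (μ := volume.restrict (Icc (0 : ℝ) 1)) (f := fun _ => 1)
    (integrable_const 1) (fun _ => zero_le_one) (by simp) hFc.aestronglyMeasurable hbd
  simp only [one_mul] at hJ
  rw [← hFTC, intervalIntegral.integral_of_le zero_le_one, ← integral_Icc_eq_integral_Ioc]
  refine (ENNReal.ofReal_le_ofReal hJ).trans ?_
  have hi : Integrable (fun s => F s ^ 2) (volume.restrict (Icc (0 : ℝ) 1)) :=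
    (hFc.pow 2).integrableOn_Icc
  rw [ofReal_integral_eq_lintegral_ofReal hi (Eventually.of_forall fun s => sq_nonneg _),
    ← lintegral_const_mul' _ _ ENNReal.ofReal_ne_top]
  refine lintegral_mono fun s => ?_
  rw [← ENNReal.ofReal_mul (by positivity)]
  exact ENNReal.ofReal_le_ofReal (inner_sq_le hA hn hS hl _ p hp)

end Layer

/-- the window. -/
noncomputable def win (o lam l t : ℝ) : ℝ := gaussWin o lam l t

theorem width_pos {lam l : ℝ} (hl : 0 ≤ l) (h : l < lam) : 0 < √(lam ^ 2 - l ^ 2) :=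
  Real.sqrt_pos.2 (by nlinarith)

theorem win_nonneg {o lam l : ℝ} (hl : 0 ≤ l) (h : l < lam) (t : ℝ) :
    0 ≤ gaussWin o lam l t :=
  gauss1_nonneg' (width_pos hl h) _

theorem continuous_win (o lam l : ℝ) : Continuous (gaussWin o lam l) :=
  (continuous_gauss1 _).comp (continuous_sub_right o)

theorem integrable_win {o lam l : ℝ} (hl : 0 ≤ l) (h : l < lam) :
    Integrable (gaussWin o lam l) :=
  integrable_gauss1 (width_pos hl h) o

theorem integral_win {o lam l : ℝ} (hl : 0 ≤ l) (h : l < lam) :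
    ∫ t, gaussWin o lam l t = 1 :=
  integral_gauss1 (width_pos hl h) o

theorem continuous_linePt (n : Pt d) :
    Continuous fun p : Pt d × ℝ => linePt n p.1 p.2 := by
  unfold linePt; fun_prop

/-- defect seen through the window. -/
noncomputable def colD (A : Set (Pt d)) (n : Pt d) (o lam l : ℝ) (x : Pt d) : ℝ≥0∞ :=
  ∫⁻ t, ENNReal.ofReal (gaussWin o lam l t * defect A n l (linePt n x t))

section Heights

variable {A : Set (Pt d)} {n : Pt d} (hA : MeasurableSet A) (hn : ‖n‖ = 1)
  (hS : SmoothBasics) {o lam : ℝ}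

include hA hS

theorem integrable_win_mul_v {l : ℝ} (hl : 0 < l) (h : l < lam) (x p : Pt d) :
    Integrable fun t => gaussWin o lam l t * smoothInd A l (linePt n x t + p) := by
  refine (integrable_win hl.le h).mul_bdd (c := 1)
    ((cont_v hA hS hl).comp ((continuous_linePt n).comp
      (continuous_const.prodMk continuous_id) |>.add continuous_const)).aestronglyMeasurable
    (Eventually.of_forall fun t => ?_)
  have := v_mem hA hS hl (linePt n x t + p)
  rw [Real.norm_eq_abs, abs_of_nonneg this.1]; exact this.2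

theorem hgt_mem {l : ℝ} (hl : 0 < l) (h : l < lam) (x : Pt d) :
    0 ≤ hgt (gaussWin o lam) A n l x ∧ hgt (gaussWin o lam) A n l x ≤ 1 := by
  refine ⟨integral_nonneg fun t => mul_nonneg (win_nonneg hl.le h t) (v_mem hA hS hl _).1, ?_⟩
  calc hgt (gaussWin o lam) A n l x ≤ ∫ t, gaussWin o lam l t :=
        integral_mono_of_nonneg (Eventually.of_forall fun t =>
          mul_nonneg (win_nonneg hl.le h t) (v_mem hA hS hl _).1) (integrable_win hl.le h)
          (Eventually.of_forall fun t =>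
            mul_le_of_le_one_right (win_nonneg hl.le h t) (v_mem hA hS hl _).2)
    _ = 1 := integral_win hl.le h

theorem continuous_hgt {l : ℝ} (hl : 0 < l) (h : l < lam) :
    Continuous fun x => hgt (gaussWin o lam) A n l x := by
  refine continuous_of_dominated (F := fun x t => gaussWin o lam l t * smoothInd A l (linePt n x t))
    (bound := gaussWin o lam l) (fun x => ?_) (fun x => Eventually.of_forall fun t => ?_)
    (integrable_win hl.le h) (Eventually.of_forall fun t => ?_)
  · simpa using (integrable_win_mul_v hA hS hl h x (0 : Pt d)).aestronglyMeasurable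
  · rw [norm_mul, Real.norm_of_nonneg (win_nonneg hl.le h t),
      Real.norm_of_nonneg (v_mem hA hS hl _).1]
    exact mul_le_of_le_one_right (win_nonneg hl.le h t) (v_mem hA hS hl _).2
  · exact continuous_const.mul ((cont_v hA hS hl).comp
      ((continuous_linePt n).comp (continuous_id.prodMk continuous_const)))

theorem measurable_colD {l : ℝ} (hl : 0 < l) : Measurable (colD A n o lam l) := by
  refine Measurable.lintegral_prod_right' (f := fun p : Pt d × ℝ =>
    ENNReal.ofReal (gaussWin o lam l p.2 * defect A n l (linePt n p.1 p.2))) ?_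
  exact (((continuous_win o lam l).comp continuous_snd).mul
    ((cont_defect hA hS hl).comp (continuous_linePt n))).measurable.ennreal_ofReal

include hn in
/-- increments of the column height. -/
theorem hgt_sub_sq {l : ℝ} (hl : 0 < l) (h : l < lam) (x u : Pt d) :
    ENNReal.ofReal ((hgt (gaussWin o lam) A n l (x + u) - hgt (gaussWin o lam) A n l x) ^ 2) ≤
      ENNReal.ofReal (2 * (√d / l) * ‖u‖ ^ 2) *
        ∫⁻ s in Icc (0 : ℝ) 1, colD A n o lam l (x + s • u) := by
  set p := tp n u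
  set δ : ℝ → ℝ := fun t => smoothInd A l (linePt n x t + p) - smoothInd A l (linePt n x t)
  have i0 : Integrable fun t => gaussWin o lam l t * smoothInd A l (linePt n x t) := by
    simpa using integrable_win_mul_v (n := n) (o := o) hA hS hl h x (0 : Pt d)
  have heq : hgt (gaussWin o lam) A n l (x + u) - hgt (gaussWin o lam) A n l x
      = ∫ t, gaussWin o lam l t * δ t := by
    simp only [hgt, δ, linePt_add, mul_sub]
    rw [integral_sub (integrable_win_mul_v hA hS hl h x p) i0]
  have hδc : Continuous δ := by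
    have hv := cont_v hA hS hl
    have hl' : Continuous fun t => linePt n x t :=
      (continuous_linePt n).comp (continuous_const.prodMk continuous_id)
    exact (hv.comp (hl'.add continuous_const)).sub (hv.comp hl')
  have hδb : ∀ t, |δ t| ≤ 1 := fun t => by
    have h1 := v_mem hA hS hl (linePt n x t + p)
    have h2 := v_mem hA hS hl (linePt n x t)
    rw [abs_le]; constructor <;> simp only [δ] <;> linarith
  have hJ := sq_integral_le (integrable_win hl.le h) (win_nonneg (o := o) hl.le h)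
    (integral_win hl.le h) hδc.aestronglyMeasurable hδb
  rw [heq]
  refine (ENNReal.ofReal_le_ofReal hJ).trans ?_
  have hi : Integrable fun t => gaussWin o lam l t * δ t ^ 2 := by
    refine (integrable_win hl.le h).mul_bdd (c := 1) (hδc.pow 2).aestronglyMeasurable
      (Eventually.of_forall fun t => ?_)
    rw [norm_pow, Real.norm_eq_abs]
    exact pow_le_one₀ (abs_nonneg _) (hδb t)
  rw [ofReal_integral_eq_lintegral_ofReal hi
    (Eventually.of_forall fun t => mul_nonneg (win_nonneg hl.le h t) (sq_nonneg _))]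
  set C := ENNReal.ofReal (2 * (√d / l) * ‖u‖ ^ 2)
  calc ∫⁻ t, ENNReal.ofReal (gaussWin o lam l t * δ t ^ 2)
      ≤ ∫⁻ t, C * ∫⁻ s in Icc (0 : ℝ) 1,
          ENNReal.ofReal (gaussWin o lam l t * defect A n l (linePt n x t + s • p)) := by
        refine lintegral_mono fun t => ?_
        rw [ENNReal.ofReal_mul (win_nonneg hl.le h t)]
        refine (mul_le_mul' le_rfl (sq_sub_le hA hn hS hl (linePt n x t) p (inner_tp hn u))).trans ?_
        rw [← mul_assoc, mul_comm (ENNReal.ofReal (gaussWin o lam l t)), mul_assoc,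
          ← lintegral_const_mul' _ _ ENNReal.ofReal_ne_top]
        refine mul_le_mul' (ENNReal.ofReal_le_ofReal ?_) (le_of_eq ?_)
        · exact mul_le_mul_of_nonneg_left
            (pow_le_pow_left₀ (norm_nonneg _) (norm_tp_le hn u) 2) (by positivity)
        · refine lintegral_congr fun s => ?_
          rw [ENNReal.ofReal_mul (win_nonneg hl.le h t)]
    _ = C * ∫⁻ s in Icc (0 : ℝ) 1, colD A n o lam l (x + s • u) := by
        rw [lintegral_const_mul' _ _ ENNReal.ofReal_ne_top]
        congr 1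
        rw [lintegral_lintegral_swap]
        · refine lintegral_congr fun s => lintegral_congr fun t => ?_
          rw [linePt_add]
          congr 4
          simp [p, tp, inner_smul_left, smul_sub, smul_smul]
        · refine Measurable.aemeasurable ?_
          have := cont_defect (n := n) hA hS hl
          have h1 : Continuous fun q : ℝ × ℝ => linePt n x q.1 + q.2 • p :=
            ((continuous_linePt n).comp (continuous_const.prodMk continuous_fst)).add
              (continuous_snd.smul continuous_const)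
          exact (((continuous_win o lam l).comp continuous_fst).mul
            (this.comp h1)).measurable.ennreal_ofReal

variable (hC : SmoothConv) (hF : LineFubini)

include hn hC hF

/-- radial smoothing of a smaller scale, in `ℝ≥0∞`. -/
theorem ofReal_v_conv {l l' : ℝ} (hl : 0 < l) (hll : l < l') (z : Pt d) :
    ENNReal.ofReal (smoothInd A l' z) = ∫⁻ x in slab n, ∫⁻ τ,
      ENNReal.ofReal (hor (√(l' ^ 2 - l ^ 2)) (tp n x)) *
        ENNReal.ofReal (gauss1 (√(l' ^ 2 - l ^ 2)) τ) *
        ENNReal.ofReal (smoothInd A l (linePt n z (⟪z, n⟫ + τ) + tp n x)) := by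
  set a := √(l' ^ 2 - l ^ 2)
  have ha : 0 < a := width_pos hl.le hll
  have hv := cont_v hA hS hl
  have hgi : Integrable fun u : Pt d => gauss a u := by
    refine ⟨(continuous_gauss a).aestronglyMeasurable, ?_⟩
    rw [hasFiniteIntegral_iff_ofReal (Eventually.of_forall fun u => gauss_nonneg' ha u),
      lintegral_gauss ha]
    exact ENNReal.one_lt_top
  have h1 : smoothInd A l' z = ∫ u, gauss a u * smoothInd A l (z + u) := by
    rw [((hC d A hA l l' hl hll z).1),
      ← integral_add_left_eq_self (fun y => gauss a (z - y) * smoothInd A l y) z]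
    refine integral_congr_ae (Eventually.of_forall fun u => ?_)
    simp only [sub_add_cancel_left]
    simp [gauss]
  have hint : Integrable fun u => gauss a u * smoothInd A l (z + u) :=
    hgi.mul_bdd (c := 1) (hv.comp (continuous_const_add z)).aestronglyMeasurable
      (Eventually.of_forall fun u => by
        have := v_mem hA hS hl (z + u)
        rw [Real.norm_eq_abs, abs_of_nonneg this.1]; exact this.2)
  have hm : Measurable fun u => ENNReal.ofReal (gauss a u * smoothInd A l (z + u)) :=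
    ((continuous_gauss a).mul (hv.comp (continuous_const_add z))).measurable.ennreal_ofReal
  rw [h1, ofReal_integral_eq_lintegral_ofReal hint
    (Eventually.of_forall fun u => mul_nonneg (gauss_nonneg' ha u) (v_mem hA hS hl _).1),
    hF d n hn _ hm]
  refine lintegral_congr fun x => lintegral_congr fun τ => ?_
  have hh0 : 0 ≤ hor a (tp n x) := mul_nonneg (by positivity) (gauss_nonneg' ha _)
  rw [gauss_linePt hn ha, ENNReal.ofReal_mul (mul_nonneg (gauss1_nonneg' ha _) hh0),
    ENNReal.ofReal_mul (gauss1_nonneg' ha _), mul_comm (ENNReal.ofReal (gauss1 a τ))]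
  congr 3
  simp only [linePt_eq, tp, add_smul]; abel

/-- smoothing of heights from level `l`. -/
theorem conv_hgt {l a : ℝ} (hl : 0 < l) (h : l < lam) (ha : 0 < a) (x : Pt d) :
    ∫⁻ u, ENNReal.ofReal (gauss a u * hgt (gaussWin o lam) A n l (x + u))
      = ∫⁻ w in slab n, ENNReal.ofReal (hor a (tp n w)) *
          ∫⁻ t, ENNReal.ofReal (gaussWin o lam l t) *
            ENNReal.ofReal (smoothInd A l (linePt n x t + tp n w)) := by
  have hm : Measurable fun u =>
      ENNReal.ofReal (gauss a u * hgt (gaussWin o lam) A n l (x + u)) :=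
    ((continuous_gauss a).mul
      ((continuous_hgt hA hS hl h).comp (continuous_const_add x))).measurable.ennreal_ofReal
  rw [hF d n hn _ hm]
  refine lintegral_congr fun w => ?_
  have hval : ∀ τ, hgt (gaussWin o lam) A n l (x + linePt n w τ)
      = ∫ t, gaussWin o lam l t * smoothInd A l (linePt n x t + tp n w) := fun τ => by
    simp only [hgt, linePt_add, tp_linePt hn]
  simp only [hval, gauss_linePt hn ha]
  have hnn : ∀ τ, 0 ≤ gauss1 a τ * hor a (tp n w) := fun τ =>
    mul_nonneg (gauss1_nonneg' ha _) (mul_nonneg (by positivity) (gauss_nonneg' ha _))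
  simp_rw [fun τ => ENNReal.ofReal_mul (q := ∫ t, gaussWin o lam l t *
    smoothInd A l (linePt n x t + tp n w)) (hnn τ),
    fun τ => ENNReal.ofReal_mul (q := hor a (tp n w)) (gauss1_nonneg' ha τ)]
  rw [lintegral_mul_const' _ _ ENNReal.ofReal_ne_top,
    lintegral_mul_const' _ _ ENNReal.ofReal_ne_top]
  have h1 := lintegral_gauss1 ha 0
  simp only [sub_zero] at h1
  rw [h1, one_mul]
  congr 1
  rw [ofReal_integral_eq_lintegral_ofReal (integrable_win_mul_v hA hS hl h x _)
    (Eventually.of_forall fun t => mul_nonneg (win_nonneg hl.le h t) (v_mem hA hS hl _).1)]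
  exact lintegral_congr fun t => ENNReal.ofReal_mul (win_nonneg hl.le h t)

/-- the semigroup law for heights below the total scale. -/
theorem hgt_semigroup {l l' : ℝ} (hl : 0 < l) (hll : l < l') (h' : l' < lam) (x : Pt d) :
    hgt (gaussWin o lam) A n l' x
      = ∫ u, gauss (√(l' ^ 2 - l ^ 2)) u * hgt (gaussWin o lam) A n l (x + u) := by
  set a := √(l' ^ 2 - l ^ 2)
  have ha : 0 < a := width_pos hl.le hll
  have h : l < lam := hll.trans h'
  have hl' : 0 < l' := hl.trans hll
  have hnn : ∀ u, 0 ≤ gauss a u * hgt (gaussWin o lam) A n l (x + u) := fun u =>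
    mul_nonneg (gauss_nonneg' ha u) (hgt_mem hA hS hl h _).1
  rw [integral_eq_lintegral_of_nonneg_ae (Eventually.of_forall hnn)
      ((continuous_gauss a).mul
        ((continuous_hgt hA hS hl h).comp (continuous_const_add x))).aestronglyMeasurable,
    conv_hgt hA hn hS hC hF hl h ha x]
  have i' : Integrable fun t => gaussWin o lam l' t * smoothInd A l' (linePt n x t) := by
    simpa using integrable_win_mul_v (n := n) (o := o) hA hS hl' h' x (0 : Pt d)
  rw [← ENNReal.toReal_ofReal (hgt_mem (n := n) (o := o) hA hS hl' h' x).1]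
  congr 1
  rw [hgt, ofReal_integral_eq_lintegral_ofReal i'
    (Eventually.of_forall fun t => mul_nonneg (win_nonneg hl'.le h' t) (v_mem hA hS hl' _).1)]
  have hv := cont_v hA hS hl
  have hw' : 0 < √(lam ^ 2 - l' ^ 2) := width_pos hl'.le h'
  have hWm : Measurable fun t => ENNReal.ofReal (gaussWin o lam l' t) :=
    (continuous_win o lam l').measurable.ennreal_ofReal
  have hGm : Measurable fun τ => ENNReal.ofReal (gauss1 a τ) :=
    (continuous_gauss1 a).measurable.ennreal_ofReal
  have hHm : Measurable fun w : Pt d => ENNReal.ofReal (hor a (tp n w)) := by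
    refine Continuous.measurable ?_ |>.ennreal_ofReal
    unfold hor gauss tp; fun_prop
  have hVc : Continuous fun q : Pt d × ℝ => linePt n x q.2 + tp n q.1 := by
    unfold linePt tp; fun_prop
  have hVm : Measurable fun q : Pt d × ℝ =>
      ENNReal.ofReal (smoothInd A l (linePt n x q.2 + tp n q.1)) :=
    (hv.comp hVc).measurable.ennreal_ofReal
  have hsw := slab_swap (volume.restrict (slab n)) hWm hGm hHm (fun _ => ENNReal.ofReal_ne_top)
    (V := fun w t => ENNReal.ofReal (smoothInd A l (linePt n x t + tp n w))) hVm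
  have hpt : ∀ t, ENNReal.ofReal (gaussWin o lam l' t * smoothInd A l' (linePt n x t))
      = ∫⁻ w in slab n, ∫⁻ τ, ENNReal.ofReal (gaussWin o lam l' t) *
          (ENNReal.ofReal (hor a (tp n w)) * ENNReal.ofReal (gauss1 a τ) *
            ENNReal.ofReal (smoothInd A l (linePt n x (t + τ) + tp n w))) := fun t => by
    rw [ENNReal.ofReal_mul (win_nonneg hl'.le h' t),
      ofReal_v_conv hA hn hS hC hF hl hll, ← lintegral_const_mul' _ _ ENNReal.ofReal_ne_top]
    refine lintegral_congr fun w => ?_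
    rw [← lintegral_const_mul' _ _ ENNReal.ofReal_ne_top]
    refine lintegral_congr fun τ => ?_
    congr 5
    simp only [inner_linePt hn]
    simp only [linePt_eq]
    rw [← linePt_eq n x t, tp_linePt hn]
  rw [lintegral_congr hpt, hsw]
  refine lintegral_congr fun w => ?_
  congr 1
  refine lintegral_congr fun t => ?_
  congr 1
  have e2 : ∀ τ, ENNReal.ofReal (gaussWin o lam l' (t - τ)) * ENNReal.ofReal (gauss1 a τ)
      = ENNReal.ofReal (gauss1 a τ * gauss1 (√(lam ^ 2 - l' ^ 2)) (t - o - τ)) := fun τ => by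
    simp only [gaussWin]
    rw [ENNReal.ofReal_mul (gauss1_nonneg' ha τ), sub_right_comm t τ o, mul_comm]
  simp_rw [e2]
  rw [gauss1_conv ha hw', Real.sq_sqrt (by nlinarith), Real.sq_sqrt (by nlinarith),
    show l' ^ 2 - l ^ 2 + (lam ^ 2 - l' ^ 2) = lam ^ 2 - l ^ 2 by ring]
  rfl

/-- at the total scale the height is the radially smoothed indicator. -/
theorem v_lam_eq {l : ℝ} (hl : 0 < l) (h : l < lam) (x : Pt d) :
    smoothInd A lam (linePt n x o)
      = ∫ u, gauss (√(lam ^ 2 - l ^ 2)) u * hgt (gaussWin o lam) A n l (x + u) := by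
  set a := √(lam ^ 2 - l ^ 2)
  have ha : 0 < a := width_pos hl.le h
  rw [integral_eq_lintegral_of_nonneg_ae
      (Eventually.of_forall fun u => mul_nonneg (gauss_nonneg' ha u) (hgt_mem hA hS hl h _).1)
      ((continuous_gauss a).mul
        ((continuous_hgt hA hS hl h).comp (continuous_const_add x))).aestronglyMeasurable,
    conv_hgt hA hn hS hC hF hl h ha x,
    ← ENNReal.toReal_ofReal (v_mem hA hS (hl.trans h) (linePt n x o)).1]
  congr 1
  rw [ofReal_v_conv hA hn hS hC hF hl h]
  refine lintegral_congr fun w => ?_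
  simp only [mul_assoc]
  rw [lintegral_const_mul' _ _ ENNReal.ofReal_ne_top,
    ← lintegral_add_right_eq_self (fun t => ENNReal.ofReal (gaussWin o lam l t) *
      ENNReal.ofReal (smoothInd A l (linePt n x t + tp n w))) o]
  congr 1
  refine lintegral_congr fun τ => ?_
  simp only [gaussWin, add_sub_cancel_right]
  congr 4
  rw [inner_linePt hn]
  simp only [linePt_eq]
  rw [← linePt_eq n x o, tp_linePt hn, add_comm o τ]

/-- change of height between two levels. -/
theorem level_sub_sq {l a : ℝ} (hl : 0 < l) (h : l < lam) (ha : 0 < a) (x : Pt d) :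
    ENNReal.ofReal (((∫ u, gauss a u * hgt (gaussWin o lam) A n l (x + u))
        - hgt (gaussWin o lam) A n l x) ^ 2) ≤
      ∫⁻ u, ENNReal.ofReal (gauss a u * (2 * (√d / l) * ‖u‖ ^ 2)) *
        ∫⁻ s in Icc (0 : ℝ) 1, colD A n o lam l (x + s • u) := by
  set H := fun y => hgt (gaussWin o lam) A n l y
  have hH : Continuous H := continuous_hgt hA hS hl h
  have hgi : Integrable fun u : Pt d => gauss a u := by
    refine ⟨(continuous_gauss a).aestronglyMeasurable, ?_⟩
    rw [hasFiniteIntegral_iff_ofReal (Eventually.of_forall fun u => gauss_nonneg' ha u),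
      lintegral_gauss ha]
    exact ENNReal.one_lt_top
  have hg1 : ∫ u : Pt d, gauss a u = 1 := by
    rw [integral_eq_lintegral_of_nonneg_ae (Eventually.of_forall fun u => gauss_nonneg' ha u)
      (continuous_gauss a).aestronglyMeasurable, lintegral_gauss ha, ENNReal.toReal_one]
  have hδc : Continuous fun u => H (x + u) - H x :=
    (hH.comp (continuous_const_add x)).sub continuous_const
  have hδb : ∀ u, |H (x + u) - H x| ≤ 1 := fun u => by
    have h1 := hgt_mem (n := n) (o := o) hA hS hl h (x + u)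
    have h2 := hgt_mem (n := n) (o := o) hA hS hl h x
    rw [abs_le]; constructor <;> simp only [H] <;> linarith
  have i1 : Integrable fun u => gauss a u * H (x + u) :=
    hgi.mul_bdd (c := 1) (hH.comp (continuous_const_add x)).aestronglyMeasurable
      (Eventually.of_forall fun u => by
        have := hgt_mem (n := n) (o := o) hA hS hl h (x + u)
        rw [Real.norm_eq_abs, abs_of_nonneg this.1]; exact this.2)
  have heq : (∫ u, gauss a u * H (x + u)) - H x = ∫ u, gauss a u * (H (x + u) - H x) := by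
    simp only [mul_sub]
    rw [integral_sub i1 (hgi.mul_const _), integral_mul_const, hg1, one_mul]
  change ENNReal.ofReal (((∫ u, gauss a u * H (x + u)) - H x) ^ 2) ≤ _
  rw [heq]
  refine (ENNReal.ofReal_le_ofReal (sq_integral_le hgi (gauss_nonneg' ha) hg1
    hδc.aestronglyMeasurable hδb)).trans ?_
  have hi : Integrable fun u => gauss a u * (H (x + u) - H x) ^ 2 :=
    hgi.mul_bdd (c := 1) (hδc.pow 2).aestronglyMeasurable (Eventually.of_forall fun u => by
      rw [norm_pow, Real.norm_eq_abs]; exact pow_le_one₀ (abs_nonneg _) (hδb u))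
  rw [ofReal_integral_eq_lintegral_ofReal hi
    (Eventually.of_forall fun u => mul_nonneg (gauss_nonneg' ha u) (sq_nonneg _))]
  refine lintegral_mono fun u => ?_
  rw [ENNReal.ofReal_mul (gauss_nonneg' ha u), ENNReal.ofReal_mul (gauss_nonneg' ha u), mul_assoc]
  exact mul_le_mul' le_rfl (hgt_sub_sq hA hn hS hl h x u)

end Heights

theorem norm_sq_mul_exp_le {a : ℝ} (ha : 0 < a) {Q : ℝ} (hQ : 8 * a ^ 2 ≤ Q) (u : Pt d) :
    gauss a u * ‖u‖ ^ 2 * Real.exp (‖u‖ ^ 2 / Q) ≤
      8 * a ^ 2 * (√2) ^ d * gauss (√2 * a) u := by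
  have h0 : (0 : ℝ) < 8 * a ^ 2 := by positivity
  set z := ‖u‖ ^ 2 / (8 * a ^ 2) with hz
  have h1 : ‖u‖ ^ 2 ≤ 8 * a ^ 2 * Real.exp z := by
    have := Real.add_one_le_exp z
    have e : ‖u‖ ^ 2 = 8 * a ^ 2 * z := by rw [hz]; field_simp
    rw [e]
    exact mul_le_mul_of_nonneg_left (by linarith) h0.le
  have h2 : Real.exp (‖u‖ ^ 2 / Q) ≤ Real.exp z :=
    Real.exp_le_exp.2 (div_le_div_of_nonneg_left (sq_nonneg _) h0 hQ)
  calc gauss a u * ‖u‖ ^ 2 * Real.exp (‖u‖ ^ 2 / Q)
      ≤ gauss a u * (8 * a ^ 2 * Real.exp z) * Real.exp z :=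
        mul_le_mul (mul_le_mul_of_nonneg_left h1 (gauss_nonneg' ha u)) h2 (Real.exp_nonneg _)
          (mul_nonneg (gauss_nonneg' ha u) (by positivity))
    _ = 8 * a ^ 2 * (√2) ^ d * gauss (√2 * a) u := by
        simp only [gauss]
        rw [show (√(2 * Real.pi) * (√2 * a)) ^ d = (√2) ^ d * (√(2 * Real.pi) * a) ^ d by
          rw [← mul_pow]; ring_nf]
        have e : Real.exp (-‖u‖ ^ 2 / (2 * a ^ 2)) * Real.exp z * Real.exp z
            = Real.exp (-‖u‖ ^ 2 / (2 * (√2 * a) ^ 2)) := by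
          rw [← Real.exp_add, ← Real.exp_add, mul_pow, Real.sq_sqrt zero_le_two, hz]
          congr 1
          field_simp
          ring
        rw [← e, mul_inv]
        field_simp

theorem lintegral_gauss_moment {a : ℝ} (ha : 0 < a) {Q : ℝ} (hQ : 8 * a ^ 2 ≤ Q) :
    ∫⁻ u : Pt d, ENNReal.ofReal (gauss a u * ‖u‖ ^ 2 * Real.exp (‖u‖ ^ 2 / Q))
      ≤ ENNReal.ofReal (8 * a ^ 2 * (√2) ^ d) := by
  calc ∫⁻ u : Pt d, ENNReal.ofReal (gauss a u * ‖u‖ ^ 2 * Real.exp (‖u‖ ^ 2 / Q))
      ≤ ∫⁻ u : Pt d, ENNReal.ofReal (8 * a ^ 2 * (√2) ^ d) *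
          ENNReal.ofReal (gauss (√2 * a) u) := lintegral_mono fun u => by
        rw [← ENNReal.ofReal_mul (by positivity)]
        exact ENNReal.ofReal_le_ofReal (norm_sq_mul_exp_le ha hQ u)
    _ = ENNReal.ofReal (8 * a ^ 2 * (√2) ^ d) := by
        rw [lintegral_const_mul' _ _ ENNReal.ofReal_ne_top, lintegral_gauss (by positivity),
          mul_one]

/-- volume of a slab piece of a cylinder. -/
theorem volume_slab_cyl (hF : LineFubini) {n : Pt d} (hn : ‖n‖ = 1) (c : Pt d) {R : ℝ}
    (hR : 0 < R) :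
    volume (slab n ∩ cyl n c R) ≤
      ENNReal.ofReal ((volume (Metric.closedBall (0 : Pt d) 1)).toReal * (2 * R) ^ (d - 1)) := by
  have hd : d ≠ 0 := by
    rintro rfl
    rw [Subsingleton.elim n 0, norm_zero] at hn
    norm_num at hn
  have : Nonempty (Fin d) := ⟨⟨0, Nat.pos_of_ne_zero hd⟩⟩
  have hcm : MeasurableSet (cyl n c R) := by
    refine measurableSet_le ?_ measurable_const
    unfold linePt; fun_prop
  set T : Set (Pt d) := cyl n c R ∩ {y | |⟪y, n⟫ - ⟪c, n⟫| ≤ R}
  have hTm : MeasurableSet T := hcm.inter (measurableSet_le (by fun_prop) measurable_const)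
  have hTs : T ⊆ Metric.closedBall c (2 * R) := by
    rintro y ⟨hy1, hy2⟩
    rw [mem_closedBall_iff_norm]
    have h1 := norm_sq_split hn (y - c)
    rw [inner_sub_left, tp_sub] at h1
    have h2 := pow_le_pow_left₀ (norm_nonneg _) (mem_cyl.1 hy1) 2
    simp only [Set.mem_ofPred_eq] at hy2
    have h3 := pow_le_pow_left₀ (abs_nonneg _) hy2 2
    rw [sq_abs] at h3
    exact (sq_le_sq₀ (norm_nonneg _) (by positivity)).1 (by nlinarith)
  have hline : ∫⁻ x in slab n, (cyl n c R).indicator (fun _ => ENNReal.ofReal (2 * R)) x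
      = volume T := by
    have hTi : Measurable (T.indicator (1 : Pt d → ℝ≥0∞)) := measurable_const.indicator hTm
    rw [← lintegral_indicator_one hTm, hF d n hn _ hTi]
    refine lintegral_congr fun x => ?_
    by_cases hx : x ∈ cyl n c R
    · rw [indicator_of_mem hx]
      have : (fun t => T.indicator (1 : Pt d → ℝ≥0∞) (linePt n x t))
          = (Icc (⟪c, n⟫ - R) (⟪c, n⟫ + R)).indicator 1 := by
        funext t
        have hiff : linePt n x t ∈ T ↔ t ∈ Icc (⟪c, n⟫ - R) (⟪c, n⟫ + R) := by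
          simp only [T, mem_inter_iff, mem_cyl, Set.mem_ofPred_eq, inner_linePt hn, tp_linePt hn,
            mem_Icc, abs_le]
          exact ⟨fun h => ⟨by linarith [h.2.1], by linarith [h.2.2]⟩,
            fun h => ⟨mem_cyl.1 hx, by linarith [h.1], by linarith [h.2]⟩⟩
        by_cases ht : t ∈ Icc (⟪c, n⟫ - R) (⟪c, n⟫ + R)
        · rw [indicator_of_mem ht, indicator_of_mem (hiff.2 ht)]; rfl
        · rw [indicator_of_notMem ht, indicator_of_notMem (fun hc => ht (hiff.1 hc))]
      rw [this, lintegral_indicator_one measurableSet_Icc, Real.volume_Icc]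
      ring_nf
    · rw [indicator_of_notMem hx, lintegral_eq_zero_of_ae_eq_zero]
      refine Eventually.of_forall fun t => ?_
      refine indicator_of_notMem (fun hT => hx ?_) _
      have := mem_cyl.1 hT.1
      rw [tp_linePt hn] at this
      exact mem_cyl.2 this
  rw [lintegral_indicator hcm, Measure.restrict_restrict hcm, setLIntegral_const,
    inter_comm] at hline
  have hball : volume T ≤ ENNReal.ofReal ((2 * R) ^ d) * volume (Metric.closedBall (0 : Pt d) 1) := by
    refine (measure_mono hTs).trans (le_of_eq ?_)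
    rw [Measure.addHaar_closedBall' volume c (by positivity : (0 : ℝ) ≤ 2 * R),
      finrank_euclideanSpace_fin]
  rw [← hline] at hball
  have h2R : ENNReal.ofReal (2 * R) ≠ 0 := by simp [hR]
  refine (ENNReal.mul_le_mul_iff_right h2R ENNReal.ofReal_ne_top).1 (hball.trans_eq ?_)
  rw [← ENNReal.ofReal_mul (by positivity),
    ← ENNReal.ofReal_toReal (isCompact_closedBall (0 : Pt d) 1).measure_lt_top.ne,
    ← ENNReal.ofReal_mul (by positivity), ENNReal.toReal_ofReal ENNReal.toReal_nonneg]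
  congr 1
  rw [show d = d - 1 + 1 by omega, pow_succ, show d - 1 + 1 - 1 = d - 1 by omega]
  ring

section Weights

variable {A : Set (Pt d)} {n : Pt d} (hA : MeasurableSet A) (hn : ‖n‖ = 1)
  (hS : SmoothBasics)

/-- the excess as an integral in `ℝ≥0∞`. -/
noncomputable def exInt (A : Set (Pt d)) (n c : Pt d) (Rf l : ℝ) : ℝ≥0∞ :=
  ∫⁻ y, ENNReal.ofReal (gauss Rf (c - y) * defect A n l y)

include hA hn hS

theorem exInt_eq {S' l : ℝ} (hS' : 0 < S') (hl : 0 < l) (hlS : l < S') (c : Pt d) :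
    exInt A n c (√(S' ^ 2 - l ^ 2)) l = ENNReal.ofReal (excess A n S' c l / S' ^ d) := by
  set Rf := √(S' ^ 2 - l ^ 2)
  have hRf : 0 < Rf := width_pos hl.le hlS
  have hgi : Integrable fun y : Pt d => gauss Rf (c - y) := by
    refine Integrable.comp_sub_left (f := fun y : Pt d => gauss Rf y) ?_ c
    refine ⟨(continuous_gauss Rf).aestronglyMeasurable, ?_⟩
    rw [hasFiniteIntegral_iff_ofReal (Eventually.of_forall fun u => gauss_nonneg' hRf u),
      lintegral_gauss hRf]
    exact ENNReal.one_lt_top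
  rw [excess, mul_div_cancel_left₀ _ (by positivity : S' ^ d ≠ 0),
    ofReal_integral_eq_lintegral_ofReal (hgi.mul_bdd (c := 2 * (√d / l))
      (cont_defect hA hS hl).aestronglyMeasurable (Eventually.of_forall fun y => ?_))
      (Eventually.of_forall fun y =>
        mul_nonneg (gauss_nonneg' hRf _) (defect_nonneg' hA hn hS l y))]
  · rfl
  · rw [Real.norm_eq_abs, abs_of_nonneg (defect_nonneg' hA hn hS l y)]
    have h1 := (hS d A hA l hl).2.2.2.1 y
    have h2 := abs_real_inner_le_norm (gradInd A l y) n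
    rw [hn, mul_one, abs_le] at h2
    unfold defect; linarith [h2.1]

variable (hF : LineFubini)

include hF

/-- integrated column bound on a cylinder. -/
theorem lintegral_colD_le {o lam l Rf K S R : ℝ} (hK : 0 ≤ K) (hSp : 0 ≤ S) (hl : 0 < l)
    (h : l < lam) (hRf : 0 < Rf) (hRl : 2 * lam ^ 2 ≤ Rf ^ 2) (hR : 0 ≤ R) {c : Pt d}
    (ho : |o - ⟪c, n⟫| ≤ K * S) (v : Pt d) :
    ∫⁻ x in slab n ∩ cyl n c R, colD A n o lam l (x + v) ≤
      ENNReal.ofReal ((√(2 * Real.pi) * Rf) ^ d / (√(2 * Real.pi) * √(lam ^ 2 - l ^ 2)) *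
          Real.exp ((K * S) ^ 2 / Rf ^ 2 + R ^ 2 / Rf ^ 2) * Real.exp (‖v‖ ^ 2 / Rf ^ 2)) *
        exInt A n c Rf l := by
  set w := √(lam ^ 2 - l ^ 2)
  have hw : 0 < w := width_pos hl.le h
  have hw2 : w ^ 2 = lam ^ 2 - l ^ 2 := Real.sq_sqrt (by nlinarith)
  set C := (√(2 * Real.pi) * Rf) ^ d / (√(2 * Real.pi) * w) *
    Real.exp ((K * S) ^ 2 / Rf ^ 2 + R ^ 2 / Rf ^ 2) * Real.exp (‖v‖ ^ 2 / Rf ^ 2)
  have hC : 0 ≤ C := by positivity
  set Φ : Pt d → ℝ≥0∞ := fun y => ENNReal.ofReal (gauss Rf (c - y) * defect A n l y)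
  have hΦ : Measurable Φ := (((continuous_gauss Rf).comp (continuous_sub_left c)).mul
    (cont_defect hA hS hl)).measurable.ennreal_ofReal
  calc ∫⁻ x in slab n ∩ cyl n c R, colD A n o lam l (x + v)
      ≤ ∫⁻ x in slab n ∩ cyl n c R, ENNReal.ofReal C *
          ∫⁻ t, Φ (linePt n x t + tp n v) := by
        refine setLIntegral_mono' ?_ fun x hx => ?_
        · refine MeasurableSet.inter ?_ ?_
          · exact measurableSet_Ico.preimage (by fun_prop : Measurable fun y : Pt d => ⟪y, n⟫)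
          · refine measurableSet_le ?_ measurable_const
            unfold linePt; fun_prop
        rw [colD, ← lintegral_const_mul' _ _ ENNReal.ofReal_ne_top]
        refine lintegral_mono fun t => ?_
        rw [linePt_add]
        simp only [Φ]
        rw [← ENNReal.ofReal_mul hC, ← mul_assoc]
        refine ENNReal.ofReal_le_ofReal (mul_le_mul_of_nonneg_right ?_ (defect_nonneg' hA hn hS _ _))
        set hh := ‖tp n (x + v) - tp n c‖
        have hhb : hh ≤ R + ‖v‖ := by
          have : tp n (x + v) - tp n c = (tp n x - tp n c) + tp n v := by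
            simp only [tp, inner_add_left, add_smul]; abel
          simp only [hh, this]
          exact (norm_add_le _ _).trans (add_le_add (mem_cyl.1 hx.2) (norm_tp_le hn v))
        have hh2 : hh ^ 2 ≤ 2 * R ^ 2 + 2 * ‖v‖ ^ 2 := by
          nlinarith [pow_le_pow_left₀ (norm_nonneg _) hhb 2, sq_nonneg (R - ‖v‖)]
        have hnc : ‖c - (linePt n x t + tp n v)‖ ^ 2 = (t - ⟪c, n⟫) ^ 2 + hh ^ 2 := by
          rw [norm_sub_rev, ← linePt_add, norm_linePt_sub hn]
        have hto : (t - ⟪c, n⟫) ^ 2 ≤ 2 * (t - o) ^ 2 + 2 * (K * S) ^ 2 := by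
          have := pow_le_pow_left₀ (abs_nonneg _) ho 2
          rw [sq_abs] at this
          nlinarith [sq_nonneg (t - o - (o - ⟪c, n⟫))]
        have hexp : -(t - o) ^ 2 / (2 * w ^ 2) ≤ (K * S) ^ 2 / Rf ^ 2 + R ^ 2 / Rf ^ 2
            + ‖v‖ ^ 2 / Rf ^ 2 + -((t - ⟪c, n⟫) ^ 2 + hh ^ 2) / (2 * Rf ^ 2) := by
          have h1 : (t - o) ^ 2 / Rf ^ 2 ≤ (t - o) ^ 2 / (2 * w ^ 2) :=
            div_le_div_of_nonneg_left (sq_nonneg _) (by positivity) (by nlinarith)
          have h2 : ((t - ⟪c, n⟫) ^ 2 + hh ^ 2) / (2 * Rf ^ 2) ≤ (t - o) ^ 2 / Rf ^ 2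
              + ((K * S) ^ 2 / Rf ^ 2 + R ^ 2 / Rf ^ 2 + ‖v‖ ^ 2 / Rf ^ 2) := by
            rw [← add_div, ← add_div, ← add_div, div_le_div_iff₀ (by positivity) (by positivity)]
            nlinarith [sq_nonneg Rf]
          rw [neg_div, neg_div]; linarith
        simp only [gaussWin, gauss1, gauss, hnc, C]
        calc (√(2 * Real.pi) * w)⁻¹ * Real.exp (-(t - o) ^ 2 / (2 * w ^ 2))
            ≤ (√(2 * Real.pi) * w)⁻¹ * Real.exp ((K * S) ^ 2 / Rf ^ 2 + R ^ 2 / Rf ^ 2
              + ‖v‖ ^ 2 / Rf ^ 2 + -((t - ⟪c, n⟫) ^ 2 + hh ^ 2) / (2 * Rf ^ 2)) :=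
              mul_le_mul_of_nonneg_left (Real.exp_le_exp.2 hexp) (by positivity)
          _ = _ := by
              rw [Real.exp_add, Real.exp_add]
              field_simp
    _ ≤ ENNReal.ofReal C * ∫⁻ x in slab n, ∫⁻ t, Φ (linePt n x t + tp n v) := by
        rw [lintegral_const_mul' _ _ ENNReal.ofReal_ne_top]
        exact mul_le_mul' le_rfl (lintegral_mono_set inter_subset_left)
    _ = ENNReal.ofReal C * exInt A n c Rf l := by
        rw [← hF d n hn (fun y => Φ (y + tp n v)) (hΦ.comp (measurable_add_const _)),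
          lintegral_add_right_eq_self Φ (tp n v)]
        rfl

variable (hC : SmoothConv) (hD : GaussDom)

include hC hD

/-- pointwise column bound by a smaller level. -/
theorem colD_le {o lam l l' Rf Q K S : ℝ} (hK : 0 ≤ K) (hSp : 0 ≤ S) (hl : 0 < l) (hll : l < l')
    (h : l' < lam) (hRf : 0 < Rf) (hQ : Q = Rf ^ 2 - (l' ^ 2 - l ^ 2))
    (hQ4 : 4 * lam ^ 2 ≤ Q) {c : Pt d}
    (ho : |o - ⟪c, n⟫| ≤ K * S) (z : Pt d) :
    colD A n o lam l' z ≤
      ENNReal.ofReal ((Rf / √(l' ^ 2 - l ^ 2)) ^ d * (√2 * Real.exp ((K * S) ^ 2 / Q)) *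
          Real.exp (‖tp n z - tp n c‖ ^ 2 / (2 * Q))) *
        exInt A n c Rf l := by
  set a := √(l' ^ 2 - l ^ 2)
  have hl' : 0 < l' := hl.trans hll
  have ha : 0 < a := width_pos hl.le hll
  have ha2 : a ^ 2 = l' ^ 2 - l ^ 2 := Real.sq_sqrt (by nlinarith)
  have hlam : 0 < lam := hl'.trans h
  have hQ0 : 0 < Q := lt_of_lt_of_le (by positivity) hQ4
  have haR : a < Rf := (sq_lt_sq₀ ha.le hRf.le).1 (by nlinarith)
  set w := √(lam ^ 2 - l' ^ 2)
  have hw : 0 < w := width_pos hl'.le h
  have hw2 : w ^ 2 = lam ^ 2 - l' ^ 2 := Real.sq_sqrt (by nlinarith)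
  have hDmono : ∀ y, ENNReal.ofReal (defect A n l' y)
      ≤ ∫⁻ u, ENNReal.ofReal (gauss a (y - u) * defect A n l u) := by
    intro y
    have hgi : Integrable fun u : Pt d => gauss a (y - u) := by
      refine Integrable.comp_sub_left (f := fun u : Pt d => gauss a u) ?_ y
      refine ⟨(continuous_gauss a).aestronglyMeasurable, ?_⟩
      rw [hasFiniteIntegral_iff_ofReal (Eventually.of_forall fun u => gauss_nonneg' ha u),
        lintegral_gauss ha]
      exact ENNReal.one_lt_top
    have hgb : ∀ u, ‖gradInd A l u‖ ≤ √d / l := (hS d A hA l hl).2.2.2.1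
    have i1 : Integrable fun u => gauss a (y - u) • gradInd A l u :=
      hgi.smul_bdd (√d / l) (cont_g hA hS hl).aestronglyMeasurable (Eventually.of_forall hgb)
    have i2 : Integrable fun u => gauss a (y - u) * ‖gradInd A l u‖ :=
      i1.norm.congr (Eventually.of_forall fun u => by
        simp [norm_smul, abs_of_nonneg (gauss_nonneg' ha _)])
    have i3 : Integrable fun u => gauss a (y - u) * ⟪gradInd A l u, n⟫ :=
      (i1.inner_const n).congr (Eventually.of_forall fun u => by simp [inner_smul_left])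
    have e := (hC d A hA l l' hl hll y).2
    have hle : defect A n l' y ≤ ∫ u, gauss a (y - u) * defect A n l u := by
      simp only [defect, mul_sub]
      rw [integral_sub i2 i3]
      refine sub_le_sub ?_ (le_of_eq ?_)
      · rw [e]
        refine (norm_integral_le_integral_norm _).trans (le_of_eq ?_)
        exact integral_congr_ae (Eventually.of_forall fun u => by
          simp only [norm_smul, Real.norm_of_nonneg (gauss_nonneg' ha _), a])
      · rw [e, real_inner_comm, ← integral_inner i1 n]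
        exact integral_congr_ae (Eventually.of_forall fun u => by
          simp [inner_smul_right, real_inner_comm])
    refine (ENNReal.ofReal_le_ofReal hle).trans (le_of_eq ?_)
    refine ofReal_integral_eq_lintegral_ofReal
      ((i2.sub i3).congr (Eventually.of_forall fun u => by simp [defect, mul_sub]))
      (Eventually.of_forall fun u => mul_nonneg (gauss_nonneg' ha _) (defect_nonneg' hA hn hS _ _))
  set hh := ‖tp n z - tp n c‖
  set B : ℝ → ℝ := fun t => (Rf / a) ^ d * gaussWin o lam l' t *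
    Real.exp (((t - ⟪c, n⟫) ^ 2 + hh ^ 2) / (2 * Q))
  calc colD A n o lam l' z
      ≤ ∫⁻ t, ENNReal.ofReal (B t) * exInt A n c Rf l := by
        refine lintegral_mono fun t => ?_
        rw [ENNReal.ofReal_mul (win_nonneg hl'.le h t)]
        refine (mul_le_mul' le_rfl (hDmono _)).trans ?_
        rw [← lintegral_const_mul' _ _ ENNReal.ofReal_ne_top, exInt,
          ← lintegral_const_mul' _ _ ENNReal.ofReal_ne_top]
        refine lintegral_mono fun u => ?_
        rw [← ENNReal.ofReal_mul (win_nonneg hl'.le h t), ← ENNReal.ofReal_mul (mul_nonneg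
          (mul_nonneg (by positivity) (win_nonneg hl'.le h t)) (Real.exp_nonneg _))]
        refine ENNReal.ofReal_le_ofReal ?_
        have hg : gauss a (linePt n z t - u) ≤ (Rf / a) ^ d *
            Real.exp (((t - ⟪c, n⟫) ^ 2 + hh ^ 2) / (2 * Q)) * gauss Rf (c - u) := by
          have := hD d a Rf u (linePt n z t) c ha haR
          rw [norm_linePt_sub hn, ha2, ← hQ] at this
          have e1 : gauss a (linePt n z t - u) = gauss a (u - linePt n z t) := by
            simp [gauss, norm_sub_rev]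
          have e2 : gauss Rf (c - u) = gauss Rf (u - c) := by simp [gauss, norm_sub_rev]
          rw [e1, e2]; exact this
        calc gaussWin o lam l' t * (gauss a (linePt n z t - u) * defect A n l u)
            ≤ gaussWin o lam l' t * (((Rf / a) ^ d *
                Real.exp (((t - ⟪c, n⟫) ^ 2 + hh ^ 2) / (2 * Q)) * gauss Rf (c - u)) *
                defect A n l u) :=
              mul_le_mul_of_nonneg_left (mul_le_mul_of_nonneg_right hg
                (defect_nonneg' hA hn hS _ _)) (win_nonneg hl'.le h t)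
          _ = B t * (gauss Rf (c - u) * defect A n l u) := by simp only [B]; ring
    _ = (∫⁻ t, ENNReal.ofReal (B t)) * exInt A n c Rf l :=
        lintegral_mul_const _ (Continuous.measurable (by
          have := continuous_win o lam l'
          fun_prop)).ennreal_ofReal
    _ ≤ _ := by
        refine mul_le_mul' ?_ le_rfl
        set D0 := (Rf / a) ^ d * (√2 * Real.exp ((K * S) ^ 2 / Q)) *
          Real.exp (hh ^ 2 / (2 * Q))
        calc ∫⁻ t, ENNReal.ofReal (B t)
            ≤ ∫⁻ t, ENNReal.ofReal D0 * ENNReal.ofReal (gauss1 (√2 * w) (t - o)) := by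
              refine lintegral_mono fun t => ?_
              rw [← ENNReal.ofReal_mul (by positivity)]
              refine ENNReal.ofReal_le_ofReal ?_
              have h1 : -(t - o) ^ 2 / (2 * w ^ 2) + ((t - ⟪c, n⟫) ^ 2 + hh ^ 2) / (2 * Q)
                  ≤ (K * S) ^ 2 / Q + hh ^ 2 / (2 * Q)
                    + -(t - o) ^ 2 / (2 * (√2 * w) ^ 2) := by
                have hto : (t - ⟪c, n⟫) ^ 2 ≤ 2 * (t - o) ^ 2 + 2 * (K * S) ^ 2 := by
                  have := pow_le_pow_left₀ (abs_nonneg _) ho 2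
                  rw [sq_abs] at this
                  nlinarith [sq_nonneg (t - o - (o - ⟪c, n⟫))]
                have h3 : (t - ⟪c, n⟫) ^ 2 / (2 * Q) ≤ (t - o) ^ 2 / Q + (K * S) ^ 2 / Q := by
                  rw [← add_div, div_le_div_iff₀ (by positivity) hQ0]
                  nlinarith
                have h4 : (t - o) ^ 2 / Q ≤ (t - o) ^ 2 / (4 * w ^ 2) :=
                  div_le_div_of_nonneg_left (sq_nonneg _) (by positivity) (by nlinarith)
                rw [mul_pow √2 w, Real.sq_sqrt zero_le_two, neg_div, neg_div, add_div]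
                have h5 : (t - o) ^ 2 / (2 * (2 * w ^ 2)) = (t - o) ^ 2 / (2 * w ^ 2) / 2 := by
                  ring
                have h6 : (t - o) ^ 2 / (4 * w ^ 2) = (t - o) ^ 2 / (2 * w ^ 2) / 2 := by ring
                rw [h6] at h4
                rw [h5]
                linarith
              simp only [B, D0, gaussWin, gauss1]
              calc (Rf / a) ^ d * ((√(2 * Real.pi) * w)⁻¹ * Real.exp (-(t - o) ^ 2 / (2 * w ^ 2)))
                    * Real.exp (((t - ⟪c, n⟫) ^ 2 + hh ^ 2) / (2 * Q))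
                  = (Rf / a) ^ d * (√(2 * Real.pi) * w)⁻¹ * Real.exp (-(t - o) ^ 2 / (2 * w ^ 2)
                      + ((t - ⟪c, n⟫) ^ 2 + hh ^ 2) / (2 * Q)) := by rw [Real.exp_add]; ring
                _ ≤ (Rf / a) ^ d * (√(2 * Real.pi) * w)⁻¹ * Real.exp ((K * S) ^ 2 / Q
                      + hh ^ 2 / (2 * Q) + -(t - o) ^ 2 / (2 * (√2 * w) ^ 2)) :=
                    mul_le_mul_of_nonneg_left (Real.exp_le_exp.2 h1) (by positivity)
                _ = _ := by
                    rw [Real.exp_add, Real.exp_add]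
                    field_simp
          _ = ENNReal.ofReal D0 := by
              rw [lintegral_const_mul' _ _ ENNReal.ofReal_ne_top,
                lintegral_gauss1 (by positivity), mul_one]

end Weights

theorem hgt_congr {A : Set (Pt d)} {n : Pt d} {ψ : ℝ → ℝ → ℝ} {l : ℝ} {x y : Pt d}
    (h : tp n x = tp n y) : hgt ψ A n l x = hgt ψ A n l y := by
  simp only [hgt, linePt_eq, h]

theorem tendsto_hgt (hS : SmoothBasics) (hL : SmoothLimit) (hF : LineFubini) {A : Set (Pt d)}
    (hA : MeasurableSet A) {n : Pt d} (hn : ‖n‖ = 1) {o lam : ℝ} (hlam : 0 < lam) :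
    ∀ᵐ x ∂(volume.restrict (slab n)),
      Tendsto (fun i : ℕ => hgt (gaussWin o lam) A n ((1 / 2) ^ i * (lam / 2)) x) atTop
        (𝓝 (hgt0 (gaussWin o lam) A n x)) := by
  set Z : Set (Pt d) := toMeasurable volume
    {y | ¬ Tendsto (fun j : ℕ => smoothInd A ((1 / 2) ^ j * (lam / 2)) y) atTop
      (𝓝 (A.indicator (fun _ => (1 : ℝ)) y))}
  have hZm : MeasurableSet Z := measurableSet_toMeasurable _ _
  have hZ0 : volume Z = 0 := by
    rw [measure_toMeasurable]; exact ae_iff.1 (hL d A hA (lam / 2) (by positivity))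
  have hZi : Measurable (Z.indicator (1 : Pt d → ℝ≥0∞)) := measurable_const.indicator hZm
  have h1 := hF d n hn _ hZi
  rw [lintegral_indicator_one hZm, hZ0] at h1
  have hjoint : Measurable fun x : Pt d => ∫⁻ t, Z.indicator (1 : Pt d → ℝ≥0∞) (linePt n x t) :=
    Measurable.lintegral_prod_right' (f := fun q : Pt d × ℝ =>
      Z.indicator (1 : Pt d → ℝ≥0∞) (linePt n q.1 q.2))
      (hZi.comp (continuous_linePt n).measurable)
  filter_upwards [(lintegral_eq_zero_iff hjoint).1 h1.symm] with x hx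
  have hlc : Continuous fun t => linePt n x t :=
    (continuous_linePt n).comp (continuous_const.prodMk continuous_id)
  have hae : ∀ᵐ t : ℝ, linePt n x t ∉ Z := by
    filter_upwards [(lintegral_eq_zero_iff (hZi.comp hlc.measurable)).1 hx] with t ht
    intro hc
    simp [indicator_of_mem hc] at ht
  have hm0 : ∀ i : ℕ, 0 < (1 / 2 : ℝ) ^ i * (lam / 2) := fun i => by positivity
  have hm1 : ∀ i : ℕ, (1 / 2 : ℝ) ^ i * (lam / 2) ≤ lam / 2 := fun i =>
    mul_le_of_le_one_left (by positivity) (pow_le_one₀ (by norm_num) (by norm_num))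
  have hlim0 : Tendsto (fun i : ℕ => (1 / 2 : ℝ) ^ i * (lam / 2)) atTop (𝓝 0) := by
    simpa using (tendsto_pow_atTop_nhds_zero_of_lt_one (r := (1 / 2 : ℝ)) (by norm_num)
      (by norm_num)).mul_const (lam / 2)
  refine tendsto_integral_of_dominated_convergence (fun t => 2 * gauss1 lam (t - o))
    (fun i => ?_) ((integrable_gauss1 hlam o).const_mul 2) (fun i => ?_) ?_
  · exact ((continuous_win o lam _).mul ((cont_v hA hS (hm0 i)).comp hlc)).aestronglyMeasurable
  · refine Eventually.of_forall fun t => ?_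
    have hlt : (1 / 2 : ℝ) ^ i * (lam / 2) < lam := (hm1 i).trans_lt (by linarith)
    rw [norm_mul, Real.norm_of_nonneg (win_nonneg (hm0 i).le hlt t),
      Real.norm_of_nonneg (v_mem hA hS (hm0 i) _).1]
    refine (mul_le_of_le_one_right (win_nonneg (hm0 i).le hlt t)
      (v_mem hA hS (hm0 i) _).2).trans ?_
    simp only [gaussWin]
    set l := (1 / 2 : ℝ) ^ i * (lam / 2)
    set w := √(lam ^ 2 - l ^ 2)
    have hw : 0 < w := width_pos (hm0 i).le hlt
    have hw2 : w ^ 2 = lam ^ 2 - l ^ 2 := Real.sq_sqrt (sub_nonneg.2 (pow_le_pow_left₀ (hm0 i).le hlt.le 2))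
    have hl2 : l ^ 2 ≤ (lam / 2) ^ 2 := pow_le_pow_left₀ (hm0 i).le (hm1 i) 2
    have hwl : lam / 2 ≤ w := Real.le_sqrt_of_sq_le (by nlinarith)
    have hwu : w ^ 2 ≤ lam ^ 2 := by nlinarith
    simp only [gauss1]
    rw [show 2 * ((√(2 * Real.pi) * lam)⁻¹ * Real.exp (-(t - o) ^ 2 / (2 * lam ^ 2)))
        = (√(2 * Real.pi) * (lam / 2))⁻¹ * Real.exp (-(t - o) ^ 2 / (2 * lam ^ 2)) by
      field_simp]
    refine mul_le_mul (inv_anti₀ (by positivity)
      (mul_le_mul_of_nonneg_left hwl (Real.sqrt_nonneg _))) (Real.exp_le_exp.2 ?_)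
      (Real.exp_nonneg _) (by positivity)
    rw [neg_div, neg_div, neg_le_neg_iff]
    exact div_le_div_of_nonneg_left (sq_nonneg _) (by positivity) (by nlinarith)
  · filter_upwards [hae] with t ht
    refine Tendsto.mul ?_ ?_
    · have hc : ContinuousAt (fun l : ℝ => gaussWin o lam l t) 0 := by
        unfold gaussWin gauss1
        have h0 : √(lam ^ 2 - (0 : ℝ) ^ 2) ≠ 0 := by
          simp [Real.sqrt_sq hlam.le, hlam.ne']
        refine ContinuousAt.mul (ContinuousAt.inv₀ (by fun_prop) ?_) ?_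
        · exact mul_ne_zero (by positivity) h0
        · refine ContinuousAt.rexp (ContinuousAt.div (by fun_prop) (by fun_prop) ?_)
          exact mul_ne_zero two_ne_zero (pow_ne_zero _ h0)
      exact hc.tendsto.comp hlim0
    · by_contra hc
      exact ht (subset_toMeasurable _ _ hc)

section Main

/-- dyadic levels below the total scale. -/
noncomputable def lev (lam : ℝ) (i : ℕ) : ℝ := (1 / 2) ^ i * (lam / 2)

theorem lev_pos {lam : ℝ} (h : 0 < lam) (i : ℕ) : 0 < lev lam i := by
  unfold lev; positivity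

theorem lev_le {lam : ℝ} (h : 0 < lam) (i : ℕ) : lev lam i ≤ lam / 2 :=
  mul_le_of_le_one_left (by positivity) (pow_le_one₀ (by norm_num) (by norm_num))

theorem lev_lt {lam : ℝ} (h : 0 < lam) (i : ℕ) : lev lam i < lam :=
  (lev_le h i).trans_lt (by linarith)

theorem lev_succ (lam : ℝ) (i : ℕ) : lev lam i = 2 * lev lam (i + 1) := by
  unfold lev; ring

theorem lev_zero (lam : ℝ) : lev lam 0 = lam / 2 := by simp [lev]

theorem lev_one (lam : ℝ) : lev lam 1 = lam / 4 := by simp only [lev]; ring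

theorem lev_lt_scale {K S lam : ℝ} (hK : 1 ≤ K) (hS : 0 < S) (h : 0 < lam) (hhi : lam ≤ K * S)
    (i : ℕ) : lev lam i < 8 * K * S := by
  have := lev_lt h i
  nlinarith

variable {A : Set (Pt d)} {n : Pt d} {S lam o K : ℝ} {c : Pt d}

/-- constant for the small levels. -/
noncomputable def cSmall (d : ℕ) : ℝ :=
  2 * √d * (8 * 3) * (√2) ^ d * (√(2 * Real.pi)) ^ d * Real.exp 1 * (2 / √(2 * Real.pi)) / 4

/-- constant for pointwise column bounds. -/
noncomputable def cPoint (d : ℕ) (K : ℝ) : ℝ := (32 * K ^ 2) ^ d * (√2 * Real.exp 1)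

/-- constant for the top level. -/
noncomputable def cTop (d : ℕ) (K : ℝ) : ℝ :=
  4 * √d * K ^ 3 * (cPoint d K * Real.exp 1) *
    (volume (Metric.closedBall (0 : Pt d) 1)).toReal * (2 * K) ^ (d - 1) / (8 * K) ^ d

/-- constant for the radial comparison. -/
noncomputable def cMid (d : ℕ) (K : ℝ) : ℝ :=
  4 * √d * cPoint d K * 6 * (√2) ^ d * K / (8 * K) ^ d

theorem cSmall_nonneg (d : ℕ) : 0 ≤ cSmall d := by unfold cSmall; positivity

theorem cPoint_nonneg (d : ℕ) (K : ℝ) : 0 ≤ cPoint d K := by unfold cPoint; positivity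

theorem cTop_nonneg (d : ℕ) {K : ℝ} (hK : 0 ≤ K) : 0 ≤ cTop d K := by
  unfold cTop cPoint; positivity

theorem cMid_nonneg (d : ℕ) {K : ℝ} (hK : 0 ≤ K) : 0 ≤ cMid d K := by
  unfold cMid cPoint; positivity

/-- geometric excess sum along the dyadic levels. -/
noncomputable def levSum (A : Set (Pt d)) (n : Pt d) (S' lam : ℝ) (c : Pt d) : ℝ≥0∞ :=
  ∑' i, ENNReal.ofReal ((3 / 4) ^ i * excess A n S' c (lev lam i))

theorem excess_one_le (A : Set (Pt d)) (n : Pt d) (S' lam : ℝ) (c : Pt d) :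
    ENNReal.ofReal (excess A n S' c (lev lam 1))
      ≤ ENNReal.ofReal (4 / 3) * levSum A n S' lam c := by
  refine le_trans ?_ (mul_le_mul' le_rfl (ENNReal.le_tsum 1))
  rw [← ENNReal.ofReal_mul (by norm_num)]
  exact ENNReal.ofReal_le_ofReal (le_of_eq (by ring))

theorem levSum_le (hE : ExcessBasics) (hA : MeasurableSet A) (hn : ‖n‖ = 1) (hK : 1 ≤ K)
    (hS0 : 0 < S) (hlo : S / K ≤ lam) (hhi : lam ≤ K * S) {p : ℕ} (hp : K ^ 2 < 2 ^ p) :
    levSum A n (8 * K * S) lam c
      ≤ ENNReal.ofReal ((4 / 3) ^ (p + 1)) * wsum A n (8 * K * S) c := by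
  have hK0 : 0 < K := one_pos.trans_le hK
  set S' : ℝ := 8 * K * S
  have hS' : 0 < S' := by positivity
  have hlam : 0 < lam := lt_of_lt_of_le (by positivity) hlo
  have hSlam : S ≤ K * lam := by rw [div_le_iff₀ hK0] at hlo; linarith
  obtain ⟨-, hE2, -⟩ := hE d A hA n S' c hS' hn
  have hterm : ∀ i, ENNReal.ofReal ((3 / 4) ^ i * excess A n S' c (lev lam i)) ≤
      ENNReal.ofReal ((4 / 3) ^ (p + 1)) * ENNReal.ofReal ((3 / 4) ^ (i + (1 + p)) *
        excess A n S' c ((1 / 2) ^ (i + (1 + p)) * (S' / 8))) := fun i => by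
    rw [← ENNReal.ofReal_mul (by positivity), ← mul_assoc]
    refine ENNReal.ofReal_le_ofReal ?_
    have e : (4 / 3 : ℝ) ^ (p + 1) * (3 / 4) ^ (i + (1 + p)) = (3 / 4 : ℝ) ^ i := by
      rw [pow_add _ i, mul_left_comm, add_comm p 1, ← mul_pow]
      norm_num
    rw [e]
    refine mul_le_mul_of_nonneg_left ?_ (by positivity)
    refine hE2 _ _ (by positivity) ?_ (lev_lt_scale hK hS0 hlam hhi i)
    have h2 : (1 / 2 : ℝ) ^ p * (K * S) ≤ lam := by
      have h3 : K * S ≤ K ^ 2 * lam := by nlinarith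
      have h4 : K ^ 2 * lam ≤ 2 ^ p * lam := mul_le_mul_of_nonneg_right hp.le hlam.le
      rw [one_div, inv_pow, inv_mul_le_iff₀ (by positivity)]
      linarith
    simp only [lev, S']
    rw [pow_add, pow_add, show (8 * K * S / 8) = K * S by ring, mul_assoc]
    refine mul_le_mul_of_nonneg_left ?_ (by positivity)
    linarith
  refine (ENNReal.tsum_le_tsum hterm).trans ?_
  rw [ENNReal.tsum_mul_left]
  exact mul_le_mul' le_rfl (ENNReal.tsum_comp_le_tsum_of_injective (add_left_injective (1 + p)) _)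

theorem excess_nonneg' (hA : MeasurableSet A) (hn : ‖n‖ = 1) (hS : SmoothBasics) {S' l : ℝ}
    (hS' : 0 < S') (hl : 0 < l) (h : l < S') : 0 ≤ excess A n S' c l :=
  mul_nonneg (by positivity) (integral_nonneg fun x =>
    mul_nonneg (gauss_nonneg' (width_pos hl.le h) _) (defect_nonneg' hA hn hS l x))

theorem increment_le (hA : MeasurableSet A) (hn : ‖n‖ = 1) (hS : SmoothBasics)
    (hC : SmoothConv) (hF : LineFubini) (hK : 1 ≤ K) (hS0 : 0 < S) (hlam : 0 < lam)
    (hhi : lam ≤ K * S) (ho : |o - ⟪c, n⟫| ≤ K * S) (i : ℕ) :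
    ∫⁻ x in slab n ∩ cyl n c (K * S), ENNReal.ofReal
        ((hgt (gaussWin o lam) A n (lev lam i) x
          - hgt (gaussWin o lam) A n (lev lam (i + 1)) x) ^ 2)
      ≤ ENNReal.ofReal (cSmall d * (1 / 2) ^ i) *
        ENNReal.ofReal (excess A n (8 * K * S) c (lev lam (i + 1))) := by
  have hK0 : 0 < K := one_pos.trans_le hK
  have hKS : 0 < K * S := mul_pos hK0 hS0
  set S' : ℝ := 8 * K * S
  have hS' : 0 < S' := by positivity
  have hS'2 : S' ^ 2 = 64 * (K * S) ^ 2 := by simp only [S']; ring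
  have hlam2 : lam ^ 2 ≤ (K * S) ^ 2 := pow_le_pow_left₀ hlam.le hhi 2
  set D : Set (Pt d) := slab n ∩ cyl n c (K * S)
  set H : ℝ → Pt d → ℝ := fun l x => hgt (gaussWin o lam) A n l x
  set l := lev lam (i + 1) with hl
  have hl0 : 0 < l := lev_pos hlam _
  have hll : l < lev lam i := by rw [lev_succ lam i]; linarith
  set a := √((lev lam i) ^ 2 - l ^ 2)
  have ha : 0 < a := width_pos hl0.le hll
  have ha2 : a ^ 2 = 3 * l ^ 2 := by
    rw [Real.sq_sqrt (by nlinarith), lev_succ lam i]; ring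
  set Rf := √(S' ^ 2 - l ^ 2)
  have hRf : 0 < Rf := width_pos hl0.le (lev_lt_scale hK hS0 hlam hhi _)
  have hRf2 : Rf ^ 2 = S' ^ 2 - l ^ 2 := Real.sq_sqrt (by nlinarith [lev_lt_scale hK hS0 hlam hhi (i + 1)])
  have hl2 : l ^ 2 ≤ (lam / 2) ^ 2 := pow_le_pow_left₀ hl0.le (lev_le hlam _) 2
  have hR8 : 8 * a ^ 2 ≤ Rf ^ 2 := by nlinarith
  set w := √(lam ^ 2 - l ^ 2)
  have hw : lam / 2 ≤ w := Real.le_sqrt_of_sq_le (by nlinarith)
  set Cc : ℝ := (√(2 * Real.pi) * S') ^ d / (√(2 * Real.pi) * (lam / 2)) * Real.exp 1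
  have hu : ∀ u : Pt d, ∀ s ∈ Icc (0 : ℝ) 1,
      ∫⁻ x in D, colD A n o lam l (x + s • u) ≤
        ENNReal.ofReal (Cc * Real.exp (‖u‖ ^ 2 / Rf ^ 2)) * exInt A n c Rf l := fun u s hs => by
    refine (lintegral_colD_le hA hn hS hF hK0.le hS0.le hl0 (lev_lt hlam _) hRf (by nlinarith)
      hKS.le ho (s • u)).trans (mul_le_mul' (ENNReal.ofReal_le_ofReal ?_) le_rfl)
    refine mul_le_mul (mul_le_mul ?_ (Real.exp_le_exp.2 ?_) (Real.exp_nonneg _)
      (by positivity)) (Real.exp_le_exp.2 ?_) (Real.exp_nonneg _) (by positivity)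
    · refine div_le_div₀ (by positivity) (pow_le_pow_left₀ (by positivity)
        (mul_le_mul_of_nonneg_left (Real.sqrt_le_iff.2 ⟨hS'.le, by nlinarith⟩)
          (Real.sqrt_nonneg _)) d) (by positivity)
        (mul_le_mul_of_nonneg_left hw (Real.sqrt_nonneg _))
    · rw [← add_div, div_le_one (by positivity)]; nlinarith
    · refine div_le_div_of_nonneg_right (pow_le_pow_left₀ (norm_nonneg _) ?_ 2) (by positivity)
      rw [norm_smul, Real.norm_of_nonneg hs.1]
      exact mul_le_of_le_one_left (norm_nonneg _) hs.2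
  have hptw : ∀ x, ENNReal.ofReal ((H (lev lam i) x - H l x) ^ 2) ≤
      ∫⁻ u, ENNReal.ofReal (gauss a u * (2 * (√d / l) * ‖u‖ ^ 2)) *
        ∫⁻ s in Icc (0 : ℝ) 1, colD A n o lam l (x + s • u) := fun x => by
    simp only [H]
    rw [hgt_semigroup hA hn hS hC hF hl0 hll (lev_lt hlam i) x]
    exact level_sub_sq hA hn hS hC hF hl0 (lev_lt hlam _) ha x
  have hcm : Measurable (colD A n o lam l) := measurable_colD hA hS hl0
  have hcur : Measurable fun q : Pt d × Pt d =>
      ENNReal.ofReal (gauss a q.2 * (2 * (√d / l) * ‖q.2‖ ^ 2)) *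
        ∫⁻ s in Icc (0 : ℝ) 1, colD A n o lam l (q.1 + s • q.2) := by
    refine Measurable.mul (Continuous.measurable (by unfold gauss; fun_prop)).ennreal_ofReal
      (Measurable.lintegral_prod_right' (f := fun r : (Pt d × Pt d) × ℝ =>
        colD A n o lam l (r.1.1 + r.2 • r.1.2)) (hcm.comp (by fun_prop)))
  calc ∫⁻ x in D, ENNReal.ofReal ((H (lev lam i) x - H l x) ^ 2)
      ≤ ∫⁻ x in D, ∫⁻ u, ENNReal.ofReal (gauss a u * (2 * (√d / l) * ‖u‖ ^ 2)) *
          ∫⁻ s in Icc (0 : ℝ) 1, colD A n o lam l (x + s • u) :=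
        lintegral_mono fun x => hptw x
    _ = ∫⁻ u, ∫⁻ x in D, ENNReal.ofReal (gauss a u * (2 * (√d / l) * ‖u‖ ^ 2)) *
          ∫⁻ s in Icc (0 : ℝ) 1, colD A n o lam l (x + s • u) :=
        lintegral_lintegral_swap hcur.aemeasurable
    _ ≤ ∫⁻ u : Pt d, (ENNReal.ofReal (2 * (√d / l) * Cc) * exInt A n c Rf l) *
          ENNReal.ofReal (gauss a u * ‖u‖ ^ 2 * Real.exp (‖u‖ ^ 2 / Rf ^ 2)) := by
        refine lintegral_mono fun u => ?_
        rw [lintegral_const_mul' _ _ ENNReal.ofReal_ne_top,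
          lintegral_lintegral_swap (f := fun x s => colD A n o lam l (x + s • u))
              (hcm.comp (g := colD A n o lam l)
                (f := fun r : Pt d × ℝ => r.1 + r.2 • u) (by fun_prop)).aemeasurable]
        refine (mul_le_mul' le_rfl (setLIntegral_mono measurable_const fun s hs => hu u s hs)).trans ?_
        rw [setLIntegral_const, Real.volume_Icc, sub_zero, ENNReal.ofReal_one, mul_one,
          ← mul_assoc, ← ENNReal.ofReal_mul (mul_nonneg (gauss_nonneg' ha u) (by positivity)),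
          mul_right_comm (ENNReal.ofReal (2 * (√d / l) * Cc)) (exInt A n c Rf l),
          ← ENNReal.ofReal_mul (by positivity)]
        refine le_of_eq ?_
        congr 2
        ring
    _ ≤ (ENNReal.ofReal (2 * (√d / l) * Cc) * exInt A n c Rf l) *
          ENNReal.ofReal (8 * a ^ 2 * (√2) ^ d) := by
        rw [lintegral_const_mul _ (Continuous.measurable (by unfold gauss; fun_prop)).ennreal_ofReal]
        exact mul_le_mul' le_rfl (lintegral_gauss_moment ha hR8)
    _ = ENNReal.ofReal (cSmall d * (1 / 2) ^ i) * ENNReal.ofReal (excess A n S' c l) := by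
        have hex : 0 ≤ excess A n S' c l :=
          excess_nonneg' hA hn hS hS' hl0 (lev_lt_scale hK hS0 hlam hhi _)
        have hcS := cSmall_nonneg d
        rw [exInt_eq hA hn hS hS' hl0 (lev_lt_scale hK hS0 hlam hhi _) c,
          ← ENNReal.ofReal_mul (by positivity), ← ENNReal.ofReal_mul' (by positivity),
          ← ENNReal.ofReal_mul (by positivity)]
        congr 1
        simp only [← hl, Cc, cSmall, ha2, mul_pow]
        have e : (1 / 2 : ℝ) ^ i = 4 * l / lam := by
          rw [hl]; simp only [lev]; field_simp; ring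
        rw [e]
        field_simp

theorem column_le (hA : MeasurableSet A) (hn : ‖n‖ = 1) (hS : SmoothBasics)
    (hC : SmoothConv) (hF : LineFubini) (hD : GaussDom) (hK : 1 ≤ K) (hS0 : 0 < S)
    (hlo : S / K ≤ lam) (hhi : lam ≤ K * S) (ho : |o - ⟪c, n⟫| ≤ K * S) :
    ∃ Q : ℝ, 4 * (K * S) ^ 2 ≤ Q ∧ 4 * lam ^ 2 ≤ Q ∧ ∀ z,
      colD A n o lam (lev lam 0) z ≤
        ENNReal.ofReal (cPoint d K * Real.exp (‖tp n z - tp n c‖ ^ 2 / (2 * Q))) *
          ENNReal.ofReal (excess A n (8 * K * S) c (lev lam 1) / (8 * K * S) ^ d) := by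
  have hK0 : 0 < K := one_pos.trans_le hK
  have hKS : 0 < K * S := mul_pos hK0 hS0
  set S' : ℝ := 8 * K * S
  have hS' : 0 < S' := by positivity
  have hS'2 : S' ^ 2 = 64 * (K * S) ^ 2 := by simp only [S']; ring
  have hlam : 0 < lam := lt_of_lt_of_le (by positivity) hlo
  have hSlam : S ≤ K * lam := by rw [div_le_iff₀ hK0] at hlo; linarith
  have hlam2 : lam ^ 2 ≤ (K * S) ^ 2 := pow_le_pow_left₀ hlam.le hhi 2
  set Q := S' ^ 2 - (lam / 4) ^ 2 - ((lev lam 0) ^ 2 - (lev lam 1) ^ 2)
  have hQ : 4 * (K * S) ^ 2 ≤ Q ∧ 4 * lam ^ 2 ≤ Q := by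
    simp only [Q, lev_zero, lev_one]
    constructor <;> nlinarith
  have hQ0 : 0 < Q := lt_of_lt_of_le (by positivity) hQ.1
  refine ⟨Q, hQ.1, hQ.2, fun z => ?_⟩
  have hR1 : 0 < √(S' ^ 2 - (lev lam 1) ^ 2) := width_pos (lev_pos hlam 1).le (lev_lt_scale hK hS0 hlam hhi 1)
  have hR2 : √(S' ^ 2 - (lev lam 1) ^ 2) ^ 2 = S' ^ 2 - (lev lam 1) ^ 2 :=
    Real.sq_sqrt (by nlinarith [lev_lt_scale hK hS0 hlam hhi 1, lev_pos hlam 1])
  have h10 : lev lam 1 < lev lam 0 := by rw [lev_succ lam 0]; linarith [lev_pos hlam 1]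
  rw [← exInt_eq hA hn hS hS' (lev_pos hlam 1) (lev_lt_scale hK hS0 hlam hhi 1) c]
  refine (colD_le hA hn hS hF hC hD hK0.le hS0.le (lev_pos hlam 1) h10 (lev_lt hlam 0) hR1
    (show Q = _ by simp only [Q]; rw [hR2, lev_one]) hQ.2 ho z).trans
    (mul_le_mul' (ENNReal.ofReal_le_ofReal (mul_le_mul_of_nonneg_right ?_
      (Real.exp_nonneg _))) le_rfl)
  have hden : lam / 4 ≤ √((lev lam 0) ^ 2 - (lev lam 1) ^ 2) := by
    refine Real.le_sqrt_of_sq_le ?_
    rw [lev_zero, lev_one]; nlinarith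
  refine mul_le_mul (pow_le_pow_left₀ (by positivity) ?_ d)
    (mul_le_mul_of_nonneg_left (Real.exp_le_exp.2 ?_) (Real.sqrt_nonneg _))
    (by positivity) (by positivity)
  · rw [div_le_iff₀ (by linarith)]
    calc √(S' ^ 2 - (lev lam 1) ^ 2) ≤ S' := Real.sqrt_le_iff.2 ⟨hS'.le, by nlinarith⟩
      _ ≤ 32 * K ^ 2 * (lam / 4) := by simp only [S']; nlinarith
      _ ≤ _ := mul_le_mul_of_nonneg_left hden (by positivity)
  · rw [div_le_one hQ0]; nlinarith [hQ.1]

theorem top_le (hA : MeasurableSet A) (hn : ‖n‖ = 1) (hS : SmoothBasics)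
    (hC : SmoothConv) (hF : LineFubini) (hD : GaussDom) (hK : 1 ≤ K) (hS0 : 0 < S)
    (hlo : S / K ≤ lam) (hhi : lam ≤ K * S) (ho : |o - ⟪c, n⟫| ≤ K * S)
    (x : Pt d) (hx : x ∈ cyl n c (K * S)) :
    ENNReal.ofReal ((hgt (gaussWin o lam) A n (lev lam 0) x
        - hgt (gaussWin o lam) A n (lam / 2) c) ^ 2)
      ≤ ENNReal.ofReal (4 * √d * K ^ 2 * S ^ 2 / lam * (cPoint d K * Real.exp 1)) *
          ENNReal.ofReal (excess A n (8 * K * S) c (lev lam 1) / (8 * K * S) ^ d) := by
  obtain ⟨Q, hQ1, -, hcol⟩ := column_le hA hn hS hC hF hD hK hS0 hlo hhi ho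
  have hlam : 0 < lam := lt_of_lt_of_le (by positivity) hlo
  have hK0 : 0 < K := one_pos.trans_le hK
  have hcP := cPoint_nonneg d K
  have hcT := cTop_nonneg d hK0.le
  have hcS := cSmall_nonneg d
  have hcM := cMid_nonneg d hK0.le
  have hQ0 : 0 < Q := lt_of_lt_of_le (by positivity) hQ1
  set R := K * S with hR
  set X : ℝ≥0∞ := ENNReal.ofReal (excess A n (8 * K * S) c (lev lam 1) / (8 * K * S) ^ d)
  set H : ℝ → Pt d → ℝ := fun l x => hgt (gaussWin o lam) A n l x
  set h0 := H (lam / 2) c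
  change ENNReal.ofReal ((H (lev lam 0) x - h0) ^ 2) ≤ _
  set u := tp n (x - c) with hu
  have hux : H (lev lam 0) x = H (lev lam 0) (c + u) := by
    refine hgt_congr ?_
    have h1 : tp n (c + u) = tp n c + tp n u := by
      simp only [tp, inner_add_left, add_smul]; abel
    have h2 : tp n u = u := by
      conv_lhs => rw [tp, hu, inner_tp hn, zero_smul, sub_zero]
    rw [h1, h2, hu, tp_sub]; abel
  have hun : ‖u‖ ≤ R := by rw [hu, tp_sub]; exact mem_cyl.1 hx
  have hh0 : h0 = H (lev lam 0) c := by simp only [h0, lev_zero]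
  rw [hux, hh0]
  refine (hgt_sub_sq hA hn hS (lev_pos hlam 0) (lev_lt hlam 0) c u).trans ?_
  calc ENNReal.ofReal (2 * (√d / lev lam 0) * ‖u‖ ^ 2) *
        ∫⁻ s in Icc (0 : ℝ) 1, colD A n o lam (lev lam 0) (c + s • u)
      ≤ ENNReal.ofReal (4 * √d * K ^ 2 * S ^ 2 / lam) *
          ∫⁻ _s in Icc (0 : ℝ) 1, ENNReal.ofReal (cPoint d K * Real.exp 1) * X := by
        refine mul_le_mul' (ENNReal.ofReal_le_ofReal ?_)
          (setLIntegral_mono measurable_const fun s hs => (hcol _).trans
            (mul_le_mul' (ENNReal.ofReal_le_ofReal ?_) le_rfl))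
        · rw [lev_zero]
          calc 2 * (√d / (lam / 2)) * ‖u‖ ^ 2 ≤ 2 * (√d / (lam / 2)) * R ^ 2 :=
                mul_le_mul_of_nonneg_left (pow_le_pow_left₀ (norm_nonneg _) hun 2) (by positivity)
            _ = _ := by rw [hR]; field_simp; ring
        · refine mul_le_mul_of_nonneg_left (Real.exp_le_exp.2 ?_) (by positivity)
          rw [div_le_one (by positivity)]
          have : ‖tp n (c + s • u) - tp n c‖ ≤ R := by
            rw [← tp_sub, add_sub_cancel_left]
            refine (norm_tp_le hn _).trans ?_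
            rw [norm_smul, Real.norm_of_nonneg hs.1]
            exact (mul_le_of_le_one_left (norm_nonneg _) hs.2).trans hun
          nlinarith [pow_le_pow_left₀ (norm_nonneg _) this 2, hQ1]
    _ = _ := by
        rw [setLIntegral_const, Real.volume_Icc, sub_zero, ENNReal.ofReal_one, mul_one,
          ← mul_assoc, ← ENNReal.ofReal_mul (by positivity)]

theorem height_bound (hA : MeasurableSet A) (hn : ‖n‖ = 1) (hS : SmoothBasics)
    (hC : SmoothConv) (hL : SmoothLimit) (hF : LineFubini) (hD : GaussDom) (hE : ExcessBasics)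
    (hK : 1 ≤ K) (hS0 : 0 < S) (hlo : S / K ≤ lam) (hhi : lam ≤ K * S)
    (ho : |o - ⟪c, n⟫| ≤ K * S) :
    ∫⁻ x in slab n ∩ cyl n c (K * S), ENNReal.ofReal
        ((hgt0 (gaussWin o lam) A n x - hgt (gaussWin o lam) A n (lam / 2) c) ^ 2)
      ≤ ENNReal.ofReal (4 * ((cTop d K + cSmall d) * (4 / 3))) *
          levSum A n (8 * K * S) lam c := by
  have hd : d ≠ 0 := by
    rintro rfl
    rw [Subsingleton.elim n 0, norm_zero] at hn
    norm_num at hn
  have hK0 : 0 < K := one_pos.trans_le hK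
  have hcP := cPoint_nonneg d K
  have hcT := cTop_nonneg d hK0.le
  have hcS := cSmall_nonneg d
  have hcM := cMid_nonneg d hK0.le
  have hKS : 0 < K * S := mul_pos hK0 hS0
  have hlam : 0 < lam := lt_of_lt_of_le (by positivity) hlo
  have hSlam : S ≤ K * lam := by rw [div_le_iff₀ hK0] at hlo; linarith
  set S' : ℝ := 8 * K * S with hS'def
  have hS' : 0 < S' := by positivity
  set R := K * S with hR
  set D : Set (Pt d) := slab n ∩ cyl n c R
  set H : ℝ → Pt d → ℝ := fun l x => hgt (gaussWin o lam) A n l x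
  set h0 := H (lam / 2) c
  set m : ℕ → ℝ := lev lam
  set T := levSum A n S' lam c
  have hE0 : ∀ i, 0 ≤ excess A n S' c (m i) := fun i =>
    ((hE d A hA n S' c hS' hn).1 _ (lev_pos hlam i) (lev_lt_scale hK hS0 hlam hhi i)).1
  set Dl : ℕ → Pt d → ℝ≥0∞ := fun i x =>
    ENNReal.ofReal ((3 / 2) ^ i) * ENNReal.ofReal ((H (m i) x - H (m (i + 1)) x) ^ 2)
  set Tp : Pt d → ℝ≥0∞ := fun x => ENNReal.ofReal ((H (m 0) x - h0) ^ 2)
  have hHm : ∀ i, Measurable (H (m i)) := fun i =>
    (continuous_hgt hA hS (lev_pos hlam i) (lev_lt hlam i)).measurable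
  have hDm : MeasurableSet D := by
    refine (measurableSet_Ico.preimage (by fun_prop : Measurable fun y : Pt d => ⟪y, n⟫)).inter ?_
    refine measurableSet_le ?_ measurable_const
    unfold linePt; fun_prop
  have hae : ∀ᵐ x ∂(volume.restrict D), ENNReal.ofReal
      ((hgt0 (gaussWin o lam) A n x - h0) ^ 2) ≤ ENNReal.ofReal 4 * (Tp x + ∑' i, Dl i x) := by
    filter_upwards [ae_restrict_of_ae_restrict_of_subset (inter_subset_left : D ⊆ slab n)
      (tendsto_hgt hS hL hF hA hn hlam)] with x hx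
    refine le_of_tendsto (ENNReal.tendsto_ofReal ((hx.sub_const h0).pow 2))
      (Eventually.of_forall fun N => ?_)
    have htel : H (m N) x - h0 = (H (m 0) x - h0)
        + ∑ i ∈ Finset.range N, (H (m (i + 1)) x - H (m i) x) := by
      rw [Finset.sum_range_sub (fun i => H (m i) x)]; ring
    have hsum : (∑ i ∈ Finset.range N, (H (m (i + 1)) x - H (m i) x)) ^ 2
        ≤ 3 * ∑ i ∈ Finset.range N, (3 / 2) ^ i * (H (m i) x - H (m (i + 1)) x) ^ 2 := by
      refine (Finset.sum_sq_le_sum_mul_sum_of_sq_eq_mul _ (f := fun i => (2 / 3 : ℝ) ^ i)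
        (g := fun i => (3 / 2) ^ i * (H (m i) x - H (m (i + 1)) x) ^ 2)
        (fun i _ => by positivity) (fun i _ => by positivity) (fun i _ => ?_)).trans ?_
      · rw [← mul_assoc, ← mul_pow]; norm_num; ring
      · refine mul_le_mul_of_nonneg_right ?_ (Finset.sum_nonneg fun i _ => by positivity)
        have h := (summable_geometric_of_lt_one (r := (2 / 3 : ℝ)) (by norm_num) (by norm_num))
        have h2 := h.sum_le_tsum (Finset.range N) (fun i _ => by positivity)
        rw [tsum_geometric_of_lt_one (by norm_num) (by norm_num)] at h2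
        refine h2.trans (le_of_eq ?_); norm_num
    have hfin : ENNReal.ofReal (∑ i ∈ Finset.range N,
        (3 / 2) ^ i * (H (m i) x - H (m (i + 1)) x) ^ 2) ≤ ∑' i, Dl i x := by
      rw [ENNReal.ofReal_sum_of_nonneg fun i _ => by positivity]
      refine le_trans (le_of_eq (Finset.sum_congr rfl fun i _ => ?_)) (ENNReal.sum_le_tsum _)
      exact ENNReal.ofReal_mul (by positivity)
    calc ENNReal.ofReal ((H (m N) x - h0) ^ 2)
        ≤ ENNReal.ofReal (4 * ((H (m 0) x - h0) ^ 2 + ∑ i ∈ Finset.range N,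
            (3 / 2) ^ i * (H (m i) x - H (m (i + 1)) x) ^ 2)) := by
          refine ENNReal.ofReal_le_ofReal ?_
          rw [htel]
          nlinarith [sq_nonneg (3 * (H (m 0) x - h0)
            - ∑ i ∈ Finset.range N, (H (m (i + 1)) x - H (m i) x))]
      _ ≤ _ := by
          rw [ENNReal.ofReal_mul (by norm_num),
            ENNReal.ofReal_add (sq_nonneg _) (Finset.sum_nonneg fun i _ => by positivity)]
          exact mul_le_mul' le_rfl (add_le_add le_rfl hfin)
  set Ct : ℝ :=
    4 * √d * K ^ 2 * S ^ 2 / lam * (cPoint d K * Real.exp 1) * ((volume (Metric.closedBall (0 : Pt d) 1)).toReal * (2 * R) ^ (d - 1)) / S' ^ d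
  have hTop : ∫⁻ x in D, Tp x ≤ ENNReal.ofReal (cTop d K * (4 / 3)) * T := by
    refine (setLIntegral_mono measurable_const fun x hx => top_le hA hn hS hC hF hD hK hS0 hlo hhi ho x hx.2).trans ?_
    rw [setLIntegral_const]
    refine (mul_le_mul' le_rfl (volume_slab_cyl hF hn c hKS)).trans ?_
    calc _ = ENNReal.ofReal Ct * ENNReal.ofReal (excess A n S' c (m 1)) := ?_
      _ ≤ ENNReal.ofReal (cTop d K) * ENNReal.ofReal (excess A n S' c (m 1)) := ?_
      _ ≤ ENNReal.ofReal (cTop d K) * (ENNReal.ofReal (4 / 3) * T) := mul_le_mul' le_rfl (excess_one_le A n S' lam c)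
      _ = _ := by rw [← mul_assoc, ← ENNReal.ofReal_mul (by positivity : 0 ≤ cTop d K)]
    · simp only [Ct, m]
      rw [← ENNReal.ofReal_mul (by positivity), ← ENNReal.ofReal_mul' (by positivity),
        ← ENNReal.ofReal_mul' (hE0 1)]
      congr 1
      ring
    · refine mul_le_mul' (ENNReal.ofReal_le_ofReal ?_) le_rfl
      simp only [Ct, cTop, m]
      have e2 : (2 * R) ^ (d - 1) = (2 * K) ^ (d - 1) * S ^ (d - 1) := by
        rw [hR, ← mul_assoc, mul_pow]
      have e3 : S ^ d = S ^ (d - 1) * S := by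
        rw [← pow_succ]; congr 1; omega
      have e4 : K ^ 2 * S ^ 2 / lam ≤ K ^ 3 * S := by
        rw [div_le_iff₀ hlam]
        nlinarith [mul_le_mul_of_nonneg_left hSlam (by positivity : 0 ≤ K ^ 2 * S)]
      calc 4 * √d * K ^ 2 * S ^ 2 / lam * (cPoint d K * Real.exp 1) * ((volume (Metric.closedBall (0 : Pt d) 1)).toReal * (2 * R) ^ (d - 1)) / S' ^ d
          = (K ^ 2 * S ^ 2 / lam) * (4 * √d * (cPoint d K * Real.exp 1) * (volume (Metric.closedBall (0 : Pt d) 1)).toReal *
              ((2 * K) ^ (d - 1) * S ^ (d - 1)) / S' ^ d) := by rw [e2]; ring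
        _ ≤ K ^ 3 * S * (4 * √d * (cPoint d K * Real.exp 1) * (volume (Metric.closedBall (0 : Pt d) 1)).toReal *
              ((2 * K) ^ (d - 1) * S ^ (d - 1)) / S' ^ d) :=
            mul_le_mul_of_nonneg_right e4 (by positivity)
        _ = _ := by
            simp only [S']
            rw [mul_pow (8 * K) S, e3]
            field_simp
  have hSum : ∫⁻ x in D, ∑' i, Dl i x ≤ ENNReal.ofReal (cSmall d * (4 / 3)) * T := by
    have hDlm : ∀ i, AEMeasurable (Dl i) (volume.restrict D) := fun i =>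
      ((((hHm i).sub (hHm (i + 1))).pow_const 2).ennreal_ofReal.const_mul
        (ENNReal.ofReal ((3 / 2) ^ i))).aemeasurable
    rw [lintegral_tsum hDlm]
    have hstep : ∀ i, ∫⁻ x in D, Dl i x ≤ ENNReal.ofReal (cSmall d * (4 / 3)) *
        ENNReal.ofReal ((3 / 4) ^ (i + 1) * excess A n S' c (m (i + 1))) := fun i => by
      simp only [Dl]
      rw [lintegral_const_mul' _ _ ENNReal.ofReal_ne_top]
      refine (mul_le_mul' le_rfl (increment_le hA hn hS hC hF hK hS0 hlam hhi ho i)).trans (le_of_eq ?_)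
      rw [← ENNReal.ofReal_mul (by positivity), ← ENNReal.ofReal_mul (by positivity),
        ← ENNReal.ofReal_mul (by positivity)]
      congr 1
      rw [show (3 / 4 : ℝ) ^ (i + 1) = (3 / 2) ^ i * (1 / 2) ^ i * (3 / 4) by
        rw [pow_succ, ← mul_pow]; norm_num]
      ring
    refine (ENNReal.tsum_le_tsum hstep).trans ?_
    rw [ENNReal.tsum_mul_left]
    exact mul_le_mul' le_rfl (ENNReal.tsum_comp_le_tsum_of_injective (add_left_injective 1) _)
  have h1 : 0 ≤ cTop d K := cTop_nonneg d hK0.le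
  have h2 : 0 ≤ cSmall d := cSmall_nonneg d
  calc ∫⁻ x in D, ENNReal.ofReal ((hgt0 (gaussWin o lam) A n x - h0) ^ 2)
      ≤ ∫⁻ x in D, ENNReal.ofReal 4 * (Tp x + ∑' i, Dl i x) := lintegral_mono_ae hae
    _ ≤ ENNReal.ofReal 4 * (ENNReal.ofReal (cTop d K * (4 / 3)) * T
          + ENNReal.ofReal (cSmall d * (4 / 3)) * T) := by
        rw [lintegral_const_mul' _ _ ENNReal.ofReal_ne_top,
          lintegral_add_left (((hHm 0).sub_const h0).pow_const 2).ennreal_ofReal]
        exact mul_le_mul' le_rfl (add_le_add hTop hSum)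
    _ = _ := by
        rw [← add_mul, ← mul_assoc, ← ENNReal.ofReal_add (by positivity) (by positivity),
          ← ENNReal.ofReal_mul (by norm_num), ← add_mul]

theorem radial_bound (hA : MeasurableSet A) (hn : ‖n‖ = 1) (hS : SmoothBasics)
    (hC : SmoothConv) (hF : LineFubini) (hD : GaussDom) (hE : ExcessBasics)
    (hK : 1 ≤ K) (hS0 : 0 < S) (hlo : S / K ≤ lam) (hhi : lam ≤ K * S)
    (ho : |o - ⟪c, n⟫| ≤ K * S) :
    ENNReal.ofReal ((smoothInd A lam (linePt n c o)
        - hgt (gaussWin o lam) A n (lam / 2) c) ^ 2 * S ^ (d - 1))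
      ≤ ENNReal.ofReal (cMid d K * (4 / 3)) * levSum A n (8 * K * S) lam c := by
  have hd : d ≠ 0 := by
    rintro rfl
    rw [Subsingleton.elim n 0, norm_zero] at hn
    norm_num at hn
  obtain ⟨Q, hQ1, hQ2, hcol⟩ := column_le hA hn hS hC hF hD hK hS0 hlo hhi ho
  have hK0 : 0 < K := one_pos.trans_le hK
  have hcP := cPoint_nonneg d K
  have hcT := cTop_nonneg d hK0.le
  have hcS := cSmall_nonneg d
  have hcM := cMid_nonneg d hK0.le
  have hKS : 0 < K * S := mul_pos hK0 hS0
  have hlam : 0 < lam := lt_of_lt_of_le (by positivity) hlo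
  have hQ0 : 0 < Q := lt_of_lt_of_le (by positivity) hQ1
  have hE0 : 0 ≤ excess A n (8 * K * S) c (lev lam 1) :=
    ((hE d A hA n (8 * K * S) c (by positivity) hn).1 _ (lev_pos hlam 1)
      (lev_lt_scale hK hS0 hlam hhi 1)).1
  set H : ℝ → Pt d → ℝ := fun l x => hgt (gaussWin o lam) A n l x
  set h0 := H (lam / 2) c
  set X : ℝ≥0∞ := ENNReal.ofReal (excess A n (8 * K * S) c (lev lam 1) / (8 * K * S) ^ d)
  have hl : 0 < lev lam 0 := lev_pos hlam 0
  set a := √(lam ^ 2 - (lev lam 0) ^ 2)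
  have ha : 0 < a := width_pos hl.le (lev_lt hlam 0)
  have ha2 : a ^ 2 = 3 / 4 * lam ^ 2 := by
    rw [Real.sq_sqrt (by nlinarith [hl, lev_lt hlam 0]), lev_zero]; ring
  have hQa : 8 * a ^ 2 ≤ 2 * Q := by nlinarith [hQ2]
  have hkey : ENNReal.ofReal ((smoothInd A lam (linePt n c o) - h0) ^ 2) ≤
      ENNReal.ofReal (4 * √d / lam * cPoint d K * (8 * a ^ 2 * (√2) ^ d)) * X := by
    have hh0 : h0 = H (lev lam 0) c := by simp only [h0, lev_zero]
    rw [hh0, v_lam_eq hA hn hS hC hF hl (lev_lt hlam 0) c]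
    refine (level_sub_sq hA hn hS hC hF hl (lev_lt hlam 0) ha c).trans ?_
    calc ∫⁻ u, ENNReal.ofReal (gauss a u * (2 * (√d / lev lam 0) * ‖u‖ ^ 2)) *
          ∫⁻ s in Icc (0 : ℝ) 1, colD A n o lam (lev lam 0) (c + s • u)
        ≤ ∫⁻ u : Pt d, (ENNReal.ofReal (4 * √d / lam * cPoint d K) * X) *
            ENNReal.ofReal (gauss a u * ‖u‖ ^ 2 * Real.exp (‖u‖ ^ 2 / (2 * Q))) := by
          refine lintegral_mono fun u => ?_
          refine (mul_le_mul' le_rfl (setLIntegral_mono measurable_const fun s hs =>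
            (hcol _).trans (mul_le_mul' (ENNReal.ofReal_le_ofReal
              (?_ : _ ≤ cPoint d K * Real.exp (‖u‖ ^ 2 / (2 * Q)))) le_rfl))).trans ?_
          · refine mul_le_mul_of_nonneg_left (Real.exp_le_exp.2
              (div_le_div_of_nonneg_right (pow_le_pow_left₀ (norm_nonneg _) ?_ 2)
                (by positivity))) (by positivity)
            rw [← tp_sub, add_sub_cancel_left]
            refine (norm_tp_le hn _).trans ?_
            rw [norm_smul, Real.norm_of_nonneg hs.1]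
            exact mul_le_of_le_one_left (norm_nonneg _) hs.2
          · rw [setLIntegral_const, Real.volume_Icc, sub_zero, ENNReal.ofReal_one, mul_one,
              ← mul_assoc, ← ENNReal.ofReal_mul (mul_nonneg (gauss_nonneg' ha u) (by positivity)),
              mul_right_comm (ENNReal.ofReal (4 * √d / lam * cPoint d K)) X,
              ← ENNReal.ofReal_mul (q := gauss a u * ‖u‖ ^ 2 * Real.exp (‖u‖ ^ 2 / (2 * Q)))
                (by positivity : (0 : ℝ) ≤ 4 * √d / lam * cPoint d K)]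
            refine le_of_eq ?_
            congr 2
            rw [lev_zero]; field_simp; ring
      _ ≤ (ENNReal.ofReal (4 * √d / lam * cPoint d K) * X) * ENNReal.ofReal (8 * a ^ 2 * (√2) ^ d) := by
          rw [lintegral_const_mul _ (Continuous.measurable
            (by unfold gauss; fun_prop)).ennreal_ofReal]
          exact mul_le_mul' le_rfl (lintegral_gauss_moment ha hQa)
      _ = _ := by
          rw [mul_right_comm, ← ENNReal.ofReal_mul (by positivity)]
  rw [ENNReal.ofReal_mul (sq_nonneg _)]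
  refine (mul_le_mul' hkey le_rfl).trans ?_
  calc ENNReal.ofReal (4 * √d / lam * cPoint d K * (8 * a ^ 2 * (√2) ^ d)) * X * ENNReal.ofReal (S ^ (d - 1))
      ≤ ENNReal.ofReal (cMid d K) * ENNReal.ofReal (excess A n (8 * K * S) c (lev lam 1)) := by
        simp only [X]
        rw [← ENNReal.ofReal_mul (by positivity), ← ENNReal.ofReal_mul' (by positivity),
          ← ENNReal.ofReal_mul (by positivity)]
        refine ENNReal.ofReal_le_ofReal ?_
        have e : 4 * √d / lam * cPoint d K * (8 * a ^ 2 * (√2) ^ d) * (excess A n (8 * K * S) c (lev lam 1) / (8 * K * S) ^ d) * S ^ (d - 1)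
            = 4 * √d * cPoint d K * 6 * (√2) ^ d * lam * (S ^ (d - 1) / (8 * K * S) ^ d) * excess A n (8 * K * S) c (lev lam 1) := by
          rw [ha2]; field_simp; ring
        rw [e]
        refine mul_le_mul_of_nonneg_right ?_ (hE0)
        have e2 : S ^ d = S ^ (d - 1) * S := by
          rw [← pow_succ]; congr 1; omega
        calc 4 * √d * cPoint d K * 6 * (√2) ^ d * lam * (S ^ (d - 1) / (8 * K * S) ^ d)
            ≤ 4 * √d * cPoint d K * 6 * (√2) ^ d * (K * S) * (S ^ (d - 1) / (8 * K * S) ^ d) :=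
              mul_le_mul_of_nonneg_right (mul_le_mul_of_nonneg_left hhi (by positivity))
                (by positivity)
          _ = cMid d K := by
              simp only [cMid]
              rw [mul_pow (8 * K) S, e2]
              field_simp
    _ ≤ ENNReal.ofReal (cMid d K) * (ENNReal.ofReal (4 / 3) * levSum A n (8 * K * S) lam c) := mul_le_mul' le_rfl (excess_one_le A n (8 * K * S) lam c)
    _ = _ := by
        rw [← mul_assoc, ← ENNReal.ofReal_mul (cMid_nonneg d hK0.le)]

end Main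

end ChainAux

open ChainAux in
/-- ChainGauss from the Gaussian toolkit. -/
theorem chainGauss (hS : SmoothBasics) (hC : SmoothConv) (hL : SmoothLimit) (hF : LineFubini)
    (hD : GaussDom) (hE : ExcessBasics) : ChainGauss := by
  intro d K hK
  obtain ⟨p, hp⟩ := pow_unbounded_of_one_lt (K ^ 2) (one_lt_two (α := ℝ))
  have hK0 : 0 < K := one_pos.trans_le hK
  have h1 := cTop_nonneg d hK0.le
  have h2 := cSmall_nonneg d
  have h3 := cMid_nonneg d hK0.le
  refine ⟨(4 * ((cTop d K + cSmall d) * (4 / 3)) + cMid d K * (4 / 3) + 1) * (4 / 3) ^ (p + 1),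
    8 * K, by positivity, by linarith, fun A hA n hn S lam o c hS0 hlo hhi ho => ?_⟩
  have hT := levSum_le (c := c) hE hA hn hK hS0 hlo hhi hp
  have key : ∀ c0 : ℝ, 0 ≤ c0 → c0 ≤ 4 * ((cTop d K + cSmall d) * (4 / 3)) + cMid d K * (4 / 3) →
      ENNReal.ofReal c0 * levSum A n (8 * K * S) lam c ≤
        ENNReal.ofReal ((4 * ((cTop d K + cSmall d) * (4 / 3)) + cMid d K * (4 / 3) + 1)
          * (4 / 3) ^ (p + 1)) * wsum A n (8 * K * S) c := fun c0 hc0 hc => by
    refine (mul_le_mul' le_rfl hT).trans ?_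
    rw [← mul_assoc, ← ENNReal.ofReal_mul hc0]
    exact mul_le_mul' (ENNReal.ofReal_le_ofReal
      (mul_le_mul_of_nonneg_right (by linarith) (by positivity))) le_rfl
  exact ⟨(height_bound hA hn hS hC hL hF hD hE hK hS0 hlo hhi ho).trans
      (key _ (by positivity) (by linarith [mul_nonneg h3 (by norm_num : (0 : ℝ) ≤ 4 / 3)])),
    (radial_bound hA hn hS hC hF hD hE hK hS0 hlo hhi ho).trans
      (key _ (by positivity) (by nlinarith))⟩

end Vale.Agent.P137
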