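import Mathlib

/-! # P137 (uncentred balls): definitions

See notes/P137_PROOF.md.  `A` is a layer set `{x | s < |f x|}`; `smoothInd A l` is its Gaussian
mollification at scale `l` and `gradInd A l` the gradient of that mollification (points into `A`).
-/

namespace Vale.Agent.P137

open MeasureTheory Set Filter Topology
open scoped RealInnerProductSpace ENNReal

/-- Euclidean space of dimension `d`. -/
abbrev Pt (d : ℕ) := EuclideanSpace ℝ (Fin d)

variable {d : ℕ}

/-- the uncentred maximal function of `|f|` over open balls containing the point. -/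
noncomputable def maxFn (f : Pt d → ℝ) (x : Pt d) : ℝ≥0∞ :=
  ⨆ (c : Pt d) (r : ℝ) (_ : x ∈ Metric.ball c r),
    (∫⁻ y in Metric.ball c r, ENNReal.ofReal |f y|) / volume (Metric.ball c r)

/-- `g` is the `i`-th weak partial derivative of `f` (smooth compactly supported tests). -/
def IsWeakPartial (f g : Pt d → ℝ) (i : Fin d) : Prop :=
  ∀ φ : Pt d → ℝ, ContDiff ℝ (⊤ : ℕ∞) φ → HasCompactSupport φ →
    ∫ x, f x * fderiv ℝ φ x (EuclideanSpace.single i (1 : ℝ)) = -∫ x, g x * φ x

/-- Euclidean length of a vector of partial derivatives. -/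
noncomputable def gradNorm (G : Fin d → Pt d → ℝ) (x : Pt d) : ℝ :=
  √(∑ i, (G i x) ^ 2)

/-- average of `f` over an open ball. -/
noncomputable def bavg (f : Pt d → ℝ) (c : Pt d) (r : ℝ) : ℝ :=
  (∫ y in Metric.ball c r, f y) / (volume (Metric.ball c r)).toReal

/-- centred Gaussian density with standard deviation `l`. -/
noncomputable def gauss (l : ℝ) (x : Pt d) : ℝ :=
  ((√(2 * Real.pi) * l) ^ d)⁻¹ * Real.exp (-‖x‖ ^ 2 / (2 * l ^ 2))

/-- one dimensional Gaussian density. -/
noncomputable def gauss1 (l t : ℝ) : ℝ :=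
  (√(2 * Real.pi) * l)⁻¹ * Real.exp (-t ^ 2 / (2 * l ^ 2))

/-- mollified indicator. -/
noncomputable def smoothInd (A : Set (Pt d)) (l : ℝ) (x : Pt d) : ℝ :=
  ∫ y in A, gauss l (x - y)

/-- gradient of the mollified indicator. -/
noncomputable def gradInd (A : Set (Pt d)) (l : ℝ) (x : Pt d) : Pt d :=
  ∫ y in A, (-(gauss l (x - y) / l ^ 2)) • (x - y)

/-- Gaussian perimeter: the supremum of the total variations of the mollifications. -/
noncomputable def gper (A : Set (Pt d)) : ℝ≥0∞ :=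
  ⨆ (l : ℝ) (_ : 0 < l), ∫⁻ x, ENNReal.ofReal ‖gradInd A l x‖

/-- flux defect relative to the direction `n`. -/
noncomputable def defect (A : Set (Pt d)) (n : Pt d) (l : ℝ) (x : Pt d) : ℝ :=
  ‖gradInd A l x‖ - ⟪gradInd A l x, n⟫

/-- excess at scale `S` around `c`, level `l ≤ S`, relative to the direction `n`
(a perimeter: it has the dimension length to the power `d - 1`). -/
noncomputable def excess (A : Set (Pt d)) (n : Pt d) (S : ℝ) (c : Pt d) (l : ℝ) : ℝ :=
  S ^ d * ∫ x, gauss (√(S ^ 2 - l ^ 2)) (c - x) * defect A n l x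

/-- `n` is a unit vector aligned with the mollified gradient at scale `S` at `c`. -/
def Aligned (A : Set (Pt d)) (n : Pt d) (S : ℝ) (c : Pt d) : Prop :=
  ‖n‖ = 1 ∧ ⟪gradInd A S c, n⟫ = ‖gradInd A S c‖

/-- the point at height `t` on the line through `x` in direction `n`. -/
noncomputable def linePt (n x : Pt d) (t : ℝ) : Pt d :=
  x + (t - ⟪x, n⟫) • n

/-- a unit slab transversal to `n`: its subsets measure transversal area. -/
def slab (n : Pt d) : Set (Pt d) := {x | ⟪x, n⟫ ∈ Ico (0 : ℝ) 1}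

/-- `P` is a union of lines in direction `n`. -/
def LineInv (n : Pt d) (P : Set (Pt d)) : Prop := ∀ (x : Pt d) (t : ℝ), x + t • n ∈ P ↔ x ∈ P

/-- the tube over a union of lines `P` between heights `a` and `b`; the transversal area of `P` is
`volume (P ∩ slab n)`. -/
def tube (n : Pt d) (P : Set (Pt d)) (a b : ℝ) : Set (Pt d) :=
  {y | y ∈ P ∧ ⟪y, n⟫ ∈ Icc a b}

/-- geometrically weighted excess at all levels below `S / 8`. -/
noncomputable def wsum (A : Set (Pt d)) (n : Pt d) (S : ℝ) (c : Pt d) : ℝ≥0∞ :=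
  ∑' j : ℕ, ENNReal.ofReal ((3 / 4) ^ j * excess A n S c ((1 / 2) ^ j * (S / 8)))

/-- excess in the aligned direction, written without the direction. -/
noncomputable def exc (A : Set (Pt d)) (S : ℝ) (c : Pt d) (l : ℝ) : ℝ :=
  S ^ d * ((∫ x, gauss (√(S ^ 2 - l ^ 2)) (c - x) * ‖gradInd A l x‖) - ‖gradInd A S c‖)

/-- unnormalised Gaussian weight in height, centred at `o`, of width `L`. -/
noncomputable def wt (o L t : ℝ) : ℝ :=
  Real.exp (-(t - o) ^ 2 / (2 * L ^ 2))

/-- the lines in direction `n` whose horizontal distance from `c` is at most `R`. -/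
def cyl (n c : Pt d) (R : ℝ) : Set (Pt d) :=
  {x | ‖linePt n x 0 - linePt n c 0‖ ≤ R}

/-- Gaussian window centred at height `o` of total scale `Λ`, seen from level `l`. -/
noncomputable def gaussWin (o Λ l t : ℝ) : ℝ :=
  gauss1 (√(Λ ^ 2 - l ^ 2)) (t - o)

/-- column height at level `l` of the window family `ψ`. -/
noncomputable def hgt (ψ : ℝ → ℝ → ℝ) (A : Set (Pt d)) (n : Pt d) (l : ℝ) (x : Pt d) : ℝ :=
  ∫ t, ψ l t * smoothInd A l (linePt n x t)

/-- column height of the indicator itself. -/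
noncomputable def hgt0 (ψ : ℝ → ℝ → ℝ) (A : Set (Pt d)) (n : Pt d) (x : Pt d) : ℝ :=
  ∫ t, ψ 0 t * A.indicator (fun _ => (1 : ℝ)) (linePt n x t)

/-- grid point of scale `s`. -/
noncomputable def gridPt (s : ℝ) (z : Fin d → ℤ) : Pt d :=
  WithLp.toLp 2 fun i => s * (z i : ℝ)

/-- mesh of the class grid, as a fraction of the radius. -/
noncomputable def tau (d : ℕ) : ℝ := 1 / (100 * (d + 1))

/-- centre of the class `(k, z)`. -/
noncomputable def classPt (k : ℤ) (z : Fin d → ℤ) : Pt d :=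
  gridPt (tau d * (2 : ℝ) ^ k) z

/-- the ball `(c, ρ)` belongs to the class `(k, z)`. -/
def InClass (k : ℤ) (z : Fin d → ℤ) (c : Pt d) (ρ : ℝ) : Prop :=
  (2 : ℝ) ^ k ≤ ρ ∧ ρ < 2 * (2 : ℝ) ^ k ∧ ‖c - classPt k z‖ ≤ (d + 1) * tau d * (2 : ℝ) ^ k

end Vale.Agent.P137
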