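import Vale.Agent.P137.Local
import Vale.Agent.P137.BV
import Vale.Agent.P137.Budget
import Vale.Agent.P137.AbsCont

/-! # P137: the main result -/

namespace Vale.Agent.P137

/-- The uncentred endpoint bound in every dimension at least two. -/
theorem mainResult : MainResult := mainResult_of_maxBound (maxBound localIneq budgetLayers)

end Vale.Agent.P137
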