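import Vale.Agent.P137.Interface

/-! # P137, module A: Gaussian toolkit

Semigroup, domination, moments, the mollified indicator, the slicing lemma and the basic
properties of the excess. -/

namespace Vale.Agent.P137

open MeasureTheory Set Filter Topology Real
open scoped RealInnerProductSpace ENNReal NNReal

variable {d : ℕ}

/-- The vector kernel of `gradInd`. -/
noncomputable def kvec (l : ℝ) (v : Pt d) : Pt d := (-(gauss l v / l ^ 2)) • v

lemma gradInd_eq (A : Set (Pt d)) (l : ℝ) (x : Pt d) :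
    gradInd A l x = ∫ y in A, kvec l (x - y) := rfl

lemma gauss_nonneg {l : ℝ} (hl : 0 ≤ l) (v : Pt d) : 0 ≤ gauss l v := by
  unfold gauss; positivity

lemma gauss_neg (l : ℝ) (v : Pt d) : gauss l (-v) = gauss l v := by
  simp [gauss]

lemma gauss_sub_comm (l : ℝ) (x y : Pt d) : gauss l (x - y) = gauss l (y - x) := by
  rw [← gauss_neg l (y - x), neg_sub]

lemma continuous_gauss (l : ℝ) : Continuous (fun v : Pt d => gauss l v) := by
  unfold gauss; fun_prop

lemma continuous_kvec (l : ℝ) : Continuous (fun v : Pt d => kvec l v) := by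
  unfold kvec
  exact ((continuous_gauss l).div_const _).neg.smul continuous_id

lemma kvec_neg (l : ℝ) (v : Pt d) : kvec l (-v) = -kvec l v := by
  simp [kvec, gauss_neg]

lemma gauss_le_const {l : ℝ} (hl : 0 < l) (v : Pt d) :
    gauss l v ≤ ((√(2 * π) * l) ^ d)⁻¹ := by
  unfold gauss
  refine mul_le_of_le_one_right (by positivity) ?_
  rw [Real.exp_le_one_iff]
  have h : 0 ≤ ‖v‖ ^ 2 / (2 * l ^ 2) := by positivity
  rw [neg_div]
  linarith

lemma integral_exp_sq {l : ℝ} (hl : 0 < l) :
    ∫ v : Pt d, Real.exp (-‖v‖ ^ 2 / (2 * l ^ 2)) = (√(2 * π) * l) ^ d := by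
  have hb : 0 < 1 / (2 * l ^ 2) := by positivity
  have h := GaussianFourier.integral_rexp_neg_mul_sq_norm (V := Pt d) hb
  have hfun : (fun v : Pt d => Real.exp (-‖v‖ ^ 2 / (2 * l ^ 2))) =
      fun v => Real.exp (-(1 / (2 * l ^ 2)) * ‖v‖ ^ 2) := by
    funext v; congr 1; ring
  rw [hfun, h, finrank_euclideanSpace_fin]
  have hsq : π / (1 / (2 * l ^ 2)) = (√(2 * π) * l) ^ 2 := by
    rw [mul_pow, Real.sq_sqrt (by positivity)]
    field_simp
  rw [hsq, ← Real.rpow_natCast_mul (by positivity)]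
  rw [← Real.rpow_natCast (√(2 * π) * l) d]
  congr 1
  push_cast
  ring

lemma integral_gauss {l : ℝ} (hl : 0 < l) : ∫ v : Pt d, gauss l v = 1 := by
  unfold gauss
  rw [integral_const_mul, integral_exp_sq hl, inv_mul_cancel₀ (by positivity)]

lemma integrable_gauss {l : ℝ} (hl : 0 < l) : Integrable (fun v : Pt d => gauss l v) :=
  Integrable.of_integral_ne_zero (by rw [integral_gauss hl]; exact one_ne_zero)

lemma integrable_gauss_sub {l : ℝ} (hl : 0 < l) (x : Pt d) :
    Integrable (fun y => gauss l (x - y)) :=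
  (integrable_gauss hl).comp_sub_left x

lemma integral_gauss_sub {l : ℝ} (hl : 0 < l) (x : Pt d) :
    ∫ y, gauss l (x - y) = 1 := by
  rw [integral_sub_left_eq_self (fun v => gauss l v) volume x, integral_gauss hl]

lemma lintegral_gauss_sub {l : ℝ} (hl : 0 < l) (x : Pt d) :
    ∫⁻ y, ENNReal.ofReal (gauss l (x - y)) = 1 := by
  rw [← ofReal_integral_eq_lintegral_ofReal (integrable_gauss_sub hl x)
    (Eventually.of_forall fun y => gauss_nonneg hl.le _), integral_gauss_sub hl]
  simp

lemma lintegral_gauss_sub_right {l : ℝ} (hl : 0 < l) (y : Pt d) :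
    ∫⁻ x, ENNReal.ofReal (gauss l (x - y)) = 1 := by
  simp_rw [gauss_sub_comm l _ y]
  exact lintegral_gauss_sub hl y

lemma gauss_mul {a b σ : ℝ} (ha : 0 < a) (hb : 0 < b) (hσ : 0 < σ)
    (h : σ ^ 2 = a ^ 2 + b ^ 2) (x y z : Pt d) :
    gauss a (x - y) * gauss b (y - z) =
      gauss σ (x - z) * gauss (a * b / σ) (y - (z + (b ^ 2 / σ ^ 2) • (x - z))) := by
  obtain ⟨p, rfl⟩ : ∃ p, x = z + p := ⟨x - z, by abel⟩
  obtain ⟨q, rfl⟩ : ∃ q, y = z + q := ⟨y - z, by abel⟩
  have e1 : z + p - (z + q) = p - q := by abel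
  have e2 : z + q - z = q := by abel
  have e3 : z + p - z = p := by abel
  have e4 : z + q - (z + (b ^ 2 / σ ^ 2) • p) = q - (b ^ 2 / σ ^ 2) • p := by abel
  rw [e1, e2, e3, e4]
  unfold gauss
  have hc : ((√(2 * π) * a) ^ d)⁻¹ * ((√(2 * π) * b) ^ d)⁻¹ =
      ((√(2 * π) * σ) ^ d)⁻¹ * ((√(2 * π) * (a * b / σ)) ^ d)⁻¹ := by
    rw [← mul_inv, ← mul_inv, ← mul_pow, ← mul_pow]
    congr 2
    field_simp
  have he : -‖p - q‖ ^ 2 / (2 * a ^ 2) + -‖q‖ ^ 2 / (2 * b ^ 2) =
      -‖p‖ ^ 2 / (2 * σ ^ 2) +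
        -‖q - (b ^ 2 / σ ^ 2) • p‖ ^ 2 / (2 * (a * b / σ) ^ 2) := by
    rw [norm_sub_sq_real, norm_sub_sq_real, norm_smul, inner_smul_right, real_inner_comm q p,
      mul_pow, Real.norm_eq_abs, sq_abs]
    field_simp
    rw [show a ^ 2 = σ ^ 2 - b ^ 2 by linarith]
    ring
  rw [mul_mul_mul_comm, ← Real.exp_add, hc, he, Real.exp_add, mul_mul_mul_comm]

theorem gaussConv : GaussConv := by
  intro d a b x z ha hb
  have hσ : 0 < √(a ^ 2 + b ^ 2) := by positivity
  have h : √(a ^ 2 + b ^ 2) ^ 2 = a ^ 2 + b ^ 2 := Real.sq_sqrt (by positivity)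
  simp_rw [fun y => gauss_mul ha hb hσ h x y z]
  rw [integral_const_mul, integral_sub_right_eq_self (fun v => gauss _ v),
    integral_gauss (by positivity), mul_one]

theorem gaussDom : GaussDom := by
  intro d a b x y c ha hab
  have hb : 0 < b := ha.trans hab
  have hba : 0 < b ^ 2 - a ^ 2 := by nlinarith
  obtain ⟨p, rfl⟩ : ∃ p, x = y + p := ⟨x - y, by abel⟩
  obtain ⟨q, rfl⟩ : ∃ q, y = c + q := ⟨y - c, by abel⟩
  have e1 : c + q + p - (c + q) = p := by abel
  have e2 : c + q - c = q := by abel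
  have e3 : c + q + p - c = p + q := by abel
  rw [e1, e2, e3]
  unfold gauss
  have hc : ((√(2 * π) * a) ^ d)⁻¹ = (b / a) ^ d * ((√(2 * π) * b) ^ d)⁻¹ := by
    rw [← inv_pow, ← inv_pow, ← mul_pow]
    congr 1
    field_simp
  rw [hc, show ∀ u v w z : ℝ, u * v * (w * z) = (u * w) * (v * z) from fun u v w z => by ring,
    ← Real.exp_add, mul_assoc ((b / a) ^ d), mul_assoc ((b / a) ^ d)]
  gcongr
  have key : 0 ≤ ‖(b ^ 2 - a ^ 2) • p - a ^ 2 • q‖ ^ 2 := sq_nonneg _
  rw [norm_sub_sq_real, norm_smul, norm_smul, inner_smul_left, inner_smul_right, mul_pow,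
    mul_pow, Real.norm_eq_abs, Real.norm_eq_abs, sq_abs, sq_abs] at key
  simp only [starRingEnd_apply, star_trivial] at key
  rw [norm_add_sq_real]
  have hrw : ‖q‖ ^ 2 / (2 * (b ^ 2 - a ^ 2)) +
      -(‖p‖ ^ 2 + 2 * ⟪p, q⟫ + ‖q‖ ^ 2) / (2 * b ^ 2) - -‖p‖ ^ 2 / (2 * a ^ 2) =
      ((b ^ 2 - a ^ 2) ^ 2 * ‖p‖ ^ 2 - 2 * ((b ^ 2 - a ^ 2) * (a ^ 2 * ⟪p, q⟫))
        + (a ^ 2) ^ 2 * ‖q‖ ^ 2) / (2 * a ^ 2 * b ^ 2 * (b ^ 2 - a ^ 2)) := by
    field_simp
    ring
  have : 0 ≤ ((b ^ 2 - a ^ 2) ^ 2 * ‖p‖ ^ 2 - 2 * ((b ^ 2 - a ^ 2) * (a ^ 2 * ⟪p, q⟫))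
        + (a ^ 2) ^ 2 * ‖q‖ ^ 2) / (2 * a ^ 2 * b ^ 2 * (b ^ 2 - a ^ 2)) := by
    apply div_nonneg (by linarith) (by positivity)
  linarith

lemma gauss_mul_norm_le {l : ℝ} (hl : 0 < l) (v : Pt d) :
    gauss l v * ‖v‖ ≤ 2 ^ d * l * gauss (2 * l) v := by
  unfold gauss
  have hc : ((√(2 * π) * l) ^ d)⁻¹ = 2 ^ d * ((√(2 * π) * (2 * l)) ^ d)⁻¹ := by
    rw [← inv_pow, ← inv_pow, ← mul_pow]
    congr 1
    field_simp
  have he : Real.exp (-‖v‖ ^ 2 / (2 * l ^ 2)) =
      Real.exp (-‖v‖ ^ 2 / (2 * (2 * l) ^ 2)) * (Real.exp (3 * ‖v‖ ^ 2 / (8 * l ^ 2)))⁻¹ := by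
    rw [← Real.exp_neg, ← Real.exp_add]
    congr 1
    ring
  have hb : ‖v‖ * (Real.exp (3 * ‖v‖ ^ 2 / (8 * l ^ 2)))⁻¹ ≤ l := by
    rw [← div_eq_mul_inv, div_le_iff₀ (Real.exp_pos _)]
    have h1 := Real.add_one_le_exp (3 * ‖v‖ ^ 2 / (8 * l ^ 2))
    have h2 : ‖v‖ ≤ l * (3 * ‖v‖ ^ 2 / (8 * l ^ 2) + 1) := by
      have e : l * (3 * ‖v‖ ^ 2 / (8 * l ^ 2) + 1) - ‖v‖ =
          ((3 * ‖v‖ - 4 * l) ^ 2 + 8 * l ^ 2) / (24 * l) := by
        field_simp
        ring
      have : 0 ≤ ((3 * ‖v‖ - 4 * l) ^ 2 + 8 * l ^ 2) / (24 * l) := by positivity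
      linarith
    exact h2.trans (mul_le_mul_of_nonneg_left h1 hl.le)
  calc ((√(2 * π) * l) ^ d)⁻¹ * Real.exp (-‖v‖ ^ 2 / (2 * l ^ 2)) * ‖v‖
      = 2 ^ d * (((√(2 * π) * (2 * l)) ^ d)⁻¹ * Real.exp (-‖v‖ ^ 2 / (2 * (2 * l) ^ 2))) *
          (‖v‖ * (Real.exp (3 * ‖v‖ ^ 2 / (8 * l ^ 2)))⁻¹) := by rw [hc, he]; ring
    _ ≤ 2 ^ d * (((√(2 * π) * (2 * l)) ^ d)⁻¹ * Real.exp (-‖v‖ ^ 2 / (2 * (2 * l) ^ 2))) * l :=
        mul_le_mul_of_nonneg_left hb (by positivity)
    _ = _ := by ring

lemma gauss_mul_sq_le {l : ℝ} (hl : 0 < l) (v : Pt d) :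
    gauss l v * ‖v‖ ^ 2 ≤ 2 ^ d * (2 * l) * l * (2 ^ d * gauss (4 * l) v) := by
  have h0 := gauss_mul_norm_le hl v
  have h1 := gauss_mul_norm_le (d := d) (by positivity : 0 < 2 * l) v
  rw [show 2 * (2 * l) = 4 * l by ring] at h1
  calc gauss l v * ‖v‖ ^ 2 = (gauss l v * ‖v‖) * ‖v‖ := by ring
    _ ≤ (2 ^ d * l * gauss (2 * l) v) * ‖v‖ := mul_le_mul_of_nonneg_right h0 (norm_nonneg _)
    _ = 2 ^ d * l * (gauss (2 * l) v * ‖v‖) := by ring
    _ ≤ 2 ^ d * l * (2 ^ d * (2 * l) * gauss (4 * l) v) :=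
        mul_le_mul_of_nonneg_left h1 (by positivity)
    _ = _ := by ring

lemma norm_kvec {l : ℝ} (hl : 0 < l) (v : Pt d) : ‖kvec l v‖ = gauss l v * ‖v‖ / l ^ 2 := by
  rw [kvec, norm_smul, norm_neg, Real.norm_eq_abs,
    abs_of_nonneg (div_nonneg (gauss_nonneg hl.le v) (by positivity))]
  ring

lemma norm_kvec_le {l : ℝ} (hl : 0 < l) (v : Pt d) :
    ‖kvec l v‖ ≤ 2 ^ d / l * gauss (2 * l) v := by
  rw [norm_kvec hl, div_le_iff₀ (by positivity)]
  refine (gauss_mul_norm_le hl v).trans_eq ?_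
  field_simp

lemma integrable_gauss_normsq {l : ℝ} (hl : 0 < l) :
    Integrable (fun v : Pt d => gauss l v * ‖v‖ ^ 2) := by
  refine Integrable.mono' (((integrable_gauss (d := d) (l := 4 * l) (by positivity)).const_mul
    (2 ^ d)).const_mul (2 ^ d * (2 * l) * l))
    ((continuous_gauss l).mul (continuous_norm.pow 2)).aestronglyMeasurable ?_
  refine Eventually.of_forall fun v => ?_
  rw [Real.norm_eq_abs, abs_of_nonneg (mul_nonneg (gauss_nonneg hl.le v) (sq_nonneg _))]
  exact gauss_mul_sq_le hl v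

lemma integrable_kvec {l : ℝ} (hl : 0 < l) : Integrable (fun v : Pt d => kvec l v) :=
  Integrable.mono' ((integrable_gauss (l := 2 * l) (by positivity)).const_mul (2 ^ d / l))
    (continuous_kvec l).aestronglyMeasurable (Eventually.of_forall (norm_kvec_le hl))

lemma integrable_kvec_sub {l : ℝ} (hl : 0 < l) (x : Pt d) :
    Integrable (fun y => kvec l (x - y)) :=
  (integrable_kvec hl).comp_sub_left x

lemma integral_kvec_sub {l : ℝ} (x : Pt d) : ∫ y, kvec l (x - y) = 0 := by
  rw [integral_sub_left_eq_self (fun v => kvec l v) volume x]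
  have h := integral_neg_eq_self (fun v : Pt d => kvec l v) volume
  simp_rw [kvec_neg, integral_neg] at h
  have h2 : (2 : ℝ) • (∫ v : Pt d, kvec l v) = 0 := by
    rw [two_smul]; nth_rw 1 [← h]; exact neg_add_cancel _
  simpa using h2

/-! ## second moment -/

lemma gauss1_eq_pdf {l : ℝ} (hl : 0 < l) :
    gauss1 l = ProbabilityTheory.gaussianPDFReal 0 (l ^ 2).toNNReal := by
  funext t
  simp only [gauss1, ProbabilityTheory.gaussianPDFReal, sub_zero,
    Real.coe_toNNReal _ (sq_nonneg l)]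
  rw [Real.sqrt_mul (by positivity : (0 : ℝ) ≤ 2 * π) (l ^ 2), Real.sqrt_sq hl.le]

lemma integral_gauss1 {l : ℝ} (hl : 0 < l) : ∫ t, gauss1 l t = 1 := by
  rw [gauss1_eq_pdf hl]
  exact ProbabilityTheory.integral_gaussianPDFReal_eq_one 0 (by simp [hl.ne'])

lemma integral_sq_gauss1 {l : ℝ} (hl : 0 < l) : ∫ t, gauss1 l t * t ^ 2 = l ^ 2 := by
  have hv : (l ^ 2).toNNReal ≠ 0 := by simp [hl.ne']
  have h := ProbabilityTheory.variance_fun_id_gaussianReal (μ := 0) (v := (l ^ 2).toNNReal)
  rw [ProbabilityTheory.variance_eq_integral (by fun_prop)] at h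
  rw [show (∫ x, x ∂ProbabilityTheory.gaussianReal 0 (l ^ 2).toNNReal) = 0 from
    ProbabilityTheory.integral_id_gaussianReal] at h
  simp only [sub_zero,
    ProbabilityTheory.integral_gaussianReal_eq_integral_smul hv, smul_eq_mul,
    Real.coe_toNNReal _ (sq_nonneg l)] at h
  simpa [gauss1_eq_pdf hl] using h

lemma gauss_eq_prod (l : ℝ) (x : Pt d) : gauss l x = ∏ i, gauss1 l (x i) := by
  unfold gauss gauss1
  rw [Finset.prod_mul_distrib, ← Real.exp_sum, Finset.prod_const, Finset.card_fin, inv_pow,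
    EuclideanSpace.real_norm_sq_eq, ← Finset.sum_div, ← Finset.sum_neg_distrib]

lemma integral_coord_sq {l : ℝ} (hl : 0 < l) (i : Fin d) :
    ∫ x : Pt d, gauss l x * (x i) ^ 2 = l ^ 2 := by
  rw [← (PiLp.volume_preserving_toLp (Fin d)).integral_comp
    (MeasurableEquiv.toLp 2 (Fin d → ℝ)).measurableEmbedding]
  have e : ∀ w : Fin d → ℝ, gauss l (WithLp.toLp 2 w) * (WithLp.toLp 2 w i) ^ 2 =
      ∏ j, (gauss1 l (w j) * if j = i then (w j) ^ 2 else 1) := by
    intro w
    rw [gauss_eq_prod, Finset.prod_mul_distrib, Finset.prod_ite_eq' Finset.univ i]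
    simp
  simp_rw [e]
  rw [integral_fintype_prod_volume_eq_prod
    (fun j t => gauss1 l t * if j = i then t ^ 2 else 1)]
  rw [Finset.prod_eq_single i]
  · simp [integral_sq_gauss1 hl]
  · intro j _ hj
    simp [hj, integral_gauss1 hl]
  · simp

lemma integral_gauss_normsq {l : ℝ} (hl : 0 < l) :
    ∫ v : Pt d, gauss l v * ‖v‖ ^ 2 = d * l ^ 2 := by
  simp_rw [EuclideanSpace.real_norm_sq_eq, Finset.mul_sum]
  rw [integral_finsetSum]
  · simp [integral_coord_sq hl]
  · intro i _
    refine Integrable.mono' (integrable_gauss_normsq hl)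
      ((continuous_gauss l).mul ((PiLp.continuous_apply 2 _ i).pow 2)).aestronglyMeasurable
      (Eventually.of_forall fun v => ?_)
    rw [Real.norm_eq_abs, abs_of_nonneg (mul_nonneg (gauss_nonneg hl.le v) (sq_nonneg _))]
    refine mul_le_mul_of_nonneg_left ?_ (gauss_nonneg hl.le v)
    rw [EuclideanSpace.real_norm_sq_eq]
    exact Finset.single_le_sum (f := fun j => (v j) ^ 2) (fun j _ => sq_nonneg _)
      (Finset.mem_univ i)

lemma integral_norm_kvec_le {l : ℝ} (hl : 0 < l) :
    ∫ v : Pt d, ‖kvec l v‖ ≤ √d / l := by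
  rcases Nat.eq_zero_or_pos d with rfl | hd
  · have : ∀ v : Pt 0, kvec l v = 0 := fun v => Subsingleton.elim _ _
    simp [this]
  have hs : 0 < √(d : ℝ) := Real.sqrt_pos.2 (Nat.cast_pos.2 hd)
  have hle : ∀ v : Pt d, ‖kvec l v‖ ≤
      (1 / (2 * l ^ 3 * √d)) * (gauss l v * ‖v‖ ^ 2) + √d / (2 * l) * gauss l v := by
    intro v
    rw [norm_kvec hl]
    have e : (1 / (2 * l ^ 3 * √d)) * (gauss l v * ‖v‖ ^ 2) + √d / (2 * l) * gauss l v
        - gauss l v * ‖v‖ / l ^ 2 = gauss l v * (‖v‖ - l * √d) ^ 2 / (2 * l ^ 3 * √d) := by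
      field_simp
      ring
    have : 0 ≤ gauss l v * (‖v‖ - l * √d) ^ 2 / (2 * l ^ 3 * √d) := by
      have := gauss_nonneg hl.le v
      positivity
    linarith
  refine (integral_mono (integrable_kvec hl).norm
    (((integrable_gauss_normsq hl).const_mul _).add ((integrable_gauss hl).const_mul _))
    hle).trans_eq ?_
  rw [integral_add' ((integrable_gauss_normsq hl).const_mul _) ((integrable_gauss hl).const_mul _),
    integral_const_mul, integral_const_mul, integral_gauss_normsq hl, integral_gauss hl]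
  field_simp
  rw [Real.sq_sqrt (Nat.cast_nonneg d)]
  ring

/-! ## mollified indicators -/

lemma gauss_shift_le {l : ℝ} (hl : 0 < l) {x x₀ : Pt d} (h : ‖x - x₀‖ ≤ 1) (y : Pt d) :
    gauss l (x - y) ≤ 2 ^ d * Real.exp (1 / (6 * l ^ 2)) * gauss (2 * l) (x₀ - y) := by
  rw [gauss_sub_comm, gauss_sub_comm (2 * l) x₀ y]
  refine (gaussDom d l (2 * l) y x x₀ hl (by linarith)).trans ?_
  rw [show 2 * ((2 * l) ^ 2 - l ^ 2) = 6 * l ^ 2 by ring, show 2 * l / l = 2 by field_simp]
  have hn : 0 ≤ gauss (2 * l) (y - x₀) := gauss_nonneg (by positivity) _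
  refine mul_le_mul_of_nonneg_right (mul_le_mul_of_nonneg_left ?_ (by positivity)) hn
  refine Real.exp_le_exp.2 (div_le_div_of_nonneg_right ?_ (by positivity))
  nlinarith [norm_nonneg (x - x₀)]

lemma kvec_shift_le {l : ℝ} (hl : 0 < l) {x x₀ : Pt d} (h : ‖x - x₀‖ ≤ 1) (y : Pt d) :
    ‖kvec l (x - y)‖ ≤ 2 ^ d / l *
      (2 ^ d * Real.exp (1 / (6 * (2 * l) ^ 2)) * gauss (2 * (2 * l)) (x₀ - y)) :=
  (norm_kvec_le hl _).trans
    (mul_le_mul_of_nonneg_left (gauss_shift_le (by positivity) h y) (by positivity))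

lemma continuous_smoothInd (A : Set (Pt d)) {l : ℝ} (hl : 0 < l) :
    Continuous (smoothInd A l) := by
  rw [continuous_iff_continuousAt]
  intro x₀
  refine continuousAt_of_dominated
    (bound := fun y => 2 ^ d * Real.exp (1 / (6 * l ^ 2)) * gauss (2 * l) (x₀ - y)) ?_ ?_ ?_ ?_
  · exact Eventually.of_forall fun x =>
      ((continuous_gauss l).comp (continuous_const.sub continuous_id)).aestronglyMeasurable
  · filter_upwards [Metric.closedBall_mem_nhds x₀ one_pos] with x hx
    refine Eventually.of_forall fun y => ?_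
    rw [Real.norm_eq_abs, abs_of_nonneg (gauss_nonneg hl.le _)]
    exact gauss_shift_le hl (by simpa [dist_eq_norm] using hx) y
  · exact ((integrable_gauss_sub (by positivity) x₀).const_mul _).integrableOn
  · exact Eventually.of_forall fun y =>
      ((continuous_gauss l).comp (continuous_id.sub continuous_const)).continuousAt

lemma continuous_gradInd (A : Set (Pt d)) {l : ℝ} (hl : 0 < l) :
    Continuous (gradInd A l) := by
  rw [continuous_iff_continuousAt]
  intro x₀
  refine continuousAt_of_dominated (F := fun x y => kvec l (x - y))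
    (bound := fun y => 2 ^ d / l *
      (2 ^ d * Real.exp (1 / (6 * (2 * l) ^ 2)) * gauss (2 * (2 * l)) (x₀ - y))) ?_ ?_ ?_ ?_
  · exact Eventually.of_forall fun x =>
      ((continuous_kvec l).comp (continuous_const.sub continuous_id)).aestronglyMeasurable
  · filter_upwards [Metric.closedBall_mem_nhds x₀ one_pos] with x hx
    exact Eventually.of_forall fun y => kvec_shift_le hl (by simpa [dist_eq_norm] using hx) y
  · exact (((integrable_gauss_sub (by positivity) x₀).const_mul _).const_mul _).integrableOn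
  · exact Eventually.of_forall fun y =>
      ((continuous_kvec l).comp (continuous_id.sub continuous_const)).continuousAt

lemma norm_gradInd_le (A : Set (Pt d)) {l : ℝ} (hl : 0 < l) (x : Pt d) :
    ‖gradInd A l x‖ ≤ √d / l := by
  rw [gradInd_eq]
  refine (norm_integral_le_integral_norm _).trans ?_
  refine le_trans (setIntegral_le_integral (integrable_kvec_sub hl x).norm
    (Eventually.of_forall fun y => norm_nonneg _)) ?_
  rw [integral_sub_left_eq_self (fun v => ‖kvec l v‖) volume x]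
  exact integral_norm_kvec_le hl

lemma smoothInd_nonneg (A : Set (Pt d)) {l : ℝ} (hl : 0 < l) (x : Pt d) :
    0 ≤ smoothInd A l x :=
  integral_nonneg fun _ => gauss_nonneg hl.le _

lemma smoothInd_le_one (A : Set (Pt d)) {l : ℝ} (hl : 0 < l) (x : Pt d) :
    smoothInd A l x ≤ 1 :=
  (setIntegral_le_integral (integrable_gauss_sub hl x)
    (Eventually.of_forall fun _ => gauss_nonneg hl.le _)).trans_eq (integral_gauss_sub hl x)

lemma smoothInd_compl {A : Set (Pt d)} (hA : MeasurableSet A) {l : ℝ} (hl : 0 < l) (x : Pt d) :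
    smoothInd Aᶜ l x = 1 - smoothInd A l x := by
  have h := integral_add_compl hA (integrable_gauss_sub hl x)
  rw [integral_gauss_sub hl] at h
  simp only [smoothInd]; linarith

lemma gradInd_compl {A : Set (Pt d)} (hA : MeasurableSet A) {l : ℝ} (hl : 0 < l) (x : Pt d) :
    gradInd Aᶜ l x = -gradInd A l x := by
  have h := integral_add_compl hA (integrable_kvec_sub hl x)
  rw [integral_kvec_sub, ← gradInd_eq, ← gradInd_eq] at h
  exact eq_neg_of_add_eq_zero_right h

lemma hasDerivAt_smoothInd (A : Set (Pt d)) {l : ℝ} (hl : 0 < l) (x u : Pt d) (t : ℝ) :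
    HasDerivAt (fun t : ℝ => smoothInd A l (x + t • u))
      ⟪gradInd A l (x + t • u), u⟫ t := by
  have hr : 0 < 1 / (1 + ‖u‖) := by positivity
  have key := hasDerivAt_integral_of_dominated_loc_of_deriv_le
    (μ := volume.restrict A) (F := fun (t : ℝ) y => gauss l (x + t • u - y))
    (F' := fun t y => ⟪kvec l (x + t • u - y), u⟫)
    (bound := fun y => 2 ^ d / l * (2 ^ d * Real.exp (1 / (6 * (2 * l) ^ 2)) *
      gauss (2 * (2 * l)) (x + t • u - y)) * ‖u‖) (x₀ := t)
    (Metric.ball_mem_nhds t hr)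
    (Eventually.of_forall fun s =>
      ((continuous_gauss l).comp (continuous_const.sub continuous_id)).aestronglyMeasurable)
    (integrable_gauss_sub hl _).integrableOn
    (((continuous_kvec l).comp (continuous_const.sub continuous_id)).inner
      continuous_const).aestronglyMeasurable
    (Eventually.of_forall fun y s hs => by
      rw [Real.norm_eq_abs]
      refine (abs_real_inner_le_norm _ _).trans ?_
      refine mul_le_mul_of_nonneg_right (kvec_shift_le hl ?_ y) (norm_nonneg _)
      rw [add_sub_add_left_eq_sub, ← sub_smul, norm_smul, Real.norm_eq_abs]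
      rw [Metric.mem_ball, Real.dist_eq] at hs
      have h1 : |s - t| * (1 + ‖u‖) ≤ 1 := by
        rw [← le_div_iff₀ (by positivity)]; exact hs.le
      nlinarith [abs_nonneg (s - t)])
    ((((integrable_gauss_sub (by positivity) _).const_mul _).const_mul _).mul_const _).integrableOn
    (Eventually.of_forall fun y s _ => by
      have h1 : HasDerivAt (fun r : ℝ => x + r • u - y) u s := by
        simpa using ((((hasDerivAt_id s).smul_const u).const_add x).sub_const y)
      have h2 := (((h1.norm_sq).neg.div_const (2 * l ^ 2)).exp.const_mul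
        (((√(2 * π) * l) ^ d)⁻¹))
      refine h2.congr_deriv ?_
      simp only [kvec, gauss, inner_smul_left, starRingEnd_apply, star_trivial, Pi.neg_apply]
      ring)
  refine key.2.congr_deriv ?_
  rw [gradInd_eq, real_inner_comm, ← integral_inner (integrable_kvec_sub hl _).integrableOn]
  simp_rw [real_inner_comm u]

theorem smoothBasics : SmoothBasics := by
  intro d A hA l hl
  exact ⟨fun x => ⟨smoothInd_nonneg A hl x, smoothInd_le_one A hl x⟩, continuous_smoothInd A hl,
    continuous_gradInd A hl, norm_gradInd_le A hl, smoothInd_compl hA hl, gradInd_compl hA hl,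
    hasDerivAt_smoothInd A hl⟩

/-! ## semigroup for the mollified indicator -/

lemma integral_gauss_smul_sub {c : ℝ} (hc : 0 < c) (m z : Pt d) :
    ∫ y, gauss c (y - m) • (y - z) = m - z := by
  have h1 : Integrable (fun v : Pt d => gauss c v • v) := by
    refine Integrable.mono' ((integrable_gauss (l := 2 * c) (by positivity)).const_mul (2 ^ d * c))
      ((continuous_gauss c).smul continuous_id).aestronglyMeasurable
      (Eventually.of_forall fun v => ?_)
    rw [norm_smul, Real.norm_eq_abs, abs_of_nonneg (gauss_nonneg hc.le v)]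
    exact gauss_mul_norm_le hc v
  have h0 : ∫ v : Pt d, gauss c v • v = 0 := by
    have h := integral_neg_eq_self (fun v : Pt d => gauss c v • v) volume
    simp_rw [gauss_neg, smul_neg, integral_neg] at h
    have h2 : (2 : ℝ) • (∫ v : Pt d, gauss c v • v) = 0 := by
      rw [two_smul]; nth_rw 1 [← h]; exact neg_add_cancel _
    simpa using h2
  rw [← integral_add_right_eq_self (fun y => gauss c (y - m) • (y - z)) m]
  simp only [add_sub_cancel_right, add_sub_assoc, smul_add]
  rw [integral_add h1 ((integrable_gauss hc).smul_const _), h0, integral_smul_const,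
    integral_gauss hc, one_smul, zero_add]

lemma integral_gauss_kvec {r l l' : ℝ} (hr : 0 < r) (hl : 0 < l) (hl' : 0 < l')
    (h : l' ^ 2 = r ^ 2 + l ^ 2) (x z : Pt d) :
    ∫ y, gauss r (x - y) • kvec l (y - z) = kvec l' (x - z) := by
  have e : ∀ y, gauss r (x - y) • kvec l (y - z) = (-(gauss l' (x - z) / l ^ 2)) •
      (gauss (r * l / l') (y - (z + (l ^ 2 / l' ^ 2) • (x - z))) • (y - z)) := by
    intro y
    rw [kvec, smul_smul, smul_smul]
    congr 1
    rw [mul_neg, mul_div_assoc', gauss_mul hr hl hl' h x y z]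
    ring
  simp_rw [e]
  rw [integral_smul, integral_gauss_smul_sub (by positivity), add_sub_cancel_left, kvec, smul_smul]
  congr 1
  field_simp

lemma integrable_prod_gauss (A : Set (Pt d)) {r l : ℝ} (hr : 0 < r) (hl : 0 < l) (x : Pt d) :
    Integrable (fun p : Pt d × Pt d => gauss r (x - p.1) * gauss l (p.1 - p.2))
      (volume.prod (volume.restrict A)) := by
  have hcont : Continuous (fun p : Pt d × Pt d => gauss r (x - p.1) * gauss l (p.1 - p.2)) :=
    ((continuous_gauss r).comp (continuous_const.sub continuous_fst)).mul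
      ((continuous_gauss l).comp (continuous_fst.sub continuous_snd))
  have hm := hcont.measurable.aestronglyMeasurable (μ := volume.prod (volume.restrict A))
  rw [integrable_prod_iff hm]
  refine ⟨Eventually.of_forall fun y =>
    ((integrable_gauss_sub hl y).const_mul (gauss r (x - y))).integrableOn (s := A), ?_⟩
  refine Integrable.mono' (integrable_gauss_sub hr x) hm.norm.integral_prod_right'
    (Eventually.of_forall fun y => ?_)
  rw [Real.norm_eq_abs, abs_of_nonneg (integral_nonneg fun _ => norm_nonneg _)]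
  simp only [norm_mul, Real.norm_eq_abs, abs_of_nonneg (gauss_nonneg hr.le _),
    abs_of_nonneg (gauss_nonneg hl.le _), integral_const_mul]
  exact mul_le_of_le_one_right (gauss_nonneg hr.le _) (smoothInd_le_one A hl y)

theorem smoothConv : SmoothConv := by
  intro d A hA l l' hl hll x
  have hl' : 0 < l' := hl.trans hll
  have hq : 0 < l' ^ 2 - l ^ 2 := by nlinarith
  set r := √(l' ^ 2 - l ^ 2) with hr_def
  have hr : 0 < r := Real.sqrt_pos.2 hq
  have hrel : l' ^ 2 = r ^ 2 + l ^ 2 := by rw [hr_def, Real.sq_sqrt hq.le]; ring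
  constructor
  · simp only [smoothInd, ← integral_const_mul]
    rw [integral_integral_swap (integrable_prod_gauss A hr hl x)]
    refine integral_congr_ae (Eventually.of_forall fun z => ?_)
    simp only
    rw [gaussConv d r l x z hr hl, ← hrel, Real.sqrt_sq hl'.le]
  · simp only [gradInd_eq, ← integral_smul]
    have hF : Integrable (fun p : Pt d × Pt d => gauss r (x - p.1) • kvec l (p.1 - p.2))
        (volume.prod (volume.restrict A)) := by
      refine Integrable.mono' ((integrable_prod_gauss A hr (by positivity : 0 < 2 * l) x).const_mul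
        (2 ^ d / l)) ?_ (Eventually.of_forall fun p => ?_)
      · exact (((continuous_gauss r).comp (continuous_const.sub continuous_fst)).smul
          ((continuous_kvec l).comp (continuous_fst.sub continuous_snd))).aestronglyMeasurable
      · rw [norm_smul, Real.norm_eq_abs, abs_of_nonneg (gauss_nonneg hr.le _)]
        refine (mul_le_mul_of_nonneg_left (norm_kvec_le hl _) (gauss_nonneg hr.le _)).trans_eq ?_
        ring
    rw [integral_integral_swap hF]
    refine integral_congr_ae (Eventually.of_forall fun z => ?_)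
    exact (integral_gauss_kvec hr hl hl' hrel x z).symm

/-! ## Lebesgue limit -/

lemma measureReal_closedBall_pt (y : Pt d) {r : ℝ} (hr : 0 ≤ r) :
    (volume (Metric.closedBall y r)).toReal =
      r ^ d * (volume (Metric.closedBall (0 : Pt d) 1)).toReal := by
  rw [Measure.addHaar_closedBall' volume y hr, finrank_euclideanSpace_fin, ENNReal.toReal_mul,
    ENNReal.toReal_ofReal (by positivity)]

lemma smoothInd_split (B : Set (Pt d)) {l M : ℝ} (hl : 0 < l) (hM : 0 < M) (y : Pt d) :
    smoothInd B l y ≤ ((√(2 * π) * l) ^ d)⁻¹ *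
      (volume (B ∩ Metric.closedBall y (M * l))).toReal + d / M ^ 2 := by
  have hfin : volume (B ∩ Metric.closedBall y (M * l)) ≠ ∞ :=
    ((measure_mono inter_subset_right).trans_lt measure_closedBall_lt_top).ne
  have h1 : Integrable ((Metric.closedBall y (M * l)).indicator
      fun _ => ((√(2 * π) * l) ^ d)⁻¹) (volume.restrict B) :=
    ((integrableOn_const (measure_closedBall_lt_top).ne).integrable_indicator
      measurableSet_closedBall).integrableOn
  have h2 : Integrable (fun z => gauss l (y - z) * ‖y - z‖ ^ 2) :=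
    (integrable_gauss_normsq hl).comp_sub_left y
  unfold smoothInd
  refine (integral_mono (g := fun z => (Metric.closedBall y (M * l)).indicator
      (fun _ => ((√(2 * π) * l) ^ d)⁻¹) z + 1 / (M * l) ^ 2 * (gauss l (y - z) * ‖y - z‖ ^ 2))
    (integrable_gauss_sub hl y).integrableOn
    (h1.add (h2.integrableOn.const_mul _)) fun z => ?_).trans ?_
  · by_cases hz : z ∈ Metric.closedBall y (M * l)
    · simp only [Set.indicator_of_mem hz]
      have := gauss_nonneg hl.le (y - z)
      exact le_add_of_le_of_nonneg (gauss_le_const hl _) (by positivity)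
    · simp only [Set.indicator_of_notMem hz, zero_add]
      rw [Metric.mem_closedBall, not_le, dist_comm, dist_eq_norm] at hz
      have hsq : (M * l) ^ 2 ≤ ‖y - z‖ ^ 2 := pow_le_pow_left₀ (by positivity) hz.le 2
      rw [div_mul_eq_mul_div, one_mul, le_div_iff₀ (by positivity)]
      exact mul_le_mul_of_nonneg_left hsq (gauss_nonneg hl.le _)
  · rw [integral_add h1 (h2.integrableOn.const_mul _), integral_const_mul,
      integral_indicator measurableSet_closedBall, setIntegral_const, measureReal_def,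
      Measure.restrict_apply measurableSet_closedBall, smul_eq_mul, inter_comm]
    refine add_le_add (le_of_eq (mul_comm _ _)) ?_
    have h3 : ∫ z in B, gauss l (y - z) * ‖y - z‖ ^ 2 ≤ d * l ^ 2 := by
      refine (setIntegral_le_integral h2 (Eventually.of_forall fun z =>
        mul_nonneg (gauss_nonneg hl.le _) (sq_nonneg _))).trans_eq ?_
      rw [integral_sub_left_eq_self (fun v => gauss l v * ‖v‖ ^ 2) volume y,
        integral_gauss_normsq hl]
    refine (mul_le_mul_of_nonneg_left h3 (by positivity)).trans_eq ?_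
    field_simp

lemma tendsto_smoothInd_zero (B : Set (Pt d)) (y : Pt d)
    (h : Tendsto (fun r => volume (B ∩ Metric.closedBall y r) /
      volume (Metric.closedBall y r)) (𝓝[>] 0) (𝓝 0)) :
    Tendsto (fun l => smoothInd B l y) (𝓝[>] 0) (𝓝 0) := by
  rw [Metric.tendsto_nhds]
  intro ε hε
  obtain ⟨M, hM, hMd⟩ : ∃ M : ℝ, 0 < M ∧ (d : ℝ) / M ^ 2 < ε / 2 := by
    refine ⟨2 * d / ε + 1, by positivity, ?_⟩
    have h0 : (0 : ℝ) ≤ 2 * d / ε := by positivity
    rw [div_lt_iff₀ (by positivity)]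
    have h1 : ε / 2 * (2 * d / ε + 1) = d + ε / 2 := by field_simp
    have h2 : ε / 2 * (2 * d / ε + 1) ≤ ε / 2 * (2 * d / ε + 1) ^ 2 :=
      mul_le_mul_of_nonneg_left (by nlinarith) (by positivity)
    linarith
  set C := (M / √(2 * π)) ^ d * (volume (Metric.closedBall (0 : Pt d) 1)).toReal with hC
  have hC0 : 0 ≤ C := by positivity
  have hmap : Tendsto (fun l => M * l) (𝓝[>] (0 : ℝ)) (𝓝[>] 0) := by
    refine tendsto_nhdsWithin_iff.2 ⟨?_, ?_⟩
    · exact tendsto_nhdsWithin_of_tendsto_nhds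
        ((continuous_const.mul continuous_id).tendsto' 0 0 (by simp))
    · filter_upwards [self_mem_nhdsWithin] with l hl
      exact mul_pos hM hl
  have h2 := ((ENNReal.tendsto_toReal ENNReal.zero_ne_top).comp (h.comp hmap)).const_mul C
  simp only [ENNReal.toReal_zero, mul_zero] at h2
  filter_upwards [self_mem_nhdsWithin, (Metric.tendsto_nhds.1 h2) (ε / 2) (by positivity)]
    with l hl hl2
  have hl0 : (0 : ℝ) < l := hl
  rw [Real.dist_eq, sub_zero, abs_of_nonneg (smoothInd_nonneg B hl0 y)]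
  refine (smoothInd_split B hl0 hM y).trans_lt ?_
  have hid : ((√(2 * π) * l) ^ d)⁻¹ * (volume (B ∩ Metric.closedBall y (M * l))).toReal =
      C * (volume (B ∩ Metric.closedBall y (M * l)) /
        volume (Metric.closedBall y (M * l))).toReal := by
    rw [ENNReal.toReal_div, measureReal_closedBall_pt y (by positivity), hC]
    have hpos : 0 < (volume (Metric.closedBall (0 : Pt d) 1)).toReal :=
      ENNReal.toReal_pos (Metric.measure_closedBall_pos volume _ one_pos).ne'
        measure_closedBall_lt_top.ne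
    rw [div_pow, mul_pow M l, mul_pow (√(2 * π)) l]
    field_simp
  rw [hid]
  rw [Real.dist_eq, sub_zero] at hl2
  have := le_abs_self (C * (volume (B ∩ Metric.closedBall y (M * l)) /
        volume (Metric.closedBall y (M * l))).toReal)
  simp only [Function.comp_apply] at hl2
  linarith

theorem smoothLimit : SmoothLimit := by
  intro d A hA l₀ hl₀
  have hseq : Tendsto (fun j : ℕ => (1 / 2 : ℝ) ^ j * l₀) atTop (𝓝[>] 0) := by
    refine tendsto_nhdsWithin_iff.2 ⟨?_, Eventually.of_forall fun j => mul_pos (by positivity) hl₀⟩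
    simpa using (tendsto_pow_atTop_nhds_zero_of_lt_one (r := (1 / 2 : ℝ)) (by norm_num)
      (by norm_num)).mul_const l₀
  filter_upwards [Besicovitch.ae_tendsto_measure_inter_div_of_measurableSet volume hA,
    Besicovitch.ae_tendsto_measure_inter_div_of_measurableSet volume hA.compl] with y hy hy'
  by_cases hyA : y ∈ A
  · rw [Set.indicator_of_mem hyA]
    rw [Set.indicator_of_notMem (Set.notMem_compl_iff.2 hyA)] at hy'
    have h := ((tendsto_smoothInd_zero _ y hy').comp hseq).const_sub 1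
    rw [sub_zero] at h
    refine h.congr fun j => ?_
    simp only [Function.comp_apply]
    rw [smoothInd_compl hA (mul_pos (by positivity : (0 : ℝ) < (1 / 2) ^ j) hl₀) y, sub_sub_cancel]
  · rw [Set.indicator_of_notMem hyA]
    rw [Set.indicator_of_notMem hyA] at hy
    exact (tendsto_smoothInd_zero _ y hy).comp hseq

/-! ## slicing -/

theorem lineFubini : LineFubini := by
  intro d n hn F hF
  have hm : Measurable (fun p : Pt d × ℝ => F (p.1 + p.2 • n)) :=
    hF.comp (by fun_prop : Continuous fun p : Pt d × ℝ => p.1 + p.2 • n).measurable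
  have hms : MeasurableSet (slab n) :=
    measurableSet_Ico.preimage (continuous_id.inner continuous_const).measurable
  have h1 : ∀ x : Pt d, ∫⁻ t, F (linePt n x t) = ∫⁻ t : ℝ, F (x + t • n) := by
    intro x
    rw [← lintegral_add_right_eq_self (fun t : ℝ => F (x + t • n)) (-⟪x, n⟫)]
    simp [linePt, sub_eq_add_neg]
  simp_rw [h1]
  rw [lintegral_lintegral_swap (f := fun (x : Pt d) (t : ℝ) => F (x + t • n)) hm.aemeasurable]
  have h2 : ∀ t : ℝ, ∫⁻ x in slab n, F (x + t • n) =
      ∫⁻ y, (slab n).indicator (1 : Pt d → ℝ≥0∞) (y - t • n) * F y := by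
    intro t
    rw [← lintegral_indicator hms,
      ← lintegral_add_right_eq_self
        (fun y => (slab n).indicator (1 : Pt d → ℝ≥0∞) (y - t • n) * F y) (t • n)]
    refine lintegral_congr fun x => ?_
    rw [add_sub_cancel_right]
    by_cases hx : x ∈ slab n <;> simp [hx]
  simp_rw [h2]
  have hm2 : Measurable (fun p : ℝ × Pt d =>
      (slab n).indicator (1 : Pt d → ℝ≥0∞) (p.2 - p.1 • n) * F p.2) :=
    ((measurable_const.indicator hms).comp
      (by fun_prop : Continuous fun p : ℝ × Pt d => p.2 - p.1 • n).measurable).mul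
      (hF.comp measurable_snd)
  rw [lintegral_lintegral_swap (f := fun (t : ℝ) (y : Pt d) =>
    (slab n).indicator (1 : Pt d → ℝ≥0∞) (y - t • n) * F y) hm2.aemeasurable]
  refine lintegral_congr fun y => ?_
  have hnn : ⟪n, n⟫ = 1 := by rw [real_inner_self_eq_norm_sq, hn]; norm_num
  have e : (fun t : ℝ => (slab n).indicator (1 : Pt d → ℝ≥0∞) (y - t • n) * F y) =
      fun t => (Ioc (⟪y, n⟫ - 1) ⟪y, n⟫).indicator (fun _ => F y) t := by
    funext t
    have : y - t • n ∈ slab n ↔ t ∈ Ioc (⟪y, n⟫ - 1) ⟪y, n⟫ := by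
      simp only [slab, mem_ofPred_eq, mem_Ico, mem_Ioc, inner_sub_left, inner_smul_left,
        starRingEnd_apply, star_trivial, hnn, mul_one]
      constructor <;> intro h <;> constructor <;> linarith [h.1, h.2]
    by_cases ht : t ∈ Ioc (⟪y, n⟫ - 1) ⟪y, n⟫
    · rw [Set.indicator_of_mem ht, Set.indicator_of_mem (this.2 ht)]; simp
    · rw [Set.indicator_of_notMem ht, Set.indicator_of_notMem (mt this.1 ht)]; simp
  rw [e, lintegral_indicator_const measurableSet_Ioc, Real.volume_Ioc]
  simp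

/-! ## excess -/

lemma integrable_gauss_mul_bdd {r : ℝ} (hr : 0 < r) (c : Pt d) {F : Pt d → ℝ}
    (hF : Continuous F) {B : ℝ} (hB : ∀ x, |F x| ≤ B) :
    Integrable (fun x => gauss r (c - x) * F x) :=
  (integrable_gauss_sub hr c).mul_bdd hF.aestronglyMeasurable (Eventually.of_forall hB)

lemma integrable_gauss_smul_gradInd (A : Set (Pt d)) {r l : ℝ} (hr : 0 < r) (hl : 0 < l)
    (c : Pt d) : Integrable (fun x => gauss r (c - x) • gradInd A l x) :=
  (integrable_gauss_sub hr c).smul_bdd (√d / l) (continuous_gradInd A hl).aestronglyMeasurable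
    (Eventually.of_forall (norm_gradInd_le A hl))

lemma excess_eq {A : Set (Pt d)} (hA : MeasurableSet A) (n : Pt d) {S l : ℝ} (hl : 0 < l)
    (hlS : l < S) (c : Pt d) :
    excess A n S c l = S ^ d *
      ((∫ x, gauss (√(S ^ 2 - l ^ 2)) (c - x) * ‖gradInd A l x‖) - ⟪gradInd A S c, n⟫) := by
  have hR : 0 < √(S ^ 2 - l ^ 2) := Real.sqrt_pos.2 (by nlinarith)
  have h1 := integrable_gauss_smul_gradInd A hR hl c
  rw [(smoothConv d A hA l S hl hlS c).2, real_inner_comm, ← integral_inner h1]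
  unfold excess
  congr 1
  rw [← integral_sub]
  · refine integral_congr_ae (Eventually.of_forall fun x => ?_)
    simp only [defect, inner_smul_right, real_inner_comm n]
    ring
  · exact integrable_gauss_mul_bdd hR c (continuous_gradInd A hl).norm
      fun x => by rw [abs_norm]; exact norm_gradInd_le A hl x
  · exact h1.const_inner n

lemma excess_nonneg (A : Set (Pt d)) {n : Pt d} (hn : ‖n‖ ≤ 1) {S : ℝ} (hS : 0 ≤ S) (c : Pt d)
    (l : ℝ) : 0 ≤ excess A n S c l := by
  refine mul_nonneg (by positivity) (integral_nonneg fun x => ?_)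
  refine mul_nonneg (gauss_nonneg (Real.sqrt_nonneg _) _) ?_
  unfold defect
  nlinarith [real_inner_le_norm (gradInd A l x) n, norm_nonneg (gradInd A l x), norm_nonneg n]

lemma exc_le_excess {A : Set (Pt d)} (hA : MeasurableSet A) {n : Pt d} (hn : ‖n‖ ≤ 1) {S l : ℝ}
    (hl : 0 < l) (hlS : l < S) (c : Pt d) : exc A S c l ≤ excess A n S c l := by
  rw [excess_eq hA n hl hlS c, exc]
  refine mul_le_mul_of_nonneg_left ?_ (pow_nonneg (hl.trans hlS).le d)
  nlinarith [real_inner_le_norm (gradInd A S c) n, norm_nonneg (gradInd A S c), norm_nonneg n]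

lemma norm_gradInd_conv_le {A : Set (Pt d)} (hA : MeasurableSet A) {l l' : ℝ} (hl : 0 < l)
    (hll : l < l') (x : Pt d) :
    ‖gradInd A l' x‖ ≤ ∫ y, gauss (√(l' ^ 2 - l ^ 2)) (x - y) * ‖gradInd A l y‖ := by
  rw [(smoothConv d A hA l l' hl hll x).2]
  refine (norm_integral_le_integral_norm _).trans_eq ?_
  refine integral_congr_ae (Eventually.of_forall fun y => ?_)
  simp only [norm_smul, Real.norm_eq_abs, abs_of_nonneg (gauss_nonneg (Real.sqrt_nonneg _) _)]

lemma gauss_gradInd_mono {A : Set (Pt d)} (hA : MeasurableSet A) {l l' R' : ℝ} (hl : 0 < l)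
    (hll : l < l') (hR' : 0 < R') (c : Pt d) :
    ∫ x, gauss R' (c - x) * ‖gradInd A l' x‖ ≤
      ∫ x, gauss (√(R' ^ 2 + (l' ^ 2 - l ^ 2))) (c - x) * ‖gradInd A l x‖ := by
  have hq : 0 < l' ^ 2 - l ^ 2 := by nlinarith
  set r := √(l' ^ 2 - l ^ 2) with hr_def
  have hr : 0 < r := Real.sqrt_pos.2 hq
  have hN : ∀ x, |‖gradInd A l x‖| ≤ √d / l := fun x => by
    rw [abs_norm]; exact norm_gradInd_le A hl x
  have hprod : Integrable (fun p : Pt d × Pt d =>
      gauss R' (c - p.1) * gauss r (p.1 - p.2) * ‖gradInd A l p.2‖) (volume.prod volume) := by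
    refine Integrable.mul_bdd ?_ ((continuous_gradInd A hl).norm.comp
      continuous_snd).aestronglyMeasurable (c := √d / l) (Eventually.of_forall fun p => hN p.2)
    have := integrable_prod_gauss (Set.univ : Set (Pt d)) hR' hr c
    rwa [Measure.restrict_univ] at this
  calc ∫ x, gauss R' (c - x) * ‖gradInd A l' x‖
      ≤ ∫ x, ∫ y, gauss R' (c - x) * gauss r (x - y) * ‖gradInd A l y‖ := by
        refine integral_mono
          (integrable_gauss_mul_bdd hR' c (continuous_gradInd A (hl.trans hll)).norm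
            fun x => by rw [abs_norm]; exact norm_gradInd_le A (hl.trans hll) x)
          hprod.integral_prod_left fun x => ?_
        simp_rw [mul_assoc, integral_const_mul]
        exact mul_le_mul_of_nonneg_left (norm_gradInd_conv_le hA hl hll x)
          (gauss_nonneg hR'.le _)
    _ = ∫ y, ∫ x, gauss R' (c - x) * gauss r (x - y) * ‖gradInd A l y‖ :=
        integral_integral_swap hprod
    _ = _ := by
        refine integral_congr_ae (Eventually.of_forall fun y => ?_)
        simp only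
        rw [integral_mul_const, gaussConv d R' r c y hR' hr, hr_def, Real.sq_sqrt hq.le]

theorem excessBasics : ExcessBasics := by
  intro d A hA n S c hS hn
  refine ⟨fun l hl hlS => ⟨excess_nonneg A hn.le hS.le c l, exc_le_excess hA hn.le hl hlS c⟩,
    fun l l' hl hll hlS => ?_, fun hal l hl hlS => ?_⟩
  · rcases hll.eq_or_lt with rfl | hlt
    · exact le_rfl
    rw [excess_eq hA n hl (hlt.trans hlS), excess_eq hA n (hl.trans hlt) hlS]
    refine mul_le_mul_of_nonneg_left (sub_le_sub_right ?_ _) (by positivity)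
    have hl' : 0 < l' := hl.trans hlt
    have h := gauss_gradInd_mono hA hl hlt
      (Real.sqrt_pos.2 (by nlinarith : 0 < S ^ 2 - l' ^ 2)) c
    rwa [Real.sq_sqrt (by nlinarith), show S ^ 2 - l' ^ 2 + (l' ^ 2 - l ^ 2) = S ^ 2 - l ^ 2
      by ring] at h
  · rw [excess_eq hA n hl hlS, exc, hal.2]

end Vale.Agent.P137
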