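import Vale.Agent.P137.Defs

/-! # P137: interfaces between the modules (statements only; proofs live in the module files)

A `Gauss`, B `Budget`, C `Tube`, D `Cell`, E `Chain`, F `Local`, G `BV`, H `AbsCont`/final.
-/

namespace Vale.Agent.P137

open MeasureTheory Set Filter Topology
open scoped RealInnerProductSpace ENNReal

/-! ## A. Gaussian toolkit -/

def GaussConv : Prop := ∀ (d : ℕ) (a b : ℝ) (x z : Pt d), 0 < a → 0 < b →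
  ∫ y, gauss a (x - y) * gauss b (y - z) = gauss (√(a ^ 2 + b ^ 2)) (x - z)

def GaussDom : Prop := ∀ (d : ℕ) (a b : ℝ) (x y c : Pt d), 0 < a → a < b →
  gauss a (x - y) ≤
    (b / a) ^ d * Real.exp (‖y - c‖ ^ 2 / (2 * (b ^ 2 - a ^ 2))) * gauss b (x - c)

def SmoothBasics : Prop := ∀ (d : ℕ) (A : Set (Pt d)), MeasurableSet A → ∀ l : ℝ, 0 < l →
  (∀ x, 0 ≤ smoothInd A l x ∧ smoothInd A l x ≤ 1) ∧
  Continuous (smoothInd A l) ∧ Continuous (gradInd A l) ∧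
  (∀ x, ‖gradInd A l x‖ ≤ Real.sqrt d / l) ∧
  (∀ x, smoothInd Aᶜ l x = 1 - smoothInd A l x) ∧
  (∀ x, gradInd Aᶜ l x = -gradInd A l x) ∧
  (∀ (x u : Pt d) (t : ℝ), HasDerivAt (fun t : ℝ => smoothInd A l (x + t • u))
    ⟪gradInd A l (x + t • u), u⟫ t)

def SmoothConv : Prop := ∀ (d : ℕ) (A : Set (Pt d)), MeasurableSet A → ∀ l l' : ℝ, 0 < l → l < l' →
  ∀ x, smoothInd A l' x = ∫ y, gauss (√(l' ^ 2 - l ^ 2)) (x - y) * smoothInd A l y ∧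
    gradInd A l' x = ∫ y, gauss (√(l' ^ 2 - l ^ 2)) (x - y) • gradInd A l y

def SmoothLimit : Prop := ∀ (d : ℕ) (A : Set (Pt d)), MeasurableSet A → ∀ l₀ : ℝ, 0 < l₀ →
  ∀ᵐ y : Pt d, Tendsto (fun j : ℕ => smoothInd A ((1 / 2) ^ j * l₀) y) atTop
    (𝓝 (A.indicator (fun _ => (1 : ℝ)) y))

def LineFubini : Prop := ∀ (d : ℕ) (n : Pt d), ‖n‖ = 1 → ∀ F : Pt d → ℝ≥0∞, Measurable F →
  ∫⁻ x, F x = ∫⁻ x in slab n, ∫⁻ t, F (linePt n x t)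

def ExcessBasics : Prop := ∀ (d : ℕ) (A : Set (Pt d)), MeasurableSet A →
  ∀ (n : Pt d) (S : ℝ) (c : Pt d), 0 < S → ‖n‖ = 1 →
  (∀ l, 0 < l → l < S → 0 ≤ excess A n S c l ∧ exc A S c l ≤ excess A n S c l) ∧
  (∀ l l', 0 < l → l ≤ l' → l' < S → excess A n S c l' ≤ excess A n S c l) ∧
  (Aligned A n S c → ∀ l, 0 < l → l < S → excess A n S c l = exc A S c l)

/-! ## B. Budget -/

def BudgetLayers : Prop := ∀ (d : ℕ) (f : Pt d → ℝ) (G : Fin d → Pt d → ℝ), Integrable f →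
  Measurable f → (∀ i, Integrable (G i) ∧ IsWeakPartial f (G i) i) →
  ∫⁻ s in Ioi (0 : ℝ), gper {x | s < |f x|} ≤ ∫⁻ x, ENNReal.ofReal (gradNorm G x)

def ExcessSum : Prop := ∀ (d : ℕ) (lam : ℝ), 0 < lam → ∃ C : ℝ, ∀ A : Set (Pt d), MeasurableSet A →
  volume A < ∞ → ∀ j : ℕ, 1 ≤ j →
  ∑' (i : ℤ) (z : Fin d → ℤ), ENNReal.ofReal
      (exc A ((2 : ℝ) ^ i) (gridPt (lam * (2 : ℝ) ^ i) z) ((2 : ℝ) ^ (i - (j : ℤ))))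
    ≤ ENNReal.ofReal (C * ((j : ℝ) + 1)) * gper A

/-! ## C. Tube lemmas -/

def CrossArea : Prop := ∀ (d : ℕ) (A : Set (Pt d)), MeasurableSet A → ∀ (n : Pt d), ‖n‖ = 1 →
  ∀ (l a b θ : ℝ) (P : Set (Pt d)), 0 < l → MeasurableSet P → LineInv n P →
  (∀ x ∈ P, ∃ t t', a ≤ t ∧ t ≤ t' ∧ t' ≤ b ∧
    θ ≤ smoothInd A l (linePt n x t) - smoothInd A l (linePt n x t')) →
  ENNReal.ofReal θ * volume (P ∩ slab n) ≤ ∫⁻ y in tube n P a b, ENNReal.ofReal (defect A n l y)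

def StepVol : Prop := ∀ (d : ℕ) (K : ℝ), 1 ≤ K → ∃ C : ℝ, 0 < C ∧
  ∀ (A : Set (Pt d)), MeasurableSet A → ∀ (n : Pt d), ‖n‖ = 1 →
  ∀ (S o L : ℝ) (c : Pt d) (l l' : ℝ) (P : Set (Pt d)),
  0 < S → 0 < l → l ≤ l' → l' ≤ S / 4 → 0 < L → L ≤ S / 4 → |o - ⟪c, n⟫| ≤ K * S →
  MeasurableSet P → LineInv n P → P ⊆ cyl n c (K * S) →
  ∫⁻ y in P, ENNReal.ofReal (wt o L ⟪y, n⟫ * |smoothInd A l' y - smoothInd A l y|)
    ≤ ENNReal.ofReal (C * l') * (ENNReal.ofReal (excess A n S c l) + volume (P ∩ slab n))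

/-- in a column, points of `A` below `t₀` and points outside `A` above `t₀` are rarely both present. -/
def ColumnMin : Prop := ∀ (d : ℕ) (K : ℝ), 1 ≤ K → ∃ C : ℝ, 0 < C ∧
  ∀ (A : Set (Pt d)), MeasurableSet A → ∀ (n : Pt d), ‖n‖ = 1 →
  ∀ (S o L t₀ : ℝ) (c : Pt d) (P : Set (Pt d)),
  0 < S → 0 < L → L ≤ S / 4 → |o - ⟪c, n⟫| ≤ K * S →
  MeasurableSet P → LineInv n P → P ⊆ cyl n c (K * S) →
  ∫⁻ x in P ∩ slab n,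
      min (∫⁻ t in Iio t₀, ENNReal.ofReal (wt o L t * A.indicator (fun _ => (1 : ℝ)) (linePt n x t)))
        (∫⁻ t in Ioi t₀, ENNReal.ofReal (wt o L t * Aᶜ.indicator (fun _ => (1 : ℝ)) (linePt n x t)))
    ≤ ENNReal.ofReal (C * S) * wsum A n S c

/-- few points of `A` lie below a slab where the mollification is small. -/
def VertLemma : Prop := ∀ (d : ℕ) (K lam : ℝ), 1 ≤ K → 0 < lam → ∃ C θ : ℝ, 0 < C ∧ 0 < θ ∧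
  ∀ (A : Set (Pt d)), MeasurableSet A → ∀ (n : Pt d), ‖n‖ = 1 →
  ∀ (S : ℝ) (c : Pt d) (l₀ a b u u' : ℝ) (P : Set (Pt d)),
  0 < S → 0 < l₀ → l₀ ≤ θ * S → a ≤ b → b ≤ u → u + lam * S ≤ u' →
  MeasurableSet P → LineInv n P → tube n P a u' ⊆ Metric.closedBall c (K * S) →
  (∀ y ∈ tube n P u u', smoothInd A l₀ y ≤ 1 / 5) →
  volume (A ∩ tube n P a b) ≤ ENNReal.ofReal (C * S) * wsum A n S c

/-! ## D. Cells -/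

def CellProfile : Prop := ∀ (d : ℕ) (K ε : ℝ), 1 ≤ K → 0 < ε → ∃ δ₀ : ℝ, 0 < δ₀ ∧
  ∀ δ, 0 < δ → δ ≤ δ₀ → ∃ η : ℝ, 0 < η ∧
  ∀ (A : Set (Pt d)), MeasurableSet A → ∀ (n : Pt d) (S : ℝ) (c : Pt d), 0 < S →
  Aligned A n S c → wsum A n S c ≤ ENNReal.ofReal (η * S ^ (d - 1)) →
  ∃ b : ℝ, ∀ y ∈ Metric.closedBall c (K * S),
    (b + ε * S ≤ ⟪y - c, n⟫ → 1 - ε ≤ smoothInd A (δ * S) y) ∧
    (⟪y - c, n⟫ ≤ b - ε * S → smoothInd A (δ * S) y ≤ ε)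

def CellFlux : Prop := ∀ (d : ℕ) (K : ℝ), 1 ≤ K → ∃ K' ε c₀ δ₀ : ℝ,
  K ≤ K' ∧ 0 < ε ∧ 0 < c₀ ∧ 0 < δ₀ ∧
  ∀ (A : Set (Pt d)), MeasurableSet A → ∀ (n : Pt d) (S δ b : ℝ) (c : Pt d), 0 < S → ‖n‖ = 1 →
  0 < δ → δ ≤ δ₀ → |b| ≤ K * S →
  (∀ y ∈ Metric.closedBall c (K' * S),
    (b + ε * S ≤ ⟪y - c, n⟫ → 1 - ε ≤ smoothInd A (δ * S) y) ∧
    (⟪y - c, n⟫ ≤ b - ε * S → smoothInd A (δ * S) y ≤ ε)) →
  c₀ ≤ S * ⟪gradInd A S c, n⟫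

/-! ## E. Height chains -/

/-- Poincare inequality for the column heights of a layer. -/
def ChainGauss : Prop := ∀ (d : ℕ) (K : ℝ), 1 ≤ K → ∃ C K' : ℝ, 0 < C ∧ K ≤ K' ∧
  ∀ (A : Set (Pt d)), MeasurableSet A → ∀ (n : Pt d), ‖n‖ = 1 →
  ∀ (S lam o : ℝ) (c : Pt d), 0 < S → S / K ≤ lam → lam ≤ K * S →
  |o - ⟪c, n⟫| ≤ K * S →
  ∫⁻ x in slab n ∩ cyl n c (K * S),
      ENNReal.ofReal
        ((hgt0 (gaussWin o lam) A n x - hgt (gaussWin o lam) A n (lam / 2) c) ^ 2)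
    ≤ ENNReal.ofReal C * wsum A n (K' * S) c ∧
  ENNReal.ofReal
      ((smoothInd A lam (linePt n c o) - hgt (gaussWin o lam) A n (lam / 2) c) ^ 2 * S ^ (d - 1))
    ≤ ENNReal.ofReal C * wsum A n (K' * S) c

/-! ## F. Local inequality -/

def LocalIneq : Prop := ∀ d : ℕ, 2 ≤ d →
  ∃ (C : ℝ) (W : Set (Pt d) → ℤ → (Fin d → ℤ) → ℝ≥0∞), 0 < C ∧
  (∀ A : Set (Pt d), MeasurableSet A → volume A < ∞ →
    ∑' (k : ℤ) (z : Fin d → ℤ), ENNReal.ofReal (((2 : ℝ) ^ k) ^ (d - 1)) * W A k z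
      ≤ ENNReal.ofReal C * gper A) ∧
  (∀ f : Pt d → ℝ, Measurable f → Integrable f → (∀ x, 0 ≤ f x) →
    ∀ (k : ℤ) (z : Fin d → ℤ) (c : Pt d) (ρ : ℝ), InClass k z c ρ →
    ∃ (c' : Pt d) (ρ' : ℝ), Metric.ball c ρ ⊆ Metric.ball c' ρ' ∧ 2 * ρ ≤ ρ' ∧
      (bavg f c' ρ' < bavg f c ρ →
        ENNReal.ofReal (|bavg f c ρ - bavg f (classPt k z) ((2 : ℝ) ^ k / 4)| +
            |bavg f c' ρ' - bavg f (classPt k z) ((2 : ℝ) ^ k / 4)|)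
          ≤ ∫⁻ s in Ioi (0 : ℝ), W {x | s < f x} k z))

/-! ## G. Variation bound -/

def MaxBound : Prop := ∀ d : ℕ, 2 ≤ d → ∃ C : ℝ, ∀ (f : Pt d → ℝ) (G : Fin d → Pt d → ℝ),
  Integrable f → Measurable f → (∀ i, Integrable (G i) ∧ IsWeakPartial f (G i) i) →
  (∀ᵐ x, maxFn f x < ∞) ∧ LocallyIntegrable (fun x => (maxFn f x).toReal) ∧
  ∀ i : Fin d,
    (∀ (φ : Pt d → ℝ) (M : ℝ), ContDiff ℝ (⊤ : ℕ∞) φ → HasCompactSupport φ → (∀ x, |φ x| ≤ M) →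
      |∫ x, (maxFn f x).toReal * fderiv ℝ φ x (EuclideanSpace.single i (1 : ℝ))|
        ≤ C * M * ∫ x, gradNorm G x) ∧
    (∀ η : ℝ, 0 < η → ∃ L : ℝ, ∀ (φ : Pt d → ℝ) (M : ℝ), ContDiff ℝ (⊤ : ℕ∞) φ →
      HasCompactSupport φ → (∀ x, |φ x| ≤ M) →
      |∫ x, (maxFn f x).toReal * fderiv ℝ φ x (EuclideanSpace.single i (1 : ℝ))|
        ≤ L * (∫ x, |φ x|) + η * M)

/-! ## H. Absolute continuity and the result -/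

def FunctionalToGrad : Prop := ∀ (d : ℕ) (u : Pt d → ℝ) (i : Fin d) (C₀ : ℝ), 0 ≤ C₀ →
  LocallyIntegrable u →
  (∀ (φ : Pt d → ℝ) (M : ℝ), ContDiff ℝ (⊤ : ℕ∞) φ → HasCompactSupport φ → (∀ x, |φ x| ≤ M) →
    |∫ x, u x * fderiv ℝ φ x (EuclideanSpace.single i (1 : ℝ))| ≤ C₀ * M) →
  (∀ η : ℝ, 0 < η → ∃ L : ℝ, ∀ (φ : Pt d → ℝ) (M : ℝ), ContDiff ℝ (⊤ : ℕ∞) φ →
    HasCompactSupport φ → (∀ x, |φ x| ≤ M) →
    |∫ x, u x * fderiv ℝ φ x (EuclideanSpace.single i (1 : ℝ))|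
      ≤ L * (∫ x, |φ x|) + η * M) →
  ∃ h : Pt d → ℝ, Integrable h ∧ IsWeakPartial u h i ∧ ∫ x, |h x| ≤ C₀

def MainResult : Prop := ∀ d : ℕ, 2 ≤ d → ∃ C : ℝ, ∀ (f : Pt d → ℝ) (G : Fin d → Pt d → ℝ),
  Integrable f → (∀ i, Integrable (G i) ∧ IsWeakPartial f (G i) i) →
  (∀ᵐ x, maxFn f x < ∞) ∧ LocallyIntegrable (fun x => (maxFn f x).toReal) ∧
  ∃ H : Fin d → Pt d → ℝ,
    (∀ i, Integrable (H i) ∧ IsWeakPartial (fun x => (maxFn f x).toReal) (H i) i) ∧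
    ∫ x, gradNorm H x ≤ C * ∫ x, gradNorm G x

end Vale.Agent.P137
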