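import Vale.Agent.P137.LocalDefs

/-! # P137, module F: elementary geometry -/

namespace Vale.Agent.P137

open MeasureTheory Set Filter Topology
open scoped RealInnerProductSpace ENNReal

variable {d : ℕ}

theorem inner_self_one {n : Pt d} (hn : ‖n‖ = 1) : ⟪n, n⟫ = 1 := by
  rw [real_inner_self_eq_norm_sq, hn, one_pow]

theorem inner_linePt {n : Pt d} (hn : ‖n‖ = 1) (x : Pt d) (t : ℝ) : ⟪linePt n x t, n⟫ = t := by
  rw [linePt, inner_add_left, real_inner_smul_left, inner_self_one hn]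
  ring

theorem linePt_inner (n x : Pt d) : linePt n x ⟪x, n⟫ = x := by
  simp [linePt]

theorem linePt_add_smul {n : Pt d} (hn : ‖n‖ = 1) (x : Pt d) (s t : ℝ) :
    linePt n (x + s • n) t = linePt n x t := by
  simp only [linePt, inner_add_left, real_inner_smul_left, inner_self_one hn]
  module

theorem linePt_linePt {n : Pt d} (hn : ‖n‖ = 1) (x : Pt d) (s t : ℝ) :
    linePt n (linePt n x s) t = linePt n x t :=
  linePt_add_smul hn x _ t

theorem linePt_eq (n x : Pt d) (t : ℝ) : linePt n x t = linePt n x 0 + t • n := by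
  simp only [linePt]
  module

theorem linePt_zero_sub (n x y : Pt d) :
    linePt n (x - y) 0 = linePt n x 0 - linePt n y 0 := by
  simp only [linePt, inner_sub_left]
  module

/-- Pythagoras in the frame `n`. -/
theorem norm_sq_split {n : Pt d} (hn : ‖n‖ = 1) (x : Pt d) :
    ‖x‖ ^ 2 = ‖linePt n x 0‖ ^ 2 + ⟪x, n⟫ ^ 2 := by
  have h : x = linePt n x 0 + ⟪x, n⟫ • n := by simp only [linePt]; module
  conv_lhs => rw [h]
  rw [norm_add_sq_real, real_inner_smul_right, inner_linePt hn]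
  simp [norm_smul, hn]

theorem norm_linePt_zero_le {n : Pt d} (hn : ‖n‖ = 1) (x : Pt d) : ‖linePt n x 0‖ ≤ ‖x‖ := by
  have := norm_sq_split hn x
  nlinarith [norm_nonneg x, norm_nonneg (linePt n x 0), sq_nonneg ⟪x, n⟫]

theorem abs_norm_linePt_sub_le {n ν : Pt d} (hn : ‖n‖ = 1) (hν : ‖ν‖ = 1) (u : Pt d) :
    |‖linePt n u 0‖ - ‖linePt ν u 0‖| ≤ 2 * ‖n - ν‖ * ‖u‖ := by
  refine (abs_norm_sub_norm_le _ _).trans ?_
  have e : linePt n u 0 - linePt ν u 0 = ⟪u, ν - n⟫ • n + ⟪u, ν⟫ • (ν - n) := by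
    simp only [linePt, inner_sub_right]
    module
  rw [e]
  refine (norm_add_le _ _).trans ?_
  rw [norm_smul, norm_smul, hn, mul_one, Real.norm_eq_abs, Real.norm_eq_abs, norm_sub_rev n ν]
  have h1 := abs_real_inner_le_norm u (ν - n)
  have h2 := abs_real_inner_le_norm u ν
  rw [hν, mul_one] at h2
  nlinarith [mul_le_mul_of_nonneg_right h2 (norm_nonneg (ν - n))]

theorem continuous_linePt (n : Pt d) (t : ℝ) : Continuous fun x => linePt n x t := by
  unfold linePt; fun_prop

theorem continuous_linePt_height (n x : Pt d) : Continuous fun t => linePt n x t := by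
  unfold linePt; fun_prop

theorem lineInv_cyl {n : Pt d} (hn : ‖n‖ = 1) (c : Pt d) (R : ℝ) : LineInv n (cyl n c R) := by
  intro x t
  simp [cyl, linePt_add_smul hn]

theorem measurableSet_cyl (n c : Pt d) (R : ℝ) : MeasurableSet (cyl n c R) := by
  have : Continuous fun x => ‖linePt n x 0 - linePt n c 0‖ :=
    ((continuous_linePt n 0).sub continuous_const).norm
  exact measurableSet_le this.measurable measurable_const

theorem measurableSet_slab (n : Pt d) : MeasurableSet (slab n) := by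
  have : Continuous fun x : Pt d => ⟪x, n⟫ := by fun_prop
  exact this.measurable measurableSet_Ico

theorem measurableSet_tube {n : Pt d} {P : Set (Pt d)} (hP : MeasurableSet P) (a b : ℝ) :
    MeasurableSet (tube n P a b) := by
  have : Continuous fun x : Pt d => ⟪x, n⟫ := by fun_prop
  exact hP.inter (this.measurable measurableSet_Icc)

theorem lineInv_mem {n : Pt d} {P : Set (Pt d)} (hP : LineInv n P) (x : Pt d) (t : ℝ) :
    linePt n x t ∈ P ↔ x ∈ P := hP x _

theorem volume_tube (hF : LineFubini) {n : Pt d} (hn : ‖n‖ = 1) {P : Set (Pt d)}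
    (hP : MeasurableSet P) (hL : LineInv n P) (a b : ℝ) :
    volume (tube n P a b) = ENNReal.ofReal (b - a) * volume (P ∩ slab n) := by
  have hT := measurableSet_tube (n := n) hP a b
  rw [← lintegral_indicator_one hT,
    hF d n hn _ (measurable_one.indicator hT)]
  have : ∀ x : Pt d, ∫⁻ t, (tube n P a b).indicator (1 : Pt d → ℝ≥0∞) (linePt n x t) =
      P.indicator (fun _ => ENNReal.ofReal (b - a)) x := by
    intro x
    by_cases hx : x ∈ P
    · have h' : (fun t => (tube n P a b).indicator (1 : Pt d → ℝ≥0∞) (linePt n x t)) =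
          (Icc a b).indicator 1 := by
        funext t
        by_cases ht : t ∈ Icc a b
        · have : linePt n x t ∈ tube n P a b :=
            ⟨(lineInv_mem hL x t).2 hx, by rw [inner_linePt hn]; exact ht⟩
          simp [ht, this]
        · have : linePt n x t ∉ tube n P a b := fun h => ht (by
            have := h.2
            rwa [inner_linePt hn] at this)
          simp [ht, this]
      rw [h', lintegral_indicator_one measurableSet_Icc, Real.volume_Icc,
        Set.indicator_of_mem hx]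
    · have : ∀ t, linePt n x t ∉ tube n P a b := fun t h => hx ((lineInv_mem hL x t).1 h.1)
      simp [this, hx]
  rw [setLIntegral_congr_fun (measurableSet_slab n) (fun x _ => this x),
    setLIntegral_indicator hP, setLIntegral_const]

/-- the volume of the unit ball. -/
noncomputable def unitVol (d : ℕ) : ℝ := (volume (Metric.ball (0 : Pt d) 1)).toReal

theorem unitVol_pos : 0 < unitVol d :=
  ENNReal.toReal_pos (Metric.measure_ball_pos volume _ one_pos).ne' measure_ball_lt_top.ne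

theorem toReal_volume_ball (c : Pt d) {r : ℝ} (hr : 0 < r) :
    (volume (Metric.ball c r)).toReal = r ^ d * unitVol d := by
  rw [Measure.addHaar_ball_of_pos volume c hr, ENNReal.toReal_mul,
    ENNReal.toReal_ofReal (by positivity), finrank_euclideanSpace_fin, unitVol]

theorem volume_closedBall_eq (c : Pt d) {r : ℝ} (hr : 0 ≤ r) :
    volume (Metric.closedBall c r) = ENNReal.ofReal (r ^ d * unitVol d) := by
  rw [Measure.addHaar_closedBall volume c hr, finrank_euclideanSpace_fin, unitVol,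
    ENNReal.ofReal_mul (by positivity), ENNReal.ofReal_toReal measure_ball_lt_top.ne]

/-- transversal area of a cylinder. -/
theorem area_cyl_le (hF : LineFubini) {n : Pt d} (hn : ‖n‖ = 1) (hd : 1 ≤ d) (c : Pt d)
    {R : ℝ} (hR : 0 < R) :
    volume (cyl n c R ∩ slab n) ≤ ENNReal.ofReal (2 ^ d * unitVol d * R ^ (d - 1)) := by
  have h := volume_tube hF hn (measurableSet_cyl n c R) (lineInv_cyl hn c R) 0 R
  have hsub : tube n (cyl n c R) 0 R ⊆ Metric.closedBall (linePt n c 0) (2 * R) := by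
    rintro y ⟨hy, ht⟩
    rw [Metric.mem_closedBall, dist_eq_norm]
    have e : y - linePt n c 0 = (linePt n y 0 - linePt n c 0) + ⟪y, n⟫ • n := by
      simp only [linePt]; module
    rw [e]
    refine (norm_add_le _ _).trans ?_
    rw [norm_smul, hn, Real.norm_eq_abs, abs_of_nonneg ht.1]
    have : ‖linePt n y 0 - linePt n c 0‖ ≤ R := hy
    linarith [ht.2]
  have h2 := measure_mono (μ := volume) hsub
  rw [h, sub_zero, volume_closedBall_eq _ (by linarith)] at h2
  have hR' : ENNReal.ofReal R ≠ 0 := by simp [hR]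
  refine (ENNReal.mul_le_mul_iff_right hR' ENNReal.ofReal_ne_top).1 (h2.trans (le_of_eq ?_))
  rw [← ENNReal.ofReal_mul hR.le]
  congr 1
  obtain ⟨m, rfl⟩ : ∃ m, d = m + 1 := ⟨d - 1, by omega⟩
  simp only [Nat.add_sub_cancel]
  ring

/-- geometry of the crescent. -/
theorem crescent_geom {K ρ : ℝ} {ν c y : Pt d} (hν : ‖ν‖ = 1) (hρ : 0 < ρ)
    (hy : y ∈ crescent K ν c ρ) :
    0 < ⟪y - botPt ν c ρ, ν⟫ ∧
      ‖linePt ν y 0 - linePt ν (botPt ν c ρ) 0‖ ^ 2 ≤ 2 * K * ρ * ⟪y - botPt ν c ρ, ν⟫ ∧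
      ⟪y - botPt ν c ρ, ν⟫ * ρ ≤ ‖linePt ν y 0 - linePt ν (botPt ν c ρ) 0‖ ^ 2 := by
  obtain ⟨h1, h2, h3⟩ := hy
  rw [Metric.mem_ball, dist_eq_norm] at h1 h2
  rw [not_lt] at h2
  set u := y - botPt ν c ρ with hu
  have e1 : y - bigCtr K ν c ρ = u - (K * ρ) • ν := by
    simp only [hu, botPt, bigCtr]; module
  have e2 : y - c = u - ρ • ν := by simp only [hu, botPt]; module
  have key : ∀ a : ℝ, ‖u - a • ν‖ ^ 2 = ‖u‖ ^ 2 - 2 * a * ⟪u, ν⟫ + a ^ 2 := by
    intro a
    rw [norm_sub_sq_real, real_inner_smul_right, norm_smul, hν, mul_one, Real.norm_eq_abs, sq_abs]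
    ring
  rw [e1] at h1
  rw [e2] at h2
  have hK : 0 ≤ K * ρ := (norm_nonneg _).trans h1.le
  have p1 : ‖u - (K * ρ) • ν‖ ^ 2 < (K * ρ) ^ 2 := by
    nlinarith [norm_nonneg (u - (K * ρ) • ν)]
  have p2 : ρ ^ 2 ≤ ‖u - ρ • ν‖ ^ 2 := by nlinarith
  rw [key] at p1 p2
  rw [← linePt_zero_sub, ← hu]
  have hs := norm_sq_split hν u
  have hpos : 0 < ⟪u, ν⟫ := by
    by_contra hc
    nlinarith [sq_nonneg ‖u‖, mul_nonpos_iff.2 (Or.inl ⟨hK, not_lt.1 hc⟩)]
  refine ⟨hpos, by nlinarith, by nlinarith⟩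

theorem volume_crescent_le (hF : LineFubini) {K ρ R : ℝ} {ν c : Pt d} (hν : ‖ν‖ = 1) (hd : 1 ≤ d)
    (hρ : 0 < ρ) (hR : 0 < R) :
    volume (crescent K ν c ρ ∩
        {y | ‖linePt ν y 0 - linePt ν (botPt ν c ρ) 0‖ ≤ R})
      ≤ ENNReal.ofReal (2 ^ d * unitVol d * R ^ (d + 1) / ρ) := by
  set x := botPt ν c ρ
  refine (measure_mono (t := tube ν (cyl ν x R) ⟪x, ν⟫ (⟪x, ν⟫ + R ^ 2 / ρ)) ?_).trans ?_
  · rintro y ⟨hy, hyR⟩
    obtain ⟨g1, -, g3⟩ := crescent_geom hν hρ hy
    refine ⟨hyR, ?_⟩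
    rw [inner_sub_left] at g1 g3
    have hyR' : ‖linePt ν y 0 - linePt ν x 0‖ ^ 2 ≤ R ^ 2 := by
      have : ‖linePt ν y 0 - linePt ν x 0‖ ≤ R := hyR
      nlinarith [norm_nonneg (linePt ν y 0 - linePt ν x 0)]
    have : ⟪y, ν⟫ - ⟪x, ν⟫ ≤ R ^ 2 / ρ := by
      rw [le_div_iff₀ hρ]; linarith
    exact ⟨by linarith, by linarith⟩
  · rw [volume_tube hF hν (measurableSet_cyl _ _ _) (lineInv_cyl hν _ _), add_sub_cancel_left]
    refine (mul_le_mul_right (area_cyl_le hF hν hd x hR) _).trans (le_of_eq ?_)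
    rw [← ENNReal.ofReal_mul (by positivity)]
    congr 1
    obtain ⟨m, rfl⟩ : ∃ m, d = m + 1 := ⟨d - 1, by omega⟩
    simp only [Nat.add_sub_cancel]
    field_simp
    ring

theorem efrac_nonneg (A : Set (Pt d)) (c : Pt d) (r : ℝ) : 0 ≤ efrac A c r := by
  unfold efrac; positivity

theorem efrac_le_one (A : Set (Pt d)) (c : Pt d) (r : ℝ) : efrac A c r ≤ 1 :=
  div_le_one_of_le₀ (ENNReal.toReal_mono measure_ball_lt_top.ne (measure_mono inter_subset_right))
    ENNReal.toReal_nonneg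

theorem efrac_compl {A : Set (Pt d)} (hA : MeasurableSet A) (c : Pt d) {r : ℝ} (hr : 0 < r) :
    efrac Aᶜ c r = 1 - efrac A c r := by
  have hV : (volume (Metric.ball c r)).toReal ≠ 0 := by
    rw [toReal_volume_ball c hr]
    exact (mul_pos (pow_pos hr d) unitVol_pos).ne'
  unfold efrac
  rw [eq_sub_iff_add_eq, ← add_div, div_eq_one_iff_eq hV, ← ENNReal.toReal_add
    (measure_ne_top_of_subset inter_subset_right measure_ball_lt_top.ne)
    (measure_ne_top_of_subset inter_subset_right measure_ball_lt_top.ne)]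
  congr 1
  rw [inter_comm Aᶜ, inter_comm A, ← Set.sdiff_eq, add_comm, measure_inter_add_sdiff _ hA]

theorem norm_gridPt_sub (s : ℝ) (z : Fin d → ℤ) (x : Pt d) (i : Fin d) :
    |s * (z i : ℝ) - x i| ≤ ‖gridPt s z - x‖ := by
  have := PiLp.norm_apply_le (gridPt s z - x) i
  simpa [gridPt] using this

/-- some grid point is near. -/
theorem exists_gridPt_near {s : ℝ} (hs : 0 < s) (x : Pt d) :
    ∃ z : Fin d → ℤ, ‖gridPt s z - x‖ ≤ (d + 1) * s := by
  refine ⟨fun i => ⌊x i / s⌋, ?_⟩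
  have h : ∀ i, |(gridPt s (fun i => ⌊x i / s⌋) - x) i| ≤ s := by
    intro i
    have h1 := Int.floor_le (x i / s)
    have h2 := Int.lt_floor_add_one (x i / s)
    rw [le_div_iff₀ hs] at h1
    rw [div_lt_iff₀ hs] at h2
    have e : (gridPt s (fun i => ⌊x i / s⌋) - x) i = s * (⌊x i / s⌋ : ℝ) - x i := by
      simp [gridPt]
    rw [e, abs_le]
    constructor <;> nlinarith
  rw [EuclideanSpace.norm_eq, Real.sqrt_le_left (by positivity)]
  calc ∑ i, ‖(gridPt s (fun i => ⌊x i / s⌋) - x) i‖ ^ 2 ≤ ∑ _i : Fin d, s ^ 2 := by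
        refine Finset.sum_le_sum fun i _ => ?_
        have := h i
        rw [Real.norm_eq_abs]
        exact pow_le_pow_left₀ (abs_nonneg _) this 2
    _ = d * s ^ 2 := by simp
    _ ≤ ((d + 1) * s) ^ 2 := by
        have : (0 : ℝ) ≤ d := Nat.cast_nonneg d
        nlinarith [sq_nonneg s]

end Vale.Agent.P137
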