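import Vale.Agent.P137.Gauss
import Vale.Agent.P137.LocalBase

/-! # P137, module F: comparison of directions at comparable scales -/

namespace Vale.Agent.P137

open MeasureTheory Set Filter Topology
open scoped RealInnerProductSpace ENNReal

variable {d : ℕ}

/-- constant comparing the excess at two comparable scales. -/
noncomputable def compConst (d : ℕ) (K L : ℝ) : ℝ :=
  (2 * K) ^ d * Real.exp (L ^ 2 / 30)

theorem compConst_pos (d : ℕ) {K : ℝ} (hK : 0 < K) (L : ℝ) : 0 < compConst d K L := by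
  unfold compConst; positivity

/-- the excess relative to a fixed direction increases, up to a constant, when the scale grows. -/
theorem excess_scale_le (A : Set (Pt d)) {N : Pt d} (hN : ‖N‖ ≤ 1) {S T K L l : ℝ} (c e : Pt d)
    (hS : 0 < S) (hST : 4 * S ≤ T) (hTK : T ≤ K * S) (hce : ‖c - e‖ ≤ L * S) (hl : 0 < l)
    (hlS : l ≤ S / 2) :
    excess A N S c l ≤ compConst d K L * excess A N T e l := by
  have hT : 0 < T := by linarith
  have hK : 0 < K := by nlinarith
  have hq : 0 < S ^ 2 - l ^ 2 := by nlinarith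
  have hq' : 0 < T ^ 2 - l ^ 2 := by nlinarith
  set R := √(S ^ 2 - l ^ 2) with hR_def
  set R' := √(T ^ 2 - l ^ 2) with hR'_def
  have hR : 0 < R := Real.sqrt_pos.2 hq
  have hR' : 0 < R' := Real.sqrt_pos.2 hq'
  have hRR : R < R' := Real.sqrt_lt_sqrt hq.le (by nlinarith)
  have hratio : R' / R ≤ 2 * K := by
    rw [div_le_iff₀ hR]
    have h1 : R' ≤ T := by
      rw [hR'_def, Real.sqrt_le_left hT.le]; nlinarith
    have h2 : S ≤ 2 * R := by
      have : S / 2 ≤ R := by rw [hR_def, Real.le_sqrt (by linarith) hq.le]; nlinarith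
      linarith
    nlinarith
  have hker : ∀ x, gauss R (c - x) ≤ compConst d K L * gauss R' (e - x) := by
    intro x
    rw [gauss_sub_comm R c x, gauss_sub_comm R' e x, compConst]
    refine (gaussDom d R R' x c e hR hRR).trans ?_
    refine mul_le_mul_of_nonneg_right (mul_le_mul (pow_le_pow_left₀ (by positivity) hratio d)
      (Real.exp_le_exp.2 ?_) (Real.exp_pos _).le (by positivity)) (gauss_nonneg hR'.le _)
    rw [Real.sq_sqrt hq.le, Real.sq_sqrt hq'.le,
      show T ^ 2 - l ^ 2 - (S ^ 2 - l ^ 2) = T ^ 2 - S ^ 2 by ring]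
    have h15 : 30 * S ^ 2 ≤ 2 * (T ^ 2 - S ^ 2) := by nlinarith
    have hn : ‖c - e‖ ^ 2 ≤ (L * S) ^ 2 := pow_le_pow_left₀ (norm_nonneg _) hce 2
    rw [div_le_div_iff₀ (by linarith [sq_pos_of_pos hS]) (by norm_num : (0 : ℝ) < 30)]
    nlinarith [mul_le_mul_of_nonneg_left h15 (sq_nonneg L)]
  have hd0 : ∀ x, 0 ≤ defect A N l x := fun x => by
    unfold defect
    nlinarith [real_inner_le_norm (gradInd A l x) N, norm_nonneg (gradInd A l x), norm_nonneg N]
  have hcd : Continuous (defect A N l) :=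
    (continuous_gradInd A hl).norm.sub ((continuous_gradInd A hl).inner continuous_const)
  have hbd : ∀ x, |defect A N l x| ≤ 2 * (√d / l) := fun x => by
    rw [abs_of_nonneg (hd0 x)]
    unfold defect
    have h1 := norm_gradInd_le A hl x
    have h2 := neg_le_of_abs_le (abs_real_inner_le_norm (gradInd A l x) N)
    nlinarith [norm_nonneg (gradInd A l x), norm_nonneg N]
  unfold excess
  calc S ^ d * ∫ x, gauss R (c - x) * defect A N l x
      ≤ T ^ d * ∫ x, compConst d K L * (gauss R' (e - x) * defect A N l x) := by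
        refine mul_le_mul (pow_le_pow_left₀ hS.le (by linarith) d) ?_
          (integral_nonneg fun x => mul_nonneg (gauss_nonneg hR.le _) (hd0 x)) (by positivity)
        refine integral_mono (integrable_gauss_mul_bdd hR c hcd hbd)
          ((integrable_gauss_mul_bdd hR' e hcd hbd).const_mul _) fun x => ?_
        exact (mul_le_mul_of_nonneg_right (hker x) (hd0 x)).trans_eq (mul_assoc _ _ _)
    _ = compConst d K L * (T ^ d * ∫ x, gauss R' (e - x) * defect A N l x) := by
        rw [integral_const_mul]; ring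

/-- defects relative to two unit directions. -/
theorem defect_swap (A : Set (Pt d)) {n N : Pt d} (hn : ‖n‖ = 1) (hN : ‖N‖ = 1) (l : ℝ)
    (x : Pt d) :
    defect A n l x ≤ 2 * defect A N l x + ‖n - N‖ ^ 2 * ‖gradInd A l x‖ := by
  set g := gradInd A l x with hg
  unfold defect
  rw [← hg]
  have key : ∀ m : Pt d, ‖m‖ = 1 →
      ‖g - ‖g‖ • m‖ ^ 2 = 2 * ‖g‖ * (‖g‖ - ⟪g, m⟫) := by
    intro m hm
    rw [norm_sub_sq_real, norm_smul, norm_norm, hm, inner_smul_right]
    ring
  rcases eq_or_ne g 0 with h0 | h0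
  · simp [h0]
  have hpos : 0 < ‖g‖ := norm_pos_iff.2 h0
  have tri : ‖g - ‖g‖ • n‖ ≤ ‖g - ‖g‖ • N‖ + ‖g‖ * ‖n - N‖ := by
    have e : g - ‖g‖ • n = (g - ‖g‖ • N) + ‖g‖ • (N - n) := by module
    rw [e]
    refine (norm_add_le _ _).trans (le_of_eq ?_)
    rw [norm_smul, norm_norm, norm_sub_rev N n]
  have h2 : ‖g - ‖g‖ • n‖ ^ 2 ≤ 2 * ‖g - ‖g‖ • N‖ ^ 2 + 2 * (‖g‖ * ‖n - N‖) ^ 2 := by
    have := pow_le_pow_left₀ (norm_nonneg _) tri 2
    nlinarith [sq_nonneg (‖g - ‖g‖ • N‖ - ‖g‖ * ‖n - N‖)]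
  rw [key n hn, key N hN] at h2
  have h3 : ‖g‖ * (‖g‖ - ⟪g, n⟫) ≤ ‖g‖ * (2 * (‖g‖ - ⟪g, N⟫) + ‖n - N‖ ^ 2 * ‖g‖) := by
    nlinarith
  exact le_of_mul_le_mul_left h3 hpos

/-- change of the direction in the excess. -/
theorem excess_dir_le {A : Set (Pt d)} (hA : MeasurableSet A) {n N : Pt d} (hn : ‖n‖ = 1)
    (hN : ‖N‖ = 1) {S l : ℝ} (hl : 0 < l) (hlS : l < S) (c : Pt d) :
    excess A n S c l ≤
      (2 + ‖n - N‖ ^ 2) * excess A N S c l + ‖n - N‖ ^ 2 * √d * S ^ d / S := by
  have hS : 0 < S := hl.trans hlS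
  have hR : 0 < √(S ^ 2 - l ^ 2) := Real.sqrt_pos.2 (by nlinarith)
  have hcont := continuous_gradInd A hl
  have hb : ∀ x, |‖gradInd A l x‖| ≤ √d / l := fun x => by
    rw [abs_norm]; exact norm_gradInd_le A hl x
  have hd : ∀ m : Pt d, ‖m‖ = 1 → ∀ x, |defect A m l x| ≤ 2 * (√d / l) := fun m hm x => by
    unfold defect
    have h1 := norm_gradInd_le A hl x
    have h2 := abs_le.1 (abs_real_inner_le_norm (gradInd A l x) m)
    rw [hm, mul_one] at h2
    rw [abs_le]
    constructor <;> nlinarith [norm_nonneg (gradInd A l x), h2.1, h2.2]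
  have i1 := integrable_gauss_mul_bdd (F := defect A n l) hR c
    (hcont.norm.sub (hcont.inner continuous_const)) (hd n hn)
  have i2 := integrable_gauss_mul_bdd (F := defect A N l) hR c
    (hcont.norm.sub (hcont.inner continuous_const)) (hd N hN)
  have i3 := integrable_gauss_mul_bdd (F := fun x => ‖gradInd A l x‖) hR c hcont.norm hb
  have hm : (∫ x, gauss √(S ^ 2 - l ^ 2) (c - x) * defect A n l x) ≤
      2 * (∫ x, gauss √(S ^ 2 - l ^ 2) (c - x) * defect A N l x) +
      ‖n - N‖ ^ 2 * ∫ x, gauss √(S ^ 2 - l ^ 2) (c - x) * ‖gradInd A l x‖ := by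
    rw [← integral_const_mul, ← integral_const_mul,
      ← integral_add (i2.const_mul _) (i3.const_mul _)]
    refine integral_mono i1 ((i2.const_mul _).add (i3.const_mul _)) fun x => ?_
    refine (mul_le_mul_of_nonneg_left (defect_swap A hn hN l x)
      (gauss_nonneg hR.le _)).trans_eq ?_
    ring
  have hnorm : S ^ d * (∫ x, gauss √(S ^ 2 - l ^ 2) (c - x) * ‖gradInd A l x‖) ≤
      excess A N S c l + √d * S ^ d / S := by
    rw [excess_eq hA N hl hlS]
    have h1 := norm_gradInd_le A hS c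
    have h2 := real_inner_le_norm (gradInd A S c) N
    rw [hN, mul_one] at h2
    have h3 : S ^ d * ⟪gradInd A S c, N⟫ ≤ S ^ d * (√d / S) :=
      mul_le_mul_of_nonneg_left (h2.trans h1) (by positivity)
    have h4 : S ^ d * (√d / S) = √d * S ^ d / S := by ring
    nlinarith
  have h5 := mul_le_mul_of_nonneg_left hm (pow_nonneg hS.le d)
  have h6 := mul_le_mul_of_nonneg_left hnorm (sq_nonneg ‖n - N‖)
  unfold excess at h6 ⊢
  have e : ‖n - N‖ ^ 2 * √d * S ^ d / S = ‖n - N‖ ^ 2 * (√d * S ^ d / S) := by ring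
  nlinarith

/-- two unit vectors aligned with a large gradient. -/
theorem aligned_diff_le {A : Set (Pt d)} (hA : MeasurableSet A) {n N : Pt d} {S c₀ l : ℝ}
    {c : Pt d} (hn : Aligned A n S c) (hN : ‖N‖ = 1) (hc₀ : 0 < c₀)
    (hflux : c₀ ≤ S * ‖gradInd A S c‖) (hl : 0 < l) (hlS : l < S) :
    ‖n - N‖ ^ 2 * (S ^ d / S) ≤ 2 / c₀ * excess A N S c l := by
  have hS : 0 < S := hl.trans hlS
  set g := gradInd A S c with hg
  have hgn : g = ‖g‖ • n := by
    have h := hn.2
    have : ‖g - ‖g‖ • n‖ ^ 2 = 0 := by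
      rw [norm_sub_sq_real, norm_smul, norm_norm, hn.1, inner_smul_right, h]
      ring
    exact sub_eq_zero.1 (norm_eq_zero.1 (pow_eq_zero_iff two_ne_zero |>.1 this))
  have h1 : S ^ d * (‖g‖ - ⟪g, N⟫) ≤ excess A N S c l := by
    rw [excess_eq hA N hl hlS]
    refine mul_le_mul_of_nonneg_left (sub_le_sub_right ?_ _) (by positivity)
    exact norm_gradInd_conv_le hA hl hlS c
  have h2 : ‖g‖ - ⟪g, N⟫ = ‖g‖ * (‖n - N‖ ^ 2 / 2) := by
    conv_lhs => arg 2; rw [hgn]
    rw [norm_sub_sq_real, hn.1, hN, inner_smul_left]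
    simp only [conj_trivial]
    ring
  rw [h2] at h1
  have h3 : c₀ * (‖n - N‖ ^ 2 * (S ^ d / S)) ≤ 2 * excess A N S c l := by
    calc c₀ * (‖n - N‖ ^ 2 * (S ^ d / S))
        ≤ (S * ‖g‖) * (‖n - N‖ ^ 2 * (S ^ d / S)) := by
          exact mul_le_mul_of_nonneg_right hflux (by positivity)
      _ = 2 * (S ^ d * (‖g‖ * (‖n - N‖ ^ 2 / 2))) := by field_simp
      _ ≤ _ := by linarith
  rw [div_mul_eq_mul_div, le_div_iff₀ hc₀]
  linarith

theorem exists_aligned (A : Set (Pt d)) (S : ℝ) (c : Pt d) {e : Pt d} (he : ‖e‖ = 1) :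
    Aligned A (cellDir A S c e) S c := by
  unfold cellDir Aligned
  by_cases h : gradInd A S c = 0
  · rw [if_pos h, h]; simp [he]
  · rw [if_neg h]
    have hp : ‖gradInd A S c‖ ≠ 0 := norm_ne_zero_iff.2 h
    refine ⟨?_, ?_⟩
    · rw [norm_smul, norm_inv, norm_norm, inv_mul_cancel₀ hp]
    · rw [inner_smul_right, real_inner_self_eq_norm_sq]
      field_simp

theorem term_le_wexc (A : Set (Pt d)) (S : ℝ) (c : Pt d) (j : ℕ) :
    ENNReal.ofReal (exc A S c ((1 / 2) ^ j * (S / 8))) ≤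
      ENNReal.ofReal ((4 / 3) ^ j) * wexc A S c := by
  refine le_trans (le_of_eq ?_) (mul_le_mul_right (ENNReal.le_tsum j) _)
  rw [← ENNReal.ofReal_mul (by positivity), ← mul_assoc, ← mul_pow]
  norm_num

theorem tsum_geom_three_quarter :
    ∑' j : ℕ, ENNReal.ofReal ((3 / 4 : ℝ) ^ j) = ENNReal.ofReal 4 := by
  rw [← ENNReal.ofReal_tsum_of_nonneg (fun j => by positivity)
    (summable_geometric_of_lt_one (by norm_num) (by norm_num)),
    tsum_geometric_of_lt_one (by norm_num) (by norm_num)]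
  norm_num

theorem alignLemma : AlignLemma := by
  intro d K c₀ hK hc₀
  have hK0 : 0 < K := lt_of_lt_of_le one_pos hK
  obtain ⟨p, hp⟩ := pow_unbounded_of_one_lt (K ^ 2) (by norm_num : (1 : ℝ) < 2)
  set Cb := 2 / c₀ * compConst d K (2 * K) * (4 / 3) ^ p with hCb_def
  have hCb : 0 < Cb := by
    have := compConst_pos d hK0 (2 * K)
    positivity
  set Ca := 6 * compConst d (K ^ 2) (K ^ 2) * (4 / 3) ^ p +
    4 * (√d * K ^ d * K) * Cb with hCa_def
  have hCa : 0 < Ca := by
    have := compConst_pos d (pow_pos hK0 2) (K ^ 2)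
    positivity
  refine ⟨max Ca Cb, lt_max_of_lt_left hCa, ?_⟩
  intro A hA n S S' c c' c'' hS hSS' hS'S hcc hcc'' hal hflux S'' h4' h4 hS''K
  have hS' : 0 < S' := by nlinarith
  have hS'' : 0 < S'' := by linarith
  have hd : 1 ≤ d := by
    rcases Nat.eq_zero_or_pos d with rfl | h
    · have := hal.1
      rw [Subsingleton.elim n 0, norm_zero] at this
      exact absurd this zero_ne_one
    · exact h
  -- the direction change
  have hb : ∀ N : Pt d, Aligned A N S'' c'' →
      ENNReal.ofReal (‖n - N‖ ^ 2 * S ^ (d - 1)) ≤ ENNReal.ofReal Cb * wexc A S'' c'' := by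
    intro N hN
    set l := (1 / 2 : ℝ) ^ p * (S'' / 8) with hl_def
    have hl : 0 < l := by positivity
    have hlS : l ≤ S / 2 := by
      rw [hl_def, div_pow, one_pow, div_mul_eq_mul_div, one_mul, div_le_iff₀ (by positivity)]
      nlinarith
    have h1 := aligned_diff_le hA hal hN.1 hc₀ hflux hl (by linarith)
    have h2 := excess_scale_le A hN.1.le c c'' hS h4 hS''K (L := 2 * K) (by
      calc ‖c - c''‖ ≤ ‖c - c'‖ + ‖c' - c''‖ := norm_sub_le_norm_sub_add_norm_sub _ _ _
        _ ≤ 2 * K * S := by rw [norm_sub_rev c' c'']; linarith) hl hlS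
    have h3 := (excessBasics d A hA N S'' c'' hS'' hN.1).2.2 hN l hl (by linarith)
    rw [h3] at h2
    have hpow : S ^ d / S = S ^ (d - 1) := by
      obtain ⟨m, rfl⟩ : ∃ m, d = m + 1 := ⟨d - 1, by omega⟩
      rw [pow_succ, Nat.add_sub_cancel]; field_simp
    rw [hpow] at h1
    have hcc0 : 0 ≤ 2 / c₀ := by positivity
    refine (ENNReal.ofReal_le_ofReal (h1.trans (mul_le_mul_of_nonneg_left h2 hcc0))).trans ?_
    rw [← mul_assoc, ENNReal.ofReal_mul
      (mul_nonneg hcc0 (compConst_pos d hK0 (2 * K)).le)]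
    refine (mul_le_mul_right (term_le_wexc A S'' c'' p) _).trans (le_of_eq ?_)
    rw [← mul_assoc, ← ENNReal.ofReal_mul (mul_nonneg hcc0 (compConst_pos d hK0 (2 * K)).le)]
  refine ⟨?_, fun N hN => (hb N hN).trans
    (mul_le_mul_left (ENNReal.ofReal_le_ofReal (le_max_right _ _)) _)⟩
  -- the excess at the smaller scale
  set N := cellDir A S'' c'' n with hN_def
  have hN : Aligned A N S'' c'' := exists_aligned A S'' c'' hal.1
  set α := ‖n - N‖ ^ 2 with hα
  have hα4 : α ≤ 4 := by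
    have h := norm_sub_le n N
    rw [hal.1, hN.1] at h
    have := pow_le_pow_left₀ (norm_nonneg _) h 2
    rw [hα]; linarith
  set D := compConst d (K ^ 2) (K ^ 2) with hD
  have hD0 : 0 < D := compConst_pos d (pow_pos hK0 2) _
  have hterm : ∀ j : ℕ, ENNReal.ofReal ((3 / 4) ^ j * excess A n S' c' ((1 / 2) ^ j * (S' / 8))) ≤
      ENNReal.ofReal (6 * D * (4 / 3) ^ p) *
        ENNReal.ofReal ((3 / 4) ^ (j + p) * exc A S'' c'' ((1 / 2) ^ (j + p) * (S'' / 8))) +
      ENNReal.ofReal ((3 / 4) ^ j) * ENNReal.ofReal (√d * K ^ d * K * (α * S ^ (d - 1))) := by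
    intro j
    set l := (1 / 2 : ℝ) ^ j * (S' / 8) with hl_def
    set l'' := (1 / 2 : ℝ) ^ (j + p) * (S'' / 8) with hl''_def
    have hl : 0 < l := by positivity
    have hl'' : 0 < l'' := by positivity
    have hlS : l ≤ S' / 8 :=
      mul_le_of_le_one_left (by positivity) (pow_le_one₀ (by norm_num) (by norm_num))
    have hll : l'' ≤ l := by
      rw [hl''_def, hl_def, pow_add, mul_assoc]
      refine mul_le_mul_of_nonneg_left ?_ (by positivity)
      rw [div_pow, one_pow, div_mul_eq_mul_div, one_mul, div_le_iff₀ (by positivity)]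
      nlinarith
    have h1 := excess_dir_le hA hal.1 hN.1 hl (by linarith : l < S') c'
    rw [← hα] at h1
    have h2 := excess_scale_le A hN.1.le c' c'' hS' h4' (K := K ^ 2) (L := K ^ 2)
      (by nlinarith) (by rw [norm_sub_rev]; nlinarith) hl (by linarith)
    have hEB := excessBasics d A hA N S'' c'' hS'' hN.1
    have h3 := hEB.2.1 l'' l hl'' hll (by linarith)
    rw [hEB.2.2 hN l'' hl'' (by linarith)] at h3
    have he0 : 0 ≤ exc A S'' c'' l'' := by
      rw [← hEB.2.2 hN l'' hl'' (by linarith)]; exact (hEB.1 l'' hl'' (by linarith)).1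
    have h4e : (2 + α) * excess A N S' c' l ≤ 6 * D * exc A S'' c'' l'' := by
      refine (mul_le_mul (by linarith : 2 + α ≤ 6)
        (h2.trans (mul_le_mul_of_nonneg_left h3 hD0.le))
        (excess_nonneg A hN.1.le hS'.le c' l) (by norm_num)).trans_eq (mul_assoc _ _ _).symm
    have h5 : α * √d * S' ^ d / S' ≤ √d * K ^ d * K * (α * S ^ (d - 1)) := by
      have e : α * √d * S' ^ d / S' = √d * α * S' ^ (d - 1) := by
        obtain ⟨m, rfl⟩ : ∃ m, d = m + 1 := ⟨d - 1, by omega⟩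
        rw [pow_succ, Nat.add_sub_cancel]; field_simp
      rw [e]
      have h6 : S' ^ (d - 1) ≤ K ^ d * K * S ^ (d - 1) := by
        refine (pow_le_pow_left₀ hS'.le hS'S (d - 1)).trans ?_
        rw [mul_pow]
        refine mul_le_mul_of_nonneg_right ?_ (by positivity)
        exact (pow_le_pow_right₀ hK (Nat.sub_le d 1)).trans (le_mul_of_one_le_right (by positivity) hK)
      refine (mul_le_mul_of_nonneg_left h6 (by positivity)).trans_eq ?_
      ring
    have e : (3 / 4 : ℝ) ^ j * (6 * D * exc A S'' c'' l'') =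
        6 * D * (4 / 3) ^ p * ((3 / 4) ^ (j + p) * exc A S'' c'' l'') := by
      rw [pow_add, show (6 * D * (4 / 3 : ℝ) ^ p * ((3 / 4) ^ j * (3 / 4) ^ p * exc A S'' c'' l''))
        = (3 / 4) ^ j * (6 * D * exc A S'' c'' l'') * ((4 / 3 : ℝ) ^ p * (3 / 4) ^ p) by ring,
        ← mul_pow]
      norm_num
    refine (ENNReal.ofReal_le_ofReal
      (mul_le_mul_of_nonneg_left (h1.trans (add_le_add h4e h5)) (by positivity))).trans ?_
    rw [mul_add, e]
    refine ENNReal.ofReal_add_le.trans (le_of_eq ?_)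
    rw [ENNReal.ofReal_mul (by positivity : (0 : ℝ) ≤ 6 * D * (4 / 3) ^ p),
      ENNReal.ofReal_mul (by positivity : (0 : ℝ) ≤ (3 / 4) ^ j)]
  refine le_trans (ENNReal.tsum_le_tsum hterm) ?_
  rw [ENNReal.tsum_add, ENNReal.tsum_mul_left, ENNReal.tsum_mul_right, tsum_geom_three_quarter]
  have hA1 : ∑' j : ℕ, ENNReal.ofReal
      ((3 / 4) ^ (j + p) * exc A S'' c'' ((1 / 2) ^ (j + p) * (S'' / 8))) ≤ wexc A S'' c'' :=
    ENNReal.tsum_comp_le_tsum_of_injective (add_left_injective p)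
      fun i => ENNReal.ofReal ((3 / 4) ^ i * exc A S'' c'' ((1 / 2) ^ i * (S'' / 8)))
  have hA2 : ENNReal.ofReal 4 * ENNReal.ofReal (√d * K ^ d * K * (α * S ^ (d - 1))) ≤
      ENNReal.ofReal (4 * (√d * K ^ d * K) * Cb) * wexc A S'' c'' := by
    rw [ENNReal.ofReal_mul (by positivity : (0 : ℝ) ≤ √d * K ^ d * K), ← mul_assoc,
      ← ENNReal.ofReal_mul (by norm_num : (0 : ℝ) ≤ 4),
      ENNReal.ofReal_mul (by positivity : (0 : ℝ) ≤ 4 * (√d * K ^ d * K))]
    exact (mul_le_mul_right (hb N hN) _).trans_eq (mul_assoc _ _ _).symm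
  refine (add_le_add (mul_le_mul_right hA1 _) hA2).trans ?_
  rw [← add_mul, ← ENNReal.ofReal_add (by positivity) (by positivity)]
  exact mul_le_mul_left (ENNReal.ofReal_le_ofReal (le_max_left _ _)) _

end Vale.Agent.P137
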