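import Vale.Agent.P137.Gauss
import Vale.Agent.P137.LocalBase

/-! # P137, module F: layers away from the crescent regime -/

namespace Vale.Agent.P137

open MeasureTheory Set Filter Topology
open scoped RealInnerProductSpace ENNReal

variable {d : ℕ}

namespace Regime

theorem wsum_compl {A : Set (Pt d)} (hA : MeasurableSet A) (n : Pt d) {S : ℝ} (hS : 0 < S)
    (c : Pt d) : wsum Aᶜ (-n) S c = wsum A n S c := by
  refine tsum_congr fun j => ?_
  have hl : 0 < (1 / 2 : ℝ) ^ j * (S / 8) := by positivity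
  simp only [excess, defect, gradInd_compl hA hl, norm_neg, inner_neg_neg]

theorem profileAt_compl {A : Set (Pt d)} (hA : MeasurableSet A) {n : Pt d} {S : ℝ} {c : Pt d}
    {R ε δ b : ℝ} (hδS : 0 < δ * S) (h : ProfileAt A n S c R ε δ b) :
    ProfileAt Aᶜ (-n) S c R ε δ (-b) := by
  intro y hy
  obtain ⟨h1, h2⟩ := h y hy
  rw [smoothInd_compl hA hδS, inner_neg_right]
  refine ⟨fun h' => ?_, fun h' => ?_⟩
  · have := h2 (by linarith)
    linarith
  · have := h1 (by linarith)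
    linarith

/-- few points of the layer lie below the profile. -/
theorem low_volume {C θ : ℝ} (hC : 0 < C) {K t M ε δ r w b h : ℝ}
    (hV : ∀ (A : Set (Pt d)), MeasurableSet A → ∀ (n : Pt d), ‖n‖ = 1 →
      ∀ (S : ℝ) (c : Pt d) (l₀ a b u u' : ℝ) (P : Set (Pt d)),
      0 < S → 0 < l₀ → l₀ ≤ θ * S → a ≤ b → b ≤ u → u + t / (4 * M) * S ≤ u' →
      MeasurableSet P → LineInv n P → tube n P a u' ⊆ Metric.closedBall c (1 * S) →
      (∀ y ∈ tube n P u u', smoothInd A l₀ y ≤ 1 / 5) →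
      volume (A ∩ tube n P a b) ≤ ENNReal.ofReal (C * S) * wsum A n S c)
    {A : Set (Pt d)} (hA : MeasurableSet A) {q n : Pt d} (hn : ‖n‖ = 1) (hr : 0 < r)
    (hK : 1 ≤ K) (ht : 0 < t) (ht1 : t ≤ 1) (hM : 20 * K ≤ M) (hεM : ε ≤ t / (4 * M))
    (hε5 : ε ≤ 1 / 5) (hδ : 0 < δ) (hδθ : δ ≤ θ) (hw : 0 ≤ w) (hd : 1 ≤ d)
    (hsum : wsum A n (M * r) q ≤ ENNReal.ofReal (w * r ^ (d - 1)))
    (hprof : ProfileAt A n (M * r) q 1 ε δ b) (hh : |h| ≤ 7 * K * r) (hhb : h + t * r / 2 ≤ b) :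
    (volume (A ∩ Metric.closedBall q (5 * K * r) ∩ {y | ⟪y - q, n⟫ ≤ h})).toReal
      ≤ C * M * w * r ^ d := by
  have hM0 : 0 < M := by linarith
  have hS : 0 < M * r := by positivity
  have hεS : ε * (M * r) ≤ t * r / 4 := by
    have := mul_le_mul_of_nonneg_right hεM hS.le
    rwa [show t / (4 * M) * (M * r) = t * r / 4 by field_simp] at this
  set P := cyl n q (5 * K * r) with hP_def
  set o := ⟪q, n⟫ with ho
  have hsub : A ∩ Metric.closedBall q (5 * K * r) ∩ {y | ⟪y - q, n⟫ ≤ h} ⊆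
      A ∩ tube n P (o - 8 * K * r) (o + h) := by
    rintro y ⟨⟨hyA, hyb⟩, hyh⟩
    rw [Metric.mem_closedBall, dist_eq_norm] at hyb
    have hyh' : ⟪y - q, n⟫ ≤ h := hyh
    refine ⟨hyA, ?_, ?_, ?_⟩
    · show ‖linePt n y 0 - linePt n q 0‖ ≤ 5 * K * r
      rw [← linePt_zero_sub]
      exact (norm_linePt_zero_le hn _).trans hyb
    · have := (abs_le.1 (abs_real_inner_le_norm (y - q) n)).1
      rw [hn, mul_one, inner_sub_left] at this
      nlinarith
    · rw [inner_sub_left] at hyh'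
      linarith
  have hh' := abs_le.1 hh
  have htube : tube n P (o - 8 * K * r) (o + h + t * r / 4) ⊆
      Metric.closedBall q (1 * (M * r)) := by
    rintro y ⟨hyP, hy1, hy2⟩
    rw [Metric.mem_closedBall, dist_eq_norm, one_mul]
    have e := norm_sq_split hn (y - q)
    rw [linePt_zero_sub] at e
    have h1 : ‖linePt n y 0 - linePt n q 0‖ ≤ 5 * K * r := hyP
    have h2 : |⟪y - q, n⟫| ≤ 8 * K * r := by
      rw [inner_sub_left, abs_le]
      constructor <;> nlinarith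
    have h3 : ‖y - q‖ ^ 2 ≤ (13 * K * r) ^ 2 := by
      rw [e, ← sq_abs ⟪y - q, n⟫]
      nlinarith [pow_le_pow_left₀ (norm_nonneg _) h1 2, pow_le_pow_left₀ (abs_nonneg _) h2 2]
    have h4 : ‖y - q‖ ≤ 13 * K * r := (abs_le_of_sq_le_sq h3 (by positivity)).trans' (le_abs_self _)
    exact h4.trans (mul_le_mul_of_nonneg_right (by linarith) hr.le)
  have hsmall : ∀ y ∈ tube n P (o + h) (o + h + t * r / 4),
      smoothInd A (δ * (M * r)) y ≤ 1 / 5 := by
    intro y hy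
    have hyball : y ∈ Metric.closedBall q (1 * (M * r)) :=
      htube ⟨hy.1, by nlinarith [hy.2.1], hy.2.2⟩
    refine ((hprof y hyball).2 ?_).trans hε5
    rw [inner_sub_left]
    linarith [hy.2.2]
  have hmain := hV A hA n hn (M * r) q (δ * (M * r)) (o - 8 * K * r) (o + h) (o + h)
    (o + h + t * r / 4) P hS (by positivity) (mul_le_mul_of_nonneg_right hδθ hS.le)
    (by nlinarith) le_rfl (le_of_eq (by field_simp)) (measurableSet_cyl n q _)
    (lineInv_cyl hn q _) htube hsmall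
  refine ENNReal.toReal_le_of_le_ofReal (by positivity) ?_
  refine ((measure_mono hsub).trans hmain).trans ?_
  refine (mul_le_mul_right hsum _).trans (le_of_eq ?_)
  rw [← ENNReal.ofReal_mul (by positivity)]
  congr 1
  obtain ⟨m, rfl⟩ : ∃ m, d = m + 1 := ⟨d - 1, by omega⟩
  simp only [Nat.add_sub_cancel]
  ring

/-- small volume gives small fraction. -/
theorem efrac_le {A : Set (Pt d)} {c : Pt d} {s r D : ℝ} {T : Set (Pt d)} (hr : 0 < r)
    (hs : r / 4 ≤ s) (hT : A ∩ Metric.ball c s ⊆ T) (hTfin : volume T ≠ ∞)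
    (hTv : (volume T).toReal ≤ D * r ^ d) : efrac A c s ≤ 4 ^ d * D / unitVol d := by
  have hs0 : 0 < s := by linarith
  have hu : 0 < unitVol d := unitVol_pos
  have h1 : (volume (A ∩ Metric.ball c s)).toReal ≤ D * r ^ d :=
    (ENNReal.toReal_mono hTfin (measure_mono hT)).trans hTv
  have h0 := ENNReal.toReal_nonneg (a := volume (A ∩ Metric.ball c s))
  rw [efrac, toReal_volume_ball c hs0, div_le_div_iff₀ (by positivity) hu]
  have h2 : r ^ d ≤ 4 ^ d * s ^ d := by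
    rw [← mul_pow]; exact pow_le_pow_left₀ hr.le (by linarith) d
  have hD : 0 ≤ D := by
    have := h0.trans h1
    exact (mul_nonneg_iff_of_pos_right (pow_pos hr d)).1 this
  calc (volume (A ∩ Metric.ball c s)).toReal * unitVol d ≤ D * r ^ d * unitVol d :=
        mul_le_mul_of_nonneg_right h1 hu.le
    _ ≤ D * (4 ^ d * s ^ d) * unitVol d := by gcongr
    _ = _ := by ring

/-- few points of the layer below a height that is below the profile. -/
def LowBound (A : Set (Pt d)) (q n : Pt d) (K r t b D : ℝ) : Prop :=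
  ∀ h, |h| ≤ 7 * K * r → h + t * r / 2 ≤ b →
    (volume (A ∩ Metric.closedBall q (5 * K * r) ∩ {y | ⟪y - q, n⟫ ≤ h})).toReal ≤ D * r ^ d

theorem high_of_low {A : Set (Pt d)} {q n : Pt d} {K r t b D h : ℝ}
    (hL : LowBound Aᶜ q (-n) K r t (-b) D) (h1 : |h| ≤ 7 * K * r) (h2 : b + t * r / 2 ≤ h) :
    (volume (Aᶜ ∩ Metric.closedBall q (5 * K * r) ∩ {y | h ≤ ⟪y - q, n⟫})).toReal ≤ D * r ^ d := by
  have h3 := hL (-h) (by rwa [abs_neg]) (by linarith)
  have e : {y | ⟪y - q, -n⟫ ≤ -h} = {y : Pt d | h ≤ ⟪y - q, n⟫} := by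
    ext y
    simp only [mem_ofPred_eq, inner_neg_right, neg_le_neg_iff]
  rwa [e] at h3

theorem inter_closedBall_ne_top (q : Pt d) (R : ℝ) (U V : Set (Pt d)) :
    volume (U ∩ Metric.closedBall q R ∩ V) ≠ ∞ :=
  ((measure_mono (inter_subset_left.trans inter_subset_right)).trans_lt
    measure_closedBall_lt_top).ne

theorem all_low {A : Set (Pt d)} {q n p : Pt d} {K r t b D h s : ℝ} (hr : 0 < r)
    (hL : LowBound A q n K r t b D) (h1 : |h| ≤ 7 * K * r) (h2 : h + t * r / 2 ≤ b)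
    (hs : r / 4 ≤ s) (hsT : Metric.ball p s ⊆ Metric.closedBall q (5 * K * r))
    (hall : ∀ y ∈ Metric.ball p s, ⟪y - q, n⟫ ≤ h) : efrac A p s ≤ 4 ^ d * D / unitVol d :=
  efrac_le hr hs (fun y hy => show y ∈ A ∩ Metric.closedBall q (5 * K * r) ∩
    {y | ⟪y - q, n⟫ ≤ h} from ⟨⟨hy.1, hsT hy.2⟩, hall y hy.2⟩)
    (inter_closedBall_ne_top _ _ _ _) (hL h h1 h2)

theorem all_high {A : Set (Pt d)} (hA : MeasurableSet A) {q n p : Pt d} {K r t b D h s : ℝ}
    (hr : 0 < r) (hL : LowBound Aᶜ q (-n) K r t (-b) D) (h1 : |h| ≤ 7 * K * r)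
    (h2 : b + t * r / 2 ≤ h) (hs : r / 4 ≤ s)
    (hsT : Metric.ball p s ⊆ Metric.closedBall q (5 * K * r))
    (hall : ∀ y ∈ Metric.ball p s, h ≤ ⟪y - q, n⟫) :
    1 - 4 ^ d * D / unitVol d ≤ efrac A p s := by
  have h3 : efrac Aᶜ p s ≤ 4 ^ d * D / unitVol d :=
    efrac_le hr hs (fun y hy => show y ∈ Aᶜ ∩ Metric.closedBall q (5 * K * r) ∩
      {y | h ≤ ⟪y - q, n⟫} from ⟨⟨hy.1, hsT hy.2⟩, hall y hy.2⟩)
      (inter_closedBall_ne_top _ _ _ _) (high_of_low hL h1 h2)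
  rw [efrac_compl hA p (by linarith : 0 < s)] at h3
  linarith

theorem balls_subset {K r ρ : ℝ} {c q ν : Pt d} (hK : 32 ≤ K) (hr : 0 < r) (hrρ : r ≤ ρ)
    (hρr : ρ ≤ 2 * r) (hcq : ‖c - q‖ ≤ r / 100) (hν : ‖ν‖ = 1) :
    Metric.ball c ρ ⊆ Metric.closedBall q (5 * K * r) ∧
    Metric.ball (bigCtr K ν c ρ) (K * ρ) ⊆ Metric.closedBall q (5 * K * r) ∧
    Metric.ball q (r / 4) ⊆ Metric.closedBall q (5 * K * r) ∧ ‖botPt ν c ρ - q‖ ≤ 3 * r := by
  have hρ : 0 < ρ := by linarith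
  refine ⟨?_, ?_, Metric.ball_subset_closedBall.trans
    (Metric.closedBall_subset_closedBall (by nlinarith)), ?_⟩
  · intro y hy
    rw [Metric.mem_ball, dist_eq_norm] at hy
    rw [Metric.mem_closedBall, dist_eq_norm]
    refine (norm_sub_le_norm_sub_add_norm_sub y c q).trans ?_
    nlinarith
  · intro y hy
    rw [Metric.mem_ball, dist_eq_norm] at hy
    rw [Metric.mem_closedBall, dist_eq_norm]
    refine (norm_sub_le_norm_sub_add_norm_sub y (bigCtr K ν c ρ) q).trans ?_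
    have e : bigCtr K ν c ρ - q = (c - q) + ((K - 1) * ρ) • ν := by rw [bigCtr]; module
    have h1 : ‖bigCtr K ν c ρ - q‖ ≤ r / 100 + (K - 1) * ρ := by
      rw [e]
      refine (norm_add_le _ _).trans ?_
      rw [norm_smul, hν, mul_one, Real.norm_eq_abs, abs_of_nonneg (by nlinarith : 0 ≤ (K - 1) * ρ)]
      linarith
    nlinarith
  · have e : botPt ν c ρ - q = (c - q) - ρ • ν := by rw [botPt]; module
    rw [e]
    refine (norm_sub_le _ _).trans ?_
    rw [norm_smul, hν, mul_one, Real.norm_eq_abs, abs_of_pos hρ]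
    linarith

/-- points of the three balls are above the bottom point. -/
theorem above_bot {K r ρ : ℝ} {c q ν y : Pt d} (hK : 32 ≤ K) (hr : 0 < r) (hrρ : r ≤ ρ)
    (hρr : ρ ≤ 2 * r) (hcq : ‖c - q‖ ≤ r / 100) (hν : ‖ν‖ = 1)
    (hy : y ∈ Metric.ball (bigCtr K ν c ρ) (K * ρ) ∨ y ∈ Metric.ball c ρ ∨
      y ∈ Metric.ball q (r / 4)) :
    0 ≤ ⟪y - botPt ν c ρ, ν⟫ ∧ ‖y - botPt ν c ρ‖ ≤ 4 * K * r := by
  have gen : ∀ (p : Pt d) (s R : ℝ), y ∈ Metric.ball p s → p - botPt ν c ρ = R • ν → s ≤ R →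
      R ≤ 2 * K * r → 0 ≤ ⟪y - botPt ν c ρ, ν⟫ ∧ ‖y - botPt ν c ρ‖ ≤ 4 * K * r := by
    intro p s R hy hp hsR hR
    rw [Metric.mem_ball, dist_eq_norm] at hy
    have e : y - botPt ν c ρ = (y - p) + R • ν := by rw [← hp]; abel
    have h1 := (abs_le.1 (abs_real_inner_le_norm (y - p) ν)).1
    rw [hν, mul_one] at h1
    have hs0 := norm_nonneg (y - p)
    refine ⟨?_, ?_⟩
    · rw [e, inner_add_left, real_inner_smul_left, inner_self_one hν]; linarith
    · rw [e]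
      refine (norm_add_le _ _).trans ?_
      rw [norm_smul, hν, mul_one, Real.norm_eq_abs, abs_of_nonneg (by linarith)]
      linarith
  rcases hy with hy | hy | hy
  · refine gen (bigCtr K ν c ρ) (K * ρ) (K * ρ) hy ?_ le_rfl (by nlinarith)
    rw [botPt, bigCtr]; module
  · refine gen c ρ ρ hy ?_ le_rfl (by nlinarith)
    rw [botPt]; module
  · refine gen c ρ ρ ?_ ?_ le_rfl (by nlinarith)
    · rw [Metric.mem_ball, dist_eq_norm] at hy ⊢
      have := norm_sub_le_norm_sub_add_norm_sub y q c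
      rw [norm_sub_rev q c] at this
      linarith
    · rw [botPt]; module

/-- a band above the bottom point contains a definite volume of the ball. -/
theorem band_volume {K r ρ t h₁ H : ℝ} {c n ν : Pt d} (hK : 1 ≤ K) (hr : 0 < r) (ht : 0 < t)
    (ht1 : t ≤ 1) (hn : ‖n‖ = 1) (hν : ‖ν‖ = 1)
    (htilt : ∀ u : Pt d, |⟪u, n⟫ - ⟪u, ν⟫| ≤ t / (10 * K) * ‖u‖)
    (hh₁lo : t * r / 2 ≤ h₁) (hh₁ρ : h₁ ≤ ρ) (hA' : H ≤ K * h₁ / 4) :
    (volume (Metric.ball c ρ ∩ {y | ⟪y - botPt ν c ρ, n⟫ < H / K})).toReal +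
      (t * r / 8) ^ d * unitVol d ≤
    (volume (Metric.ball c ρ ∩ {y | ⟪y - botPt ν c ρ, n⟫ < h₁})).toReal := by
  have hK0 : 0 < K := by linarith
  have hh₁0 : 0 < h₁ := lt_of_lt_of_le (by positivity) hh₁lo
  set x := botPt ν c ρ with hx_def
  set U := Metric.ball c ρ ∩ {y | ⟪y - x, n⟫ < H / K} with hU_def
  set V := Metric.ball c ρ ∩ {y | ⟪y - x, n⟫ < h₁} with hV_def
  have hVfin : volume V ≠ ∞ := measure_ne_top_of_subset inter_subset_left measure_ball_lt_top.ne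
  have hUfin : volume U ≠ ∞ := measure_ne_top_of_subset inter_subset_left measure_ball_lt_top.ne
  set p := x + (5 / 8 * h₁) • ν with hp_def
  have hpball : ∀ y ∈ Metric.ball p (t * r / 8), y ∈ V ∧ y ∉ U := by
    intro y hy
    rw [Metric.mem_ball, dist_eq_norm] at hy
    have hsmall : t * r / 8 ≤ h₁ / 4 := by linarith
    have e : y - x = (y - p) + (5 / 8 * h₁) • ν := by rw [hp_def]; module
    have hnν := abs_le.1 (htilt ((5 / 8 * h₁) • ν))
    rw [real_inner_smul_left, real_inner_smul_left, inner_self_one hν, mul_one, norm_smul, hν,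
      mul_one, Real.norm_eq_abs, abs_of_pos (by positivity : 0 < 5 / 8 * h₁)] at hnν
    have hab := abs_le.1 (abs_real_inner_le_norm (y - p) n)
    rw [hn, mul_one] at hab
    have ht10 : t / (10 * K) * (5 / 8 * h₁) ≤ h₁ / 16 := by
      rw [div_mul_eq_mul_div, div_le_iff₀ (by positivity)]
      nlinarith [mul_le_mul_of_nonneg_right ht1 hh₁0.le, mul_le_mul_of_nonneg_left hK hh₁0.le]
    have hval : ⟪y - x, n⟫ = ⟪y - p, n⟫ + 5 / 8 * h₁ * ⟪ν, n⟫ := by
      rw [e, inner_add_left, real_inner_smul_left]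
    refine ⟨⟨?_, ?_⟩, fun hU => ?_⟩
    · rw [Metric.mem_ball, dist_eq_norm]
      have e2 : y - c = (y - p) + (5 / 8 * h₁ - ρ) • ν := by
        rw [hp_def, hx_def, botPt]; module
      rw [e2]
      refine (norm_add_le _ _).trans_lt ?_
      rw [norm_smul, hν, mul_one, Real.norm_eq_abs, abs_of_nonpos (by linarith)]
      linarith
    · show ⟪y - x, n⟫ < h₁
      rw [hval]; linarith [hab.2, hnν.2]
    · have hU2 : ⟪y - x, n⟫ < H / K := hU.2
      rw [hval] at hU2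
      have : H / K ≤ h₁ / 4 := by rw [div_le_iff₀ hK0]; linarith
      linarith [hab.1, hnν.1]
  show (volume U).toReal + (t * r / 8) ^ d * unitVol d ≤ (volume V).toReal
  rw [← toReal_volume_ball p (by positivity), ← ENNReal.toReal_add hUfin measure_ball_lt_top.ne,
    ← measure_union (disjoint_left.2 fun y hyU hy => (hpball y hy).2 hyU) measurableSet_ball]
  refine ENNReal.toReal_mono hVfin (measure_mono (union_subset (fun y hy => ⟨hy.1, ?_⟩)
    fun y hy => (hpball y hy).1))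
  have h2 : ⟪y - x, n⟫ < H / K := hy.2
  show ⟪y - x, n⟫ < h₁
  have : H / K ≤ h₁ / 4 := by rw [div_le_iff₀ hK0]; linarith
  linarith

/-- the enlarged ball is a homothetic copy. -/
theorem cap_homothety {K : ℝ} (hK0 : 0 < K) (ν c : Pt d) (n : Pt d) (ρ H : ℝ) :
    (volume (Metric.ball (bigCtr K ν c ρ) (K * ρ) ∩ {y | ⟪y - botPt ν c ρ, n⟫ < H})).toReal =
      K ^ d * (volume (Metric.ball c ρ ∩ {y | ⟪y - botPt ν c ρ, n⟫ < H / K})).toReal := by
  set x := botPt ν c ρ with hx_def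
  set c' := bigCtr K ν c ρ with hc'_def
  set U := Metric.ball c ρ ∩ {y | ⟪y - x, n⟫ < H / K} with hU_def
  set U' := Metric.ball c' (K * ρ) ∩ {y | ⟪y - x, n⟫ < H} with hU'_def
  have hc'x : c' - x = K • (c - x) := by rw [hc'_def, hx_def, botPt, bigCtr]; module
  have himage : U' = AffineMap.homothety x K '' U := by
    ext y
    constructor
    · rintro ⟨h1, h2⟩
      refine ⟨x + K⁻¹ • (y - x), ⟨?_, ?_⟩, ?_⟩
      · rw [Metric.mem_ball, dist_eq_norm] at h1 ⊢
        have e : x + K⁻¹ • (y - x) - c = K⁻¹ • (y - c') := by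
          have hc2 : c' = x + K • (c - x) := by rw [← hc'x]; abel
          rw [hc2]
          simp only [smul_sub, smul_add, inv_smul_smul₀ hK0.ne']
          abel
        rw [e, norm_smul, Real.norm_eq_abs, abs_of_pos (inv_pos.2 hK0), inv_mul_lt_iff₀ hK0]
        exact h1
      · show ⟪x + K⁻¹ • (y - x) - x, n⟫ < H / K
        rw [add_sub_cancel_left, real_inner_smul_left, inv_mul_lt_iff₀ hK0,
          mul_div_cancel₀ _ hK0.ne']
        exact h2
      · rw [AffineMap.homothety_apply, vsub_eq_sub, vadd_eq_add, add_sub_cancel_left,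
          smul_inv_smul₀ hK0.ne', sub_add_cancel]
    · rintro ⟨z, ⟨h1, h2⟩, rfl⟩
      rw [AffineMap.homothety_apply, vsub_eq_sub, vadd_eq_add]
      refine ⟨?_, ?_⟩
      · rw [Metric.mem_ball, dist_eq_norm] at h1 ⊢
        have e : K • (z - x) + x - c' = K • (z - c) := by
          have hc2 : c' = x + K • (c - x) := by rw [← hc'x]; abel
          rw [hc2]; module
        rw [e, norm_smul, Real.norm_eq_abs, abs_of_pos hK0]
        exact mul_lt_mul_of_pos_left h1 hK0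
      · show ⟪K • (z - x) + x - x, n⟫ < H
        have h2' : ⟪z - x, n⟫ < H / K := h2
        rw [add_sub_cancel_right, real_inner_smul_left]
        rw [lt_div_iff₀ hK0] at h2'
        linarith
  rw [himage, Measure.addHaar_image_homothety, finrank_euclideanSpace_fin, ENNReal.toReal_mul,
    ENNReal.toReal_ofReal (abs_nonneg _), abs_of_pos (by positivity)]

/-- conclusion when the fractions are small. -/
theorem fin_small {κ E a a' a0 : ℝ} (hκ0 : 0 ≤ κ) (hκ1 : κ ≤ 1) (ha : 0 ≤ a) (ha' : 0 ≤ a')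
    (ha0 : 0 ≤ a0) (hb : a ≤ E) (hb0 : a0 ≤ E) :
    a - a' + κ * (|a - a0| + |a' - a0|) ≤ 3 * E := by
  have h1 : |a - a0| ≤ E := by rw [abs_le]; constructor <;> linarith
  have h2 : |a' - a0| ≤ a' + E := by rw [abs_le]; constructor <;> linarith
  have h3 : κ * (|a - a0| + |a' - a0|) ≤ 1 * (2 * E + a') :=
    mul_le_mul hκ1 (by linarith) (by positivity) zero_le_one
  linarith

/-- conclusion when the fractions are large. -/
theorem fin_large {κ E a a' a0 : ℝ} (hκ0 : 0 ≤ κ) (hκ1 : κ ≤ 1) (ha : a ≤ 1) (ha' : a' ≤ 1)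
    (ha0 : a0 ≤ 1) (hb : 1 - E ≤ a) (hb' : 1 - E ≤ a') (hb0 : 1 - E ≤ a0) :
    a - a' + κ * (|a - a0| + |a' - a0|) ≤ 3 * E := by
  have h1 : |a - a0| ≤ E := by rw [abs_le]; constructor <;> linarith
  have h2 : |a' - a0| ≤ E := by rw [abs_le]; constructor <;> linarith
  have h3 : κ * (|a - a0| + |a' - a0|) ≤ 1 * (2 * E) :=
    mul_le_mul hκ1 (by linarith) (by positivity) zero_le_one
  linarith

theorem far_bound {A : Set (Pt d)} {c q n ν : Pt d} {K r ρ t b D κ : ℝ}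
    (hK : 32 ≤ K) (ht : 0 < t) (ht1 : t ≤ 1) (hA : MeasurableSet A) (hr : 0 < r) (hrρ : r ≤ ρ)
    (hρr : ρ ≤ 2 * r) (hcq : ‖c - q‖ ≤ r / 100) (hn : ‖n‖ = 1) (hν : ‖ν‖ = 1) (hD : 0 ≤ D)
    (hL : LowBound A q n K r t b D) (hH : LowBound Aᶜ q (-n) K r t (-b) D)
    (hκ0 : 0 ≤ κ) (hκ1 : κ ≤ 1) (hbig : 10 * K * r < |b|) :
    layX A K ν c ρ + κ * layOsc A K ν c ρ q r ≤ 3 * (4 ^ d * D / unitVol d) := by
  have hK0 : 0 < K := by linarith
  obtain ⟨hBT, hB'T, hcT, -⟩ := balls_subset hK hr hrρ hρr hcq hν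
  have hKρ : r / 4 ≤ K * ρ := by nlinarith
  have hρ4 : r / 4 ≤ ρ := by linarith
  have hTabs : ∀ y ∈ Metric.closedBall q (5 * K * r), |⟪y - q, n⟫| ≤ 5 * K * r := by
    intro y hy
    refine (abs_real_inner_le_norm _ _).trans ?_
    rw [hn, mul_one, ← dist_eq_norm]
    exact hy
  rcases lt_abs.1 hbig with hb | hb
  · have hh : |5 * K * r| ≤ 7 * K * r := by rw [abs_of_nonneg (by positivity)]; nlinarith
    have hb' : 5 * K * r + t * r / 2 ≤ b := by nlinarith
    exact fin_small hκ0 hκ1 (efrac_nonneg ..) (efrac_nonneg ..) (efrac_nonneg ..)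
      (all_low hr hL hh hb' hρ4 hBT fun y hy => (le_abs_self _).trans (hTabs y (hBT hy)))
      (all_low hr hL hh hb' le_rfl hcT fun y hy => (le_abs_self _).trans (hTabs y (hcT hy)))
  · have hh : |-(5 * K * r)| ≤ 7 * K * r := by
      rw [abs_neg, abs_of_nonneg (by positivity)]; nlinarith
    have hb' : b + t * r / 2 ≤ -(5 * K * r) := by nlinarith
    exact fin_large hκ0 hκ1 (efrac_le_one ..) (efrac_le_one ..) (efrac_le_one ..)
      (all_high hA hr hH hh hb' hρ4 hBT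
        fun y hy => (neg_le_neg (hTabs y (hBT hy))).trans (neg_abs_le _))
      (all_high hA hr hH hh hb' hKρ hB'T
        fun y hy => (neg_le_neg (hTabs y (hB'T hy))).trans (neg_abs_le _))
      (all_high hA hr hH hh hb' le_rfl hcT
        fun y hy => (neg_le_neg (hTabs y (hcT hy))).trans (neg_abs_le _))

theorem below_bound {A : Set (Pt d)} {c q n ν : Pt d} {K r ρ t b D κ : ℝ}
    (hK : 32 ≤ K) (ht : 0 < t) (ht1 : t ≤ 1) (hA : MeasurableSet A) (hr : 0 < r) (hrρ : r ≤ ρ)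
    (hρr : ρ ≤ 2 * r) (hcq : ‖c - q‖ ≤ r / 100) (hn : ‖n‖ = 1) (hν : ‖ν‖ = 1) (hD : 0 ≤ D)
    (hL : LowBound A q n K r t b D) (hH : LowBound Aᶜ q (-n) K r t (-b) D)
    (htilt : ∀ u : Pt d, |⟪u, n⟫ - ⟪u, ν⟫| ≤ t / (10 * K) * ‖u‖)
    (hκ0 : 0 ≤ κ) (hκ1 : κ ≤ 1) (hτ : t * r < -(b - ⟪botPt ν c ρ - q, n⟫)) :
    layX A K ν c ρ + κ * layOsc A K ν c ρ q r ≤ 3 * (4 ^ d * D / unitVol d) := by
  have hK0 : 0 < K := by linarith
  have hρ : 0 < ρ := by linarith
  obtain ⟨hBT, hB'T, hcT, hqx⟩ := balls_subset hK hr hrρ hρr hcq hν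
  have hKρ : r / 4 ≤ K * ρ := by nlinarith
  have hρ4 : r / 4 ≤ ρ := by linarith
  have hu : 0 < unitVol d := unitVol_pos
  set x := botPt ν c ρ with hx_def
  set c' := bigCtr K ν c ρ with hc'_def
  set β := ⟪x - q, n⟫ with hβ_def
  have hβ : |β| ≤ 3 * r := by
    refine (abs_real_inner_le_norm _ _).trans ?_
    rw [hn, mul_one]; exact hqx
  have hβ' := abs_le.1 hβ
  have hyq : ∀ y : Pt d, ⟪y - q, n⟫ = ⟪y - x, n⟫ + β := fun y => by
    rw [hβ_def, ← inner_add_left, sub_add_sub_cancel]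
  have h0 : |β - t * r / 2| ≤ 7 * K * r := by rw [abs_le]; constructor <;> nlinarith
  have key : ∀ p s, r / 4 ≤ s → Metric.ball p s ⊆ Metric.closedBall q (5 * K * r) →
      (∀ y ∈ Metric.ball p s, y ∈ Metric.ball c' (K * ρ) ∨ y ∈ Metric.ball c ρ ∨
        y ∈ Metric.ball q (r / 4)) → 1 - 4 ^ d * D / unitVol d ≤ efrac A p s := by
    intro p s hs hsT hmem
    refine all_high hA hr hH h0 (by linarith) hs hsT fun y hy => ?_
    obtain ⟨h1, h2⟩ := above_bot hK hr hrρ hρr hcq hν (hmem y hy)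
    have h3 := (abs_le.1 (htilt (y - x))).1
    have h4 : t / (10 * K) * ‖y - x‖ ≤ t * r / 2 := by
      refine (mul_le_mul_of_nonneg_left h2 (by positivity)).trans ?_
      rw [div_mul_eq_mul_div, div_le_iff₀ (by positivity)]
      nlinarith [mul_pos (mul_pos ht hK0) hr]
    rw [hyq]; linarith
  exact fin_large hκ0 hκ1 (efrac_le_one ..) (efrac_le_one ..) (efrac_le_one ..)
    (key c ρ hρ4 hBT fun y hy => Or.inr (Or.inl hy))
    (key c' (K * ρ) hKρ hB'T fun y hy => Or.inl hy)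
    (key q (r / 4) le_rfl hcT fun y hy => Or.inr (Or.inr hy))

theorem toReal_split (S : Set (Pt d)) (hS : volume S ≠ ∞) (x n : Pt d) (a : ℝ) :
    (volume S).toReal = (volume (S ∩ {y | ⟪y - x, n⟫ < a})).toReal +
      (volume (S \ {y | ⟪y - x, n⟫ < a})).toReal := by
  have hmh : MeasurableSet {y : Pt d | ⟪y - x, n⟫ < a} :=
    measurableSet_lt (by fun_prop : Continuous fun y : Pt d => ⟪y - x, n⟫).measurable
      measurable_const
  rw [← ENNReal.toReal_add (measure_ne_top_of_subset inter_subset_left hS)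
    (measure_ne_top_of_subset sdiff_subset hS), measure_inter_add_sdiff _ hmh]

/-- few points of the layer in the ball above a height give a small fraction. -/
theorem efrac_cap_le {A : Set (Pt d)} {c x q n : Pt d} {K r ρ t b D h : ℝ} (hr : 0 < r)
    (hρ : 0 < ρ) (hrρ : r ≤ ρ) (hD : 0 ≤ D)
    (hBT : Metric.ball c ρ ⊆ Metric.closedBall q (5 * K * r))
    (hL : LowBound A q n K r t b D) (h0 : |⟪x - q, n⟫ + h| ≤ 7 * K * r)
    (h1 : ⟪x - q, n⟫ + h + t * r / 2 ≤ b) :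
    efrac A c ρ ≤ 4 ^ d * D / unitVol d + 1 -
      (volume (Metric.ball c ρ ∩ {y | ⟪y - x, n⟫ < h})).toReal / (ρ ^ d * unitVol d) := by
  have hu : 0 < unitVol d := unitVol_pos
  have hB : volume (Metric.ball c ρ) ≠ ∞ := measure_ball_lt_top.ne
  have hAB : volume (A ∩ Metric.ball c ρ) ≠ ∞ := measure_ne_top_of_subset inter_subset_right hB
  have e1 := toReal_split _ hAB x n h
  have e2 := toReal_split _ hB x n h
  rw [toReal_volume_ball c hρ] at e2
  have e3 : (volume ((A ∩ Metric.ball c ρ) \ {y | ⟪y - x, n⟫ < h})).toReal ≤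
      (volume (Metric.ball c ρ \ {y | ⟪y - x, n⟫ < h})).toReal :=
    ENNReal.toReal_mono (measure_ne_top_of_subset sdiff_subset hB)
      (measure_mono (sdiff_subset_sdiff_left inter_subset_right))
  have e4 : (volume (A ∩ Metric.ball c ρ ∩ {y | ⟪y - x, n⟫ < h})).toReal ≤ D * r ^ d := by
    refine le_trans (ENNReal.toReal_mono (inter_closedBall_ne_top _ _ _ _) (measure_mono ?_))
      (hL (⟪x - q, n⟫ + h) h0 h1)
    rintro y ⟨⟨hyA, hyB⟩, hyh⟩
    refine ⟨⟨hyA, hBT hyB⟩, ?_⟩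
    have h2 : ⟪y - x, n⟫ < h := hyh
    show ⟪y - q, n⟫ ≤ ⟪x - q, n⟫ + h
    rw [inner_sub_left, inner_sub_left] at *
    linarith
  have hrρd : r ^ d ≤ 4 ^ d * ρ ^ d := by
    rw [← mul_pow]; exact pow_le_pow_left₀ hr.le (by linarith) d
  have e5 : (volume (A ∩ Metric.ball c ρ)).toReal ≤ 4 ^ d * D * ρ ^ d + ρ ^ d * unitVol d -
      (volume (Metric.ball c ρ ∩ {y | ⟪y - x, n⟫ < h})).toReal := by
    have := mul_le_mul_of_nonneg_left hrρd hD
    linarith
  rw [efrac, toReal_volume_ball c hρ, div_le_iff₀ (by positivity)]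
  refine e5.trans_eq ?_
  field_simp

/-- many points of the layer in the enlarged ball. -/
theorem efrac_cap_ge {A : Set (Pt d)} {c x q n : Pt d} {K r ρ t b D h : ℝ} (hr : 0 < r)
    (hρ : 0 < ρ) (hrρ : r ≤ ρ) (hD : 0 ≤ D)
    (hBT : Metric.ball c ρ ⊆ Metric.closedBall q (5 * K * r))
    (hH : LowBound Aᶜ q (-n) K r t (-b) D) (h0 : |⟪x - q, n⟫ + h| ≤ 7 * K * r)
    (h1 : b + t * r / 2 ≤ ⟪x - q, n⟫ + h) :
    1 - 4 ^ d * D / unitVol d -
      (volume (Metric.ball c ρ ∩ {y | ⟪y - x, n⟫ < h})).toReal / (ρ ^ d * unitVol d) ≤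
      efrac A c ρ := by
  have hu : 0 < unitVol d := unitVol_pos
  have hB : volume (Metric.ball c ρ) ≠ ∞ := measure_ball_lt_top.ne
  have hAB : volume (A ∩ Metric.ball c ρ) ≠ ∞ := measure_ne_top_of_subset inter_subset_right hB
  have hT := inter_closedBall_ne_top q (5 * K * r) Aᶜ {y | ⟪x - q, n⟫ + h ≤ ⟪y - q, n⟫}
  have e2 := toReal_split _ hB x n h
  rw [toReal_volume_ball c hρ] at e2
  have e4 := high_of_low hH h0 h1
  have e3 : (volume (Metric.ball c ρ \ {y | ⟪y - x, n⟫ < h})).toReal ≤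
      (volume (A ∩ Metric.ball c ρ)).toReal + (volume (Aᶜ ∩ Metric.closedBall q (5 * K * r) ∩
        {y | ⟪x - q, n⟫ + h ≤ ⟪y - q, n⟫})).toReal := by
    rw [← ENNReal.toReal_add hAB hT]
    refine ENNReal.toReal_mono (ENNReal.add_ne_top.2 ⟨hAB, hT⟩)
      ((measure_mono ?_).trans (measure_union_le _ _))
    rintro y ⟨hyB, hyh⟩
    by_cases hyA : y ∈ A
    · exact Or.inl ⟨hyA, hyB⟩
    · refine Or.inr ⟨⟨hyA, hBT hyB⟩, ?_⟩
      have h2 : h ≤ ⟪y - x, n⟫ := not_lt.1 hyh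
      show ⟪x - q, n⟫ + h ≤ ⟪y - q, n⟫
      rw [inner_sub_left, inner_sub_left] at *
      linarith
  have hrρd : r ^ d ≤ 4 ^ d * ρ ^ d := by
    rw [← mul_pow]; exact pow_le_pow_left₀ hr.le (by linarith) d
  have e5 : ρ ^ d * unitVol d - 4 ^ d * D * ρ ^ d -
      (volume (Metric.ball c ρ ∩ {y | ⟪y - x, n⟫ < h})).toReal ≤
      (volume (A ∩ Metric.ball c ρ)).toReal := by
    have := mul_le_mul_of_nonneg_left hrρd hD
    linarith
  rw [efrac, toReal_volume_ball c hρ, le_div_iff₀ (by positivity)]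
  refine le_trans (le_of_eq ?_) e5
  field_simp

theorem loss_bound {A : Set (Pt d)} {c q n ν : Pt d} {K r ρ t b D h₁ H : ℝ}
    (hK : 32 ≤ K) (ht : 0 < t) (ht1 : t ≤ 1) (hr : 0 < r) (hrρ : r ≤ ρ)
    (hρr : ρ ≤ 2 * r) (hcq : ‖c - q‖ ≤ r / 100) (hn : ‖n‖ = 1) (hν : ‖ν‖ = 1) (hD : 0 ≤ D)
    (hL : LowBound A q n K r t b D) (hH : LowBound Aᶜ q (-n) K r t (-b) D)
    (htilt : ∀ u : Pt d, |⟪u, n⟫ - ⟪u, ν⟫| ≤ t / (10 * K) * ‖u‖)
    (hh₁lo : t * r / 2 ≤ h₁) (hh₁ρ : h₁ ≤ ρ)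
    (hh₁b : h₁ + t * r / 2 ≤ b - ⟪botPt ν c ρ - q, n⟫)
    (hH_def : H = b - ⟪botPt ν c ρ - q, n⟫ + t * r / 2) (hA' : H ≤ K * h₁ / 4) :
    efrac A c ρ - efrac A (bigCtr K ν c ρ) (K * ρ) ≤
      2 * (4 ^ d * D / unitVol d) - (t / 16) ^ d := by
  have hK0 : 0 < K := by linarith
  have hρ : 0 < ρ := by linarith
  obtain ⟨hBT, hB'T, -, hqx⟩ := balls_subset hK hr hrρ hρr hcq hν
  have hu : 0 < unitVol d := unitVol_pos
  have hβ : |⟪botPt ν c ρ - q, n⟫| ≤ 3 * r := by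
    refine (abs_real_inner_le_norm _ _).trans ?_
    rw [hn, mul_one]; exact hqx
  have hβ' := abs_le.1 hβ
  have htr : 0 ≤ t * r := by positivity
  have hKr : 32 * r ≤ K * r := mul_le_mul_of_nonneg_right hK hr.le
  have hKh : K * h₁ ≤ 2 * (K * r) :=
    (mul_le_mul_of_nonneg_left (hh₁ρ.trans hρr) hK0.le).trans_eq (by ring)
  have e1 := efrac_cap_le (x := botPt ν c ρ) (h := h₁) hr hρ hrρ hD hBT hL
    (by rw [abs_le]; constructor <;> linarith) (by linarith)
  have hrK : r ≤ K * ρ := hrρ.trans (le_mul_of_one_le_left hρ.le (by linarith))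
  have e2 := efrac_cap_ge (c := bigCtr K ν c ρ) (x := botPt ν c ρ) (h := H) hr (mul_pos hK0 hρ)
    hrK hD hB'T hH (by rw [abs_le]; constructor <;> linarith) (by linarith)
  rw [cap_homothety hK0 ν c n ρ H, mul_pow, mul_assoc (K ^ d),
    mul_div_mul_left _ _ (pow_pos hK0 d).ne'] at e2
  have e3 := band_volume (c := c) (by linarith) hr ht ht1 hn hν htilt hh₁lo hh₁ρ hA'
  have e5 : (t / 16) ^ d ≤ (t * r / 8) ^ d * unitVol d / (ρ ^ d * unitVol d) := by
    rw [mul_div_mul_right _ _ hu.ne', ← div_pow]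
    refine pow_le_pow_left₀ (by positivity) ?_ d
    rw [div_le_div_iff₀ (by norm_num) hρ]
    have := mul_le_mul_of_nonneg_left hρr ht.le
    linarith
  have e6 := div_le_div_of_nonneg_right e3 (by positivity : (0 : ℝ) ≤ ρ ^ d * unitVol d)
  rw [add_div] at e6
  linarith

theorem above_bound {A : Set (Pt d)} {c q n ν : Pt d} {K r ρ t b D κ : ℝ}
    (hK : 32 ≤ K) (ht : 0 < t) (ht1 : t ≤ 1) (hA : MeasurableSet A) (hr : 0 < r) (hrρ : r ≤ ρ)
    (hρr : ρ ≤ 2 * r) (hcq : ‖c - q‖ ≤ r / 100) (hn : ‖n‖ = 1) (hν : ‖ν‖ = 1) (hD : 0 ≤ D)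
    (hL : LowBound A q n K r t b D) (hH : LowBound Aᶜ q (-n) K r t (-b) D)
    (htilt : ∀ u : Pt d, |⟪u, n⟫ - ⟪u, ν⟫| ≤ t / (10 * K) * ‖u‖)
    (hκ0 : 0 ≤ κ) (hκ1 : κ ≤ 1) (hκγ : κ ≤ (t / 16) ^ d / 2)
    (hτ : t * r < b - ⟪botPt ν c ρ - q, n⟫) :
    layX A K ν c ρ + κ * layOsc A K ν c ρ q r ≤ 3 * (4 ^ d * D / unitVol d) := by
  have hK0 : 0 < K := by linarith
  have hρ : 0 < ρ := by linarith
  obtain ⟨hBT, hB'T, hcT, hqx⟩ := balls_subset hK hr hrρ hρr hcq hν
  have hKρ : r / 4 ≤ K * ρ := by nlinarith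
  have hρ4 : r / 4 ≤ ρ := by linarith
  have hu : 0 < unitVol d := unitVol_pos
  set x := botPt ν c ρ with hx_def
  set c' := bigCtr K ν c ρ with hc'_def
  set β := ⟪x - q, n⟫ with hβ_def
  have hβ : |β| ≤ 3 * r := by
    refine (abs_real_inner_le_norm _ _).trans ?_
    rw [hn, mul_one]; exact hqx
  have hβ' := abs_le.1 hβ
  have hyq : ∀ y : Pt d, ⟪y - q, n⟫ = ⟪y - x, n⟫ + β := fun y => by
    rw [hβ_def, ← inner_add_left, sub_add_sub_cancel]
  have hE : 0 ≤ 4 ^ d * D / unitVol d := by positivity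
  set h₁ := min (b - β - t * r / 2) ρ with hh₁_def
  set H := b - β + t * r / 2 with hH_def
  have hh₁lo : t * r / 2 ≤ h₁ := le_min (by linarith) (by nlinarith)
  have hh₁0 : 0 < h₁ := lt_of_lt_of_le (by positivity) hh₁lo
  have hh₁ρ : h₁ ≤ ρ := min_le_right _ _
  have hh₁b : h₁ + t * r / 2 ≤ b - β := by
    have := min_le_left (b - β - t * r / 2) ρ
    rw [← hh₁_def] at this; linarith
  by_cases hA' : K * h₁ / 4 < H
  · -- both small balls are below the profile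
    have hhuge : 7 * r ≤ b - β := by
      rcases le_total (b - β - t * r / 2) ρ with hle | hle
      · rw [hh₁_def, min_eq_left hle] at hA'
        nlinarith
      · rw [hh₁_def, min_eq_right hle] at hA'
        nlinarith
    have h0 : |β + 6 * r| ≤ 7 * K * r := by rw [abs_le]; constructor <;> nlinarith
    have key : ∀ p s, r / 4 ≤ s → Metric.ball p s ⊆ Metric.closedBall q (5 * K * r) →
        ‖p - q‖ + s ≤ 3 * r → efrac A p s ≤ 4 ^ d * D / unitVol d := by
      intro p s hs hsT hps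
      refine all_low hr hL h0 (by nlinarith) hs hsT fun y hy => ?_
      rw [Metric.mem_ball, dist_eq_norm] at hy
      refine (real_inner_le_norm _ _).trans ?_
      rw [hn, mul_one]
      refine (norm_sub_le_norm_sub_add_norm_sub y p q).trans ?_
      linarith
    exact fin_small hκ0 hκ1 (efrac_nonneg ..) (efrac_nonneg ..) (efrac_nonneg ..)
      (key c ρ hρ4 hBT (by linarith)) (key q (r / 4) le_rfl hcT (by simp; linarith))
  rw [not_lt] at hA'
  have hX := loss_bound hK ht ht1 hr hrρ hρr hcq hn hν hD hL hH htilt hh₁lo hh₁ρ hh₁b hH_def hA'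
  have b1 : ∀ p s p' s', |efrac A p s - efrac A p' s'| ≤ 1 := fun p s p' s' => by
    rw [abs_le]
    constructor <;> linarith [efrac_nonneg A p s, efrac_le_one A p s, efrac_nonneg A p' s',
      efrac_le_one A p' s']
  have h3 : κ * (|efrac A c ρ - efrac A q (r / 4)| + |efrac A c' (K * ρ) - efrac A q (r / 4)|) ≤
      (t / 16) ^ d / 2 * 2 :=
    mul_le_mul hκγ (by linarith [b1 c ρ q (r / 4), b1 c' (K * ρ) q (r / 4)]) (by positivity)
      (by positivity)
  show efrac A c ρ - efrac A c' (K * ρ) + κ * (|efrac A c ρ - efrac A q (r / 4)| +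
    |efrac A c' (K * ρ) - efrac A q (r / 4)|) ≤ _
  linarith

theorem near_bound {A : Set (Pt d)} {c q n ν : Pt d} {K r ρ t b D : ℝ}
    (hK : 32 ≤ K) (ht : 0 < t) (ht1 : t ≤ 1) (hA : MeasurableSet A) (hr : 0 < r) (hrρ : r ≤ ρ)
    (hρr : ρ ≤ 2 * r) (hcq : ‖c - q‖ ≤ r / 100) (hn : ‖n‖ = 1) (hν : ‖ν‖ = 1) (hD : 0 ≤ D)
    (hL : LowBound A q n K r t b D) (hH : LowBound Aᶜ q (-n) K r t (-b) D)
    (hnear : |b - ⟪botPt ν c ρ - q, n⟫| ≤ t * r) :
    (volume (Aᶜ ∩ Metric.ball (bigCtr K ν c ρ) (K * ρ) ∩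
      {y | 2 * t * r < ⟪y - botPt ν c ρ, n⟫})).toReal ≤ D * r ^ d := by
  have hK0 : 0 < K := by linarith
  have hρ : 0 < ρ := by linarith
  obtain ⟨hBT, hB'T, hcT, hqx⟩ := balls_subset hK hr hrρ hρr hcq hν
  have hKρ : r / 4 ≤ K * ρ := by nlinarith
  have hρ4 : r / 4 ≤ ρ := by linarith
  have hu : 0 < unitVol d := unitVol_pos
  set x := botPt ν c ρ with hx_def
  set c' := bigCtr K ν c ρ with hc'_def
  set β := ⟪x - q, n⟫ with hβ_def
  have hβ : |β| ≤ 3 * r := by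
    refine (abs_real_inner_le_norm _ _).trans ?_
    rw [hn, mul_one]; exact hqx
  have hβ' := abs_le.1 hβ
  have hyq : ∀ y : Pt d, ⟪y - q, n⟫ = ⟪y - x, n⟫ + β := fun y => by
    rw [hβ_def, ← inner_add_left, sub_add_sub_cancel]
  have h0 : |β + 2 * t * r| ≤ 7 * K * r := by rw [abs_le]; constructor <;> nlinarith
  refine le_trans (ENNReal.toReal_mono (inter_closedBall_ne_top _ _ _ _) (measure_mono ?_))
    (high_of_low hH h0 (by nlinarith [(abs_le.1 hnear).2]))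
  rintro y ⟨⟨hyA, hyB⟩, hyh⟩
  refine ⟨⟨hyA, hB'T hyB⟩, ?_⟩
  have : 2 * t * r < ⟪y - x, n⟫ := hyh
  show β + 2 * t * r ≤ ⟪y - q, n⟫
  rw [hyq]; linarith

end Regime

open Regime in
theorem regimeLemma (hVert : VertLemma) : RegimeLemma := by
  intro d hd
  have hd1 : 1 ≤ d := by omega
  refine ⟨32, by norm_num, fun K hK => ⟨1, one_pos, fun t ht ht1 => ?_⟩⟩
  have hK0 : 0 < K := by linarith
  refine ⟨min 1 ((t / 16) ^ d / 2), 1000 * K ^ 2 / t, lt_min one_pos (by positivity),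
    by positivity, fun M hM => ?_⟩
  have hKM : 20 * K ≤ M := by
    refine le_trans ?_ hM
    rw [le_div_iff₀ ht]
    nlinarith
  have hM0 : 0 < M := by linarith
  obtain ⟨C, θ, hC, hθ, hV⟩ := hVert d 1 (t / (4 * M)) le_rfl (by positivity)
  refine ⟨min (t / (4 * M)) (1 / 5), lt_min (by positivity) (by norm_num), fun ε hε hεle => ?_⟩
  have hεM := hεle.trans (min_le_left _ _)
  have hε5 := hεle.trans (min_le_right _ _)
  refine ⟨θ, hθ, fun δ hδ hδθ => ?_⟩
  have hu : 0 < unitVol d := unitVol_pos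
  refine ⟨3 * (4 ^ d * (C * M) / unitVol d) + C * M, by positivity, ?_⟩
  intro A hA r ρ b w q c n ν hr hrρ hρr hcq hn hν hw hsum hprof
  have hS : 0 < M * r := by positivity
  set D := C * M * w with hD_def
  have hD : 0 ≤ D := by positivity
  have hL : LowBound A q n K r t b D := fun h h1 h2 =>
    low_volume hC hV hA hn hr (by linarith) ht ht1 hKM hεM hε5 hδ hδθ hw hd1 hsum hprof h1 h2
  have hH : LowBound Aᶜ q (-n) K r t (-b) D := fun h h1 h2 =>
    low_volume hC hV hA.compl (by rwa [norm_neg]) hr (by linarith) ht ht1 hKM hεM hε5 hδ hδθ hw hd1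
      (by rw [wsum_compl hA n hS]; exact hsum) (profileAt_compl hA (by positivity) hprof) h1 h2
  have hκ0 : 0 ≤ min 1 ((t / 16) ^ d / 2) := le_min zero_le_one (by positivity)
  have hfin : 3 * (4 ^ d * D / unitVol d) ≤
      (3 * (4 ^ d * (C * M) / unitVol d) + C * M) * w := by
    have e : 3 * (4 ^ d * D / unitVol d) = 3 * (4 ^ d * (C * M) / unitVol d) * w := by
      rw [hD_def]; ring
    rw [e, add_mul]
    exact le_add_of_nonneg_right (by positivity)
  refine ⟨fun hbig => ?_, fun hangle => ?_⟩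
  · exact (far_bound hK ht ht1 hA hr hrρ hρr hcq hn hν hD hL hH hκ0 (min_le_left _ _) hbig).trans
      hfin
  have hα : ‖n - ν‖ ≤ t / (10 * K) := by
    refine hangle.trans ?_
    rw [div_le_div_iff₀ hM0 (by positivity)]
    rw [div_le_iff₀ ht] at hM
    linarith
  have htilt : ∀ u : Pt d, |⟪u, n⟫ - ⟪u, ν⟫| ≤ t / (10 * K) * ‖u‖ := by
    intro u
    rw [← inner_sub_right]
    refine (abs_real_inner_le_norm _ _).trans ?_
    rw [mul_comm]
    exact mul_le_mul_of_nonneg_right hα (norm_nonneg _)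
  refine ⟨fun hfar => ?_, fun hnear => ?_⟩
  · refine le_trans ?_ hfin
    rcases lt_abs.1 hfar with hτ | hτ
    · exact above_bound hK ht ht1 hA hr hrρ hρr hcq hn hν hD hL hH htilt hκ0 (min_le_left _ _)
        (min_le_right _ _) hτ
    · exact below_bound hK ht ht1 hA hr hrρ hρr hcq hn hν hD hL hH htilt hκ0 (min_le_left _ _) hτ
  · refine (near_bound hK ht ht1 hA hr hrρ hρr hcq hn hν hD hL hH hnear).trans ?_
    refine mul_le_mul_of_nonneg_right ?_ (by positivity)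
    rw [hD_def, add_mul]
    exact le_add_of_nonneg_left (by positivity)

end Vale.Agent.P137
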