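import Vale.Agent.P137.LocalBase
import Vale.Agent.P137.Gauss

/-! # P137, module F: the choice of the direction of enlargement -/

namespace Vale.Agent.P137

open MeasureTheory Set Filter Topology
open scoped RealInnerProductSpace ENNReal

variable {d : ℕ}

theorem smoothInd_mono {A A' : Set (Pt d)} (h : A' ⊆ A) {l : ℝ} (hl : 0 < l) (x : Pt d) :
    smoothInd A' l x ≤ smoothInd A l x :=
  setIntegral_mono_set (integrable_gauss_sub hl x).integrableOn
    (ae_of_all _ fun _ => gauss_nonneg hl.le _) (LE.le.eventuallyLE h)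

theorem abs_smoothInd_sub_le {A : Set (Pt d)} (hA : MeasurableSet A) {l : ℝ} (hl : 0 < l)
    (x y : Pt d) : |smoothInd A l x - smoothInd A l y| ≤ √d / l * ‖x - y‖ := by
  obtain ⟨-, -, -, hg, -, -, hd⟩ := smoothBasics d A hA l hl
  have := norm_image_sub_le_of_norm_deriv_le_segment_01'
    (f := fun t : ℝ => smoothInd A l (y + t • (x - y)))
    (C := √d / l * ‖x - y‖)
    (f' := fun t => ⟪gradInd A l (y + t • (x - y)), x - y⟫)
    (fun t _ => (hd y (x - y) t).hasDerivWithinAt)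
    (fun t _ => by
      rw [Real.norm_eq_abs]
      exact (abs_real_inner_le_norm _ _).trans
        (mul_le_mul_of_nonneg_right (hg _) (norm_nonneg _)))
  simpa [Real.norm_eq_abs] using this

/-- constant of the moment estimate. -/
noncomputable def momC (d : ℕ) : ℝ := 3 ^ d * Real.exp 1

/-- the kernel of the gradient at scale `S` is dominated by a nearby Gaussian at scale `3 S`. -/
theorem norm_kvec_le_gauss {S : ℝ} (hS : 0 < S) {z w : Pt d} (h : ‖z - w‖ ≤ S) :
    ‖kvec S z‖ ≤ momC d / S * gauss (3 * S) w := by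
  rw [norm_kvec hS]
  have hw : ‖w‖ ≤ ‖z‖ + S := by
    have := norm_sub_norm_le w z
    rw [norm_sub_rev] at this
    linarith
  obtain ⟨t, ht, htz⟩ : ∃ t : ℝ, 0 ≤ t ∧ ‖z‖ = t * S :=
    ⟨‖z‖ / S, by positivity, (div_mul_cancel₀ _ hS.ne').symm⟩
  have h1 : t ≤ Real.exp t := le_trans (by linarith) (Real.add_one_le_exp t)
  have h2 : t + (-t ^ 2 / 2) ≤ 1 + (-(t + 1) ^ 2 / 18) := by
    nlinarith [sq_nonneg (t - 5 / 4)]
  have h3 : -(t + 1) ^ 2 / 18 ≤ -‖w‖ ^ 2 / (2 * (3 * S) ^ 2) := by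
    have h4 : ‖w‖ ≤ (t + 1) * S := by rw [htz] at hw; linarith
    have h5 : ‖w‖ ^ 2 ≤ ((t + 1) * S) ^ 2 := pow_le_pow_left₀ (norm_nonneg w) h4 2
    rw [div_le_div_iff₀ (by norm_num) (by positivity)]
    nlinarith
  have key : t * Real.exp (-t ^ 2 / 2) ≤ Real.exp 1 * Real.exp (-‖w‖ ^ 2 / (2 * (3 * S) ^ 2)) := by
    refine (mul_le_mul_of_nonneg_right h1 (Real.exp_nonneg _)).trans ?_
    rw [← Real.exp_add, ← Real.exp_add]
    exact Real.exp_le_exp.2 (h2.trans (by linarith))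
  have eS : -‖z‖ ^ 2 / (2 * S ^ 2) = -t ^ 2 / 2 := by
    rw [htz]
    field_simp
  simp only [gauss, eS, momC]
  rw [htz]
  have e3 : ((√(2 * Real.pi) * S) ^ d)⁻¹ = 3 ^ d * ((√(2 * Real.pi) * (3 * S)) ^ d)⁻¹ := by
    rw [show √(2 * Real.pi) * (3 * S) = 3 * (√(2 * Real.pi) * S) by ring,
      mul_pow (3 : ℝ) (√(2 * Real.pi) * S) d]
    field_simp
  rw [e3]
  calc 3 ^ d * ((√(2 * Real.pi) * (3 * S)) ^ d)⁻¹ * Real.exp (-t ^ 2 / 2) * (t * S) / S ^ 2
      = 3 ^ d * ((√(2 * Real.pi) * (3 * S)) ^ d)⁻¹ / S * (t * Real.exp (-t ^ 2 / 2)) := by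
        field_simp
    _ ≤ 3 ^ d * ((√(2 * Real.pi) * (3 * S)) ^ d)⁻¹ / S *
          (Real.exp 1 * Real.exp (-‖w‖ ^ 2 / (2 * (3 * S) ^ 2))) :=
        mul_le_mul_of_nonneg_left key (by positivity)
    _ = _ := by ring

/-- nested sets have close gradients. -/
theorem norm_gradInd_sub_le {A A' : Set (Pt d)} (hA : MeasurableSet A) (hA' : MeasurableSet A')
    (h : A' ⊆ A ∨ A ⊆ A') {S : ℝ} (hS : 0 < S) {q x : Pt d} (hqx : ‖q - x‖ ≤ S) :
    ‖gradInd A S q - gradInd A' S q‖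
      ≤ momC d / S * |smoothInd A (3 * S) x - smoothInd A' (3 * S) x| := by
  wlog hsub : A' ⊆ A generalizing A A'
  · rw [norm_sub_rev, abs_sub_comm]
    exact this hA' hA h.symm (h.resolve_left hsub)
  have hk : Integrable fun y => kvec S (q - y) := integrable_kvec_sub hS q
  have hg : Integrable fun y => gauss (3 * S) (x - y) := integrable_gauss_sub (by positivity) x
  rw [gradInd_eq, gradInd_eq, ← setIntegral_sdiff hA' hk.integrableOn hsub]
  have e : smoothInd A (3 * S) x - smoothInd A' (3 * S) x = ∫ y in A \ A', gauss (3 * S) (x - y) :=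
    (setIntegral_sdiff hA' hg.integrableOn hsub).symm
  rw [e, abs_of_nonneg (setIntegral_nonneg (hA.diff hA') fun y _ => gauss_nonneg (by positivity) _),
    ← integral_const_mul]
  refine (norm_integral_le_integral_norm _).trans
    (setIntegral_mono_on hk.norm.integrableOn (hg.const_mul _).integrableOn (hA.diff hA')
      fun y _ => norm_kvec_le_gauss hS (by rwa [sub_sub_sub_cancel_right]))

/-- directions of close vectors are close. -/
theorem norm_dir_sub_le {n n' g g' : Pt d} (hn : ‖n‖ = 1) (hn' : ‖n'‖ = 1)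
    (hg : ⟪g, n⟫ = ‖g‖) (hg' : ⟪g', n'⟫ = ‖g'‖) :
    ‖g‖ * ‖n - n'‖ ≤ 2 * ‖g - g'‖ := by
  have e : ∀ {u v : Pt d}, ‖v‖ = 1 → ⟪u, v⟫ = ‖u‖ → u = ‖u‖ • v := by
    intro u v hv huv
    have h0 : ‖u - ‖u‖ • v‖ ^ 2 = 0 := by
      rw [norm_sub_sq_real, real_inner_smul_right, huv, norm_smul, hv, Real.norm_eq_abs,
        abs_of_nonneg (norm_nonneg u)]
      ring
    exact sub_eq_zero.1 (norm_eq_zero.1 (sq_eq_zero_iff.1 h0))
  calc ‖g‖ * ‖n - n'‖ = ‖(g - g') + (‖g'‖ - ‖g‖) • n'‖ := by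
        rw [show (g - g') + (‖g'‖ - ‖g‖) • n' = ‖g‖ • (n - n') by
          conv_lhs => rw [e hn hg, e hn' hg']
          simp only [norm_smul, hn, hn', Real.norm_eq_abs, mul_one,
            abs_of_nonneg (norm_nonneg g), abs_of_nonneg (norm_nonneg g')]
          module]
        rw [norm_smul, Real.norm_eq_abs, abs_of_nonneg (norm_nonneg g)]
    _ ≤ ‖g - g'‖ + ‖(‖g'‖ - ‖g‖) • n'‖ := norm_add_le _ _
    _ ≤ _ := by
        rw [norm_smul, hn', mul_one, Real.norm_eq_abs]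
        have := abs_norm_sub_norm_le g' g
        rw [norm_sub_rev] at this
        linarith

/-- nested layers with monotone profiles have close normals. -/
theorem norm_sub_le_of_nested {A A' : Set (Pt d)} (h : A' ⊆ A) {n n' q : Pt d} {S b b' β ε δ : ℝ}
    (hn : ‖n‖ = 1) (hn' : ‖n'‖ = 1) (hS : 0 < S) (hδ : 0 < δ) (hβ0 : 0 < β) (hβ : β ≤ 1 / 100)
    (hε : ε ≤ β) (hε0 : 0 ≤ ε) (hb : |b| ≤ 10 * β * S) (hb' : |b'| ≤ 10 * β * S)
    (hp : ProfileAt A n S q 1 ε δ b) (hp' : ProfileAt A' n' S q 1 ε δ b') :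
    ‖n - n'‖ ≤ 100 * β := by
  obtain ⟨hb1, hb2⟩ := abs_le.1 hb
  obtain ⟨hb1', hb2'⟩ := abs_le.1 hb'
  have hεS : ε * S ≤ β * S := by gcongr
  have hβS : β * S ≤ S / 100 := by nlinarith
  -- a point high in the smaller set is not low in the bigger one
  have key : ∀ y : Pt d, ‖y‖ ≤ S → b' + ε * S ≤ ⟪y, n'⟫ → b - ε * S < ⟪y, n⟫ := by
    intro y hy h1
    by_contra h2
    have hy' : q + y ∈ Metric.closedBall q (1 * S) := by
      simpa [Metric.mem_closedBall, dist_eq_norm, one_mul] using hy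
    have e1 := (hp' _ hy').1 (by simpa using h1)
    have e2 := (hp _ hy').2 (by simpa using not_lt.1 h2)
    have e3 := smoothInd_mono h (mul_pos hδ hS) (q + y)
    linarith
  set c := ⟪n', n⟫ with hc
  have hc1 : |c| ≤ 1 := by simpa [hn, hn'] using abs_real_inner_le_norm n' n
  set w := n - c • n' with hw
  have hwn' : ⟪w, n'⟫ = 0 := by
    rw [hw, inner_sub_left, real_inner_smul_left, inner_self_one hn', real_inner_comm n' n]
    ring
  have hww : ‖w‖ ^ 2 = 1 - c ^ 2 := by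
    rw [hw, norm_sub_sq_real, real_inner_smul_right, norm_smul, hn, hn', real_inner_comm n' n,
      Real.norm_eq_abs, mul_one, sq_abs]
    ring
  have hwn : ⟪w, n⟫ = ‖w‖ ^ 2 := by
    rw [hww, hw, inner_sub_left, real_inner_smul_left, inner_self_one hn, ← hc]
    ring
  have h44 : ‖w‖ ≤ 44 * β := by
    rcases eq_or_ne w 0 with h0 | h0
    · rw [h0, norm_zero]; positivity
    have hwp : 0 < ‖w‖ := norm_pos_iff.2 h0
    have hu : ‖(S / 2 / ‖w‖) • w‖ = S / 2 := by
      rw [norm_smul, Real.norm_eq_abs, abs_of_pos (by positivity), div_mul_cancel₀ _ hwp.ne']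
    have hy : ‖(b' + ε * S) • n' - (S / 2 / ‖w‖) • w‖ ≤ S := by
      refine (norm_sub_le _ _).trans ?_
      rw [hu, norm_smul, hn', mul_one, Real.norm_eq_abs]
      have : |b' + ε * S| ≤ 11 * β * S := by
        rw [abs_le]
        constructor <;> nlinarith
      linarith
    have := key _ hy (by
      rw [inner_sub_left, real_inner_smul_left, real_inner_smul_left, hwn', inner_self_one hn']
      simp)
    rw [inner_sub_left, real_inner_smul_left, real_inner_smul_left, hwn, ← hc] at this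
    have e : S / 2 / ‖w‖ * ‖w‖ ^ 2 = S / 2 * ‖w‖ := by field_simp
    rw [e] at this
    have hprod : (b' + ε * S) * c ≤ 11 * β * S := by
      refine (le_abs_self _).trans ?_
      rw [abs_mul]
      refine (mul_le_of_le_one_right (abs_nonneg _) hc1).trans ?_
      rw [abs_le]
      constructor <;> nlinarith
    have : S * ‖w‖ < S * (44 * β) := by nlinarith
    exact le_of_lt (lt_of_mul_lt_mul_left this hS.le)
  have hpos : -(22 * β) ≤ c := by
    have := key ((S / 2) • n')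
      (by rw [norm_smul, hn', mul_one, Real.norm_eq_abs, abs_of_pos (by positivity)]; linarith)
      (by rw [real_inner_smul_left, inner_self_one hn', mul_one]; nlinarith)
    rw [real_inner_smul_left, ← hc] at this
    by_contra hlt
    nlinarith [mul_lt_mul_of_pos_left (not_le.1 hlt) hS]
  have hsq : 1 - (44 * β) ^ 2 ≤ c ^ 2 := by
    have := pow_le_pow_left₀ (norm_nonneg w) h44 2
    linarith
  have hc0 : 0 ≤ c := by
    by_contra hlt
    nlinarith [not_le.1 hlt]
  have hd : ‖n - n'‖ ^ 2 = 2 - 2 * c := by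
    rw [norm_sub_sq_real, hn, hn', real_inner_comm n' n]
    ring
  refine le_of_pow_le_pow_left₀ two_ne_zero (by positivity) ?_
  rw [hd]
  nlinarith [(abs_le.1 hc1).2]

/-- one direction which is close to the normals of all the layers of the middle kind, at a distance
governed by their balance in the Gaussian window. -/
theorem exists_dir (d : ℕ) {c₀ : ℝ} (hc₀ : 0 < c₀) : ∃ Cν : ℝ, 0 < Cν ∧
    ∀ (e₀ : Pt d), ‖e₀‖ = 1 → ∀ (K M ε δ : ℝ), 1 ≤ K → 100 * K ≤ M → Cν * (d + 1) ≤ M → 0 ≤ ε →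
    ε ≤ K / M → 0 < δ →
    ∀ (r ρ : ℝ) (c q : Pt d), 0 < r → 0 ≤ ρ → ρ ≤ 2 * r → ‖c - q‖ ≤ r →
    ∀ 𝒜 : Set (Set (Pt d)), IsChain (· ⊆ ·) 𝒜 →
    (∀ A ∈ 𝒜, MeasurableSet A ∧ Aligned A (cellDir A (M * r) q e₀) (M * r) q ∧
      c₀ ≤ M * r * ‖gradInd A (M * r) q‖ ∧
      ∃ b : ℝ, |b| ≤ 10 * K * r ∧ ProfileAt A (cellDir A (M * r) q e₀) (M * r) q 1 ε δ b) →
    ∃ ν : Pt d, ‖ν‖ = 1 ∧ ∀ A ∈ 𝒜, ‖cellDir A (M * r) q e₀ - ν‖ ≤ 100 * K / M ∧
      ‖cellDir A (M * r) q e₀ - ν‖ ≤ Cν *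
        |smoothInd A (3 * (M * r)) (botPt (cellDir A (M * r) q e₀) c ρ) - 1 / 2| := by
  refine ⟨8 * momC d / c₀, by unfold momC; positivity, ?_⟩
  intro e₀ he₀ K M ε δ hK hKM hCM hε0 hε hδ r ρ c q hr hρ hρr hcq 𝒜 hch h
  rcases 𝒜.eq_empty_or_nonempty with rfl | hne
  · exact ⟨e₀, he₀, by simp⟩
  have hM : 0 < M := by linarith
  set S := M * r with hS
  have hS0 : 0 < S := by positivity
  set nn : Set (Pt d) → Pt d := fun A => cellDir A S q e₀
  set bb : Set (Pt d) → ℝ := fun A => smoothInd A (3 * S) (botPt (nn A) c ρ)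
  set Cν := 8 * momC d / c₀ with hCν
  have hCν0 : 0 < Cν := by rw [hCν]; unfold momC; positivity
  have hβ : K / M ≤ 1 / 100 := by rw [div_le_div_iff₀ hM (by norm_num)]; linarith
  have eb : ∀ x : ℝ, 10 * (K / M) * S = 10 * K * r := fun _ => by
    rw [hS]; field_simp
  -- two members of the chain
  have pair : ∀ A ∈ 𝒜, ∀ A' ∈ 𝒜,
      ‖nn A - nn A'‖ ≤ 100 * K / M ∧ 2 * ‖nn A - nn A'‖ ≤ Cν * |bb A - bb A'| := by
    intro A hA A' hA'
    obtain ⟨hm, hal, hfl, b, hb, hp⟩ := h A hA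
    obtain ⟨hm', hal', -, b', hb', hp'⟩ := h A' hA'
    have hsub : A' ⊆ A ∨ A ⊆ A' := hch.total hA' hA
    constructor
    · rw [show 100 * K / M = 100 * (K / M) by ring]
      rw [← eb 0] at hb hb'
      rcases hsub with hs | hs
      · exact norm_sub_le_of_nested hs hal.1 hal'.1 hS0 hδ (by positivity) hβ hε hε0 hb hb' hp hp'
      · rw [norm_sub_rev]
        exact norm_sub_le_of_nested hs hal'.1 hal.1 hS0 hδ (by positivity) hβ hε hε0 hb' hb hp' hp
    · set Δ := ‖nn A - nn A'‖ with hΔ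
      set x := botPt (nn A) c ρ
      have hqx : ‖q - x‖ ≤ S := by
        have e : q - x = (q - c) + ρ • nn A := by simp only [x, botPt]; module
        rw [e]
        refine (norm_add_le _ _).trans ?_
        rw [norm_smul, hal.1, mul_one, Real.norm_eq_abs, abs_of_nonneg hρ, norm_sub_rev]
        nlinarith
      have h1 := norm_dir_sub_le hal.1 hal'.1 hal.2 hal'.2
      have h2 := norm_gradInd_sub_le hm hm' hsub hS0 hqx
      have h3 : |smoothInd A' (3 * S) x - bb A'| ≤ √d / (3 * S) * (ρ * Δ) := by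
        refine (abs_smoothInd_sub_le hm' (by positivity) _ _).trans (le_of_eq ?_)
        have e : x - botPt (nn A') c ρ = ρ • (nn A' - nn A) := by simp only [x, botPt]; module
        rw [e, norm_smul, Real.norm_eq_abs, abs_of_nonneg hρ, norm_sub_rev]
      -- in the units of `c₀`
      have h4 : c₀ * Δ ≤ 2 * momC d * |smoothInd A (3 * S) x - smoothInd A' (3 * S) x| := by
        have h5 := h1.trans (mul_le_mul_of_nonneg_left h2 (by norm_num : (0 : ℝ) ≤ 2))
        have h6 : S * (2 * (momC d / S * |smoothInd A (3 * S) x - smoothInd A' (3 * S) x|))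
            = 2 * momC d * |smoothInd A (3 * S) x - smoothInd A' (3 * S) x| := by field_simp
        calc c₀ * Δ ≤ S * ‖gradInd A S q‖ * Δ := mul_le_mul_of_nonneg_right hfl (norm_nonneg _)
          _ = S * (‖gradInd A S q‖ * Δ) := by ring
          _ ≤ _ := (mul_le_mul_of_nonneg_left h5 hS0.le).trans_eq h6
      have h7 : |smoothInd A (3 * S) x - smoothInd A' (3 * S) x| ≤ |bb A - bb A'| + √d / (3 * S) * (ρ * Δ) := by
        have := abs_sub_le (smoothInd A (3 * S) x) (bb A') (smoothInd A' (3 * S) x)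
        rw [abs_sub_comm (bb A')] at this
        linarith
      have h8 : Cν * (√d / (3 * S) * (ρ * Δ)) ≤ Δ := by
        have hd1 : √(d : ℝ) ≤ d + 1 := by
          rw [Real.sqrt_le_left (by positivity)]
          nlinarith [(Nat.cast_nonneg d : (0 : ℝ) ≤ (d : ℝ))]
        calc Cν * (√d / (3 * S) * (ρ * Δ)) ≤ Cν * (((d : ℝ) + 1) / (3 * S) * ((2 * r) * Δ)) := by
              gcongr
          _ = Cν * ((d : ℝ) + 1) / M * (2 / 3) * Δ := by rw [hS]; field_simp
          _ ≤ 1 * 1 * Δ := by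
              gcongr
              · rw [div_le_one hM]; exact hCM
              · norm_num
          _ = Δ := by ring
      have h9 : 4 * Δ ≤ Cν * |smoothInd A (3 * S) x - smoothInd A' (3 * S) x| := by
        rw [hCν, div_mul_eq_mul_div, le_div_iff₀ hc₀]
        linarith
      have h10 := h9.trans (mul_le_mul_of_nonneg_left h7 hCν0.le)
      have : 0 ≤ Δ := norm_nonneg _
      nlinarith
  -- minimise the imbalance on the closure
  set T : Set (Pt d × ℝ) := (fun A => (nn A, bb A)) '' 𝒜 with hT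
  have hTc : IsCompact (closure T) := by
    refine ((isCompact_closedBall (0 : Pt d) 1).prod (isCompact_Icc (a := (0 : ℝ)) (b := 1))).closure_of_subset ?_
    rintro _ ⟨A, hA, rfl⟩
    exact ⟨by simp [nn, (h A hA).2.1.1], smoothInd_nonneg A (by positivity) _,
      smoothInd_le_one A (by positivity) _⟩
  obtain ⟨p, hp, hmin⟩ := hTc.exists_isMinOn (hne.image _).closure
    (f := fun p : Pt d × ℝ => |p.2 - 1 / 2|) (by fun_prop)
  have hlim : ∀ A ∈ 𝒜, ‖p.1‖ = 1 ∧ ‖nn A - p.1‖ ≤ 100 * K / M ∧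
      2 * ‖nn A - p.1‖ ≤ Cν * |bb A - p.2| := by
    intro A hA
    refine closure_minimal (t := {p : Pt d × ℝ | ‖p.1‖ = 1 ∧ ‖nn A - p.1‖ ≤ 100 * K / M ∧
      2 * ‖nn A - p.1‖ ≤ Cν * |bb A - p.2|}) ?_ ?_ hp
    · rintro _ ⟨A', hA', rfl⟩
      exact ⟨(h A' hA').2.1.1, pair A hA A' hA'⟩
    · have c1 : Continuous fun p : Pt d × ℝ => ‖p.1‖ := by fun_prop
      have c2 : Continuous fun p : Pt d × ℝ => ‖nn A - p.1‖ := by fun_prop
      have c3 : Continuous fun p : Pt d × ℝ => 2 * ‖nn A - p.1‖ := by fun_prop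
      have c4 : Continuous fun p : Pt d × ℝ => Cν * |bb A - p.2| := by fun_prop
      exact (isClosed_eq c1 continuous_const).inter
        ((isClosed_le c2 continuous_const).inter (isClosed_le c3 c4))
  obtain ⟨A₁, hA₁⟩ := hne
  refine ⟨p.1, (hlim A₁ hA₁).1, fun A hA => ⟨(hlim A hA).2.1, ?_⟩⟩
  have h1 := (hlim A hA).2.2
  have h2 : |p.2 - 1 / 2| ≤ |bb A - 1 / 2| := hmin (subset_closure (mem_image_of_mem _ hA))
  have h3 := abs_sub_le (bb A) (1 / 2) p.2
  rw [abs_sub_comm (1 / 2 : ℝ) p.2] at h3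
  show ‖nn A - p.1‖ ≤ Cν * |bb A - 1 / 2|
  nlinarith [hCν0.le]

end Vale.Agent.P137
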