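import Vale.Agent.P137.LocalBase

/-! # P137, module F: shells of the crescent in a straight frame, and flat cells -/

namespace Vale.Agent.P137

open MeasureTheory Set Filter Topology
open scoped RealInnerProductSpace ENNReal

namespace Shell

variable {d : ℕ}

theorem measurable_inner (n : Pt d) : Measurable fun x : Pt d => ⟪x, n⟫ :=
  (by fun_prop : Continuous fun x : Pt d => ⟪x, n⟫).measurable

/-- slices of a set inside a tube. -/
theorem volume_inter_tube (hF : LineFubini) {n : Pt d} (hn : ‖n‖ = 1) {P E : Set (Pt d)}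
    (hP : MeasurableSet P) (hL : LineInv n P) (hE : MeasurableSet E) (a b : ℝ) :
    volume (E ∩ tube n P a b)
      = ∫⁻ x in P ∩ slab n, volume ({t | linePt n x t ∈ E} ∩ Icc a b) := by
  have hT := hE.inter (measurableSet_tube (n := n) hP a b)
  rw [← lintegral_indicator_one hT, hF d n hn _ (measurable_one.indicator hT)]
  have key : ∀ x : Pt d, ∫⁻ t, (E ∩ tube n P a b).indicator (1 : Pt d → ℝ≥0∞) (linePt n x t) =
      P.indicator (fun x => volume ({t | linePt n x t ∈ E} ∩ Icc a b)) x := by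
    intro x
    by_cases hx : x ∈ P
    · have hEm : MeasurableSet {t | linePt n x t ∈ E} :=
        hE.preimage (continuous_linePt_height n x).measurable
      rw [Set.indicator_of_mem hx, ← lintegral_indicator_one (hEm.inter measurableSet_Icc)]
      refine lintegral_congr fun t => ?_
      have hiff : linePt n x t ∈ E ∩ tube n P a b ↔ t ∈ {t | linePt n x t ∈ E} ∩ Icc a b := by
        simp only [mem_inter_iff, tube, mem_ofPred_eq, inner_linePt hn, lineInv_mem hL, hx,
          true_and]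
      by_cases ht : t ∈ {t | linePt n x t ∈ E} ∩ Icc a b
      · rw [Set.indicator_of_mem (hiff.2 ht), Pi.one_apply]
        exact (Set.indicator_of_mem (s := {t | linePt n x t ∈ E} ∩ Icc a b) ht
          (1 : ℝ → ℝ≥0∞)).symm
      · rw [Set.indicator_of_notMem (fun h => ht (hiff.1 h))]
        exact (Set.indicator_of_notMem (s := {t | linePt n x t ∈ E} ∩ Icc a b) ht
          (1 : ℝ → ℝ≥0∞)).symm
    · rw [Set.indicator_of_notMem hx]
      have h0 : ∀ t, linePt n x t ∉ E ∩ tube n P a b :=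
        fun t h => hx ((lineInv_mem hL x t).1 h.2.1)
      simp [h0]
  rw [setLIntegral_congr_fun (measurableSet_slab n) (fun x _ => key x),
    setLIntegral_indicator hP]

/-- lower bound for the transversal area of a cylinder. -/
theorem area_cyl_ge (hF : LineFubini) {n : Pt d} (hn : ‖n‖ = 1) (hd : 1 ≤ d) (c : Pt d)
    {R : ℝ} (hR : 0 < R) :
    ENNReal.ofReal (unitVol d / 2 * R ^ (d - 1)) ≤ volume (cyl n c R ∩ slab n) := by
  have h := volume_tube hF hn (measurableSet_cyl n c R) (lineInv_cyl hn c R)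
    (⟪c, n⟫ - R) (⟪c, n⟫ + R)
  have hsub : Metric.closedBall c R ⊆ tube n (cyl n c R) (⟪c, n⟫ - R) (⟪c, n⟫ + R) := by
    intro y hy
    rw [Metric.mem_closedBall, dist_eq_norm] at hy
    refine ⟨?_, ?_⟩
    · change ‖linePt n y 0 - linePt n c 0‖ ≤ R
      rw [← linePt_zero_sub]
      exact (norm_linePt_zero_le hn _).trans hy
    · have h2 := abs_real_inner_le_norm (y - c) n
      rw [hn, mul_one, inner_sub_left, abs_le] at h2
      exact ⟨by linarith [h2.1], by linarith [h2.2]⟩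
  have h2 := measure_mono (μ := volume) hsub
  rw [h, volume_closedBall_eq _ hR.le, show ⟪c, n⟫ + R - (⟪c, n⟫ - R) = 2 * R by ring] at h2
  have hR' : ENNReal.ofReal (2 * R) ≠ 0 := by simp [hR]
  refine (ENNReal.mul_le_mul_iff_right hR' ENNReal.ofReal_ne_top).1 (le_trans (le_of_eq ?_) h2)
  rw [← ENNReal.ofReal_mul (by linarith)]
  congr 1
  obtain ⟨m, rfl⟩ : ∃ m, d = m + 1 := ⟨d - 1, by omega⟩
  simp only [Nat.add_sub_cancel]
  ring

/-- a unit vector transversal to a given one. -/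
theorem exists_perp (hd : 2 ≤ d) (n : Pt d) : ∃ e : Pt d, ‖e‖ = 1 ∧ ⟪e, n⟫ = 0 := by
  set i : Fin d := ⟨0, by omega⟩ with hi
  set j : Fin d := ⟨1, by omega⟩ with hj
  have hij : i ≠ j := by simp [hi, hj, Fin.ext_iff]
  set u : Pt d := EuclideanSpace.single i (1 : ℝ) with hu
  set v : Pt d := EuclideanSpace.single j (1 : ℝ) with hv
  have huv : ⟪u, v⟫ = 0 := by simp [hu, hv, EuclideanSpace.inner_single_left, hij]
  have hu1 : ‖u‖ = 1 := by simp [hu]
  have hv1 : ‖v‖ = 1 := by simp [hv]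
  by_cases h : ⟪u, n⟫ = 0
  · exact ⟨u, hu1, h⟩
  set w : Pt d := ⟪v, n⟫ • u - ⟪u, n⟫ • v with hw
  have hwn : ⟪w, n⟫ = 0 := by
    rw [hw, inner_sub_left, real_inner_smul_left, real_inner_smul_left]; ring
  have hw0 : w ≠ 0 := by
    intro h0
    have h1 : ⟪w, v⟫ = 0 := by rw [h0, inner_zero_left]
    rw [hw, inner_sub_left, real_inner_smul_left, real_inner_smul_left, huv,
      inner_self_one hv1] at h1
    exact h (by linarith)
  exact ⟨‖w‖⁻¹ • w, norm_smul_inv_norm (𝕜 := ℝ) hw0,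
    by rw [real_inner_smul_left, hwn, mul_zero]⟩

/-! ### one column -/

/-- weight on the line. -/
noncomputable def wE (o L t : ℝ) : ℝ≥0∞ := ENNReal.ofReal (wt o L t)

/-- weighted amount of `E` in the range `s`. -/
noncomputable def mass (o L : ℝ) (E s : Set ℝ) : ℝ≥0∞ := ∫⁻ t in s ∩ E, wE o L t

theorem integrable_wt {L : ℝ} (hL : 0 < L) (o : ℝ) : Integrable fun t => wt o L t := by
  have h := (integrable_exp_neg_mul_sq (b := 1 / (2 * L ^ 2)) (by positivity)).comp_sub_right o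
  refine h.congr (Eventually.of_forall fun t => ?_)
  simp only [wt]; ring_nf

theorem continuous_wt (o L : ℝ) : Continuous (wt o L) := by
  unfold wt; fun_prop

theorem mass_ne_top {L : ℝ} (hL : 0 < L) (o : ℝ) (E s : Set ℝ) : mass o L E s ≠ ⊤ := by
  refine ne_top_of_le_ne_top ?_ (setLIntegral_le_lintegral _ _)
  rw [← lt_top_iff_ne_top]
  exact (integrable_wt hL o).lintegral_lt_top

theorem setLIntegral_wt_indicator {E : Set ℝ} (hE : MeasurableSet E) (o L : ℝ) (s : Set ℝ) :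
    ∫⁻ t in s, ENNReal.ofReal (wt o L t * E.indicator (fun _ => (1 : ℝ)) t) = mass o L E s := by
  rw [mass, inter_comm, ← setLIntegral_indicator hE]
  refine lintegral_congr fun t => ?_
  by_cases ht : t ∈ E <;> simp [ht, wE]

theorem mass_balance {E : Set ℝ} (hE : MeasurableSet E) (o L t0 : ℝ) :
    mass o L E univ + mass o L Eᶜ (Ioi t0)
      = mass o L E (Iio t0) + mass o L univ (Ioi t0) := by
  have hu : (univ : Set ℝ) ∩ E = (Iio t0 ∩ E) ∪ (Ici t0 ∩ E) := by
    rw [← union_inter_distrib_right, Iio_union_Ici]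
  have hci : mass o L E (Ici t0) = mass o L E (Ioi t0) :=
    setLIntegral_congr (Ioi_ae_eq_Ici.symm.inter (ae_eq_refl E))
  have h1 : mass o L E univ = mass o L E (Iio t0) + mass o L E (Ioi t0) := by
    rw [← hci, mass, hu, lintegral_union (measurableSet_Ici.inter hE)
      ((Iio_disjoint_Ici le_rfl).mono inter_subset_left inter_subset_left)]
    rfl
  have h2 : mass o L univ (Ioi t0) = mass o L E (Ioi t0) + mass o L Eᶜ (Ioi t0) := by
    simp only [mass, inter_univ, ← Set.sdiff_eq, lintegral_inter_add_sdiff _ _ hE]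
  rw [h1, h2, add_assoc]

theorem half_le_wE {o L t : ℝ} (hL : 0 < L) (ht : |t - o| ≤ L) : 2⁻¹ ≤ wE o L t := by
  rw [wE, ← ENNReal.ofReal_ofNat, ← ENNReal.ofReal_inv_of_pos (by norm_num)]
  refine ENNReal.ofReal_le_ofReal ?_
  refine le_trans ?_ (Real.add_one_le_exp (-(t - o) ^ 2 / (2 * L ^ 2)))
  have : (t - o) ^ 2 ≤ L ^ 2 := sq_le_sq.2 (by rwa [abs_of_pos hL])
  have h2 : (t - o) ^ 2 / (2 * L ^ 2) ≤ 1 / 2 := by
    rw [div_le_iff₀ (by positivity)]; linarith
  rw [neg_div]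
  linarith

theorem volume_le_mass {E : Set ℝ} (hE : MeasurableSet E) {o L a b : ℝ} (hL : 0 < L)
    (h : ∀ t ∈ Icc a b, |t - o| ≤ L) (s : Set ℝ) (hs : Ioo a b ⊆ s) :
    volume (E ∩ Icc a b) ≤ 2 * mass o L E s := by
  have h0 : volume (E ∩ Icc a b) = volume (E ∩ Ioo a b) :=
    measure_congr ((ae_eq_refl E).inter Ioo_ae_eq_Icc.symm)
  have h1 : ∫⁻ _ in Ioo a b ∩ E, (2 : ℝ≥0∞)⁻¹ ≤ mass o L E s := by
    refine le_trans (setLIntegral_mono' (measurableSet_Ioo.inter hE) fun t ht => ?_)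
      (lintegral_mono_set (inter_subset_inter_left _ hs))
    exact half_le_wE hL (h t (Ioo_subset_Icc_self ht.1))
  rw [setLIntegral_const, inter_comm, ← h0] at h1
  calc volume (E ∩ Icc a b) = 2 * (2⁻¹ * volume (E ∩ Icc a b)) := by
        rw [← mul_assoc, ENNReal.mul_inv_cancel (by norm_num) (by norm_num), one_mul]
    _ ≤ _ := by gcongr

/-- a column whose height is at most `t0` has little of the complement above `t0`. -/
theorem col_above {E : Set ℝ} (hE : MeasurableSet E) {o L t0 b : ℝ} (hL : 0 < L)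
    (h : ∀ t ∈ Icc t0 b, |t - o| ≤ L) (hM : mass o L univ (Ioi t0) ≤ mass o L E univ) :
    volume (Eᶜ ∩ Icc t0 b)
      ≤ 2 * min (mass o L E (Iio t0)) (mass o L Eᶜ (Ioi t0)) := by
  have hb := mass_balance hE o L t0
  have hle : mass o L Eᶜ (Ioi t0) ≤ mass o L E (Iio t0) := by
    have : mass o L E univ + mass o L Eᶜ (Ioi t0) ≤ mass o L E univ + mass o L E (Iio t0) := by
      rw [hb, add_comm]; gcongr
    exact (ENNReal.add_le_add_iff_left (mass_ne_top hL _ _ _)).1 this
  rw [min_eq_right hle]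
  exact volume_le_mass hE.compl hL h _ (Ioo_subset_Ioi_self)

/-- a column of small height has complement in the segment below `t0`, or is mixed. -/
theorem col_below {E : Set ℝ} (hE : MeasurableSet E) {o L t0 a τ : ℝ} (hL : 0 < L) (hτ : 0 ≤ τ)
    (ha : t0 = a + τ / 16) (h : ∀ t ∈ Icc a t0, |t - o| ≤ L)
    (hM : (mass o L E univ).toReal < (mass o L univ (Ioi t0)).toReal + τ / 64) :
    ENNReal.ofReal (τ / 128)
      ≤ volume (Eᶜ ∩ Icc a t0) + min (mass o L E (Iio t0)) (mass o L Eᶜ (Ioi t0)) := by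
  have hI : volume (Icc a t0) = ENNReal.ofReal (τ / 16) := by
    rw [Real.volume_Icc, ha]; ring_nf
  have hE1 : volume (E ∩ Icc a t0) ≠ ⊤ :=
    measure_ne_top_of_subset inter_subset_right (by rw [hI]; exact ENNReal.ofReal_ne_top)
  have hE2 : volume (Eᶜ ∩ Icc a t0) ≠ ⊤ :=
    measure_ne_top_of_subset inter_subset_right (by rw [hI]; exact ENNReal.ofReal_ne_top)
  have hsum : (volume (E ∩ Icc a t0)).toReal + (volume (Eᶜ ∩ Icc a t0)).toReal = τ / 16 := by
    rw [← ENNReal.toReal_add hE1 hE2, inter_comm E, inter_comm Eᶜ, ← Set.sdiff_eq,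
      measure_inter_add_sdiff _ hE, hI, ENNReal.toReal_ofReal (by positivity)]
  by_cases hl : τ / 128 ≤ (volume (Eᶜ ∩ Icc a t0)).toReal
  · refine le_trans ?_ le_self_add
    rw [ENNReal.ofReal_le_iff_le_toReal hE2]; exact hl
  · refine le_trans ?_ le_add_self
    have hb := congrArg ENNReal.toReal (mass_balance hE o L t0)
    rw [ENNReal.toReal_add (mass_ne_top hL _ _ _) (mass_ne_top hL _ _ _),
      ENNReal.toReal_add (mass_ne_top hL _ _ _) (mass_ne_top hL _ _ _)] at hb
    have h2 := ENNReal.toReal_mono (ENNReal.mul_ne_top (by norm_num) (mass_ne_top hL _ _ _))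
      (volume_le_mass hE hL h (Iio t0) Ioo_subset_Iio_self)
    rw [ENNReal.toReal_mul, ENNReal.toReal_ofNat] at h2
    rw [le_min_iff, ENNReal.ofReal_le_iff_le_toReal (mass_ne_top hL _ _ _),
      ENNReal.ofReal_le_iff_le_toReal (mass_ne_top hL _ _ _)]
    push Not at hl
    constructor <;> linarith

/-- the column height as a weighted mass. -/
theorem toReal_mass_univ {A : Set (Pt d)} (hA : MeasurableSet A) {n : Pt d} {o L : ℝ}
    (hL : 0 < L) (x : Pt d) :
    (mass o L {t | linePt n x t ∈ A} univ).toReal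
      = √(2 * Real.pi) * L * hgt0 (gaussWin o L) A n x := by
  have hE : MeasurableSet {t | linePt n x t ∈ A} :=
    hA.preimage (continuous_linePt_height n x).measurable
  have hnn : ∀ t, 0 ≤ wt o L t := fun t => Real.exp_nonneg _
  rw [mass, univ_inter, hgt0, ← integral_const_mul]
  simp only [wE]
  rw [← ofReal_integral_eq_lintegral_ofReal (integrable_wt hL o).integrableOn
      (Eventually.of_forall hnn),
    ENNReal.toReal_ofReal (integral_nonneg hnn), ← integral_indicator hE]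
  refine integral_congr_ae (Eventually.of_forall fun t => ?_)
  by_cases ht : linePt n x t ∈ A
  · have e : (√(2 * Real.pi) * L) ≠ 0 := by positivity
    simp only [Set.indicator, mem_ofPred_eq, ht, ↓reduceIte, gaussWin, gauss1, wt, mul_one]
    rw [show L ^ 2 - (0 : ℝ) ^ 2 = L ^ 2 by ring, Real.sqrt_sq hL.le, ← mul_assoc,
      mul_inv_cancel₀ e, one_mul]
  · simp [Set.indicator, ht]

theorem measurable_zDev {A : Set (Pt d)} (hA : MeasurableSet A) (n : Pt d) (o L : ℝ) (c : Pt d) :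
    Measurable (zDev A n o L c) := by
  have hj : Measurable fun p : Pt d × ℝ =>
      gaussWin o L 0 p.2 * A.indicator (fun _ => (1 : ℝ)) (linePt n p.1 p.2) := by
    have hl : Continuous fun p : Pt d × ℝ => linePt n p.1 p.2 := by unfold linePt; fun_prop
    have hg : Continuous fun p : Pt d × ℝ => gaussWin o L 0 p.2 := by
      unfold gaussWin gauss1; fun_prop
    exact hg.measurable.mul ((measurable_const.indicator hA).comp hl.measurable)
  have h0 : Measurable fun x => hgt0 (gaussWin o L) A n x :=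
    (hj.stronglyMeasurable.integral_prod_right').measurable
  exact (h0.sub_const _).pow_const 2

/-! ### the shell -/

/-- the standing hypotheses on a shell and a nearly straight frame. -/
structure Frame (d : ℕ) (K ε r ρ s : ℝ) (c q n ν : Pt d) : Prop where
  hK : 2 ≤ K
  hε : 0 < ε
  hεK : ε * K ≤ 1 / 100
  hε2 : ε ≤ 1 / 200
  hr : 0 < r
  hrρ : r ≤ ρ
  hρr : ρ ≤ 2 * r
  hs : 0 < s
  hsr : s ≤ ε ^ 2 * r
  hn : ‖n‖ = 1
  hν : ‖ν‖ = 1
  hnν : ‖n - ν‖ ≤ ε * s / r
  hq : ‖q - botPt ν c ρ‖ ≤ ε ^ 2 * s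

theorem Frame.hK0 {K ε r ρ s : ℝ} {c q n ν : Pt d} (F : Frame d K ε r ρ s c q n ν) : 0 < K := by
  linarith [F.hK]

theorem Frame.hKτ {K ε r ρ s : ℝ} {c q n ν : Pt d} (F : Frame d K ε r ρ s c q n ν) :
    K * (s ^ 2 / (K * r)) = s ^ 2 / r := by
  have := F.hK0; have := F.hr
  field_simp

theorem Frame.τ_pos {K ε r ρ s : ℝ} {c q n ν : Pt d} (F : Frame d K ε r ρ s c q n ν) :
    0 < s ^ 2 / (K * r) :=
  div_pos (pow_pos F.hs 2) (mul_pos F.hK0 F.hr)

theorem Frame.τ_small {K ε r ρ s : ℝ} {c q n ν : Pt d} (F : Frame d K ε r ρ s c q n ν) :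
    K * (s ^ 2 / (K * r)) ≤ ε ^ 2 * s := by
  rw [F.hKτ, div_le_iff₀ F.hr]
  have := mul_le_mul_of_nonneg_left F.hsr F.hs.le
  linarith

theorem Frame.τ_le {K ε r ρ s : ℝ} {c q n ν : Pt d} (F : Frame d K ε r ρ s c q n ν) :
    s ^ 2 / (K * r) ≤ K * (s ^ 2 / (K * r)) :=
  le_mul_of_one_le_left F.τ_pos.le (by linarith [F.hK])

theorem Frame.window {K ε r ρ s : ℝ} {c q n ν : Pt d} (F : Frame d K ε r ρ s c q n ν) {t : ℝ}
    (h1 : ⟪botPt ν c ρ, n⟫ ≤ t) (h2 : t ≤ ⟪botPt ν c ρ, n⟫ + 5 * K * (s ^ 2 / (K * r))) :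
    |t - ⟪q, n⟫| ≤ ε * s := by
  obtain ⟨-, hε, -, hε2, -, -, -, hs, -, hn, -, -, hq⟩ := id F
  have h3 := abs_real_inner_le_norm (botPt ν c ρ - q) n
  rw [hn, mul_one, inner_sub_left, norm_sub_rev] at h3
  have h4 := abs_le.1 (h3.trans hq)
  have hεs : ε ^ 2 * s ≤ ε * s / 200 := by
    have := mul_le_mul_of_nonneg_right hε2 (mul_pos hε hs).le
    linarith
  have := mul_pos hε hs
  rw [abs_le]
  constructor <;> linarith [h4.1, h4.2, F.τ_small]

/-- the shell lies in a tube of the frame. -/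
theorem shell_subset {K ε r ρ s : ℝ} {c q n ν : Pt d} (F : Frame d K ε r ρ s c q n ν) :
    shell K ν c ρ s ⊆ tube n (cyl n q (4 * s))
      (⟪botPt ν c ρ, n⟫ + s ^ 2 / (K * r) / 5)
      (⟪botPt ν c ρ, n⟫ + 5 * K * (s ^ 2 / (K * r))) := by
  have hK0 := F.hK0
  have hτ0 := F.τ_pos
  have hKτ := F.hKτ
  have hKτs := F.τ_small
  have hτKτ := F.τ_le
  obtain ⟨hK, hε, hεK', hε200, hr, hrρ, hρr, hs, hsr, hn, hν, hnν, hq⟩ := F
  have hρ0 : 0 < ρ := by linarith
  have hε2' : ε ^ 2 ≤ 1 / 100 := by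
    have h := pow_le_pow_left₀ hε.le hε200 2
    linarith
  have hes : ε ^ 2 * s ≤ s / 100 := by
    have h := mul_le_mul_of_nonneg_right hε2' hs.le
    linarith
  have hsr' : s ≤ r := hsr.trans (mul_le_of_le_one_left hr.le (by linarith))
  set x := botPt ν c ρ with hx
  set T := ⟪x, n⟫ with hT
  set τ := s ^ 2 / (K * r) with hτ
  rintro y ⟨hy, hw1, hw2⟩
  obtain ⟨g1, g2, g3⟩ := crescent_geom hν hρ0 hy
  rw [← hx] at g1 g2 g3 hw1 hw2
  set w := ‖linePt ν y 0 - linePt ν x 0‖ with hw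
  set h := ⟪y - x, ν⟫ with hh
  have hh1 : τ / 4 ≤ h := by
    have h1 : s ^ 2 ≤ w ^ 2 := pow_le_pow_left₀ hs.le hw1 2
    have h2 : 2 * K * ρ * h ≤ 4 * K * r * h := by
      have : ρ * (K * h) ≤ 2 * r * (K * h) := mul_le_mul_of_nonneg_right hρr (by positivity)
      linarith
    rw [hτ, div_div, div_le_iff₀ (by positivity)]
    linarith
  have hh2 : h ≤ 4 * (K * τ) := by
    have h1 : w ^ 2 ≤ (2 * s) ^ 2 := pow_le_pow_left₀ (norm_nonneg _) hw2.le 2
    have h2 : h * r ≤ h * ρ := mul_le_mul_of_nonneg_left hrρ g1.le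
    rw [hKτ, ← mul_div_assoc, le_div_iff₀ hr]
    linarith
  have hnorm : ‖y - x‖ ≤ 3 * s := by
    have e := norm_sq_split hν (y - x)
    rw [linePt_zero_sub, ← hw, ← hh] at e
    have : h ≤ s := by linarith
    nlinarith [norm_nonneg (y - x), norm_nonneg (linePt ν y 0 - linePt ν x 0)]
  refine ⟨?_, ?_⟩
  · change ‖linePt n y 0 - linePt n q 0‖ ≤ 4 * s
    rw [← linePt_zero_sub]
    refine (norm_linePt_zero_le hn _).trans ?_
    have : ‖y - q‖ ≤ ‖y - x‖ + ‖q - x‖ := by
      rw [norm_sub_rev q x]; exact norm_sub_le_norm_sub_add_norm_sub _ _ _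
    linarith
  · have herr : |⟪y - x, n⟫ - h| ≤ 3 * ε * (K * τ) := by
      rw [hh, ← inner_sub_right]
      refine (abs_real_inner_le_norm _ _).trans ?_
      calc ‖y - x‖ * ‖n - ν‖ ≤ (3 * s) * (ε * s / r) := by gcongr
        _ = _ := by rw [hKτ]; ring
    rw [abs_le, inner_sub_left, ← hT] at herr
    have h3 : 3 * ε * (K * τ) ≤ 3 / 100 * τ := by
      have := mul_le_mul_of_nonneg_right hεK' hτ0.le; linarith
    constructor <;> linarith [hτKτ]

/-- the radius of the disc below the shell. -/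
theorem Frame.radius {K ε r ρ s : ℝ} {c q n ν : Pt d} (F : Frame d K ε r ρ s c q n ν) :
    (s / √(40 * K)) ^ 2 = r * (s ^ 2 / (K * r)) / 40 ∧ s / √(40 * K) ≤ s / 8 ∧
      s ^ 2 / (K * r) ≤ s / √(40 * K) := by
  obtain ⟨hK, hε, -, hε2, hr, -, -, hs, hsr, -, -, -, -⟩ := F
  have hK0 : 0 < K := by linarith
  have h40 : (0 : ℝ) < 40 * K := by positivity
  have ha2 : (s / √(40 * K)) ^ 2 = r * (s ^ 2 / (K * r)) / 40 := by
    rw [div_pow, Real.sq_sqrt h40.le]; field_simp
  refine ⟨ha2, ?_, ?_⟩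
  · refine div_le_div_of_nonneg_left hs.le (by norm_num) ?_
    rw [Real.le_sqrt (by norm_num) h40.le]; linarith
  · have hτr : 40 * (s ^ 2 / (K * r)) ≤ r := by
      rw [← mul_div_assoc, div_le_iff₀ (by positivity)]
      have h1 : s ^ 2 ≤ (ε ^ 2 * r) ^ 2 := pow_le_pow_left₀ hs.le hsr 2
      have h2 : (ε ^ 2) ^ 2 ≤ ((1 / 200) ^ 2) ^ 2 :=
        pow_le_pow_left₀ (sq_nonneg ε) (pow_le_pow_left₀ hε.le hε2 2) 2
      have h3 := mul_le_mul_of_nonneg_right h2 (sq_nonneg r)
      have h4 := mul_le_mul_of_nonneg_right hK (sq_nonneg r)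
      linarith [sq_nonneg r]
    refine (sq_le_sq₀ (by positivity) (by positivity)).1 ?_
    rw [ha2, sq]
    have h5 : 0 ≤ s ^ 2 / (K * r) := by positivity
    have h6 := mul_le_mul_of_nonneg_right hτr h5
    linarith

/-- horizontal position of the disc below the shell. -/
theorem disc_horiz {K ε r ρ s : ℝ} {c q n ν e y : Pt d} (F : Frame d K ε r ρ s c q n ν)
    (he : ‖e‖ = 1) (hen : ⟪e, n⟫ = 0)
    (hy : y ∈ cyl n (botPt ν c ρ + (s / √(40 * K)) • e) (s / √(40 * K) / 4)) :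
    3 / 4 * (s / √(40 * K)) ≤ ‖linePt n y 0 - linePt n (botPt ν c ρ) 0‖ ∧
      ‖linePt n y 0 - linePt n (botPt ν c ρ) 0‖ ≤ 5 / 4 * (s / √(40 * K)) ∧
      y ∈ cyl n q (4 * s) := by
  obtain ⟨-, has, -⟩ := F.radius
  have hK0 := F.hK0
  obtain ⟨hK, hε, -, hε2, -, -, -, hs, -, hn, -, -, hq⟩ := F
  set x := botPt ν c ρ
  set a := s / √(40 * K)
  have ha0 : 0 ≤ a := by positivity
  have hy' : ‖linePt n y 0 - linePt n (x + a • e) 0‖ ≤ a / 4 := hy
  have e0 : linePt n (x + a • e) 0 = linePt n x 0 + a • e := by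
    simp only [linePt, inner_add_left, real_inner_smul_left, hen, mul_zero, add_zero]
    module
  have e1 : linePt n y 0 - linePt n x 0
      = (linePt n y 0 - linePt n (x + a • e) 0) + a • e := by
    rw [e0]; module
  have hae : ‖a • e‖ = a := by rw [norm_smul, he, Real.norm_eq_abs, abs_of_nonneg ha0, mul_one]
  have h1 : ‖linePt n y 0 - linePt n x 0‖ ≤ 5 / 4 * a := by
    rw [e1]
    refine (norm_add_le _ _).trans ?_
    linarith
  refine ⟨?_, h1, ?_⟩
  · have := norm_sub_le_norm_add (a • e) (linePt n y 0 - linePt n (x + a • e) 0)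
    rw [hae, add_comm (a • e), ← e1] at this
    linarith
  · change ‖linePt n y 0 - linePt n q 0‖ ≤ 4 * s
    refine (norm_sub_le_norm_sub_add_norm_sub _ (linePt n x 0) _).trans ?_
    have h2 : ‖linePt n x 0 - linePt n q 0‖ ≤ ε ^ 2 * s := by
      rw [← linePt_zero_sub]
      exact (norm_linePt_zero_le hn _).trans (by rwa [norm_sub_rev])
    have h3 : ε ^ 2 * s ≤ 1 * s :=
      mul_le_mul_of_nonneg_right (pow_le_one₀ hε.le (by linarith)) hs.le
    linarith

/-- a disc in the frame whose columns meet the ball below the shell. -/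
theorem disc_subset {K ε r ρ s : ℝ} {c q n ν e : Pt d} (F : Frame d K ε r ρ s c q n ν)
    (he : ‖e‖ = 1) (hen : ⟪e, n⟫ = 0) :
    tube n (cyl n (botPt ν c ρ + (s / √(40 * K)) • e) (s / √(40 * K) / 4))
        (⟪botPt ν c ρ, n⟫ + s ^ 2 / (K * r) / 16) (⟪botPt ν c ρ, n⟫ + s ^ 2 / (K * r) / 8)
      ⊆ Metric.ball c ρ ∩
        {y | s / (√(40 * K)) / 4 ≤ ‖linePt ν y 0 - linePt ν (botPt ν c ρ) 0‖ ∧
          ‖linePt ν y 0 - linePt ν (botPt ν c ρ) 0‖ ≤ 2 * s / √(40 * K)} := by
  rintro y ⟨hy, hy1, hy2⟩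
  obtain ⟨ha2, has, hτa⟩ := F.radius
  obtain ⟨w1, w2, -⟩ := disc_horiz F he hen hy
  have hK0 := F.hK0
  have hτ0 := F.τ_pos
  have hKτ := F.hKτ
  obtain ⟨hK, hε, hεK', hε200, hr, hrρ, -, hs, hsr, hn, hν, hnν, -⟩ := F
  have hρ0 : 0 < ρ := by linarith
  have hsr' : s ≤ r :=
    hsr.trans (mul_le_of_le_one_left hr.le (pow_le_one₀ hε.le (by linarith)))
  rw [show 2 * s / √(40 * K) = 2 * (s / √(40 * K)) by ring]
  set x := botPt ν c ρ with hx
  set τ := s ^ 2 / (K * r)
  set a := s / √(40 * K)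
  have ha0 : 0 ≤ a := by positivity
  have hv1 : τ / 16 ≤ ⟪y - x, n⟫ := by rw [inner_sub_left]; linarith
  have hv2 : ⟪y - x, n⟫ ≤ τ / 8 := by rw [inner_sub_left]; linarith
  have e := norm_sq_split hn (y - x)
  rw [linePt_zero_sub] at e
  have hu : ‖y - x‖ ^ 2 ≤ 25 / 16 * a ^ 2 + τ ^ 2 / 64 := by
    have := pow_le_pow_left₀ (norm_nonneg _) w2 2
    have := pow_le_pow_left₀ (by linarith : 0 ≤ ⟪y - x, n⟫) hv2 2
    linarith
  have hu2 : ‖y - x‖ ≤ 2 * a := by
    have := pow_le_pow_left₀ hτ0.le hτa 2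
    refine (sq_le_sq₀ (norm_nonneg _) (by positivity)).1 ?_
    linarith [sq_nonneg a]
  have hσ : ε * s / r ≤ ε := by
    rw [div_le_iff₀ hr]
    exact mul_le_mul_of_nonneg_left hsr' hε.le
  refine ⟨?_, ?_⟩
  · have herr : |⟪y - x, n⟫ - ⟪y - x, ν⟫| ≤ 2 / 100 * τ := by
      rw [← inner_sub_right]
      refine (abs_real_inner_le_norm _ _).trans ?_
      calc ‖y - x‖ * ‖n - ν‖ ≤ (2 * s) * (ε * s / r) :=
            mul_le_mul (by linarith) hnν (norm_nonneg _) (by positivity)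
        _ = 2 * (ε * (K * τ)) := by rw [hKτ]; ring
        _ ≤ _ := by
            have := mul_le_mul_of_nonneg_right hεK' hτ0.le
            linarith
    have hh : τ / 25 ≤ ⟪y - x, ν⟫ := by linarith [(abs_le.1 herr).2]
    rw [Metric.mem_ball, dist_eq_norm]
    have e2 : y - c = (y - x) - ρ • ν := by rw [hx, botPt]; module
    refine lt_of_pow_lt_pow_left₀ 2 hρ0.le ?_
    rw [e2, norm_sub_sq_real, real_inner_smul_right, norm_smul, hν, mul_one,
      Real.norm_eq_abs, sq_abs]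
    have h3 : r * (τ / 25) ≤ ρ * ⟪y - x, ν⟫ :=
      mul_le_mul hrρ hh (by positivity) hρ0.le
    have h4 : τ * τ ≤ r * τ := mul_le_mul_of_nonneg_right (by linarith) hτ0.le
    have h5 := mul_pos hr hτ0
    linarith
  · have h5 := abs_le.1 (abs_norm_linePt_sub_le hn hν (y - x))
    rw [linePt_zero_sub, linePt_zero_sub] at h5
    have h6 : 2 * ‖n - ν‖ * ‖y - x‖ ≤ a / 4 := by
      calc 2 * ‖n - ν‖ * ‖y - x‖ ≤ 2 * (1 / 200) * (2 * a) :=
            mul_le_mul (by linarith) hu2 (norm_nonneg _) (by norm_num)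
        _ ≤ _ := by linarith
    exact ⟨by linarith [h5.2], by linarith [h5.1]⟩

/-- mixed columns are paid for by the excess. -/
theorem min_mass_le {A : Set (Pt d)} (hA : MeasurableSet A) {K ε r ρ s Cm : ℝ} {c q n ν : Pt d}
    (F : Frame d K ε r ρ s c q n ν)
    (hM : ∀ (A : Set (Pt d)), MeasurableSet A → ∀ (n : Pt d), ‖n‖ = 1 →
      ∀ (S o L t₀ : ℝ) (c : Pt d) (P : Set (Pt d)),
      0 < S → 0 < L → L ≤ S / 4 → |o - ⟪c, n⟫| ≤ 1 * S →
      MeasurableSet P → LineInv n P → P ⊆ cyl n c (1 * S) →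
      ∫⁻ x in P ∩ slab n,
          min (∫⁻ t in Iio t₀, ENNReal.ofReal (wt o L t * A.indicator (fun _ => (1 : ℝ)) (linePt n x t)))
            (∫⁻ t in Ioi t₀, ENNReal.ofReal (wt o L t * Aᶜ.indicator (fun _ => (1 : ℝ)) (linePt n x t)))
        ≤ ENNReal.ofReal (Cm * S) * wsum A n S c) (t0 : ℝ) :
    ∫⁻ y in cyl n q (4 * s) ∩ slab n,
        min (mass ⟪q, n⟫ (ε * s) {t | linePt n y t ∈ A} (Iio t0))
          (mass ⟪q, n⟫ (ε * s) {t | linePt n y t ∈ A}ᶜ (Ioi t0))
      ≤ ENNReal.ofReal (Cm * (4 * s)) * wsum A n (4 * s) q := by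
  obtain ⟨hK, hε, -, hε2, -, -, -, hs, -, hn, -, -, -⟩ := F
  refine le_trans (le_of_eq ?_) (hM A hA n hn (4 * s) ⟪q, n⟫ (ε * s) t0 q (cyl n q (4 * s))
    (by positivity) (by positivity) (by nlinarith) (by rw [sub_self, abs_zero]; positivity)
    (measurableSet_cyl _ _ _) (lineInv_cyl hn _ _) (by rw [one_mul]))
  refine lintegral_congr fun y => ?_
  have hE : MeasurableSet {t | linePt n y t ∈ A} :=
    hA.preimage (continuous_linePt_height n y).measurable
  rw [← setLIntegral_wt_indicator hE, ← setLIntegral_wt_indicator hE.compl]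
  rfl

/-- a high frame height: the shell is paid for by deviations. -/
theorem shell_high (hF : LineFubini) {A : Set (Pt d)} (hA : MeasurableSet A)
    {K ε r ρ s hb : ℝ} {c q n ν : Pt d} {Z : Set (Pt d)} {X : ℝ≥0∞}
    (F : Frame d K ε r ρ s c q n ν) (hZm : MeasurableSet Z)
    (hnear : ∀ y, y ∉ Z → |√(2 * Real.pi) * (ε * s) * hgt0 (gaussWin ⟪q, n⟫ (ε * s)) A n y - hb|
      < s ^ 2 / (K * r) / 128)
    (hmin : ∀ t0, ∫⁻ y in cyl n q (4 * s) ∩ slab n,
        min (mass ⟪q, n⟫ (ε * s) {t | linePt n y t ∈ A} (Iio t0))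
          (mass ⟪q, n⟫ (ε * s) {t | linePt n y t ∈ A}ᶜ (Ioi t0)) ≤ X)
    (hcase : (mass ⟪q, n⟫ (ε * s) univ (Ioi (⟪botPt ν c ρ, n⟫ + s ^ 2 / (K * r) / 8))).toReal
      + s ^ 2 / (K * r) / 128 ≤ hb) :
    volume (Aᶜ ∩ shell K ν c ρ s)
      ≤ 2 * X + ENNReal.ofReal (5 * (s ^ 2 / r)) * volume (slab n ∩ cyl n q (4 * s) ∩ Z) := by
  have hL0 : 0 < ε * s := mul_pos F.hε F.hs
  have hτ0 := F.τ_pos
  have hshell := shell_subset F
  have hwin : ∀ t, _ → _ → _ := fun t => F.window (t := t)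
  have hKτ := F.hKτ
  have hn := F.hn
  set τ := s ^ 2 / (K * r) with hτ
  set T := ⟪botPt ν c ρ, n⟫ with hT
  set o := ⟪q, n⟫ with ho
  set L := ε * s with hL
  set P := cyl n q (4 * s) with hP
  set t2 := T + τ / 8 with ht2
  set ts := T + τ / 5 with hts
  set mn : ℝ → Pt d → ℝ≥0∞ := fun t0 y =>
    min (mass o L {t | linePt n y t ∈ A} (Iio t0)) (mass o L {t | linePt n y t ∈ A}ᶜ (Ioi t0))
    with hmn
  have hPm : MeasurableSet P := measurableSet_cyl _ _ _
  have hPL : LineInv n P := lineInv_cyl hn _ _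
  have hEm : ∀ y, MeasurableSet {t | linePt n y t ∈ A} :=
    fun y => hA.preimage (continuous_linePt_height n y).measurable
  have hcol : ∀ y, volume ({t | linePt n y t ∈ Aᶜ} ∩ Icc ts (T + 5 * K * τ))
      ≤ 2 * mn ts y + Z.indicator (fun _ => ENNReal.ofReal (5 * K * τ)) y := by
    intro y
    by_cases hy : y ∈ Z
    · rw [Set.indicator_of_mem hy]
      refine le_trans (le_trans (measure_mono inter_subset_right) ?_) le_add_self
      rw [Real.volume_Icc]
      exact ENNReal.ofReal_le_ofReal (by rw [hts]; linarith)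
    · refine le_trans ?_ le_self_add
      refine col_above (hEm y) hL0
        (fun t ht => hwin t (by linarith [ht.1]) ht.2) ?_
      have h1 : (mass o L univ (Ioi t2)).toReal
          ≤ (mass o L {t | linePt n y t ∈ A} univ).toReal := by
        rw [toReal_mass_univ hA hL0]
        linarith [(abs_lt.1 (hnear y hy)).1]
      rw [ENNReal.toReal_le_toReal (mass_ne_top hL0 _ _ _) (mass_ne_top hL0 _ _ _)] at h1
      exact le_trans (lintegral_mono_set
        (inter_subset_inter_left _ (Ioi_subset_Ioi (by linarith)))) h1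
  calc volume (Aᶜ ∩ shell K ν c ρ s)
      ≤ volume (Aᶜ ∩ tube n P ts (T + 5 * K * τ)) :=
        measure_mono (inter_subset_inter_right _ hshell)
    _ ≤ ∫⁻ y in P ∩ slab n,
        (2 * mn ts y + Z.indicator (fun _ => ENNReal.ofReal (5 * K * τ)) y) := by
        rw [volume_inter_tube hF hn hPm hPL hA.compl]
        exact lintegral_mono hcol
    _ = (∫⁻ y in P ∩ slab n, 2 * mn ts y)
        + ENNReal.ofReal (5 * K * τ) * volume (slab n ∩ P ∩ Z) := by
        rw [lintegral_add_right _ (measurable_const.indicator hZm), setLIntegral_indicator hZm,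
          setLIntegral_const, show Z ∩ (P ∩ slab n) = slab n ∩ P ∩ Z by
            ext; simp only [mem_inter_iff]; tauto]
    _ ≤ _ := by
        rw [lintegral_const_mul' _ _ (by norm_num), mul_assoc 5 K τ, hKτ]
        gcongr
        exact hmin ts

/-- a low frame height: the ball has a loss below the shell. -/
theorem shell_low (hF : LineFubini) (hd : 2 ≤ d) {A : Set (Pt d)} (hA : MeasurableSet A)
    {K ε r ρ s hb : ℝ} {c q n ν : Pt d} {Z : Set (Pt d)} {X : ℝ≥0∞}
    (F : Frame d K ε r ρ s c q n ν) (hZm : MeasurableSet Z)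
    (hnear : ∀ y, y ∉ Z → |√(2 * Real.pi) * (ε * s) * hgt0 (gaussWin ⟪q, n⟫ (ε * s)) A n y - hb|
      < s ^ 2 / (K * r) / 128)
    (hmin : ∀ t0, ∫⁻ y in cyl n q (4 * s) ∩ slab n,
        min (mass ⟪q, n⟫ (ε * s) {t | linePt n y t ∈ A} (Iio t0))
          (mass ⟪q, n⟫ (ε * s) {t | linePt n y t ∈ A}ᶜ (Ioi t0)) ≤ X)
    (hcase : hb < (mass ⟪q, n⟫ (ε * s) univ (Ioi (⟪botPt ν c ρ, n⟫ + s ^ 2 / (K * r) / 8))).toReal
      + s ^ 2 / (K * r) / 128) :
    volume (Aᶜ ∩ shell K ν c ρ s)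
      ≤ ENNReal.ofReal (1280 * 2 ^ d * 16 ^ (d - 1) * √40 ^ (d - 1) * √K ^ (d + 1)) *
        (X + volume (Aᶜ ∩ Metric.ball c ρ ∩
            {y | s / (√(40 * K)) / 4 ≤ ‖linePt ν y 0 - linePt ν (botPt ν c ρ) 0‖ ∧
              ‖linePt ν y 0 - linePt ν (botPt ν c ρ) 0‖ ≤ 2 * s / √(40 * K)}) +
          ENNReal.ofReal (s ^ 2 / (K * r) / 128) * volume (slab n ∩ cyl n q (4 * s) ∩ Z)) := by
  obtain ⟨e, he, hen⟩ := exists_perp hd n
  have hDB := disc_subset F he hen
  have hDP : cyl n (botPt ν c ρ + (s / √(40 * K)) • e) (s / √(40 * K) / 4) ⊆ cyl n q (4 * s) :=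
    fun y hy => (disc_horiz F he hen hy).2.2
  have hL0 : 0 < ε * s := mul_pos F.hε F.hs
  have hτ0 := F.τ_pos
  have hK0 := F.hK0
  have hs := F.hs
  have hr := F.hr
  have hτKτ := F.τ_le
  have hshell := shell_subset F
  have hwin : ∀ t, _ → _ → _ := fun t => F.window (t := t)
  have hn := F.hn
  set τ := s ^ 2 / (K * r) with hτ
  set x := botPt ν c ρ with hx
  set T := ⟪x, n⟫ with hT
  set o := ⟪q, n⟫ with ho
  set L := ε * s with hL
  set P := cyl n q (4 * s) with hP
  set t2 := T + τ / 8 with ht2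
  set ts := T + τ / 5 with hts
  set a := s / √(40 * K) with ha
  have ha0 : 0 < a := by positivity
  set p := x + a • e with hp
  set D := cyl n p (a / 4) with hD
  set C₀ : ℝ := 1280 * 2 ^ d * 16 ^ (d - 1) * √40 ^ (d - 1) * √K ^ (d + 1) with hC₀
  set V := volume (slab n ∩ P ∩ Z) with hV
  set FB := volume (Aᶜ ∩ Metric.ball c ρ ∩
            {y | a / 4 ≤ ‖linePt ν y 0 - linePt ν x 0‖ ∧
              ‖linePt ν y 0 - linePt ν x 0‖ ≤ 2 * s / √(40 * K)}) with hFB
  set mn : ℝ → Pt d → ℝ≥0∞ := fun t0 y =>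
    min (mass o L {t | linePt n y t ∈ A} (Iio t0)) (mass o L {t | linePt n y t ∈ A}ᶜ (Ioi t0))
    with hmn
  have hPm : MeasurableSet P := measurableSet_cyl _ _ _
  have hPL : LineInv n P := lineInv_cyl hn _ _
  have hDm : MeasurableSet D := measurableSet_cyl _ _ _
  have hDL : LineInv n D := lineInv_cyl hn _ _
  have hEm : ∀ y, MeasurableSet {t | linePt n y t ∈ A} :=
    fun y => hA.preimage (continuous_linePt_height n y).measurable
  set L1 := fun y => volume ({t | linePt n y t ∈ Aᶜ} ∩ Icc (T + τ / 16) t2) with hL1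
  have hL1m : Measurable L1 := by
    have hl : Continuous fun z : Pt d × ℝ => linePt n z.1 z.2 := by unfold linePt; fun_prop
    exact measurable_measure_prodMk_left ((hA.compl.preimage hl.measurable).inter
      (measurableSet_Icc.preimage measurable_snd))
  have hcol : ∀ y, ENNReal.ofReal (τ / 128)
      ≤ mn t2 y + L1 y + Z.indicator (fun _ => ENNReal.ofReal (τ / 128)) y := by
    intro y
    by_cases hy : y ∈ Z
    · rw [Set.indicator_of_mem hy]; exact le_add_self
    · rw [Set.indicator_of_notMem hy, add_zero, add_comm]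
      refine col_below (hEm y) hL0 hτ0.le (by rw [ht2]; ring)
        (fun t ht => hwin t (by linarith [ht.1]) (by linarith [ht.2])) ?_
      rw [toReal_mass_univ hA hL0]
      linarith [(abs_lt.1 (hnear y hy)).2]
  have harea : ENNReal.ofReal (τ / 128) * volume (D ∩ slab n)
      ≤ X + FB + ENNReal.ofReal (τ / 128) * V := by
    calc ENNReal.ofReal (τ / 128) * volume (D ∩ slab n)
        = ∫⁻ _ in D ∩ slab n, ENNReal.ofReal (τ / 128) := (setLIntegral_const _ _).symm
      _ ≤ ∫⁻ y in D ∩ slab n,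
          (mn t2 y + L1 y + Z.indicator (fun _ => ENNReal.ofReal (τ / 128)) y) :=
          lintegral_mono fun y => hcol y
      _ = (∫⁻ y in D ∩ slab n, mn t2 y) + (∫⁻ y in D ∩ slab n, L1 y) +
          ENNReal.ofReal (τ / 128) * volume (Z ∩ (D ∩ slab n)) := by
          rw [lintegral_add_right _ (measurable_const.indicator hZm),
            lintegral_add_right _ hL1m, setLIntegral_indicator hZm, setLIntegral_const]
      _ ≤ _ := by
          gcongr
          · exact (lintegral_mono_set (inter_subset_inter_left _ hDP)).trans (hmin t2)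
          · rw [hL1, ← volume_inter_tube hF hn hDm hDL hA.compl, hFB]
            refine measure_mono ?_
            exact fun y hy => ⟨⟨hy.1, (hDB hy.2).1⟩, (hDB hy.2).2⟩
          · rw [hV]
            exact measure_mono fun y hy => ⟨⟨hy.2.2, hDP hy.2.1⟩, hy.1⟩
  have hD1 := area_cyl_ge hF hn (by omega) p (by positivity : 0 < a / 4)
  calc volume (Aᶜ ∩ shell K ν c ρ s) ≤ volume (tube n P ts (T + 5 * K * τ)) :=
        measure_mono (show Aᶜ ∩ shell K ν c ρ s ⊆ _ from fun y hy => hshell hy.2)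
    _ ≤ ENNReal.ofReal (5 * K * τ) *
        ENNReal.ofReal (2 ^ d * unitVol d * (4 * s) ^ (d - 1)) := by
        rw [volume_tube hF hn hPm hPL]
        gcongr
        · rw [hts]; linarith
        · exact area_cyl_le hF hn (by omega) q (by positivity)
    _ = ENNReal.ofReal C₀ *
        (ENNReal.ofReal (τ / 128) * ENNReal.ofReal (unitVol d / 2 * (a / 4) ^ (d - 1))) := by
        have hu := unitVol_pos (d := d)
        rw [← ENNReal.ofReal_mul (by positivity), ← ENNReal.ofReal_mul (by positivity),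
          ← ENNReal.ofReal_mul (by positivity)]
        congr 1
        obtain ⟨m, rfl⟩ : ∃ m, d = m + 1 := ⟨d - 1, by omega⟩
        simp only [Nat.add_sub_cancel, hC₀, ha]
        rw [show (16 : ℝ) ^ m = 4 ^ m * 4 ^ m by rw [← mul_pow]; norm_num,
          Real.sqrt_mul (by norm_num : (0 : ℝ) ≤ 40), pow_succ √K (m + 1), pow_succ √K m,
          mul_assoc (√K ^ m), Real.mul_self_sqrt hK0.le, div_pow, div_pow, mul_pow, mul_pow]
        field_simp
        ring
    _ ≤ ENNReal.ofReal C₀ *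
        (X + FB + ENNReal.ofReal (τ / 128) * V) :=
        mul_le_mul_right (le_trans (mul_le_mul_right hD1 _) harea) _

end Shell

open Shell

theorem flatCellLemma (hF : LineFubini) (hB : SmoothBasics) (hV : VertLemma) : FlatCellLemma := by
  intro d hd K _hK
  obtain ⟨C, θ, hC, hθ, hV⟩ := hV d 1 (1 / 5) le_rfl (by norm_num)
  have h16 : (1 : ℝ) ≤ 16 ^ d := one_le_pow₀ (by norm_num)
  refine ⟨1 / 5, 16 ^ d * (1 + C), by norm_num, by positivity,
    fun η hη hη5 => ⟨θ, hθ, ?_⟩⟩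
  intro δ hδ hδθ A hA r ρ S c q n ν hr hrρ _hρ hS hSr hn hν hq _hw hcase
  have hρ0 : 0 < ρ := by linarith
  set x := botPt ν c ρ with hx
  set W := wsum A n S q
  have aux : ∀ (A' : Set (Pt d)), MeasurableSet A' → ∀ n' : Pt d, ‖n'‖ = 1 →
      (∀ y ∈ Metric.closedBall q S, smoothInd A' (δ * S) y ≤ 1 / 5) →
      volume (A' ∩ Metric.closedBall q (2 / 5 * S))
        ≤ ENNReal.ofReal (C * S) * wsum A' n' S q := by
    intro A' hA' n' hn' hv
    have hball : tube n' (cyl n' q (2 / 5 * S)) (⟪q, n'⟫ - 2 / 5 * S)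
        (⟪q, n'⟫ + 2 / 5 * S + 1 / 5 * S) ⊆ Metric.closedBall q (1 * S) := by
      rintro y ⟨hy1, hy2, hy3⟩
      rw [Metric.mem_closedBall, dist_eq_norm, one_mul]
      have e := norm_sq_split hn' (y - q)
      rw [linePt_zero_sub, inner_sub_left] at e
      have hy1' : ‖linePt n' y 0 - linePt n' q 0‖ ≤ 2 / 5 * S := hy1
      have h1 : ‖linePt n' y 0 - linePt n' q 0‖ ^ 2 ≤ (2 / 5 * S) ^ 2 :=
        pow_le_pow_left₀ (norm_nonneg _) hy1' 2
      have h2 : (⟪y, n'⟫ - ⟪q, n'⟫) ^ 2 ≤ (3 / 5 * S) ^ 2 :=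
        sq_le_sq' (by linarith) (by linarith)
      nlinarith [norm_nonneg (y - q)]
    refine le_trans (measure_mono (inter_subset_inter_right _ ?_))
      (hV A' hA' n' hn' S q (δ * S) (⟪q, n'⟫ - 2 / 5 * S) (⟪q, n'⟫ + 2 / 5 * S)
        (⟪q, n'⟫ + 2 / 5 * S) (⟪q, n'⟫ + 2 / 5 * S + 1 / 5 * S) (cyl n' q (2 / 5 * S))
        hS (by positivity) (by gcongr) (by linarith) le_rfl le_rfl
        (measurableSet_cyl _ _ _) (lineInv_cyl hn' _ _) hball (fun y hy => hv y ?_))
    · intro y hy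
      rw [Metric.mem_closedBall, dist_eq_norm] at hy
      refine ⟨?_, ?_⟩
      · change ‖linePt n' y 0 - linePt n' q 0‖ ≤ 2 / 5 * S
        rw [← linePt_zero_sub]
        exact (norm_linePt_zero_le hn' _).trans hy
      · have h2 := abs_real_inner_le_norm (y - q) n'
        rw [hn', mul_one, inner_sub_left, abs_le] at h2
        exact ⟨by linarith [h2.1], by linarith [h2.2]⟩
    · have := hball ⟨hy.1, by linarith [hy.2.1], hy.2.2⟩
      rwa [one_mul] at this
  have hsub : crescent K ν c ρ ∩ {y | ‖linePt ν y 0 - linePt ν x 0‖ ≤ S / 4}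
      ⊆ Metric.closedBall q (2 / 5 * S) := by
    rintro y ⟨hy, hyw⟩
    obtain ⟨g1, -, g3⟩ := crescent_geom hν hρ0 hy
    rw [← hx] at g1 g3
    set w := ‖linePt ν y 0 - linePt ν x 0‖ with hw
    set h := ⟪y - x, ν⟫ with hh
    have hw4 : w ≤ S / 4 := hyw
    have hhS : h ≤ S / 16 := by
      have : w ^ 2 ≤ (S / 4) ^ 2 := pow_le_pow_left₀ (norm_nonneg _) hw4 2
      have h3 : h * S ≤ h * ρ := mul_le_mul_of_nonneg_left (by linarith) g1.le
      nlinarith
    have hnorm : ‖y - x‖ ≤ 5 / 16 * S := by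
      have e := norm_sq_split hν (y - x)
      rw [linePt_zero_sub, ← hw, ← hh] at e
      nlinarith [norm_nonneg (y - x), norm_nonneg (linePt ν y 0 - linePt ν x 0)]
    rw [Metric.mem_closedBall, dist_eq_norm]
    have : ‖y - q‖ ≤ ‖y - x‖ + ‖q - x‖ := by
      rw [norm_sub_rev q x]; exact norm_sub_le_norm_sub_add_norm_sub _ _ _
    linarith
  rcases hcase with hlow | hhigh
  · have hA1 := aux A hA n hn fun y hy => (hlow y hy).trans hη5
    set m := x + (S / 8) • ν with hm
    have hball : Metric.ball m (S / 8) ⊆ Metric.closedBall q (2 / 5 * S) ∩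
        (Metric.ball c ρ ∩ Metric.ball x S) := by
      intro y hy
      rw [Metric.mem_ball, dist_eq_norm] at hy
      have e1 : y - x = (y - m) + (S / 8) • ν := by rw [hm]; module
      have e2 : y - c = (y - m) + (S / 8 - ρ) • ν := by rw [hm, hx, botPt]; module
      have n1 : ‖y - x‖ < S / 4 := by
        rw [e1]; refine lt_of_le_of_lt (norm_add_le _ _) ?_
        rw [norm_smul, hν, Real.norm_eq_abs, abs_of_pos (by positivity)]; linarith
      have n2 : ‖y - c‖ < ρ := by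
        rw [e2]; refine lt_of_le_of_lt (norm_add_le _ _) ?_
        rw [norm_smul, hν, Real.norm_eq_abs, abs_of_nonpos (by linarith)]; linarith
      refine ⟨?_, by rwa [Metric.mem_ball, dist_eq_norm],
        by rw [Metric.mem_ball, dist_eq_norm]; linarith⟩
      rw [Metric.mem_closedBall, dist_eq_norm]
      have : ‖y - q‖ ≤ ‖y - x‖ + ‖q - x‖ := by
        rw [norm_sub_rev q x]; exact norm_sub_le_norm_sub_add_norm_sub _ _ _
      linarith
    set X := volume (Aᶜ ∩ Metric.ball c ρ ∩ Metric.ball x S) with hX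
    have hvol : ENNReal.ofReal ((S / 8) ^ d * unitVol d) ≤ X + ENNReal.ofReal (C * S) * W := by
      refine le_trans (le_of_eq ?_) (le_trans (measure_mono (μ := volume)
        (show Metric.ball m (S / 8) ⊆ (Aᶜ ∩ Metric.ball c ρ ∩ Metric.ball x S) ∪
            (A ∩ Metric.closedBall q (2 / 5 * S)) from fun y hy => ?_))
        ((measure_union_le _ _).trans (add_le_add le_rfl hA1)))
      · rw [← toReal_volume_ball m (by positivity : 0 < S / 8),
          ENNReal.ofReal_toReal measure_ball_lt_top.ne]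
      · obtain ⟨h1, h2, h3⟩ := hball hy
        by_cases hyA : y ∈ A
        · exact Or.inr ⟨hyA, h1⟩
        · exact Or.inl ⟨⟨hyA, h2⟩, h3⟩
    calc _ ≤ volume (crescent K ν c ρ ∩ {y | ‖linePt ν y 0 - linePt ν x 0‖ ≤ S / 4}) :=
          measure_mono fun y hy => ⟨hy.1.2, hy.2⟩
      _ ≤ ENNReal.ofReal (2 ^ d * unitVol d * (S / 4) ^ (d + 1) / ρ) :=
          volume_crescent_le hF hν (by omega) hρ0 (by positivity)
      _ ≤ ENNReal.ofReal (16 ^ d * S / r) * ENNReal.ofReal ((S / 8) ^ d * unitVol d) := by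
          rw [← ENNReal.ofReal_mul (by positivity)]
          refine ENNReal.ofReal_le_ofReal ?_
          have hu := unitVol_pos (d := d)
          have e : 16 ^ d * S / r * ((S / 8) ^ d * unitVol d)
              = 2 ^ d * unitVol d * S ^ (d + 1) / r := by
            rw [show (16 : ℝ) ^ d = 2 ^ d * 8 ^ d by rw [← mul_pow]; norm_num, div_pow, pow_succ]
            field_simp
          rw [e]
          have hle : (S / 4) ^ (d + 1) ≤ S ^ (d + 1) :=
            pow_le_pow_left₀ (by positivity) (by linarith) _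
          gcongr
      _ ≤ ENNReal.ofReal (16 ^ d * S / r) * (X + ENNReal.ofReal (C * S) * W) := by gcongr
      _ ≤ _ := by
          rw [mul_add, ← mul_assoc, ← ENNReal.ofReal_mul (by positivity)]
          have hSC : 0 ≤ 16 ^ d * C * S := by positivity
          have hS1 : 0 ≤ 16 ^ d * S := by positivity
          refine add_le_add (mul_le_mul_left (ENNReal.ofReal_le_ofReal ?_) _)
            (mul_le_mul_left (ENNReal.ofReal_le_ofReal ?_) _)
          · gcongr
            exact le_mul_of_one_le_right (by positivity) (by linarith)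
          · calc 16 ^ d * S / r * (C * S) = 16 ^ d * C * S * (S / r) := by ring
              _ ≤ 16 ^ d * C * S * 1 :=
                  mul_le_mul_of_nonneg_left ((div_le_one hr).2 hSr) hSC
              _ ≤ _ := by linarith
  · have hW : wsum Aᶜ (-n) S q = W := by
      refine tsum_congr fun j => ?_
      have hl : 0 < (1 / 2 : ℝ) ^ j * (S / 8) := by positivity
      obtain ⟨-, -, -, -, -, hg, -⟩ := hB d A hA _ hl
      simp only [excess, defect, hg, norm_neg, inner_neg_neg]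
    have hA2 := aux Aᶜ hA.compl (-n) (by rw [norm_neg, hn]) fun y hy => by
      obtain ⟨-, -, -, -, hc, -⟩ := hB d A hA (δ * S) (by positivity)
      rw [hc]; linarith [hhigh y hy]
    rw [hW] at hA2
    refine le_trans (le_trans (measure_mono ?_) hA2) (le_trans ?_ le_add_self)
    · exact fun y hy => ⟨hy.1.1, hsub ⟨hy.1.2, hy.2⟩⟩
    · gcongr
      nlinarith

theorem shellLemma (hF : LineFubini) (hM : ColumnMin) : ShellLemma := by
  intro d hd
  refine ⟨1280 * 2 ^ d * 16 ^ (d - 1) * √40 ^ (d - 1), by positivity, fun K hK => ?_⟩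
  obtain ⟨Cm, hCm, hM⟩ := hM d 1 le_rfl
  refine ⟨1 / (100 * K), by positivity, fun ε hε hεK => ?_⟩
  have hK0 : 0 < K := by linarith
  set C₀ : ℝ := 1280 * 2 ^ d * 16 ^ (d - 1) * √40 ^ (d - 1) * √K ^ (d + 1) with hC₀
  have hC0 : 0 < C₀ := by positivity
  refine ⟨5 + C₀ + 4 * Cm * (C₀ + 2), (1 / (128 * √(2 * Real.pi) * K * ε)) ^ 2,
    by positivity, by positivity, ?_⟩
  intro A hA r ρ s c q n ν hr hrρ hρr hs hsr hn hν hnν hq
  have hεK' : ε * K ≤ 1 / 100 := by
    rw [le_div_iff₀ (by positivity)] at hεK; linarith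
  have hε200 : ε ≤ 1 / 200 := by
    have := mul_le_mul_of_nonneg_left hK hε.le; linarith
  have F : Frame d K ε r ρ s c q n ν :=
    ⟨hK, hε, hεK', hε200, hr, hrρ, hρr, hs, hsr, hn, hν, hnν, hq⟩
  set θ : ℝ := (1 / (128 * √(2 * Real.pi) * K * ε)) ^ 2 with hθ
  set Z := {y | θ * (s / r) ^ 2 ≤ zDev A n ⟪q, n⟫ (ε * s) q y} with hZ
  have hZm : MeasurableSet Z :=
    measurableSet_le measurable_const (measurable_zDev hA n ⟪q, n⟫ (ε * s) q)
  set κ := √(2 * Real.pi) * (ε * s) with hκ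
  have hκ0 : 0 < κ := by positivity
  set hb := κ * hgt (gaussWin ⟪q, n⟫ (ε * s)) A n (ε * s / 2) q with hhb
  have hnear : ∀ y, y ∉ Z → |κ * hgt0 (gaussWin ⟪q, n⟫ (ε * s)) A n y - hb|
      < s ^ 2 / (K * r) / 128 := by
    intro y hy
    rw [hZ, mem_ofPred_eq, not_le, zDev,
      show θ * (s / r) ^ 2 = (s ^ 2 / (K * r) / 128 / κ) ^ 2 by
        rw [hθ, ← mul_pow]; congr 1; rw [hκ]; field_simp] at hy
    have h1 := abs_lt_of_sq_lt_sq hy (by positivity)
    rw [hhb, ← mul_sub, abs_mul, abs_of_pos hκ0]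
    rwa [lt_div_iff₀' hκ0] at h1
  have hmin := min_mass_le hA F hM
  by_cases hcase : (mass ⟪q, n⟫ (ε * s) univ
      (Ioi (⟪botPt ν c ρ, n⟫ + s ^ 2 / (K * r) / 8))).toReal + s ^ 2 / (K * r) / 128 ≤ hb
  · refine (shell_high hF hA F hZm hnear hmin hcase).trans ?_
    rw [add_assoc, add_comm (2 * _)]
    refine le_trans ?_ le_add_self
    refine add_le_add (mul_le_mul_left (ENNReal.ofReal_le_ofReal ?_) _) ?_
    · rw [mul_div_assoc]
      gcongr
      nlinarith [mul_pos hCm hC0]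
    · calc 2 * (ENNReal.ofReal (Cm * (4 * s)) * wsum A n (4 * s) q)
          = ENNReal.ofReal (2 * (Cm * (4 * s))) * wsum A n (4 * s) q := by
            rw [ENNReal.ofReal_mul zero_le_two, ENNReal.ofReal_ofNat, mul_assoc]
        _ ≤ _ := by
            refine mul_le_mul_left (ENNReal.ofReal_le_ofReal ?_) _
            nlinarith [mul_pos (mul_pos hCm hC0) hs, mul_pos hC0 hs, hs]
  · push Not at hcase
    refine (shell_low hF hd hA F hZm hnear hmin hcase).trans ?_
    rw [← hC₀, mul_add, mul_add, ← mul_assoc (ENNReal.ofReal C₀) (ENNReal.ofReal _) (wsum _ _ _ _),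
      ← mul_assoc (ENNReal.ofReal C₀) (ENNReal.ofReal _) (volume _), ← ENNReal.ofReal_mul hC0.le,
      ← ENNReal.ofReal_mul hC0.le, add_rotate]
    refine add_le_add (add_le_add le_rfl (mul_le_mul_left (ENNReal.ofReal_le_ofReal ?_) _))
      (mul_le_mul_left (ENNReal.ofReal_le_ofReal ?_) _)
    · rw [mul_div_assoc (5 + C₀ + 4 * Cm * (C₀ + 2)) (s ^ 2) r, ← F.hKτ]
      have h1 : C₀ * (s ^ 2 / (K * r)) ≤ C₀ * (K * (s ^ 2 / (K * r))) :=
        mul_le_mul_of_nonneg_left F.τ_le hC0.le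
      nlinarith [mul_pos hC0 F.τ_pos, mul_pos hCm hC0, mul_pos hK0 F.τ_pos]
    · nlinarith [mul_pos (mul_pos hCm hC0) hs, mul_pos hC0 hs, mul_pos hCm hs, hs]

end Vale.Agent.P137
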