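import Vale.Agent.P137.LocalBase

/-! # P137, module F: the misaligned shells (`TiltLemma`) -/

namespace Vale.Agent.P137

open MeasureTheory Set Filter Topology Real
open scoped RealInnerProductSpace ENNReal

variable {d : ℕ}

/-! ## weights in one variable -/

theorem tilt_wt_nonneg (o L t : ℝ) : 0 ≤ wt o L t := (Real.exp_pos _).le

theorem tilt_wt_le_one (o L t : ℝ) : wt o L t ≤ 1 := by
  unfold wt
  rw [Real.exp_le_one_iff]
  have : 0 ≤ (t - o) ^ 2 / (2 * L ^ 2) := by positivity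
  rw [neg_div]
  linarith

theorem tilt_continuous_wt (o L : ℝ) : Continuous (wt o L) := by
  unfold wt; fun_prop

theorem tilt_wt_eq (o L : ℝ) :
    wt o L = fun t => (fun u => Real.exp (-(1 / (2 * L ^ 2)) * u ^ 2)) (t - o) := by
  funext t; unfold wt; congr 1; ring

theorem tilt_integrable_wt (o : ℝ) {L : ℝ} (hL : 0 < L) : Integrable (wt o L) := by
  rw [tilt_wt_eq]
  exact Integrable.comp_sub_right
    (f := fun u => Real.exp (-(1 / (2 * L ^ 2)) * u ^ 2))
    (integrable_exp_neg_mul_sq (by positivity)) o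

theorem tilt_sqrt_pi_div {L : ℝ} (hL : 0 < L) :
    √(π / (1 / (2 * L ^ 2))) = √(2 * π) * L := by
  rw [show π / (1 / (2 * L ^ 2)) = 2 * π * L ^ 2 by field_simp,
    Real.sqrt_mul (by positivity), Real.sqrt_sq hL.le]

theorem tilt_integral_wt (o : ℝ) {L : ℝ} (hL : 0 < L) : ∫ t, wt o L t = √(2 * π) * L := by
  rw [tilt_wt_eq, integral_sub_right_eq_self
    (fun u => Real.exp (-(1 / (2 * L ^ 2)) * u ^ 2)) o, integral_gaussian, tilt_sqrt_pi_div hL]

theorem tilt_integral_Ioi (o : ℝ) {L : ℝ} (hL : 0 < L) :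
    ∫ t in Ioi o, wt o L t = √(2 * π) * L / 2 := by
  have h : MeasurePreserving (fun t : ℝ => t + o) volume volume :=
    measurePreserving_add_right volume o
  rw [← h.setIntegral_preimage_emb (measurableEmbedding_addRight o) (wt o L) (Ioi o),
    ← tilt_sqrt_pi_div hL, ← integral_gaussian_Ioi]
  simp only [preimage_add_const_Ioi, sub_self]
  refine setIntegral_congr_fun measurableSet_Ioi fun t _ => ?_
  simp only [wt, add_sub_cancel_right]
  congr 1; ring

theorem tilt_integral_Iic (o : ℝ) {L : ℝ} (hL : 0 < L) :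
    ∫ t in Iic o, wt o L t = √(2 * π) * L / 2 := by
  have h := integral_add_compl (measurableSet_Iic (a := o)) (tilt_integrable_wt o hL)
  rw [compl_Iic, tilt_integral_Ioi o hL, tilt_integral_wt o hL] at h
  linarith

/-- the weight is at least one half near the centre. -/
theorem tilt_half_le_wt {o L t : ℝ} (hL : 0 < L) (h : 3 * |t - o| ≤ L) : 1 / 2 ≤ wt o L t := by
  have h1 : (t - o) ^ 2 / (2 * L ^ 2) ≤ 1 / 2 := by
    rw [div_le_iff₀ (by positivity), ← sq_abs]
    nlinarith [abs_nonneg (t - o)]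
  have h2 := Real.add_one_le_exp (-(t - o) ^ 2 / (2 * L ^ 2))
  have h3 : -(t - o) ^ 2 / (2 * L ^ 2) = -((t - o) ^ 2 / (2 * L ^ 2)) := neg_div _ _
  unfold wt
  rw [h3] at h2 ⊢
  linarith

/-- weighted length of a set of heights. -/
noncomputable def wlen (o L : ℝ) (S I : Set ℝ) : ℝ := ∫ t in S ∩ I, wt o L t

theorem wlen_le_vol (o : ℝ) {L : ℝ} (hL : 0 < L) (S I : Set ℝ) (hI : volume I ≠ ∞) :
    wlen o L S I ≤ volume.real (S ∩ I) := by
  have hSI : volume (S ∩ I) ≠ ∞ := measure_ne_top_of_subset inter_subset_right hI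
  calc wlen o L S I ≤ ∫ _t in S ∩ I, (1 : ℝ) :=
        setIntegral_mono (tilt_integrable_wt o hL).integrableOn (integrableOn_const hSI)
          (fun t => tilt_wt_le_one o L t)
    _ = volume.real (S ∩ I) := by simp

theorem vol_le_wlen {o L : ℝ} (hL : 0 < L) {S I : Set ℝ} (hS : MeasurableSet S)
    (hI : MeasurableSet I) (hI' : volume I ≠ ∞) (h : ∀ t ∈ I, 3 * |t - o| ≤ L) :
    volume.real (S ∩ I) ≤ 2 * wlen o L S I := by
  have hSI : volume (S ∩ I) ≠ ∞ := measure_ne_top_of_subset inter_subset_right hI'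
  calc volume.real (S ∩ I) = ∫ _t in S ∩ I, (1 : ℝ) := by simp
    _ ≤ ∫ t in S ∩ I, 2 * wt o L t := by
        refine setIntegral_mono_on (integrableOn_const hSI)
          ((tilt_integrable_wt o hL).const_mul 2).integrableOn (hS.inter hI) fun t ht => ?_
        have := tilt_half_le_wt hL (h t ht.2)
        linarith
    _ = 2 * wlen o L S I := integral_const_mul _ _

theorem wlen_mono (o : ℝ) {L : ℝ} (hL : 0 < L) {S I J : Set ℝ} (h : I ⊆ J) :
    wlen o L S I ≤ wlen o L S J :=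
  setIntegral_mono_set (tilt_integrable_wt o hL).integrableOn
    (Eventually.of_forall fun t => tilt_wt_nonneg o L t)
    (LE.le.eventuallyLE (inter_subset_inter_right S h))

theorem wlen_union (o : ℝ) {L : ℝ} (hL : 0 < L) {S I J : Set ℝ} (hS : MeasurableSet S)
    (hJ : MeasurableSet J) (h : Disjoint I J) :
    wlen o L S (I ∪ J) = wlen o L S I + wlen o L S J := by
  unfold wlen
  rw [inter_union_distrib_left]
  exact setIntegral_union (h.mono inter_subset_right inter_subset_right) (hS.inter hJ)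
    (tilt_integrable_wt o hL).integrableOn (tilt_integrable_wt o hL).integrableOn

theorem wlen_compl (o : ℝ) {L : ℝ} (hL : 0 < L) {S I : Set ℝ} (hS : MeasurableSet S) :
    wlen o L S I + wlen o L Sᶜ I = ∫ t in I, wt o L t := by
  unfold wlen
  rw [inter_comm S, inter_comm Sᶜ, ← sdiff_eq]
  exact integral_inter_add_sdiff hS (tilt_integrable_wt o hL).integrableOn

theorem wlen_nonneg (o L : ℝ) (S I : Set ℝ) : 0 ≤ wlen o L S I :=
  integral_nonneg fun t => tilt_wt_nonneg o L t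

/-- a column with much of `S` has little outside `S` just above the splitting height. -/
theorem column_high {o L r e X : ℝ} (hr : 0 < r) (hL : 3 * r ≤ L) (he : 0 ≤ e) (her : e ≤ r)
    (heX : e ≤ X) {S : Set ℝ} (hS : MeasurableSet S)
    (h : √(2 * π) * L / 2 + 3 * X ≤ wlen o L S univ) :
    volume.real (Sᶜ ∩ Icc (o - e) (o + e)) ≤
      2 * min (wlen o L S (Iio (o - e))) (wlen o L Sᶜ (Ioi (o - e))) := by
  have hL0 : 0 < L := by linarith
  have hfin : volume (Icc (o - e) (o + e)) ≠ ∞ := measure_Icc_lt_top.ne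
  have hlow : 2 * X ≤ wlen o L S (Iio (o - e)) := by
    have e1 : wlen o L S univ = wlen o L S (Iio (o - e)) + wlen o L S (Ici (o - e)) := by
      rw [← wlen_union o hL0 hS measurableSet_Ici (Iio_disjoint_Ici le_rfl), Iio_union_Ici]
    have e2 : wlen o L S (Ici (o - e)) ≤ wlen o L S (Icc (o - e) o) + wlen o L S (Ioi o) := by
      rw [← wlen_union o hL0 hS measurableSet_Ioi]
      · exact le_of_eq (by rw [Icc_union_Ioi_eq_Ici (by linarith)])
      · exact disjoint_left.2 fun t ht ht' => not_lt.2 ht.2 ht'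
    have e3 : wlen o L S (Icc (o - e) o) ≤ e := by
      refine (wlen_le_vol o hL0 S _ measure_Icc_lt_top.ne).trans ?_
      refine (measureReal_mono inter_subset_right measure_Icc_lt_top.ne).trans ?_
      rw [Real.volume_real_Icc_of_le (by linarith)]
      linarith
    have e4 : wlen o L S (Ioi o) ≤ √(2 * π) * L / 2 := by
      have := wlen_compl o hL0 (I := Ioi o) hS
      rw [tilt_integral_Ioi o hL0] at this
      linarith [wlen_nonneg o L Sᶜ (Ioi o)]
    linarith
  have hmain : volume.real (Sᶜ ∩ Icc (o - e) (o + e)) ≤ 2 * wlen o L Sᶜ (Ioi (o - e)) := by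
    have h1 : volume.real (Sᶜ ∩ Icc (o - e) (o + e)) ≤
        volume.real (Sᶜ ∩ Ioc (o - e) (o + e)) := by
      refine le_of_eq (measureReal_congr ?_)
      exact (EventuallyEq.refl _ _).inter Ioc_ae_eq_Icc.symm
    refine h1.trans ((vol_le_wlen (o := o) hL0 hS.compl measurableSet_Ioc measure_Ioc_lt_top.ne ?_).trans ?_)
    · intro t ht
      have : |t - o| ≤ e := abs_le.2 ⟨by linarith [ht.1], by linarith [ht.2]⟩
      linarith
    · have := wlen_mono o hL0 (S := Sᶜ) (Ioc_subset_Ioi_self : Ioc (o - e) (o + e) ⊆ Ioi (o - e))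
      linarith
  have hlen : volume.real (Sᶜ ∩ Icc (o - e) (o + e)) ≤ 2 * e := by
    refine (measureReal_mono inter_subset_right hfin).trans ?_
    rw [Real.volume_real_Icc_of_le (by linarith)]
    linarith
  rw [mul_min_of_nonneg _ _ zero_le_two]
  exact le_min (by linarith) hmain

/-- a column with little of `S` is detected either just above the centre or by the split. -/
theorem column_low {o L r e X : ℝ} (hr : 0 < r) (hL : 3 * r ≤ L) (he : 0 ≤ e) (her : 8 * e ≤ r)
    (heX : e ≤ X) (hXr : 16 * X ≤ r) {S : Set ℝ} (hS : MeasurableSet S)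
    (h : wlen o L S univ ≤ √(2 * π) * L / 2 - 3 * X) :
    X ≤ volume.real (Sᶜ ∩ Ioc (o + e) (o + r)) +
      min (wlen o L S (Iio (o + r))) (wlen o L Sᶜ (Ioi (o + r))) := by
  have hL0 : 0 < L := by linarith
  have hfin : volume (Ioc (o + e) (o + r)) ≠ ∞ := measure_Ioc_lt_top.ne
  have hF : 3 * X ≤ wlen o L Sᶜ (Ioi o) := by
    have e1 := wlen_compl o hL0 (I := univ) hS
    rw [setIntegral_univ, tilt_integral_wt o hL0] at e1
    have e2 : wlen o L Sᶜ univ = wlen o L Sᶜ (Iic o) + wlen o L Sᶜ (Ioi o) := by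
      rw [← wlen_union o hL0 hS.compl measurableSet_Ioi (Iic_disjoint_Ioi le_rfl), Iic_union_Ioi]
    have e3 : wlen o L Sᶜ (Iic o) ≤ √(2 * π) * L / 2 := by
      have := wlen_compl o hL0 (I := Iic o) hS
      rw [tilt_integral_Iic o hL0] at this
      linarith [wlen_nonneg o L S (Iic o)]
    linarith
  have hsplit : wlen o L Sᶜ (Ioi o) ≤ e + volume.real (Sᶜ ∩ Ioc (o + e) (o + r)) +
      wlen o L Sᶜ (Ioi (o + r)) := by
    have e1 : wlen o L Sᶜ (Ioi o) = wlen o L Sᶜ (Ioc o (o + e)) +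
        wlen o L Sᶜ (Ioc (o + e) (o + r)) + wlen o L Sᶜ (Ioi (o + r)) := by
      rw [← wlen_union o hL0 hS.compl measurableSet_Ioc (Ioc_disjoint_Ioc_of_le le_rfl),
        Ioc_union_Ioc_eq_Ioc (by linarith) (by linarith),
        ← wlen_union o hL0 hS.compl measurableSet_Ioi
          (disjoint_left.2 fun t ht ht' => not_lt.2 ht.2 ht'), Ioc_union_Ioi_eq_Ioi (by linarith)]
    have e2 : wlen o L Sᶜ (Ioc o (o + e)) ≤ e := by
      refine (wlen_le_vol o hL0 _ _ measure_Ioc_lt_top.ne).trans ?_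
      refine (measureReal_mono inter_subset_right measure_Ioc_lt_top.ne).trans ?_
      rw [Real.volume_real_Ioc_of_le (by linarith)]
      linarith
    have e3 := wlen_le_vol o hL0 Sᶜ _ hfin
    linarith
  by_cases hL1 : X ≤ volume.real (Sᶜ ∩ Ioc (o + e) (o + r))
  · linarith [le_min (wlen_nonneg o L S (Iio (o + r))) (wlen_nonneg o L Sᶜ (Ioi (o + r)))]
  rw [not_le] at hL1
  have hA : X ≤ wlen o L S (Iio (o + r)) := by
    have h1 : volume.real (S ∩ Ioo (o + e) (o + r)) ≤ 2 * wlen o L S (Ioo (o + e) (o + r)) := by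
      refine vol_le_wlen hL0 hS measurableSet_Ioo measure_Ioo_lt_top.ne fun t ht => ?_
      have : |t - o| ≤ r := abs_le.2 ⟨by linarith [ht.1], by linarith [ht.2]⟩
      linarith
    have h2 := wlen_mono o hL0 (S := S) (Ioo_subset_Iio_self (a := o + e) (b := o + r))
    have h3 : r - e ≤ volume.real (S ∩ Ioo (o + e) (o + r)) +
        volume.real (Sᶜ ∩ Ioc (o + e) (o + r)) := by
      have h3' : volume.real (Sᶜ ∩ Ioo (o + e) (o + r)) ≤
          volume.real (Sᶜ ∩ Ioc (o + e) (o + r)) :=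
        measureReal_mono (inter_subset_inter_right _ Ioo_subset_Ioc_self)
          (measure_ne_top_of_subset inter_subset_right hfin)
      have h4 := measureReal_inter_add_sdiff (μ := volume) (s := Ioo (o + e) (o + r)) hS
        measure_Ioo_lt_top.ne
      rw [Real.volume_real_Ioo_of_le (by linarith), sdiff_eq, inter_comm _ S,
        inter_comm _ Sᶜ] at h4
      linarith
    linarith
  have : X ≤ min (wlen o L S (Iio (o + r))) (wlen o L Sᶜ (Ioi (o + r))) :=
    le_min hA (by linarith)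
  linarith [measureReal_nonneg (μ := volume) (s := Sᶜ ∩ Ioc (o + e) (o + r))]

/-! ## columns in space -/

/-- heights at which the line through `x` meets `A`. -/
def colSet (A : Set (Pt d)) (n x : Pt d) : Set ℝ := {t | linePt n x t ∈ A}

theorem measurableSet_colSet {A : Set (Pt d)} (hA : MeasurableSet A) (n x : Pt d) :
    MeasurableSet (colSet A n x) :=
  (continuous_linePt_height n x).measurable hA

theorem hgt0_gaussWin {A : Set (Pt d)} (hA : MeasurableSet A) (n x : Pt d) (o : ℝ) {L : ℝ}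
    (hL : 0 < L) :
    √(2 * π) * L * hgt0 (gaussWin o L) A n x = wlen o L (colSet A n x) univ := by
  have hc : √(2 * π) * L ≠ 0 := by positivity
  unfold hgt0 wlen
  rw [inter_univ, ← integral_indicator (measurableSet_colSet hA n x), ← integral_const_mul]
  refine integral_congr_ae (Eventually.of_forall fun t => ?_)
  have e : √(L ^ 2 - 0 ^ 2) = L := by simp [hL.le]
  by_cases ht : linePt n x t ∈ A
  · simp only [gaussWin, gauss1, wt, e, indicator_of_mem ht,
      indicator_of_mem (show t ∈ colSet A n x from ht), mul_one]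
    rw [← mul_assoc, mul_inv_cancel₀ hc, one_mul]
  · simp [colSet, ht]

theorem lintegral_wt_col {A : Set (Pt d)} (hA : MeasurableSet A) (n x : Pt d) (o : ℝ) {L : ℝ}
    (hL : 0 < L) {I : Set ℝ} (hI : MeasurableSet I) :
    ∫⁻ t in I, ENNReal.ofReal (wt o L t * A.indicator (fun _ => (1 : ℝ)) (linePt n x t))
      = ENNReal.ofReal (wlen o L (colSet A n x) I) := by
  have hS := measurableSet_colSet hA n x
  unfold wlen
  rw [ofReal_integral_eq_lintegral_ofReal (tilt_integrable_wt o hL).integrableOn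
      (Eventually.of_forall fun t => tilt_wt_nonneg o L t),
    ← setLIntegral_indicator hS]
  refine setLIntegral_congr_fun hI fun t _ => ?_
  by_cases ht : linePt n x t ∈ A
  · simp [ht, colSet]
  · simp [ht, colSet]

theorem volume_columns (hF : LineFubini) {n : Pt d} (hn : ‖n‖ = 1) {G P : Set (Pt d)}
    (hG : MeasurableSet G) (hP : MeasurableSet P) (hL : LineInv n P) {I : Set ℝ}
    (hI : MeasurableSet I) :
    volume (G ∩ {y | y ∈ P ∧ ⟪y, n⟫ ∈ I}) =
      ∫⁻ x in P ∩ slab n, volume (colSet G n x ∩ I) := by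
  have hT : MeasurableSet (G ∩ {y | y ∈ P ∧ ⟪y, n⟫ ∈ I}) := by
    have : Continuous fun x : Pt d => ⟪x, n⟫ := by fun_prop
    exact hG.inter (hP.inter (this.measurable hI))
  rw [← lintegral_indicator_one hT, hF d n hn _ (measurable_one.indicator hT),
    ← setLIntegral_indicator hP]
  refine setLIntegral_congr_fun (measurableSet_slab n) fun x _ => ?_
  by_cases hx : x ∈ P
  · have e : (fun t => (G ∩ {y | y ∈ P ∧ ⟪y, n⟫ ∈ I}).indicator (1 : Pt d → ℝ≥0∞) (linePt n x t))
        = (colSet G n x ∩ I).indicator 1 := by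
      funext t
      have hiff : linePt n x t ∈ G ∩ {y | y ∈ P ∧ ⟪y, n⟫ ∈ I} ↔ t ∈ colSet G n x ∩ I := by
        simp [colSet, inner_linePt hn, lineInv_mem hL, hx]
      by_cases ht : t ∈ colSet G n x ∩ I
      · simp [indicator_of_mem ht, indicator_of_mem (hiff.2 ht)]
      · simp [indicator_of_notMem ht, indicator_of_notMem (mt hiff.1 ht)]
    rw [indicator_of_mem hx, e, lintegral_indicator_one ((measurableSet_colSet hG n x).inter hI)]
  · have : ∀ t, linePt n x t ∉ G ∩ {y | y ∈ P ∧ ⟪y, n⟫ ∈ I} :=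
      fun t h => hx ((lineInv_mem hL x t).1 h.2.1)
    simp [this, hx]

theorem measurable_linePt_prod (n : Pt d) :
    Measurable fun p : Pt d × ℝ => linePt n p.1 p.2 := by
  have : Continuous fun p : Pt d × ℝ => linePt n p.1 p.2 := by unfold linePt; fun_prop
  exact this.measurable

theorem measurable_hgt0_gaussWin {A : Set (Pt d)} (hA : MeasurableSet A) (n : Pt d) (o L : ℝ) :
    Measurable fun x => hgt0 (gaussWin o L) A n x := by
  have h : Measurable fun p : Pt d × ℝ =>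
      gaussWin o L 0 p.2 * A.indicator (fun _ => (1 : ℝ)) (linePt n p.1 p.2) := by
    refine Measurable.mul ?_ ((measurable_const.indicator hA).comp (measurable_linePt_prod n))
    unfold gaussWin gauss1; fun_prop
  exact (h.stronglyMeasurable.integral_prod_right').measurable

theorem measurable_vol_col {G : Set (Pt d)} (hG : MeasurableSet G) (n : Pt d) {I : Set ℝ}
    (hI : MeasurableSet I) : Measurable fun x => volume (colSet G n x ∩ I) := by
  have hs : MeasurableSet {p : Pt d × ℝ | linePt n p.1 p.2 ∈ G ∧ p.2 ∈ I} :=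
    (measurable_linePt_prod n hG).inter (measurable_snd hI)
  exact measurable_measure_prodMk_left hs

/-- a cylinder has at least the area of a disc. -/
theorem area_cyl_ge (hF : LineFubini) {n : Pt d} (hn : ‖n‖ = 1) (hd : 1 ≤ d) (c : Pt d)
    {R : ℝ} (hR : 0 < R) :
    ENNReal.ofReal (unitVol d * R ^ (d - 1) / 2) ≤ volume (cyl n c R ∩ slab n) := by
  have hsub : Metric.closedBall c R ⊆ tube n (cyl n c R) (⟪c, n⟫ - R) (⟪c, n⟫ + R) := by
    intro y hy
    rw [Metric.mem_closedBall, dist_eq_norm] at hy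
    refine ⟨?_, ?_⟩
    · show ‖linePt n y 0 - linePt n c 0‖ ≤ R
      rw [← linePt_zero_sub]
      exact (norm_linePt_zero_le hn _).trans hy
    · have := abs_real_inner_le_norm (y - c) n
      rw [hn, mul_one, inner_sub_left] at this
      have := abs_le.1 (this.trans hy)
      exact ⟨by linarith [this.1], by linarith [this.2]⟩
  have h := measure_mono (μ := volume) hsub
  rw [volume_tube hF hn (measurableSet_cyl n c R) (lineInv_cyl hn c R),
    volume_closedBall_eq c hR.le,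
    show ⟪c, n⟫ + R - (⟪c, n⟫ - R) = 2 * R by ring] at h
  have e : ENNReal.ofReal (R ^ d * unitVol d) =
      ENNReal.ofReal (2 * R) * ENNReal.ofReal (unitVol d * R ^ (d - 1) / 2) := by
    rw [← ENNReal.ofReal_mul (by positivity)]
    obtain ⟨m, rfl⟩ : ∃ m, d = m + 1 := ⟨d - 1, by omega⟩
    simp only [Nat.add_sub_cancel]
    congr 1; ring
  rw [e] at h
  exact (ENNReal.mul_le_mul_iff_right (by simp [hR]) ENNReal.ofReal_ne_top).1 h

/-- the crescent at horizontal distance `A₀ a r` lies in a flat tube around the tilted bottom. -/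
theorem tilt_geom {K ρ r A₀ : ℝ} {ν n c y : Pt d} (hn : ‖n‖ = 1) (hν : ‖ν‖ = 1) (hr : 0 < r)
    (hρ1 : r ≤ ρ) (hρ2 : ρ ≤ 2 * r) (hA₀ : 1 ≤ A₀) (ha1 : ‖n - ν‖ ≤ 1)
    (hy : y ∈ crescent K ν c ρ)
    (hw : ‖linePt ν y 0 - linePt ν (botPt ν c ρ) 0‖ ≤ A₀ * ‖n - ν‖ * r) :
    0 < ‖n - ν‖ ∧
    y ∈ tube n (cyl n (botPt n c ρ) ((3 * A₀ ^ 2 + 3) * ‖n - ν‖ * r))
      (⟪botPt n c ρ, n⟫ - (3 * A₀ ^ 2 + 3) * ‖n - ν‖ ^ 2 * r)
      (⟪botPt n c ρ, n⟫ + (3 * A₀ ^ 2 + 3) * ‖n - ν‖ ^ 2 * r) := by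
  have hρ : 0 < ρ := hr.trans_le hρ1
  obtain ⟨g1, -, g3⟩ := crescent_geom hν hρ hy
  rw [← linePt_zero_sub] at hw g3
  set u := y - botPt ν c ρ with hu
  set a := ‖n - ν‖ with hadef
  have ha0 : 0 ≤ a := norm_nonneg _
  set h := ⟪u, ν⟫ with hh
  have hw0 : 0 ≤ ‖linePt ν u 0‖ := norm_nonneg _
  have hhle : h ≤ A₀ ^ 2 * a ^ 2 * r := by
    have h1 : h * r ≤ h * ρ := mul_le_mul_of_nonneg_left hρ1 g1.le
    have h2 : ‖linePt ν u 0‖ ^ 2 ≤ (A₀ * a * r) ^ 2 := pow_le_pow_left₀ hw0 hw 2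
    refine le_of_mul_le_mul_right (a := r) ?_ hr
    calc h * r ≤ (A₀ * a * r) ^ 2 := h1.trans (g3.trans h2)
      _ = A₀ ^ 2 * a ^ 2 * r * r := by ring
  have hapos : 0 < a := by
    rcases eq_or_lt_of_le ha0 with h0 | h0
    · rw [← h0] at hhle; simp only [ne_eq, OfNat.ofNat_ne_zero, not_false_eq_true, zero_pow,
        mul_zero, zero_mul] at hhle
      linarith
    · exact h0
  refine ⟨hapos, ?_⟩
  have hunorm : ‖u‖ ≤ A₀ * a * r + A₀ ^ 2 * a ^ 2 * r := by
    have : u = linePt ν u 0 + h • ν := by simp only [linePt, hh]; module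
    calc ‖u‖ ≤ ‖linePt ν u 0‖ + ‖h • ν‖ := by
          conv_lhs => rw [this]
          exact norm_add_le _ _
      _ ≤ _ := by
          rw [norm_smul, hν, mul_one, Real.norm_eq_abs, abs_of_pos g1]
          linarith
  have hy' : y - botPt n c ρ = u + ρ • (n - ν) := by
    simp only [hu, botPt]; module
  have haa : a ^ 2 ≤ a := by nlinarith
  constructor
  · show ‖linePt n y 0 - linePt n (botPt n c ρ) 0‖ ≤ _
    rw [← linePt_zero_sub]
    refine (norm_linePt_zero_le hn _).trans ?_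
    rw [hy']
    refine (norm_add_le _ _).trans ?_
    rw [norm_smul, Real.norm_eq_abs, abs_of_pos hρ]
    have h2 : ρ * a ≤ 2 * r * a := mul_le_mul_of_nonneg_right hρ2 ha0
    have h3 : A₀ ^ 2 * a ^ 2 * r ≤ A₀ ^ 2 * a * r := by gcongr
    have h4 : A₀ * a * r ≤ A₀ ^ 2 * a * r := by
      gcongr; nlinarith
    nlinarith [mul_nonneg ha0 hr.le, mul_nonneg (mul_nonneg (sq_nonneg A₀) ha0) hr.le]
  · have hk : |⟪y - botPt n c ρ, n⟫| ≤ (3 * A₀ ^ 2 + 3) * a ^ 2 * r := by
      rw [hy', inner_add_left, real_inner_smul_left]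
      have e1 : ⟪u, n⟫ = h + ⟪u, n - ν⟫ := by rw [inner_sub_right]; ring
      have e2 : ⟪n - ν, n⟫ = a ^ 2 / 2 := by
        rw [hadef, norm_sub_sq_real, hn, hν, inner_sub_left, inner_self_one hn,
          real_inner_comm ν n]
        ring
      have e3 : |⟪u, n - ν⟫| ≤ ‖u‖ * a := abs_real_inner_le_norm _ _
      have e4 : ‖u‖ * a ≤ (A₀ * a * r + A₀ ^ 2 * a ^ 2 * r) * a :=
        mul_le_mul_of_nonneg_right hunorm ha0
      have e5 : A₀ ^ 2 * a ^ 2 * r * a ≤ A₀ ^ 2 * a ^ 2 * r * 1 :=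
        mul_le_mul_of_nonneg_left ha1 (by positivity)
      have e6 : A₀ * a * r * a ≤ A₀ ^ 2 * a ^ 2 * r := by
        have : A₀ ≤ A₀ ^ 2 := by nlinarith
        calc A₀ * a * r * a = A₀ * (a ^ 2 * r) := by ring
          _ ≤ A₀ ^ 2 * (a ^ 2 * r) := by gcongr
          _ = _ := by ring
      have e7 : ρ * (a ^ 2 / 2) ≤ r * a ^ 2 := by nlinarith [sq_nonneg a]
      have e8 : 0 ≤ ρ * (a ^ 2 / 2) := by positivity
      have e9 := abs_le.1 e3
      rw [e1, e2, abs_le]
      constructor <;> nlinarith [mul_nonneg (sq_nonneg a) hr.le]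
    rw [inner_sub_left] at hk
    have := abs_le.1 hk
    exact ⟨by linarith [this.1], by linarith [this.2]⟩

/-- the case where the mollification is far from the average height. -/
theorem tilt_far {A T : Set (Pt d)} {E : ℝ≥0∞}
    {a r M C₁ Cq C' b Hbar : ℝ} (ha0 : 0 ≤ a) (ha1 : a ≤ 1) (hr : 0 < r) (hM1 : 1 ≤ M)
    (hC₁ : 0 ≤ C₁) (hCq : 0 < Cq)
    (harea : volume T ≤ ENNReal.ofReal
      (2 * C₁ * a ^ 2 * r * (2 ^ d * unitVol d * (C₁ * a * r) ^ (d - 1))))
    (hch2 : ENNReal.ofReal ((b - Hbar) ^ 2 * (M * r) ^ (d - 1)) ≤ ENNReal.ofReal C' * E)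
    (hbH : Cq * a / (4 * M) < |b - Hbar|) :
    volume (A ∩ T) ≤ ENNReal.ofReal
      (2 * C₁ * 2 ^ d * unitVol d * C₁ ^ (d - 1) * (16 * M ^ 2 / Cq ^ 2) * C' * r) * E := by
  have hM0 : 0 < M := by linarith
  have hMr : r ≤ M * r := le_mul_of_one_le_left hr.le hM1
  have hV : 0 ≤ unitVol d := unitVol_pos.le
  refine (measure_mono inter_subset_right).trans (harea.trans ?_)
  have h2 : a ^ 2 ≤ 16 * M ^ 2 / Cq ^ 2 * (b - Hbar) ^ 2 := by
    have := pow_le_pow_left₀ (by positivity) hbH.le 2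
    rw [sq_abs, div_pow, div_le_iff₀ (by positivity)] at this
    rw [div_mul_eq_mul_div, le_div_iff₀ (by positivity)]
    nlinarith
  have h3 : (C₁ * a * r) ^ (d - 1) ≤ C₁ ^ (d - 1) * (M * r) ^ (d - 1) := by
    rw [← mul_pow]
    refine pow_le_pow_left₀ (by positivity) ?_ _
    calc C₁ * a * r ≤ C₁ * 1 * (M * r) := by gcongr
      _ = C₁ * (M * r) := by ring
  calc ENNReal.ofReal (2 * C₁ * a ^ 2 * r * (2 ^ d * unitVol d * (C₁ * a * r) ^ (d - 1)))
      ≤ ENNReal.ofReal (2 * C₁ * 2 ^ d * unitVol d * C₁ ^ (d - 1) * (16 * M ^ 2 / Cq ^ 2) * r *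
          ((b - Hbar) ^ 2 * (M * r) ^ (d - 1))) := by
        refine ENNReal.ofReal_le_ofReal ?_
        calc 2 * C₁ * a ^ 2 * r * (2 ^ d * unitVol d * (C₁ * a * r) ^ (d - 1))
            ≤ 2 * C₁ * (16 * M ^ 2 / Cq ^ 2 * (b - Hbar) ^ 2) * r *
                (2 ^ d * unitVol d * (C₁ ^ (d - 1) * (M * r) ^ (d - 1))) := by gcongr
          _ = _ := by ring
    _ ≤ ENNReal.ofReal (2 * C₁ * 2 ^ d * unitVol d * C₁ ^ (d - 1) * (16 * M ^ 2 / Cq ^ 2) * r) *
          (ENNReal.ofReal C' * E) := by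
        rw [ENNReal.ofReal_mul (by positivity)]
        exact mul_le_mul_right hch2 _
    _ = _ := by
        rw [← mul_assoc, ← ENNReal.ofReal_mul (by positivity)]
        ring_nf

/-- high average: few points outside `A` in the tube. -/
theorem tilt_high (hF : LineFubini) {n : Pt d} {A : Set (Pt d)} (hn : ‖n‖ = 1) (hA : MeasurableSet A)
    {a r M C₁ Cq C' C'' o L b Hbar : ℝ} {xn : Pt d} {E : ℝ≥0∞} (hap : 0 < a) (ha1 : a ≤ 1)
    (hr : 0 < r) (hM1 : 1 ≤ M) (hLdef : L = 3 * (M * r))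
    (hC₁ : 0 < C₁) (hCq1 : 1 ≤ Cq) (hC'pos : 0 ≤ C') (hC''pos : 0 ≤ C'')
    (hCC : C₁ ≤ Cq) (hCqa : Cq * a ≤ 1 / 16)
    (hsq : ∀ R : ℝ, R ≤ 12 * (M * r) → ∀ k : ℝ, 0 ≤ k →
      ∫⁻ x in cyl n xn R ∩ slab n,
        ENNReal.ofReal (k * (hgt0 (gaussWin o L) A n x - Hbar) ^ 2) ≤
          ENNReal.ofReal (k * C') * E)
    (hcol : ∀ (t₀ R : ℝ), R ≤ 12 * (M * r) →
      ∫⁻ x in cyl n xn R ∩ slab n,
        ENNReal.ofReal (min (wlen o L (colSet A n x) (Iio t₀))
          (wlen o L (colSet A n x)ᶜ (Ioi t₀))) ≤ ENNReal.ofReal (C'' * r) * E)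
    (hbH : |b - Hbar| ≤ Cq * a / (4 * M))
    (hpos : Cq * a / M < b - 1 / 2) :
    volume (Aᶜ ∩ tube n (cyl n xn (C₁ * a * r)) (o - C₁ * a ^ 2 * r) (o + C₁ * a ^ 2 * r)) ≤
      ENNReal.ofReal ((32 * C₁ * M ^ 2 / Cq ^ 2 * C' + 2 * C'') * r) * E := by
  have hM0 : 0 < M := by linarith
  have hMr : r ≤ M * r := le_mul_of_one_le_left hr.le hM1
  have hLpos : 0 < L := by rw [hLdef]; positivity
  have ha0 : 0 ≤ a := hap.le
  have hC₁a : C₁ * a ≤ 1 / 16 := (mul_le_mul_of_nonneg_right hCC ha0).trans hCqa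
  have hquart : Cq * a / M = 4 * (Cq * a / (4 * M)) := by field_simp
  have hhalfq : Cq * a / (2 * M) = 2 * (Cq * a / (4 * M)) := by field_simp; ring
  have hscale : 3 * (Cq * a * r) ≤ √(2 * π) * L * (Cq * a / (2 * M)) := by
    have e : √(2 * π) * L * (Cq * a / (2 * M)) = √(2 * π) * (3 / 2 * (Cq * a * r)) := by
      rw [hLdef]; field_simp
    have hsqrt : 2 ≤ √(2 * π) :=
      Real.le_sqrt_of_sq_le (by linarith [Real.two_le_pi])
    rw [e]
    linarith [mul_le_mul_of_nonneg_right hsqrt (show 0 ≤ 3 / 2 * (Cq * a * r) by positivity)]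
  set H0 := fun x => hgt0 (gaussWin o L) A n x with hH0
  have hH0m : Measurable H0 := measurable_hgt0_gaussWin hA n o L
  have hQR : C₁ * a * r ≤ 12 * (M * r) := by
    linarith [mul_le_mul_of_nonneg_right hC₁a hr.le]
  set Q := cyl n xn (C₁ * a * r) with hQ
  rw [tube, volume_columns hF hn hA.compl (measurableSet_cyl _ _ _) (lineInv_cyl hn _ _)
    measurableSet_Icc]
  set Z := fun x => ENNReal.ofReal (32 * C₁ * M ^ 2 / Cq ^ 2 * r * (H0 x - Hbar) ^ 2) with hZ
  have hZm : Measurable Z := by rw [hZ]; fun_prop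
  set t₀ := o - C₁ * a ^ 2 * r with ht₀
  calc ∫⁻ x in Q ∩ slab n,
        volume (colSet Aᶜ n x ∩ Icc t₀ (o + C₁ * a ^ 2 * r))
      ≤ ∫⁻ x in Q ∩ slab n, (Z x + 2 * ENNReal.ofReal (min (wlen o L (colSet A n x) (Iio t₀))
        (wlen o L (colSet A n x)ᶜ (Ioi t₀)))) := by
        refine lintegral_mono fun x => ?_
        have hfin : volume (colSet Aᶜ n x ∩ Icc t₀ (o + C₁ * a ^ 2 * r)) ≠ ∞ :=
          measure_ne_top_of_subset inter_subset_right measure_Icc_lt_top.ne
        rw [← ofReal_measureReal hfin]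
        by_cases hdev : |H0 x - Hbar| ≤ Cq * a / (4 * M)
        · refine le_add_left ?_
          rw [show (2 : ℝ≥0∞) = ENNReal.ofReal 2 by simp, ← ENNReal.ofReal_mul zero_le_two]
          refine ENNReal.ofReal_le_ofReal ?_
          have hH : 1 / 2 + Cq * a / (2 * M) ≤ H0 x := by
            linarith [(abs_le.1 hdev).1, (abs_le.1 hbH).2]
          refine column_high (e := C₁ * a ^ 2 * r) (X := Cq * a * r) hr
            (by rw [hLdef]; linarith) (by positivity) ?_ ?_ (measurableSet_colSet hA n x) ?_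
          · calc C₁ * a ^ 2 * r = (C₁ * a) * a * r := by ring
              _ ≤ 1 * 1 * r := by gcongr; linarith
              _ = r := by ring
          · calc C₁ * a ^ 2 * r = (C₁ * a) * a * r := by ring
              _ ≤ Cq * 1 * a * r := by
                rw [mul_one]; gcongr
                exact (hC₁a.trans (by norm_num)).trans hCq1
              _ = Cq * a * r := by ring
          · calc √(2 * π) * L / 2 + 3 * (Cq * a * r)
                ≤ √(2 * π) * L * (1 / 2 + Cq * a / (2 * M)) := by linarith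
              _ ≤ √(2 * π) * L * H0 x := by gcongr
              _ = _ := hgt0_gaussWin hA n x o hLpos
        · refine le_add_right (ENNReal.ofReal_le_ofReal ?_)
          rw [not_le] at hdev
          have h1 := pow_le_pow_left₀ (by positivity) hdev.le 2
          rw [sq_abs] at h1
          refine (measureReal_mono inter_subset_right measure_Icc_lt_top.ne).trans ?_
          rw [Real.volume_real_Icc_of_le
            (by linarith [show 0 ≤ C₁ * a ^ 2 * r by positivity])]
          calc o + C₁ * a ^ 2 * r - t₀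
              = 32 * C₁ * M ^ 2 / Cq ^ 2 * r * (Cq * a / (4 * M)) ^ 2 := by
                rw [ht₀]; field_simp; ring
            _ ≤ _ := by gcongr
    _ ≤ ENNReal.ofReal (32 * C₁ * M ^ 2 / Cq ^ 2 * r * C') * E +
          2 * (ENNReal.ofReal (C'' * r) * E) := by
        rw [lintegral_add_left hZm]
        refine add_le_add (hsq _ hQR _ (by positivity)) ?_
        rw [lintegral_const_mul' _ _ (by simp)]
        exact mul_le_mul_right (hcol t₀ _ hQR) _
    _ = _ := by
        rw [← mul_assoc, ← add_mul, show (2 : ℝ≥0∞) = ENNReal.ofReal 2 by simp,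
          ← ENNReal.ofReal_mul zero_le_two, ← ENNReal.ofReal_add (by positivity) (by positivity)]
        ring_nf

/-- low average: the tube is paid by the part of the ball outside `A`. -/
theorem tilt_low (hF : LineFubini) {n : Pt d} {A : Set (Pt d)} (hn : ‖n‖ = 1) (hA : MeasurableSet A)
    {a r M C₁ Cq C' C'' o L b Hbar : ℝ} {xn : Pt d} {E : ℝ≥0∞} (hap : 0 < a) (ha1 : a ≤ 1)
    (hr : 0 < r) (hM1 : 1 ≤ M) (hLdef : L = 3 * (M * r))
    (hC₁ : 0 < C₁) (hCq1 : 1 ≤ Cq) (hC'pos : 0 ≤ C') (hC''pos : 0 ≤ C'')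
    (hCC : C₁ ≤ Cq) (hCqa : Cq * a ≤ 1 / 16)
    (hsq : ∀ R : ℝ, R ≤ 12 * (M * r) → ∀ k : ℝ, 0 ≤ k →
      ∫⁻ x in cyl n xn R ∩ slab n,
        ENNReal.ofReal (k * (hgt0 (gaussWin o L) A n x - Hbar) ^ 2) ≤
          ENNReal.ofReal (k * C') * E)
    (hcol : ∀ (t₀ R : ℝ), R ≤ 12 * (M * r) →
      ∫⁻ x in cyl n xn R ∩ slab n,
        ENNReal.ofReal (min (wlen o L (colSet A n x) (Iio t₀))
          (wlen o L (colSet A n x)ᶜ (Ioi t₀))) ≤ ENNReal.ofReal (C'' * r) * E)
    (hbH : |b - Hbar| ≤ Cq * a / (4 * M))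
    {c : Pt d} {ρ C₂ V : ℝ} (hρ1 : r ≤ ρ) (hxn : xn = botPt n c ρ)
    (ho : o = ⟪xn, n⟫) (hd : 2 ≤ d) (hV : V = unitVol d)
    (hC₂ : C₂ = 2 * C₁ * (2 ^ (2 * d) * C₁ ^ (d - 1))) (hC₂q : C₂ ≤ Cq) {T : Set (Pt d)}
    (harea : volume T ≤ ENNReal.ofReal
      (2 * C₁ * a ^ 2 * r * (2 ^ d * V * (C₁ * a * r) ^ (d - 1))))
    (hneg : Cq * a / M < -(b - 1 / 2)) :
    volume (Aᶜ ∩ T) ≤ ENNReal.ofReal (Cq * a) * volume (Aᶜ ∩ Metric.ball c ρ) +
      ENNReal.ofReal ((16 * M ^ 2 / Cq * C' + C'') * r) * E := by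
  have hM0 : 0 < M := by linarith
  have hMr : r ≤ M * r := le_mul_of_one_le_left hr.le hM1
  have hLpos : 0 < L := by rw [hLdef]; positivity
  have ha0 : 0 ≤ a := hap.le
  have hC₁a : C₁ * a ≤ 1 / 16 := (mul_le_mul_of_nonneg_right hCC ha0).trans hCqa
  have hquart : Cq * a / M = 4 * (Cq * a / (4 * M)) := by field_simp
  have hhalfq : Cq * a / (2 * M) = 2 * (Cq * a / (4 * M)) := by field_simp; ring
  have hscale : 3 * (Cq * a * r) ≤ √(2 * π) * L * (Cq * a / (2 * M)) := by
    have e : √(2 * π) * L * (Cq * a / (2 * M)) = √(2 * π) * (3 / 2 * (Cq * a * r)) := by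
      rw [hLdef]; field_simp
    have hsqrt : 2 ≤ √(2 * π) :=
      Real.le_sqrt_of_sq_le (by linarith [Real.two_le_pi])
    rw [e]
    linarith [mul_le_mul_of_nonneg_right hsqrt (show 0 ≤ 3 / 2 * (Cq * a * r) by positivity)]
  set H0 := fun x => hgt0 (gaussWin o L) A n x with hH0
  have hH0m : Measurable H0 := measurable_hgt0_gaussWin hA n o L
  have hVpos : 0 < V := hV ▸ unitVol_pos
  have hCqpos : 0 < Cq := by linarith
  have hDR : a * r / 2 ≤ 12 * (M * r) := by
    linarith [mul_le_mul_of_nonneg_right ha1 hr.le]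
  set D := cyl n xn (a * r / 2) with hD
  set I := Ioc (o + a ^ 2 * r) (o + r) with hI
  set Z := fun x => ENNReal.ofReal (16 * M ^ 2 / Cq * r / a * (H0 x - Hbar) ^ 2) with hZ
  have hZm : Measurable Z := by rw [hZ]; fun_prop
  have ha16 : a ≤ 1 / 16 := (le_mul_of_one_le_left ha0 hCq1).trans hCqa
  have hpoint : ∀ x, ENNReal.ofReal (Cq * a * r) ≤ Z x + (volume (colSet Aᶜ n x ∩ I) +
      ENNReal.ofReal (min (wlen o L (colSet A n x) (Iio (o + r)))
        (wlen o L (colSet A n x)ᶜ (Ioi (o + r))))) := by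
    intro x
    have hfin : volume (colSet Aᶜ n x ∩ I) ≠ ∞ :=
      measure_ne_top_of_subset inter_subset_right measure_Ioc_lt_top.ne
    rw [← ofReal_measureReal hfin]
    by_cases hdev : |H0 x - Hbar| ≤ Cq * a / (4 * M)
    · refine le_add_left ?_
      rw [← ENNReal.ofReal_add measureReal_nonneg
        (le_min (wlen_nonneg _ _ _ _) (wlen_nonneg _ _ _ _))]
      refine ENNReal.ofReal_le_ofReal ?_
      have hH : H0 x ≤ 1 / 2 - Cq * a / (2 * M) := by
        linarith [(abs_le.1 hdev).2, (abs_le.1 hbH).1]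
      refine column_low (e := a ^ 2 * r) (X := Cq * a * r) hr (by rw [hLdef]; linarith)
        (by positivity) ?_ ?_ ?_ (measurableSet_colSet hA n x) ?_
      · calc 8 * (a ^ 2 * r) = 8 * a * a * r := by ring
          _ ≤ 8 * (1 / 16) * 1 * r := by gcongr
          _ ≤ r := by linarith
      · calc a ^ 2 * r = a * a * r := by ring
          _ ≤ Cq * a * r := by gcongr; linarith
      · linarith [mul_le_mul_of_nonneg_right hCqa hr.le]
      · calc _ = √(2 * π) * L * H0 x := (hgt0_gaussWin hA n x o hLpos).symm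
          _ ≤ √(2 * π) * L * (1 / 2 - Cq * a / (2 * M)) := by gcongr
          _ ≤ _ := by linarith
    · refine le_add_right (ENNReal.ofReal_le_ofReal ?_)
      rw [not_le] at hdev
      have h1 := pow_le_pow_left₀ (by positivity) hdev.le 2
      rw [sq_abs] at h1
      calc Cq * a * r = 16 * M ^ 2 / Cq * r / a * (Cq * a / (4 * M)) ^ 2 := by
            field_simp; ring
        _ ≤ _ := by gcongr
  have hballsub : Aᶜ ∩ {y | y ∈ D ∧ ⟪y, n⟫ ∈ I} ⊆ Aᶜ ∩ Metric.ball c ρ := by
    rintro y ⟨hy, hyD, hyI⟩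
    refine ⟨hy, ?_⟩
    rw [Metric.mem_ball, dist_eq_norm]
    have hyc : y - c = (y - xn) - ρ • n := by simp only [hxn, botPt]; module
    have hw : ‖linePt n (y - xn) 0‖ ≤ a * r / 2 := by
      rw [linePt_zero_sub]; exact hyD
    have hh : ⟪y - xn, n⟫ ∈ Ioc (a ^ 2 * r) r := by
      rw [inner_sub_left, ← ho]
      exact ⟨by linarith [hyI.1], by linarith [hyI.2]⟩
    have hsplit := norm_sq_split hn (y - xn)
    have hsq2 : ‖y - c‖ ^ 2 < ρ ^ 2 := by
      rw [hyc, norm_sub_sq_real, real_inner_smul_right, norm_smul, hn, mul_one,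
        Real.norm_eq_abs, sq_abs, hsplit]
      have hw2 := pow_le_pow_left₀ (norm_nonneg _) hw 2
      have h5 : ⟪y - xn, n⟫ * r ≤ ⟪y - xn, n⟫ * (2 * ρ - ⟪y - xn, n⟫) := by
        refine mul_le_mul_of_nonneg_left ?_ (by nlinarith [hh.1])
        linarith [hh.2]
      nlinarith [mul_lt_mul_of_pos_right hh.1 hr, sq_nonneg (a * r)]
    exact lt_of_pow_lt_pow_left₀ 2 (by linarith) hsq2
  have hDint : ENNReal.ofReal (Cq * a * r) * volume (D ∩ slab n) ≤
      ENNReal.ofReal (16 * M ^ 2 / Cq * r / a * C') * E +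
        (volume (Aᶜ ∩ Metric.ball c ρ) + ENNReal.ofReal (C'' * r) * E) := by
    rw [← setLIntegral_const]
    refine (lintegral_mono fun x => hpoint x).trans ?_
    rw [lintegral_add_left hZm,
      lintegral_add_left (measurable_vol_col hA.compl n measurableSet_Ioc)]
    refine add_le_add (hsq _ hDR _ (by positivity)) (add_le_add ?_ (hcol _ _ hDR))
    rw [← volume_columns hF hn hA.compl (measurableSet_cyl n xn _) (lineInv_cyl hn _ _)
      measurableSet_Ioc]
    exact measure_mono hballsub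
  have hTD : volume T ≤ ENNReal.ofReal a * (ENNReal.ofReal (Cq * a * r) * volume (D ∩ slab n)) := by
    refine harea.trans ?_
    refine le_trans ?_ (mul_le_mul_right (mul_le_mul_right
      (area_cyl_ge hF hn (by omega) xn (R := a * r / 2) (by positivity)) _) _)
    rw [← hV]
    rw [← ENNReal.ofReal_mul (by positivity), ← ENNReal.ofReal_mul ha0]
    refine ENNReal.ofReal_le_ofReal ?_
    have h22 : (2 : ℝ) ^ (2 * d) = 2 ^ d * 2 ^ (d - 1) * 2 := by
      rw [mul_assoc, ← pow_succ, Nat.sub_add_cancel (by omega : 1 ≤ d), ← pow_add]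
      ring_nf
    calc 2 * C₁ * a ^ 2 * r * (2 ^ d * V * (C₁ * a * r) ^ (d - 1))
        = C₂ * (a * (a * r) * (V * (a * r / 2) ^ (d - 1) / 2)) := by
          rw [hC₂, h22, div_pow, mul_assoc C₁ a r, mul_pow]
          field_simp
      _ ≤ Cq * (a * (a * r) * (V * (a * r / 2) ^ (d - 1) / 2)) := by
          gcongr
      _ = _ := by ring
  refine (measure_mono inter_subset_right).trans (hTD.trans ?_)
  refine (mul_le_mul_right hDint _).trans ?_
  rw [mul_add, mul_add, ← mul_assoc, ← mul_assoc, ← ENNReal.ofReal_mul ha0,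
    ← ENNReal.ofReal_mul ha0, ← add_assoc, add_comm _ (ENNReal.ofReal a * _), add_assoc,
    ← add_mul, ← ENNReal.ofReal_add (by positivity) (by positivity)]
  refine add_le_add (mul_le_mul_left (ENNReal.ofReal_le_ofReal ?_) _)
    (mul_le_mul_left (ENNReal.ofReal_le_ofReal ?_) _)
  · exact le_mul_of_one_le_left ha0 hCq1
  · have e : a * (16 * M ^ 2 / Cq * r / a * C') = 16 * M ^ 2 / Cq * C' * r := by field_simp
    rw [e]
    have : a * (C'' * r) ≤ 1 * (C'' * r) := mul_le_mul_of_nonneg_right ha1 (by positivity)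
    linarith

theorem tiltLemma (hF : LineFubini) (hG : ChainGauss) (hM : ColumnMin) : TiltLemma := by
  intro d hd K _hK A₀ hA₀
  set C₁ : ℝ := 3 * A₀ ^ 2 + 3 with hC₁
  have hC₁pos : 0 < C₁ := by positivity
  set C₂ : ℝ := 2 * C₁ * (2 ^ (2 * d) * C₁ ^ (d - 1)) with hC₂
  have hC₂pos : 0 < C₂ := by positivity
  set Cq : ℝ := C₁ + C₂ + 1 with hCq
  have hCqpos : 0 < Cq := by positivity
  refine ⟨Cq, 1 / (16 * Cq), hCqpos, by positivity, fun M hM1 => ?_⟩
  obtain ⟨C', P, hC'pos, hP, hchain⟩ := hG d 12 (by norm_num)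
  obtain ⟨C'', hC''pos, hmin⟩ := hM d 1 le_rfl
  set V : ℝ := unitVol d with hV
  have hVpos : 0 < V := unitVol_pos
  set Ci : ℝ := 32 * C₁ * M ^ 2 / Cq ^ 2 * C' + 2 * (C'' * (P * M)) with hCi
  set Cii : ℝ := 16 * M ^ 2 / Cq * C' + C'' * (P * M) with hCii
  set Ciii : ℝ := 2 * C₁ * 2 ^ d * V * C₁ ^ (d - 1) * (16 * M ^ 2 / Cq ^ 2) * C' with hCiii
  have hM0 : 0 < M := by linarith
  have hP0 : 0 < P := by linarith
  have hCi0 : 0 < Ci := by positivity
  have hCii0 : 0 < Cii := by positivity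
  have hCiii0 : 0 < Ciii := by positivity
  refine ⟨Ci + Cii + Ciii, P, by positivity, by linarith, ?_⟩
  intro A hA r ρ c n ν hr hρ1 hρ2 hn hν hθ
  set a := ‖n - ν‖ with hadef
  set xn := botPt n c ρ with hxn
  set L := 3 * (M * r) with hLdef
  have hLpos : 0 < L := by positivity
  have hMr : r ≤ M * r := le_mul_of_one_le_left hr.le hM1
  set o := ⟪xn, n⟫ with ho
  set b := smoothInd A L xn with hb
  set E := wsum A n (P * (M * r)) xn with hE
  by_cases hsmall : |b - 1 / 2| ≤ Cq * a / M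
  · exact Or.inl hsmall
  right
  rw [not_le] at hsmall
  have ha0 : 0 ≤ a := norm_nonneg _
  have hCqa : Cq * a ≤ 1 / 16 := by
    calc Cq * a ≤ Cq * (1 / (16 * Cq)) := mul_le_mul_of_nonneg_left hθ hCqpos.le
      _ = 1 / 16 := by field_simp
  have hCq1 : 1 ≤ Cq := by linarith
  have ha1 : a ≤ 1 := by linarith [le_mul_of_one_le_left ha0 hCq1]
  have hPM : 12 * (M * r) ≤ P * (M * r) :=
    mul_le_mul_of_nonneg_right hP (mul_pos hM0 hr).le
  set Q := cyl n xn (C₁ * a * r) with hQ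
  set T := tube n Q (o - C₁ * a ^ 2 * r) (o + C₁ * a ^ 2 * r) with hT
  -- reduction to the tube
  have hsub : Aᶜ ∩ crescent K ν c ρ ∩
      {y | ‖linePt ν y 0 - linePt ν (botPt ν c ρ) 0‖ ≤ A₀ * a * r} ⊆
      if 0 < a then Aᶜ ∩ T else ∅ := by
    rintro y ⟨⟨hy1, hy2⟩, hy3⟩
    obtain ⟨hap, hyT⟩ := tilt_geom hn hν hr hρ1 hρ2 hA₀ ha1 hy2 hy3
    rw [if_pos hap]
    exact ⟨hy1, hyT⟩
  refine (measure_mono hsub).trans ?_
  by_cases hap : 0 < a
  swap
  · rw [if_neg hap]; simp
  rw [if_pos hap]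
  -- the two inputs
  have hxo : linePt n xn o = xn := linePt_inner n xn
  obtain ⟨hch1, hch2⟩ := hchain A hA n hn (M * r) L o xn (by positivity)
    (by rw [hLdef]; linarith [mul_pos hM0 hr]) (by rw [hLdef]; linarith [mul_pos hM0 hr])
    (by rw [ho, sub_self, abs_zero]; positivity)
  rw [hxo, ← hb, ← hE] at hch2
  rw [← hE] at hch1
  set Hbar := hgt (gaussWin o L) A n (L / 2) xn with hHbar
  set H0 := fun x => hgt0 (gaussWin o L) A n x with hH0
  have hH0m : Measurable H0 := measurable_hgt0_gaussWin hA n o L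
  have hQm : MeasurableSet Q := measurableSet_cyl _ _ _
  have hQl : LineInv n Q := lineInv_cyl hn _ _
  have hC₁a : C₁ * a ≤ 1 / 16 := by
    refine le_trans (mul_le_mul_of_nonneg_right ?_ ha0) hCqa
    linarith
  have hcol : ∀ (t₀ R : ℝ), R ≤ 12 * (M * r) →
      ∫⁻ x in cyl n xn R ∩ slab n,
        ENNReal.ofReal (min (wlen o L (colSet A n x) (Iio t₀))
          (wlen o L (colSet A n x)ᶜ (Ioi t₀))) ≤ ENNReal.ofReal (C'' * (P * M) * r) * E := by
    intro t₀ R hR
    have h := hmin A hA n hn (P * (M * r)) o L t₀ xn (cyl n xn R) (by positivity) hLpos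
      (by rw [hLdef]; linarith)
      (by rw [ho, sub_self, abs_zero]; positivity)
      (measurableSet_cyl _ _ _) (lineInv_cyl hn _ _)
      (fun x hx => (show ‖linePt n x 0 - linePt n xn 0‖ ≤ R from hx).trans
        (by linarith))
    rw [← hE, show C'' * (P * (M * r)) = C'' * (P * M) * r by ring] at h
    refine le_trans (le_of_eq ?_) h
    refine lintegral_congr fun x => ?_
    rw [lintegral_wt_col hA n x o hLpos measurableSet_Iio,
      lintegral_wt_col hA.compl n x o hLpos measurableSet_Ioi, ← ENNReal.ofReal_min]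
    rfl
  have hsq : ∀ R : ℝ, R ≤ 12 * (M * r) → ∀ k : ℝ, 0 ≤ k →
      ∫⁻ x in cyl n xn R ∩ slab n, ENNReal.ofReal (k * (H0 x - Hbar) ^ 2) ≤
        ENNReal.ofReal (k * C') * E := by
    intro R hR k hk
    simp_rw [ENNReal.ofReal_mul hk]
    rw [lintegral_const_mul _ (by fun_prop), mul_assoc]
    refine mul_le_mul_right ((lintegral_mono_set ?_).trans hch1) _
    intro x hx
    exact ⟨hx.2, (show ‖linePt n x 0 - linePt n xn 0‖ ≤ R from hx.1).trans hR⟩
  have harea : volume T ≤ ENNReal.ofReal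
      (2 * C₁ * a ^ 2 * r * (2 ^ d * V * (C₁ * a * r) ^ (d - 1))) := by
    rw [hT, volume_tube hF hn hQm hQl, ENNReal.ofReal_mul (by positivity),
      show o + C₁ * a ^ 2 * r - (o - C₁ * a ^ 2 * r) = 2 * C₁ * a ^ 2 * r by ring]
    exact mul_le_mul_right (area_cyl_le hF hn (by omega) _ (by positivity)) _
  suffices h : volume (Aᶜ ∩ T) ≤ ENNReal.ofReal (Cq * a) * volume (Aᶜ ∩ Metric.ball c ρ) +
      ENNReal.ofReal ((Ci + Cii + Ciii) * r) * E by
    exact h
  have hext : ∀ K₁ : ℝ, K₁ * r ≤ (Ci + Cii + Ciii) * r →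
      ENNReal.ofReal (K₁ * r) * E ≤ ENNReal.ofReal ((Ci + Cii + Ciii) * r) * E :=
    fun K₁ h => mul_le_mul_left (ENNReal.ofReal_le_ofReal h) _
  rcases lt_or_ge (Cq * a / (4 * M)) |b - Hbar| with hbH | hbH
  · refine le_add_left ((tilt_far ha0 ha1 hr hM1 hC₁pos.le hCqpos harea hch2 hbH).trans
      (hext Ciii ?_))
    gcongr; linarith
  rcases lt_abs.1 hsmall with hpos | hneg
  · refine le_add_left ((tilt_high hF hn hA (C'' := C'' * (P * M)) hap ha1 hr hM1 hLdef hC₁pos
      hCq1 hC'pos.le (by positivity) (by linarith) hCqa hsq hcol hbH hpos).trans (hext Ci ?_))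
    gcongr; linarith
  · refine (tilt_low hF hn hA (C'' := C'' * (P * M)) hap ha1 hr hM1 hLdef hC₁pos
      hCq1 hC'pos.le (by positivity) (by linarith) hCqa hsq hcol hbH hρ1 hxn ho hd hV hC₂
      (by linarith) harea hneg).trans (add_le_add le_rfl (hext Cii ?_))
    gcongr; linarith

end Vale.Agent.P137
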