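import Vale.Agent.P137.Gauss
import Vale.Agent.P137.LocalBase

/-! # P137, module C: tube lemmas

`crossArea`, `stepVol`, `columnMin`, `vertLemma` of the interface. In `columnMin` and `vertLemma` the
disagreement between a set and its mollification is telescoped with `stepVol`; the area term of that
bound is absorbed, so no stopping scales are needed.
-/

namespace Vale.Agent.P137

open MeasureTheory Set Filter Topology
open scoped RealInnerProductSpace ENNReal

variable {d : ℕ}

namespace TubeAux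

theorem one_le_dim {n : Pt d} (hn : ‖n‖ = 1) : 1 ≤ d := by
  rcases Nat.eq_zero_or_pos d with rfl | h
  · rw [Subsingleton.elim n 0, norm_zero] at hn
    exact absurd hn zero_ne_one
  · exact h

/-- dyadic levels below `S / 8`. -/
noncomputable def lvl (S : ℝ) (j : ℕ) : ℝ := (1 / 2) ^ j * (S / 8)

theorem lvl_pos {S : ℝ} (hS : 0 < S) (j : ℕ) : 0 < lvl S j := by unfold lvl; positivity

theorem lvl_le {S : ℝ} (hS : 0 < S) (j : ℕ) : lvl S j ≤ S / 8 :=
  mul_le_of_le_one_left (by positivity) (pow_le_one₀ (by norm_num) (by norm_num))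

theorem lvl_succ (S : ℝ) (j : ℕ) : lvl S (j + 1) = lvl S j / 2 := by
  rw [lvl, lvl, pow_succ]; ring

theorem lineInv_inter_pre {n : Pt d} {P : Set (Pt d)} (hL : LineInv n P) {s : Set (Pt d)}
    (h : ∀ (x : Pt d) (t : ℝ), x + t • n ∈ s ↔ x ∈ s) : LineInv n (P ∩ s) :=
  fun x t => and_congr (hL x t) (h x t)

/-- integrals over a union of lines, line by line. -/
theorem setLIntegral_lines {n : Pt d} (hn : ‖n‖ = 1) {P : Set (Pt d)} (hP : MeasurableSet P)
    (hL : LineInv n P) {F : Pt d → ℝ≥0∞} (hF : Measurable F) :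
    ∫⁻ y in P, F y = ∫⁻ x in P ∩ slab n, ∫⁻ t, F (linePt n x t) := by
  rw [← lintegral_indicator hP, lineFubini d n hn _ (hF.indicator hP), ← setLIntegral_indicator hP]
  refine lintegral_congr fun x => ?_
  by_cases hx : x ∈ P
  · rw [indicator_of_mem hx]
    exact lintegral_congr fun t => indicator_of_mem ((lineInv_mem hL x t).2 hx) _
  · rw [indicator_of_notMem hx]
    simp [indicator_of_notMem (mt (lineInv_mem hL x _).1 hx)]

theorem continuous_linePt2 (n : Pt d) : Continuous fun p : Pt d × ℝ => linePt n p.1 p.2 := by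
  unfold linePt; fun_prop

theorem measurable_line_lintegral {n : Pt d} {F : ℝ → Pt d → ℝ≥0∞}
    (hF : Measurable fun p : ℝ × Pt d => F p.1 p.2) (μ : Measure ℝ) [SFinite μ] :
    Measurable fun x => ∫⁻ t, F t (linePt n x t) ∂μ :=
  Measurable.lintegral_prod_right' (f := fun p : Pt d × ℝ => F p.2 (linePt n p.1 p.2))
    (hF.comp (measurable_snd.prodMk (continuous_linePt2 n).measurable))

/-! ### weights -/

theorem wt_pos (o L t : ℝ) : 0 < wt o L t := Real.exp_pos _

theorem wt_le_one (o L t : ℝ) : wt o L t ≤ 1 := by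
  rw [wt, Real.exp_le_one_iff, neg_div]
  exact neg_nonpos.2 (by positivity)

theorem continuous_wt (o L : ℝ) : Continuous (wt o L) := by unfold wt; fun_prop

theorem wt_sq (o L t : ℝ) : wt o L t = wt o (√2 * L) t ^ 2 := by
  rw [wt, wt, ← Real.exp_nat_mul, mul_pow, Real.sq_sqrt zero_le_two]
  congr 1; ring

theorem wt_four (o L t : ℝ) : wt o (√2 * L) t = wt o (2 * L) t ^ 2 := by
  rw [wt, wt, ← Real.exp_nat_mul, mul_pow, Real.sq_sqrt zero_le_two]
  congr 1; ring

theorem wt_eq_gauss1 {L : ℝ} (hL : 0 < L) (o : ℝ) :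
    wt o L = fun t => √(2 * Real.pi) * L * gauss1 L (t - o) := by
  funext t
  have : √(2 * Real.pi) * L ≠ 0 := by positivity
  rw [gauss1, wt, ← mul_assoc, mul_inv_cancel₀ this, one_mul]

theorem integral_wt {L : ℝ} (hL : 0 < L) (o : ℝ) : ∫ t, wt o L t = √(2 * Real.pi) * L := by
  rw [wt_eq_gauss1 hL o, integral_const_mul, integral_sub_right_eq_self (gauss1 L) o,
    integral_gauss1 hL, mul_one]

theorem integrable_wt {L : ℝ} (hL : 0 < L) (o : ℝ) : Integrable (wt o L) :=
  Integrable.of_integral_ne_zero (by rw [integral_wt hL]; positivity)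

theorem lintegral_wt {L : ℝ} (hL : 0 < L) (o : ℝ) :
    ∫⁻ t, ENNReal.ofReal (wt o L t) = ENNReal.ofReal (√(2 * Real.pi) * L) := by
  rw [← ofReal_integral_eq_lintegral_ofReal (integrable_wt hL o)
    (Eventually.of_forall fun t => (wt_pos o L t).le), integral_wt hL]

theorem sqrt_two_pi_le : √(2 * Real.pi) * √2 ≤ 4 := by
  rw [← Real.sqrt_mul (by positivity), Real.sqrt_le_left (by norm_num)]
  nlinarith [Real.pi_le_four]

theorem lintegral_wt2_le {L : ℝ} (hL : 0 < L) (o : ℝ) :
    ∫⁻ t, ENNReal.ofReal (wt o (√2 * L) t) ≤ ENNReal.ofReal (4 * L) := by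
  rw [lintegral_wt (by positivity), ← mul_assoc]
  exact ENNReal.ofReal_le_ofReal (mul_le_mul_of_nonneg_right sqrt_two_pi_le hL.le)

theorem lintegral_wt_le {L : ℝ} (hL : 0 < L) (o : ℝ) :
    ∫⁻ t, ENNReal.ofReal (wt o L t) ≤ ENNReal.ofReal (4 * L) := by
  refine le_trans (lintegral_mono fun t => ENNReal.ofReal_le_ofReal ?_) (lintegral_wt2_le hL o)
  rw [wt_sq]
  exact pow_le_of_le_one (wt_pos _ _ _).le (wt_le_one _ _ _) two_ne_zero

theorem hasDerivAt_wt (o L t : ℝ) :
    HasDerivAt (wt o L) (wt o L t * (-(t - o) / L ^ 2)) t := by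
  have h := (((((hasDerivAt_id t).sub_const o).pow 2).neg).div_const (2 * L ^ 2)).exp
  refine h.congr_deriv ?_
  simp only [wt, id_eq, Pi.neg_apply, Pi.pow_apply]
  ring

theorem abs_deriv_wt_le {L : ℝ} (hL : 0 < L) (o t : ℝ) :
    |wt o L t * (-(t - o) / L ^ 2)| ≤ wt o (√2 * L) t / L := by
  rw [abs_mul, abs_of_pos (wt_pos o L t), abs_div, abs_neg, abs_of_pos (pow_pos hL 2)]
  rw [wt_sq, le_div_iff₀ hL]
  set w := wt o (√2 * L) t with hw
  have hw0 : 0 < w := wt_pos _ _ _
  have hs : |t - o| / L * w ≤ 1 := by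
    have h1 : |t - o| / L ≤ Real.exp ((t - o) ^ 2 / (2 * (√2 * L) ^ 2)) := by
      refine le_trans ?_ (Real.add_one_le_exp _)
      rw [mul_pow, Real.sq_sqrt zero_le_two]
      have e : (t - o) ^ 2 / (2 * (2 * L ^ 2)) = (|t - o| / L) ^ 2 / 4 := by
        rw [div_pow, sq_abs]; ring
      rw [e]
      nlinarith [sq_nonneg (|t - o| / L - 2)]
    calc |t - o| / L * w ≤ Real.exp ((t - o) ^ 2 / (2 * (√2 * L) ^ 2)) * w :=
          mul_le_mul_of_nonneg_right h1 hw0.le
      _ = 1 := by rw [hw, wt, ← Real.exp_add, neg_div, add_neg_cancel, Real.exp_zero]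
  calc w ^ 2 * (|t - o| / L ^ 2) * L = w * (|t - o| / L * w) := by field_simp
    _ ≤ w * 1 := mul_le_mul_of_nonneg_left hs hw0.le
    _ = w := mul_one w

/-! ### lines -/

variable {A : Set (Pt d)} {n : Pt d}

theorem defect_nonneg (A : Set (Pt d)) (hn : ‖n‖ = 1) (l : ℝ) (x : Pt d) :
    0 ≤ defect A n l x := by
  have := real_inner_le_norm (gradInd A l x) n
  rw [hn, mul_one] at this
  unfold defect; linarith

theorem continuous_defect (A : Set (Pt d)) (n : Pt d) {l : ℝ} (hl : 0 < l) :
    Continuous (defect A n l) := by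
  have := continuous_gradInd A hl
  unfold defect; fun_prop

theorem hasDerivAt_line (A : Set (Pt d)) (n : Pt d) {l : ℝ} (hl : 0 < l) (x : Pt d) (t : ℝ) :
    HasDerivAt (fun t => smoothInd A l (linePt n x t)) ⟪gradInd A l (linePt n x t), n⟫ t := by
  have e : (fun t => smoothInd A l (linePt n x t))
      = fun t : ℝ => smoothInd A l (linePt n x 0 + t • n) :=
    funext fun t => by rw [linePt_eq n x t]
  rw [e, linePt_eq n x t]
  exact hasDerivAt_smoothInd A hl _ n t

/-- a drop of the mollification along a line costs defect. -/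
theorem flux_le (hn : ‖n‖ = 1) (A : Set (Pt d)) {l : ℝ} (hl : 0 < l) (x : Pt d) {t1 t2 : ℝ}
    (h : t1 ≤ t2) :
    ENNReal.ofReal (smoothInd A l (linePt n x t1) - smoothInd A l (linePt n x t2))
      ≤ ∫⁻ t in Icc t1 t2, ENNReal.ofReal (defect A n l (linePt n x t)) := by
  have hc := continuous_linePt_height n x
  have hD : Continuous fun t => defect A n l (linePt n x t) :=
    (continuous_defect A n hl).comp hc
  have hG : Continuous fun t => ⟪gradInd A l (linePt n x t), n⟫ :=
    ((continuous_gradInd A hl).comp hc).inner continuous_const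
  rw [← ofReal_integral_eq_lintegral_ofReal hD.integrableOn_Icc
    (Eventually.of_forall fun t => defect_nonneg A hn l _)]
  refine ENNReal.ofReal_le_ofReal ?_
  rw [integral_Icc_eq_integral_Ioc, ← intervalIntegral.integral_of_le h]
  have e := intervalIntegral.integral_eq_sub_of_hasDerivAt
    (fun t _ => hasDerivAt_line A n hl x t) (hG.intervalIntegrable t1 t2)
  rw [← neg_sub, ← e, ← intervalIntegral.integral_neg]
  refine intervalIntegral.integral_mono_on h (hG.neg.intervalIntegrable _ _)
    (hD.intervalIntegrable _ _) fun t _ => ?_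
  have := norm_nonneg (gradInd A l (linePt n x t))
  unfold defect; linarith

/-- the weighted gradient along a line is the weighted defect up to a constant. -/
theorem line_grad_le (hn : ‖n‖ = 1) (A : Set (Pt d)) {l L : ℝ} (hl : 0 < l) (hL : 0 < L) (o : ℝ)
    (p : Pt d) :
    ∫⁻ t, ENNReal.ofReal (wt o L t * ‖gradInd A l (p + t • n)‖)
      ≤ 4 + ∫⁻ t, ENNReal.ofReal (wt o L t * defect A n l (p + t • n)) := by
  have hc : Continuous fun t : ℝ => p + t • n := by fun_prop
  have hg : Continuous fun t => gradInd A l (p + t • n) := (continuous_gradInd A hl).comp hc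
  have hv : Continuous fun t => smoothInd A l (p + t • n) := (continuous_smoothInd A hl).comp hc
  have hip : ∀ t : ℝ, |⟪gradInd A l (p + t • n), n⟫| ≤ √d / l := fun t => by
    refine (abs_real_inner_le_norm _ _).trans ?_
    rw [hn, mul_one]
    exact norm_gradInd_le A hl _
  have hvb : ∀ t : ℝ, |smoothInd A l (p + t • n)| ≤ 1 := fun t => by
    rw [abs_of_nonneg (smoothInd_nonneg A hl _)]; exact smoothInd_le_one A hl _
  have i1 : Integrable fun t => wt o L t * ‖gradInd A l (p + t • n)‖ :=
    (integrable_wt hL o).mul_bdd hg.norm.aestronglyMeasurable (c := √d / l)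
      (Eventually.of_forall fun t => by rw [norm_norm]; exact norm_gradInd_le A hl _)
  have i2 : Integrable fun t => wt o L t * ⟪gradInd A l (p + t • n), n⟫ :=
    (integrable_wt hL o).mul_bdd (hg.inner continuous_const).aestronglyMeasurable (c := √d / l)
      (Eventually.of_forall fun t => by rw [Real.norm_eq_abs]; exact hip t)
  have i4 : Integrable fun t => wt o L t * (-(t - o) / L ^ 2) := by
    refine Integrable.mono' ((integrable_wt (mul_pos (by positivity : (0:ℝ) < √2) hL) o).div_const L)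
      ((continuous_wt o L).mul (by fun_prop)).aestronglyMeasurable
      (Eventually.of_forall fun t => ?_)
    rw [Real.norm_eq_abs]; exact abs_deriv_wt_le hL o t
  have i5 : Integrable fun t => (wt o L t * (-(t - o) / L ^ 2)) * smoothInd A l (p + t • n) :=
    i4.mul_bdd hv.aestronglyMeasurable (c := 1)
      (Eventually.of_forall fun t => by rw [Real.norm_eq_abs]; exact hvb t)
  have hip2 : ∫ t, wt o L t * ⟪gradInd A l (p + t • n), n⟫ ≤ 4 := by
    have h := integral_mul_deriv_eq_deriv_mul_of_integrable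
      (u := wt o L) (v := fun t => smoothInd A l (p + t • n))
      (u' := fun t => wt o L t * (-(t - o) / L ^ 2))
      (v' := fun t => ⟪gradInd A l (p + t • n), n⟫)
      (fun t _ => hasDerivAt_wt o L t) (fun t _ => hasDerivAt_smoothInd A hl p n t)
      i2 i5 ((integrable_wt hL o).mul_bdd hv.aestronglyMeasurable (c := 1)
        (Eventually.of_forall fun t => by rw [Real.norm_eq_abs]; exact hvb t))
    rw [h, ← integral_neg]
    calc ∫ t, -(wt o L t * (-(t - o) / L ^ 2) * smoothInd A l (p + t • n))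
        ≤ ∫ t, wt o (√2 * L) t / L := by
          refine integral_mono i5.neg ((integrable_wt (by positivity) o).div_const L) fun t => ?_
          refine (neg_le_abs _).trans ?_
          rw [abs_mul]
          exact (mul_le_of_le_one_right (abs_nonneg _) (hvb t)).trans (abs_deriv_wt_le hL o t)
      _ = √(2 * Real.pi) * √2 := by
          rw [integral_div, integral_wt (by positivity)]; field_simp
      _ ≤ 4 := sqrt_two_pi_le
  have i3 : Integrable fun t => wt o L t * defect A n l (p + t • n) := by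
    simp only [defect, mul_sub]; exact i1.sub i2
  rw [← ofReal_integral_eq_lintegral_ofReal i1
      (Eventually.of_forall fun t => mul_nonneg (wt_pos o L t).le (norm_nonneg _)),
    ← ofReal_integral_eq_lintegral_ofReal i3
      (Eventually.of_forall fun t => mul_nonneg (wt_pos o L t).le (defect_nonneg A hn l _)),
    ← ENNReal.ofReal_ofNat 4,
    ← ENNReal.ofReal_add (by norm_num)
      (integral_nonneg fun t => mul_nonneg (wt_pos o L t).le (defect_nonneg A hn l _))]
  refine ENNReal.ofReal_le_ofReal ?_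
  have e : ∫ t, wt o L t * defect A n l (p + t • n)
      = (∫ t, wt o L t * ‖gradInd A l (p + t • n)‖)
        - ∫ t, wt o L t * ⟪gradInd A l (p + t • n), n⟫ := by
    rw [← integral_sub i1 i2]; simp only [defect, mul_sub]
  linarith

/-- lower constant of the excess weight. -/
noncomputable def gam (d : ℕ) (K : ℝ) : ℝ := (√(2 * Real.pi) ^ d)⁻¹ * Real.exp (-(5 * K ^ 2))

theorem gam_pos (d : ℕ) (K : ℝ) : 0 < gam d K := by unfold gam; positivity

theorem weight_le (hn : ‖n‖ = 1) {K S o L l : ℝ} (hS : 0 < S) (hl : 0 < l) (hl4 : l ≤ S / 4)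
    (hL : 0 < L) (hL4 : L ≤ S / 4) {c : Pt d} (ho : |o - ⟪c, n⟫| ≤ K * S) {y : Pt d}
    (hy : y ∈ cyl n c (K * S)) (z : Pt d) :
    gam d K * Real.exp (-(2 * ‖z‖ ^ 2 / S ^ 2)) * wt o (2 * L) ⟪y, n⟫
      ≤ S ^ d * gauss (√(S ^ 2 - l ^ 2)) (c - (y + z)) := by
  set R := √(S ^ 2 - l ^ 2)
  have hR2 : R ^ 2 = S ^ 2 - l ^ 2 := Real.sq_sqrt (by nlinarith)
  have hR : 0 < R := Real.sqrt_pos.2 (by nlinarith)
  have hRS : R ≤ S := by rw [Real.sqrt_le_left hS.le]; nlinarith
  have hR15 : 15 / 16 * S ^ 2 ≤ R ^ 2 := by rw [hR2]; nlinarith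
  set t := ⟪y, n⟫ with ht
  have h1 : ‖c - (y + z)‖ ^ 2 ≤ 8 * K ^ 2 * S ^ 2 + 3 * (t - o) ^ 2 + 2 * ‖z‖ ^ 2 := by
    have hs := norm_sq_split hn (y - c)
    rw [linePt_zero_sub, inner_sub_left, ← ht] at hs
    have hh : ‖linePt n y 0 - linePt n c 0‖ ≤ K * S := hy
    obtain ⟨o1, o2⟩ := abs_le.1 ho
    have hh2 := pow_le_pow_left₀ (norm_nonneg _) hh 2
    have ho2 : (o - ⟪c, n⟫) ^ 2 ≤ (K * S) ^ 2 := by nlinarith
    have h2 : ‖c - (y + z)‖ ≤ ‖y - c‖ + ‖z‖ := by
      rw [norm_sub_rev, show y + z - c = (y - c) + z by abel]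
      exact norm_add_le _ _
    have h3 := pow_le_pow_left₀ (norm_nonneg _) h2 2
    nlinarith [sq_nonneg (‖y - c‖ - ‖z‖), sq_nonneg ((t - o) - 2 * (o - ⟪c, n⟫))]
  have hexp : -(5 * K ^ 2) + (-(2 * ‖z‖ ^ 2 / S ^ 2) + -(t - o) ^ 2 / (2 * (2 * L) ^ 2))
      ≤ -‖c - (y + z)‖ ^ 2 / (2 * R ^ 2) := by
    rw [neg_div, neg_div, ← neg_add, ← neg_add, neg_le_neg_iff]
    calc ‖c - (y + z)‖ ^ 2 / (2 * R ^ 2)
        ≤ (8 * K ^ 2 * S ^ 2 + 3 * (t - o) ^ 2 + 2 * ‖z‖ ^ 2) / (15 / 8 * S ^ 2) :=
          div_le_div₀ (by positivity) h1 (by positivity) (by linarith)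
      _ = 64 / 15 * K ^ 2 + 8 / 5 * ((t - o) ^ 2 / S ^ 2) + 16 / 15 * (‖z‖ ^ 2 / S ^ 2) := by
          field_simp; ring
      _ ≤ 5 * K ^ 2 + (2 * ‖z‖ ^ 2 / S ^ 2 + (t - o) ^ 2 / (2 * (2 * L) ^ 2)) := by
          have hL2 : 16 * L ^ 2 ≤ S ^ 2 := by nlinarith
          have h4 : 8 / 5 * ((t - o) ^ 2 / S ^ 2) ≤ (t - o) ^ 2 / (2 * (2 * L) ^ 2) := by
            rw [mul_div_assoc', div_le_div_iff₀ (by positivity) (by positivity)]
            nlinarith [mul_le_mul_of_nonneg_left hL2 (sq_nonneg (t - o))]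
          have h5 : 16 / 15 * (‖z‖ ^ 2 / S ^ 2) ≤ 2 * ‖z‖ ^ 2 / S ^ 2 := by
            rw [mul_div_assoc]; gcongr; norm_num
          nlinarith [sq_nonneg K]
  rw [gam, wt, mul_assoc, mul_assoc, ← Real.exp_add, ← Real.exp_add, gauss, ← mul_assoc]
  refine mul_le_mul ?_ (Real.exp_le_exp.2 hexp) (Real.exp_pos _).le (by positivity)
  rw [mul_pow, mul_inv, ← mul_assoc, mul_comm (S ^ d), mul_assoc]
  refine le_mul_of_one_le_right (by positivity) ?_
  rw [← div_eq_mul_inv, one_le_div (by positivity)]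
  exact pow_le_pow_left₀ hR.le hRS d

/-- the density of the excess. -/
noncomputable def dens (A : Set (Pt d)) (n : Pt d) (S : ℝ) (c : Pt d) (l : ℝ) (y : Pt d) : ℝ≥0∞ :=
  ENNReal.ofReal (S ^ d * (gauss (√(S ^ 2 - l ^ 2)) (c - y) * defect A n l y))

theorem measurable_dens (A : Set (Pt d)) (n : Pt d) (S : ℝ) (c : Pt d) {l : ℝ} (hl : 0 < l) :
    Measurable (dens A n S c l) :=
  (continuous_const.mul (((continuous_gauss _).comp (continuous_const.sub continuous_id)).mul
    (continuous_defect A n hl))).measurable.ennreal_ofReal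

theorem lintegral_dens (hn : ‖n‖ = 1) (A : Set (Pt d)) {S : ℝ} (c : Pt d) {l : ℝ} (hl : 0 < l)
    (hlS : l < S) :
    ∫⁻ y, dens A n S c l y = ENNReal.ofReal (excess A n S c l) := by
  have hS : 0 < S := hl.trans hlS
  have hR : 0 < √(S ^ 2 - l ^ 2) := Real.sqrt_pos.2 (by nlinarith)
  have hi := integrable_gauss_mul_bdd hR c (continuous_defect A n hl) (B := 2 * (√d / l))
    fun x => by
      rw [abs_of_nonneg (defect_nonneg A hn l x)]
      have h1 := abs_real_inner_le_norm (gradInd A l x) n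
      rw [hn, mul_one] at h1
      have := norm_gradInd_le A hl x
      have := neg_abs_le ⟪gradInd A l x, n⟫
      unfold defect; linarith
  rw [excess, ← integral_const_mul]
  exact (ofReal_integral_eq_lintegral_ofReal (hi.const_mul _) (Eventually.of_forall fun y =>
    mul_nonneg (by positivity) (mul_nonneg (gauss_nonneg hR.le _) (defect_nonneg A hn l _)))).symm

theorem lintegral_dens_lines_le (hn : ‖n‖ = 1) (A : Set (Pt d)) {S : ℝ} (c : Pt d) {l : ℝ}
    (hl : 0 < l) (hlS : l < S) (Q : Set (Pt d)) :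
    ∫⁻ x in Q ∩ slab n, ∫⁻ t, dens A n S c l (linePt n x t)
      ≤ ENNReal.ofReal (excess A n S c l) := by
  refine (lintegral_mono_set inter_subset_right).trans (le_of_eq ?_)
  rw [← lineFubini d n hn _ (measurable_dens A n S c hl), lintegral_dens hn A c hl hlS]

theorem shifted_grad_le (hn : ‖n‖ = 1) (A : Set (Pt d)) {K S o L l : ℝ} (hS : 0 < S) (hl : 0 < l)
    (hl4 : l ≤ S / 4) (hL : 0 < L) (hL4 : L ≤ S / 4) {c : Pt d}
    (ho : |o - ⟪c, n⟫| ≤ K * S) {P : Set (Pt d)} (hP : MeasurableSet P) (hPL : LineInv n P)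
    (hPc : P ⊆ cyl n c (K * S)) (z : Pt d) :
    ∫⁻ y in P, ENNReal.ofReal (wt o L ⟪y, n⟫ * ‖gradInd A l (y + z)‖)
      ≤ 4 * volume (P ∩ slab n)
        + ENNReal.ofReal ((gam d K)⁻¹ * Real.exp (2 * ‖z‖ ^ 2 / S ^ 2))
          * ENNReal.ofReal (excess A n S c l) := by
  have hg := continuous_gradInd A hl
  have hD := continuous_defect A n hl
  have hw := continuous_wt o L
  have hm1 : Measurable fun y : Pt d =>
      ENNReal.ofReal (wt o L ⟪y, n⟫ * ‖gradInd A l (y + z)‖) :=
    (by fun_prop : Continuous fun y : Pt d =>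
      wt o L ⟪y, n⟫ * ‖gradInd A l (y + z)‖).measurable.ennreal_ofReal
  have hm2 : Measurable fun y : Pt d =>
      ENNReal.ofReal (wt o L ⟪y, n⟫ * defect A n l (y + z)) :=
    (by fun_prop : Continuous fun y : Pt d =>
      wt o L ⟪y, n⟫ * defect A n l (y + z)).measurable.ennreal_ofReal
  rw [setLIntegral_lines hn hP hPL hm1]
  calc ∫⁻ x in P ∩ slab n, ∫⁻ t,
        ENNReal.ofReal (wt o L ⟪linePt n x t, n⟫ * ‖gradInd A l (linePt n x t + z)‖)
      ≤ ∫⁻ x in P ∩ slab n, (4 + ∫⁻ t,
          ENNReal.ofReal (wt o L ⟪linePt n x t, n⟫ * defect A n l (linePt n x t + z))) := by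
        refine lintegral_mono fun x => ?_
        have e : ∀ t, linePt n x t + z = linePt n x 0 + z + t • n := fun t => by
          rw [linePt_eq n x t, add_right_comm]
        refine le_trans (le_of_eq (lintegral_congr fun t => ?_))
          ((line_grad_le hn A hl hL o (linePt n x 0 + z)).trans
            (le_of_eq (congrArg (4 + ·) (lintegral_congr fun t => ?_))))
        · rw [inner_linePt hn, e t]
        · rw [inner_linePt hn, ← e t]
    _ = 4 * volume (P ∩ slab n)
          + ∫⁻ y in P, ENNReal.ofReal (wt o L ⟪y, n⟫ * defect A n l (y + z)) := by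
        rw [lintegral_add_left measurable_const, setLIntegral_const,
          setLIntegral_lines hn hP hPL hm2]
    _ ≤ _ := by
        refine add_le_add le_rfl ?_
        have e : ∫⁻ y, dens A n S c l (y + z) = ENNReal.ofReal (excess A n S c l) :=
          (lintegral_add_right_eq_self _ z).trans (lintegral_dens hn A c hl (by linarith))
        rw [← e, ← lintegral_const_mul' _ _ ENNReal.ofReal_ne_top]
        refine le_trans (setLIntegral_mono' hP fun y hy => ?_) (setLIntegral_le_lintegral _ _)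
        rw [dens, ← ENNReal.ofReal_mul (by positivity [gam_pos d K]), ← mul_assoc (S ^ d),
          ← mul_assoc]
        refine ENNReal.ofReal_le_ofReal
          (mul_le_mul_of_nonneg_right ?_ (defect_nonneg A hn l _))
        have h := weight_le hn hS hl hl4 hL hL4 ho (hPc hy) z
        have hge : wt o L ⟪y, n⟫ ≤ wt o (2 * L) ⟪y, n⟫ := by
          rw [wt_sq, wt_four, ← pow_mul]
          exact pow_le_of_le_one (wt_pos _ _ _).le (wt_le_one _ _ _) (by norm_num)
        refine hge.trans ?_
        have h2 := mul_le_mul_of_nonneg_left h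
          (mul_pos (inv_pos.2 (gam_pos d K)) (Real.exp_pos (2 * ‖z‖ ^ 2 / S ^ 2))).le
        refine le_trans (le_of_eq ?_) h2
        rw [Real.exp_neg]
        field_simp [(gam_pos d K).ne']

/-- constant of `StepVol`. -/
noncomputable def stepC (d : ℕ) (K : ℝ) : ℝ := 2 * 4 ^ d * (4 + (gam d K)⁻¹)

theorem stepC_pos (d : ℕ) (K : ℝ) : 0 < stepC d K := by
  have := gam_pos d K
  unfold stepC; positivity

theorem gauss_exp_norm_le {r S : ℝ} (hr : 0 < r) (hr4 : r ≤ S / 4) (u : Pt d) :
    gauss r u * ‖u‖ * Real.exp (2 * ‖u‖ ^ 2 / S ^ 2)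
      ≤ 4 ^ d * (2 * r) * gauss (4 * r) u := by
  have h1 : gauss r u * Real.exp (2 * ‖u‖ ^ 2 / S ^ 2) ≤ 2 ^ d * gauss (2 * r) u := by
    unfold gauss
    have hc : ((√(2 * Real.pi) * r) ^ d)⁻¹ = 2 ^ d * ((√(2 * Real.pi) * (2 * r)) ^ d)⁻¹ := by
      rw [← inv_pow, ← inv_pow, ← mul_pow]
      congr 1
      field_simp
    rw [hc]
    simp only [mul_assoc]
    rw [← Real.exp_add]
    refine mul_le_mul_of_nonneg_left
      (mul_le_mul_of_nonneg_left (Real.exp_le_exp.2 ?_) (by positivity)) (by positivity)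
    have hS : 0 < S := by linarith
    have h16 : 16 * r ^ 2 ≤ S ^ 2 := by nlinarith
    have : 2 * ‖u‖ ^ 2 / S ^ 2 ≤ ‖u‖ ^ 2 / (8 * r ^ 2) := by
      rw [div_le_div_iff₀ (by positivity) (by positivity)]
      nlinarith [mul_le_mul_of_nonneg_left h16 (sq_nonneg ‖u‖)]
    have e1 : -‖u‖ ^ 2 / (2 * r ^ 2) = -(4 * (‖u‖ ^ 2 / (8 * r ^ 2))) := by field_simp; ring
    have e2 : -‖u‖ ^ 2 / (2 * (2 * r) ^ 2) = -(‖u‖ ^ 2 / (8 * r ^ 2)) := by field_simp; ring
    have : 0 ≤ ‖u‖ ^ 2 / (8 * r ^ 2) := by positivity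
    rw [e1, e2]
    linarith
  have h2 := gauss_mul_norm_le (d := d) (by positivity : 0 < 2 * r) u
  rw [show 2 * (2 * r) = 4 * r by ring] at h2
  calc gauss r u * ‖u‖ * Real.exp (2 * ‖u‖ ^ 2 / S ^ 2)
      = gauss r u * Real.exp (2 * ‖u‖ ^ 2 / S ^ 2) * ‖u‖ := by ring
    _ ≤ 2 ^ d * gauss (2 * r) u * ‖u‖ := mul_le_mul_of_nonneg_right h1 (norm_nonneg _)
    _ = 2 ^ d * (gauss (2 * r) u * ‖u‖) := by ring
    _ ≤ 2 ^ d * (2 ^ d * (2 * r) * gauss (4 * r) u) :=
        mul_le_mul_of_nonneg_left h2 (by positivity)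
    _ = _ := by rw [show (4 : ℝ) = 2 * 2 by norm_num, mul_pow]; ring

theorem abs_step_le (hA : MeasurableSet A) {l l' : ℝ} (hl : 0 < l) (hll : l < l') (y : Pt d) :
    ENNReal.ofReal |smoothInd A l' y - smoothInd A l y|
      ≤ ∫⁻ u, ENNReal.ofReal (gauss (√(l' ^ 2 - l ^ 2)) u * ‖u‖) *
          ∫⁻ s in Icc (0 : ℝ) 1, ENNReal.ofReal ‖gradInd A l (y + s • u)‖ := by
  set r := √(l' ^ 2 - l ^ 2)
  have hr : 0 < r := Real.sqrt_pos.2 (by nlinarith)
  have hv := continuous_smoothInd A hl
  have hg := continuous_gradInd A hl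
  have hvb : ∀ x, |smoothInd A l x| ≤ 1 := fun x => by
    rw [abs_of_nonneg (smoothInd_nonneg A hl x)]; exact smoothInd_le_one A hl x
  have i1 : Integrable fun u => gauss r u * smoothInd A l (y + u) :=
    (integrable_gauss hr).mul_bdd (hv.comp (continuous_const_add y)).aestronglyMeasurable (c := 1)
      (Eventually.of_forall fun u => by rw [Real.norm_eq_abs]; exact hvb _)
  have i2 : Integrable fun u => gauss r u * |smoothInd A l (y + u) - smoothInd A l y| := by
    refine (integrable_gauss hr).mul_bdd (c := 2)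
      ((hv.comp (continuous_const_add y)).sub continuous_const).abs.aestronglyMeasurable
      (Eventually.of_forall fun u => ?_)
    rw [Real.norm_eq_abs, abs_abs]
    exact (abs_sub _ _).trans (by linarith [hvb (y + u), hvb y])
  have e : smoothInd A l' y - smoothInd A l y
      = ∫ u, gauss r u * (smoothInd A l (y + u) - smoothInd A l y) := by
    rw [(smoothConv d A hA l l' hl hll y).1,
      ← integral_add_left_eq_self (fun w => gauss r (y - w) * smoothInd A l w) y]
    simp only [sub_add_cancel_left, gauss_neg, mul_sub]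
    rw [integral_sub i1 ((integrable_gauss hr).mul_const _), integral_mul_const,
      integral_gauss hr, one_mul]
  calc ENNReal.ofReal |smoothInd A l' y - smoothInd A l y|
      ≤ ENNReal.ofReal (∫ u, gauss r u * |smoothInd A l (y + u) - smoothInd A l y|) := by
        refine ENNReal.ofReal_le_ofReal ?_
        rw [e]
        refine abs_integral_le_integral_abs.trans (le_of_eq ?_)
        simp_rw [abs_mul, abs_of_nonneg (gauss_nonneg hr.le _)]
    _ = ∫⁻ u, ENNReal.ofReal (gauss r u * |smoothInd A l (y + u) - smoothInd A l y|) :=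
        ofReal_integral_eq_lintegral_ofReal i2
          (Eventually.of_forall fun u => mul_nonneg (gauss_nonneg hr.le u) (abs_nonneg _))
    _ ≤ _ := by
        refine lintegral_mono fun u => ?_
        have hGc : Continuous fun s : ℝ => ‖gradInd A l (y + s • u)‖ :=
          (hg.comp (by fun_prop)).norm
        have hI : Continuous fun s : ℝ => ⟪gradInd A l (y + s • u), u⟫ :=
          (hg.comp (by fun_prop)).inner continuous_const
        rw [← ofReal_integral_eq_lintegral_ofReal hGc.integrableOn_Icc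
          (Eventually.of_forall fun s => norm_nonneg _),
          ← ENNReal.ofReal_mul (mul_nonneg (gauss_nonneg hr.le u) (norm_nonneg u)), mul_assoc]
        refine ENNReal.ofReal_le_ofReal
          (mul_le_mul_of_nonneg_left ?_ (gauss_nonneg hr.le u))
        have hF := intervalIntegral.integral_eq_sub_of_hasDerivAt
          (fun s _ => hasDerivAt_smoothInd A hl y u s) (hI.intervalIntegrable 0 1)
        simp only [one_smul, zero_smul, add_zero] at hF
        rw [← hF, integral_Icc_eq_integral_Ioc, ← intervalIntegral.integral_of_le zero_le_one,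
          ← intervalIntegral.integral_const_mul]
        refine (intervalIntegral.abs_integral_le_integral_abs zero_le_one).trans ?_
        refine intervalIntegral.integral_mono_on zero_le_one (hI.abs.intervalIntegrable _ _)
          ((continuous_const.mul hGc).intervalIntegrable _ _) fun s _ => ?_
        rw [mul_comm]
        exact abs_real_inner_le_norm _ _

/-- one step of the mollification in weighted volume. -/
theorem step_le (hA : MeasurableSet A) (hn : ‖n‖ = 1) {K S o L l l' : ℝ} (hS : 0 < S)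
    (hl : 0 < l) (hll : l ≤ l') (hl4 : l' ≤ S / 4) (hL : 0 < L) (hL4 : L ≤ S / 4) {c : Pt d}
    (ho : |o - ⟪c, n⟫| ≤ K * S) {P : Set (Pt d)} (hP : MeasurableSet P) (hPL : LineInv n P)
    (hPc : P ⊆ cyl n c (K * S)) :
    ∫⁻ y in P, ENNReal.ofReal (wt o L ⟪y, n⟫ * |smoothInd A l' y - smoothInd A l y|)
      ≤ ENNReal.ofReal (stepC d K * l') *
        (ENNReal.ofReal (excess A n S c l) + volume (P ∩ slab n)) := by
  rcases hll.eq_or_lt with rfl | hlt
  · simp
  set r := √(l' ^ 2 - l ^ 2)
  have hl' : 0 < l' := hl.trans hlt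
  have hr : 0 < r := Real.sqrt_pos.2 (by nlinarith)
  have hrl : r ≤ l' := by rw [Real.sqrt_le_left hl'.le]; nlinarith
  have hgam := gam_pos d K
  have hg := continuous_gradInd A hl
  have hw := continuous_wt o L
  set E := ENNReal.ofReal (excess A n S c l)
  set V := volume (P ∩ slab n)
  set B := ENNReal.ofReal (4 + (gam d K)⁻¹) * (E + V)
  calc ∫⁻ y in P, ENNReal.ofReal (wt o L ⟪y, n⟫ * |smoothInd A l' y - smoothInd A l y|)
      ≤ ∫⁻ y in P, ∫⁻ u, ENNReal.ofReal (gauss r u * ‖u‖) *
          ∫⁻ s in Icc (0 : ℝ) 1, ENNReal.ofReal (wt o L ⟪y, n⟫ * ‖gradInd A l (y + s • u)‖) := by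
        refine lintegral_mono fun y => ?_
        rw [ENNReal.ofReal_mul (wt_pos _ _ _).le]
        refine (mul_le_mul_right (abs_step_le hA hl hlt y) _).trans (le_of_eq ?_)
        rw [← lintegral_const_mul' _ _ ENNReal.ofReal_ne_top]
        refine lintegral_congr fun u => ?_
        rw [← mul_assoc, mul_comm (ENNReal.ofReal (wt o L ⟪y, n⟫)), mul_assoc,
          ← lintegral_const_mul' _ _ ENNReal.ofReal_ne_top]
        congr 1
        exact lintegral_congr fun s => (ENNReal.ofReal_mul (wt_pos _ _ _).le).symm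
    _ = ∫⁻ u, ENNReal.ofReal (gauss r u * ‖u‖) * ∫⁻ s in Icc (0 : ℝ) 1,
          ∫⁻ y in P, ENNReal.ofReal (wt o L ⟪y, n⟫ * ‖gradInd A l (y + s • u)‖) := by
        have hm : Measurable fun p : (Pt d × Pt d) × ℝ =>
            ENNReal.ofReal (wt o L ⟪p.1.1, n⟫ * ‖gradInd A l (p.1.1 + p.2 • p.1.2)‖) :=
          (by fun_prop : Continuous fun p : (Pt d × Pt d) × ℝ =>
            wt o L ⟪p.1.1, n⟫ * ‖gradInd A l (p.1.1 + p.2 • p.1.2)‖).measurable.ennreal_ofReal
        have hk : Measurable fun p : Pt d × Pt d => ENNReal.ofReal (gauss r p.2 * ‖p.2‖) :=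
          (((continuous_gauss r).mul continuous_norm).comp continuous_snd).measurable.ennreal_ofReal
        rw [lintegral_lintegral_swap (hk.mul hm.lintegral_prod_right').aemeasurable]
        refine lintegral_congr fun u => ?_
        rw [lintegral_const_mul' _ _ ENNReal.ofReal_ne_top]
        congr 1
        exact lintegral_lintegral_swap (hm.comp ((measurable_fst.prodMk measurable_const).prodMk
          measurable_snd)).aemeasurable
    _ ≤ ∫⁻ u, ENNReal.ofReal (4 ^ d * (2 * r) * gauss (4 * r) u) * B := by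
        refine lintegral_mono fun u => ?_
        calc ENNReal.ofReal (gauss r u * ‖u‖) * ∫⁻ s in Icc (0 : ℝ) 1, ∫⁻ y in P,
              ENNReal.ofReal (wt o L ⟪y, n⟫ * ‖gradInd A l (y + s • u)‖)
            ≤ ENNReal.ofReal (gauss r u * ‖u‖) * ∫⁻ _s in Icc (0 : ℝ) 1,
                ENNReal.ofReal (Real.exp (2 * ‖u‖ ^ 2 / S ^ 2)) * B := by
              refine mul_le_mul_right (setLIntegral_mono' measurableSet_Icc fun s hs => ?_) _
              refine (shifted_grad_le hn A hS hl (hll.trans hl4) hL hL4 ho hP hPL hPc _).trans ?_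
              have hex : Real.exp (2 * ‖s • u‖ ^ 2 / S ^ 2)
                  ≤ Real.exp (2 * ‖u‖ ^ 2 / S ^ 2) := by
                have : ‖s • u‖ ≤ ‖u‖ := by
                  rw [norm_smul, Real.norm_eq_abs, abs_of_nonneg hs.1]
                  exact mul_le_of_le_one_left (norm_nonneg _) hs.2
                gcongr
              have h1 : (1 : ℝ) ≤ Real.exp (2 * ‖u‖ ^ 2 / S ^ 2) :=
                Real.one_le_exp (by positivity)
              rw [show B = ENNReal.ofReal (4 + (gam d K)⁻¹) * (E + V) from rfl, ← mul_assoc,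
                ← ENNReal.ofReal_mul (Real.exp_pos _).le, mul_add, add_comm]
              refine add_le_add (mul_le_mul_left (ENNReal.ofReal_le_ofReal ?_) _)
                (mul_le_mul_left ?_ _)
              · nlinarith [mul_le_mul_of_nonneg_left hex (inv_pos.2 hgam).le]
              · rw [← ENNReal.ofReal_ofNat 4]
                refine ENNReal.ofReal_le_ofReal ?_
                nlinarith [inv_pos.2 hgam]
          _ = ENNReal.ofReal (gauss r u * ‖u‖ * Real.exp (2 * ‖u‖ ^ 2 / S ^ 2)) * B := by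
              rw [setLIntegral_const, Real.volume_Icc, sub_zero, ENNReal.ofReal_one, mul_one,
                ← mul_assoc, ← ENNReal.ofReal_mul (mul_nonneg (gauss_nonneg hr.le u) (norm_nonneg u))]
          _ ≤ _ := by
              exact mul_le_mul_left
                (ENNReal.ofReal_le_ofReal (gauss_exp_norm_le hr (hrl.trans hl4) u)) _
    _ ≤ ENNReal.ofReal (stepC d K * l') * (E + V) := by
        have hm : Measurable fun u : Pt d => ENNReal.ofReal (4 ^ d * (2 * r) * gauss (4 * r) u) :=
          ((continuous_gauss (4 * r)).measurable.const_mul _).ennreal_ofReal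
        rw [lintegral_mul_const _ hm]
        simp_rw [ENNReal.ofReal_mul (show (0 : ℝ) ≤ 4 ^ d * (2 * r) by positivity)]
        rw [lintegral_const_mul' _ _ ENNReal.ofReal_ne_top,
          ← ofReal_integral_eq_lintegral_ofReal (integrable_gauss (by positivity))
            (Eventually.of_forall fun u => gauss_nonneg (by positivity) u),
          integral_gauss (by positivity), ENNReal.ofReal_one, mul_one,
          show B = ENNReal.ofReal (4 + (gam d K)⁻¹) * (E + V) from rfl, ← mul_assoc,
          ← ENNReal.ofReal_mul (by positivity)]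
        refine mul_le_mul_left (ENNReal.ofReal_le_ofReal ?_) _
        unfold stepC
        calc 4 ^ d * (2 * r) * (4 + (gam d K)⁻¹)
            ≤ 4 ^ d * (2 * l') * (4 + (gam d K)⁻¹) := by gcongr
          _ = _ := by ring

/-- the weighted distance from the indicator to a mollification. -/
theorem dist_le (hA : MeasurableSet A) (hn : ‖n‖ = 1) {K S o L h : ℝ} (hS : 0 < S) (J : ℕ)
    (hJ1 : lvl S (J + 1) ≤ h) (hJ : h ≤ lvl S J) (hL : 0 < L) (hL4 : L ≤ S / 4) {c : Pt d}
    (ho : |o - ⟪c, n⟫| ≤ K * S) {P : Set (Pt d)} (hP : MeasurableSet P) (hPL : LineInv n P)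
    (hPc : P ⊆ cyl n c (K * S)) :
    ∫⁻ y in P, ENNReal.ofReal
        (wt o L ⟪y, n⟫ * |A.indicator (fun _ => (1 : ℝ)) y - smoothInd A h y|)
      ≤ ENNReal.ofReal (3 * stepC d K * h) * volume (P ∩ slab n)
        + ENNReal.ofReal (2 * stepC d K * S * (2 / 3) ^ J) * wsum A n S c := by
  set C := stepC d K
  have hC : 0 < C := stepC_pos d K
  have hh : 0 < h := (lvl_pos hS _).trans_le hJ1
  set V := volume (P ∩ slab n)
  set ex : ℕ → ℝ≥0∞ := fun k =>
    ENNReal.ofReal ((3 / 4) ^ k * excess A n S c (lvl S k)) with hex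
  have hws : wsum A n S c = ∑' k, ex k := rfl
  have hterm : ∀ (k : ℕ) (s : ℝ), J ≤ k → lvl S (k + 1) ≤ s → s ≤ lvl S k →
      ∫⁻ y in P, ENNReal.ofReal
          (wt o L ⟪y, n⟫ * |smoothInd A s y - smoothInd A (lvl S (k + 1)) y|)
        ≤ ENNReal.ofReal (C * s) * V + ENNReal.ofReal (C * S * (2 / 3) ^ J) * ex (k + 1) := by
    intro k s hk h1 h2
    have := lvl_le hS k
    refine (step_le hA hn hS (lvl_pos hS _) h1 (by linarith) hL hL4 ho hP hPL hPc).trans ?_
    rw [mul_add, add_comm]
    refine add_le_add le_rfl ?_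
    have he := excess_nonneg A hn.le hS.le c (lvl S (k + 1))
    rw [hex, ← ENNReal.ofReal_mul (by positivity [(lvl_pos hS (k + 1)).trans_le h1]),
      ← ENNReal.ofReal_mul (by positivity)]
    refine ENNReal.ofReal_le_ofReal ?_
    rw [← mul_assoc]
    refine mul_le_mul_of_nonneg_right ?_ he
    rw [mul_assoc C, mul_assoc C]
    refine mul_le_mul_of_nonneg_left (h2.trans ?_) hC.le
    have e : ((1 : ℝ) / 2) ^ k = (2 / 3) ^ k * (3 / 4) ^ k := by rw [← mul_pow]; norm_num
    have e2 : ((2 : ℝ) / 3) ^ k ≤ (2 / 3) ^ J :=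
      pow_le_pow_of_le_one (by norm_num) (by norm_num) hk
    rw [lvl, e, pow_succ]
    nlinarith [mul_le_mul_of_nonneg_left e2 (mul_nonneg hS.le (pow_nonneg
      (show (0 : ℝ) ≤ 3 / 4 by norm_num) k)), mul_nonneg hS.le (mul_nonneg (pow_nonneg
      (show (0 : ℝ) ≤ 2 / 3 by norm_num) J) (pow_nonneg (show (0 : ℝ) ≤ 3 / 4 by norm_num) k))]
  have hwc : Continuous fun y : Pt d => wt o L ⟪y, n⟫ :=
    (continuous_wt o L).comp (by fun_prop)
  set T : ℕ → Pt d → ℝ≥0∞ := fun i y => ENNReal.ofReal (wt o L ⟪y, n⟫ *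
    |smoothInd A (lvl S (i + (J + 1))) y - smoothInd A (lvl S (i + (J + 1) + 1)) y|)
  have hTm : ∀ i, Measurable (T i) := fun i =>
    (hwc.mul ((continuous_smoothInd A (lvl_pos hS _)).sub
      (continuous_smoothInd A (lvl_pos hS _))).abs).measurable.ennreal_ofReal
  have hae : ∀ᵐ y ∂volume.restrict P,
      ENNReal.ofReal (wt o L ⟪y, n⟫ * |A.indicator (fun _ => (1 : ℝ)) y - smoothInd A h y|)
        ≤ ENNReal.ofReal (wt o L ⟪y, n⟫ * |smoothInd A h y - smoothInd A (lvl S (J + 1)) y|)
          + ∑' i, T i y := by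
    refine ae_restrict_of_ae ?_
    filter_upwards [smoothLimit d A hA (S / 8) (by positivity)] with y hy
    set w := wt o L ⟪y, n⟫
    have hw0 : 0 ≤ w := (wt_pos _ _ _).le
    have hlim : Tendsto (fun N => smoothInd A (lvl S (N + (J + 1))) y) atTop
        (𝓝 (A.indicator (fun _ => (1 : ℝ)) y)) := hy.comp (tendsto_add_atTop_nat (J + 1))
    have hcont : Continuous fun r : ℝ => ENNReal.ofReal (w * |r - smoothInd A h y|) :=
      ENNReal.continuous_ofReal.comp (by fun_prop)
    refine le_of_tendsto' ((hcont.tendsto _).comp hlim) fun N => ?_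
    simp only [Function.comp_apply]
    have h2 := dist_le_range_sum_dist (fun i => smoothInd A (lvl S (i + (J + 1))) y) N
    simp only [Real.dist_eq, zero_add] at h2
    have h3 : w * |smoothInd A (lvl S (N + (J + 1))) y - smoothInd A h y| ≤
        w * |smoothInd A h y - smoothInd A (lvl S (J + 1)) y| + ∑ i ∈ Finset.range N,
          w * |smoothInd A (lvl S (i + (J + 1))) y - smoothInd A (lvl S (i + (J + 1) + 1)) y| := by
      rw [← Finset.mul_sum, ← mul_add, abs_sub_comm]
      refine mul_le_mul_of_nonneg_left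
        ((abs_sub_le _ (smoothInd A (lvl S (J + 1)) y) _).trans ?_) hw0
      refine add_le_add le_rfl (h2.trans (le_of_eq (Finset.sum_congr rfl fun i _ => ?_)))
      rw [add_right_comm i 1]
    refine (ENNReal.ofReal_le_ofReal h3).trans ?_
    rw [ENNReal.ofReal_add (mul_nonneg hw0 (abs_nonneg _))
      (Finset.sum_nonneg fun i _ => mul_nonneg hw0 (abs_nonneg _)),
      ENNReal.ofReal_sum_of_nonneg fun i _ => mul_nonneg hw0 (abs_nonneg _)]
    exact add_le_add le_rfl (ENNReal.sum_le_tsum _)
  have hm0 : Measurable fun y : Pt d => ENNReal.ofReal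
      (wt o L ⟪y, n⟫ * |smoothInd A h y - smoothInd A (lvl S (J + 1)) y|) :=
    (hwc.mul ((continuous_smoothInd A hh).sub
      (continuous_smoothInd A (lvl_pos hS _))).abs).measurable.ennreal_ofReal
  refine (lintegral_mono_ae hae).trans ?_
  rw [lintegral_add_left hm0, lintegral_tsum fun i => (hTm i).aemeasurable]
  calc _ ≤ (ENNReal.ofReal (C * h) * V + ENNReal.ofReal (C * S * (2 / 3) ^ J) * ex (J + 1))
        + ∑' i, (ENNReal.ofReal (C * lvl S (i + (J + 1))) * V
          + ENNReal.ofReal (C * S * (2 / 3) ^ J) * ex (i + (J + 1) + 1)) :=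
        add_le_add (hterm J h le_rfl hJ1 hJ) (ENNReal.tsum_le_tsum fun i =>
          hterm (i + (J + 1)) _ (by omega)
            (by rw [lvl_succ]; linarith [lvl_pos hS (i + (J + 1))]) le_rfl)
    _ = (ENNReal.ofReal (C * h) + ∑' i, ENNReal.ofReal (C * lvl S (i + (J + 1)))) * V
        + ENNReal.ofReal (C * S * (2 / 3) ^ J) * (ex (J + 1) + ∑' i, ex (i + (J + 1) + 1)) := by
        rw [ENNReal.tsum_add, ENNReal.tsum_mul_right, ENNReal.tsum_mul_left]; ring
    _ ≤ ENNReal.ofReal (3 * C * h) * V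
        + ENNReal.ofReal (C * S * (2 / 3) ^ J) * (2 * wsum A n S c) := by
        refine add_le_add (mul_le_mul_left ?_ _) (mul_le_mul_right ?_ _)
        · have e : ∀ i, C * lvl S (i + (J + 1)) = C * lvl S (J + 1) * (1 / 2) ^ i := fun i => by
            rw [lvl, lvl, pow_add]; ring
          simp only [e]
          rw [← ENNReal.ofReal_tsum_of_nonneg
            (fun i => by positivity [lvl_pos hS (J + 1)])
            (summable_geometric_two.mul_left _), tsum_mul_left, tsum_geometric_two,
            ← ENNReal.ofReal_add (by positivity) (by positivity [lvl_pos hS (J + 1)])]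
          exact ENNReal.ofReal_le_ofReal (by nlinarith)
        · rw [two_mul, hws]
          exact add_le_add (ENNReal.le_tsum _)
            (ENNReal.tsum_comp_le_tsum_of_injective
              (fun a b hab => by simpa using hab) ex)
    _ = _ := by
        rw [show (2 : ℝ) * C * S * (2 / 3) ^ J = C * S * (2 / 3) ^ J * 2 by ring,
          ENNReal.ofReal_mul (q := 2) (by positivity), ENNReal.ofReal_ofNat]
        ring

theorem absorb {V X : ℝ≥0∞} {a b : ℝ} (hb : 0 ≤ b) (hab : 2 * b ≤ a) (hV : V ≠ ∞)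
    (h : ENNReal.ofReal a * V ≤ ENNReal.ofReal b * V + X) : ENNReal.ofReal (a / 2) * V ≤ X := by
  have h1 : ENNReal.ofReal (a / 2) * V + ENNReal.ofReal (a / 2) * V
      ≤ ENNReal.ofReal (a / 2) * V + X := by
    rw [← add_mul, ← ENNReal.ofReal_add (by linarith) (by linarith), add_halves]
    refine h.trans (add_le_add (mul_le_mul_left (ENNReal.ofReal_le_ofReal (by linarith)) _) le_rfl)
  exact ENNReal.le_of_add_le_add_left (ENNReal.mul_ne_top ENNReal.ofReal_ne_top hV) h1

theorem area_ne_top (hn : ‖n‖ = 1) {R : ℝ} (hR : 0 < R) {c : Pt d} {Q : Set (Pt d)}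
    (hQ : Q ⊆ cyl n c R) : volume (Q ∩ slab n) ≠ ∞ :=
  ne_top_of_le_ne_top ENNReal.ofReal_ne_top
    ((measure_mono (inter_subset_inter_left _ hQ)).trans
      (area_cyl_le lineFubini hn (one_le_dim hn) c hR))

/-- a point of high weight where the mollification agrees with the set. -/
theorem exists_good {s : Set ℝ} (hs : MeasurableSet s) {o L S g e : ℝ} (hL : 0 < L)
    (hLS : 4 * L ≤ S) (he : 0 ≤ e) (hg : 0 < g) (heg : e ^ 2 * S ≤ g / 2) {f v : ℝ → ℝ}
    (hf : ∀ t, f t = 0 ∨ f t = 1) (hv : Continuous v)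
    (hbig : ENNReal.ofReal g < ∫⁻ t in s, ENNReal.ofReal (wt o L t * f t))
    (hE : ∫⁻ t, ENNReal.ofReal (wt o L t * |f t - v t|) < ENNReal.ofReal (g / 10)) :
    ∃ t ∈ s, f t = 1 ∧ e ≤ wt o (2 * L) t ∧ 7 / 10 ≤ v t := by
  by_contra hcon
  push Not at hcon
  have hm : Measurable fun t => ENNReal.ofReal (e ^ 2 * wt o (√2 * L) t) :=
    (continuous_const.mul (continuous_wt _ _)).measurable.ennreal_ofReal
  have h1 : ∫⁻ t in s, ENNReal.ofReal (wt o L t * f t) ≤
      ∫⁻ t, (ENNReal.ofReal (e ^ 2 * wt o (√2 * L) t)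
        + ENNReal.ofReal 4 * ENNReal.ofReal (wt o L t * |f t - v t|)) := by
    refine le_trans (setLIntegral_mono' hs fun t ht => ?_) (setLIntegral_le_lintegral _ _)
    rcases hf t with h0 | h0
    · simp [h0]
    rw [h0, mul_one]
    by_cases hw : e ≤ wt o (2 * L) t
    · have := hcon t ht h0 hw
      refine le_trans ?_ (le_add_self)
      rw [← ENNReal.ofReal_mul (by norm_num)]
      refine ENNReal.ofReal_le_ofReal ?_
      rw [abs_of_nonneg (by linarith)]
      nlinarith [wt_pos o L t]
    · push Not at hw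
      refine le_trans (ENNReal.ofReal_le_ofReal ?_) le_self_add
      rw [wt_sq o L t, sq (wt o (√2 * L) t)]
      refine mul_le_mul_of_nonneg_right ?_ (wt_pos _ _ _).le
      rw [wt_four]
      exact pow_le_pow_left₀ (wt_pos _ _ _).le hw.le 2
  have h2 : ∫⁻ t, (ENNReal.ofReal (e ^ 2 * wt o (√2 * L) t)
        + ENNReal.ofReal 4 * ENNReal.ofReal (wt o L t * |f t - v t|))
      ≤ ENNReal.ofReal (g / 2) + ENNReal.ofReal 4 * ENNReal.ofReal (g / 10) := by
    rw [lintegral_add_left hm, lintegral_const_mul' _ _ ENNReal.ofReal_ne_top]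
    refine add_le_add ?_ (mul_le_mul_right hE.le _)
    simp_rw [ENNReal.ofReal_mul (sq_nonneg e)]
    rw [lintegral_const_mul' _ _ ENNReal.ofReal_ne_top]
    refine (mul_le_mul_right (lintegral_wt2_le hL o) _).trans ?_
    rw [← ENNReal.ofReal_mul (sq_nonneg e)]
    exact ENNReal.ofReal_le_ofReal
      ((mul_le_mul_of_nonneg_left hLS (sq_nonneg e)).trans heg)
  have h3 := hbig.trans_le (h1.trans h2)
  rw [← ENNReal.ofReal_mul (by norm_num), ← ENNReal.ofReal_add (by linarith) (by linarith),
    ENNReal.ofReal_lt_ofReal_iff (by linarith)] at h3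
  linarith

/-- a column with material on the wrong sides pays flux or disagreement. -/
theorem column_alt (hn : ‖n‖ = 1) {A : Set (Pt d)} {K S o L t₀ h : ℝ} {c x : Pt d} (hS : 0 < S)
    (hh : 0 < h) (hh4 : h ≤ S / 4) (hL : 0 < L) (hL4 : L ≤ S / 4)
    (ho : |o - ⟪c, n⟫| ≤ K * S) (hx : x ∈ cyl n c (K * S)) (j : ℕ)
    (h1 : ENNReal.ofReal (S * (1 / 2) ^ (j + 1)) < ∫⁻ t in Iio t₀,
      ENNReal.ofReal (wt o L t * A.indicator (fun _ => (1 : ℝ)) (linePt n x t)))
    (h2 : ENNReal.ofReal (S * (1 / 2) ^ (j + 1)) < ∫⁻ t in Ioi t₀,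
      ENNReal.ofReal (wt o L t * Aᶜ.indicator (fun _ => (1 : ℝ)) (linePt n x t))) :
    ENNReal.ofReal (S * (1 / 2) ^ (j + 1))
      ≤ ENNReal.ofReal (5 / (2 * gam d K) * S * (3 / 4) ^ j) *
          (∫⁻ t, dens A n S c h (linePt n x t))
        + ENNReal.ofReal 10 * ∫⁻ t, ENNReal.ofReal (wt o L t *
            |A.indicator (fun _ => (1 : ℝ)) (linePt n x t) - smoothInd A h (linePt n x t)|) := by
  set g := S * (1 / 2 : ℝ) ^ (j + 1) with hgdef
  set E := ∫⁻ t, ENNReal.ofReal (wt o L t *
    |A.indicator (fun _ => (1 : ℝ)) (linePt n x t) - smoothInd A h (linePt n x t)|) with hEdef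
  have hg : 0 < g := by positivity
  by_cases hE : ENNReal.ofReal (g / 10) ≤ E
  · refine le_trans ?_ le_add_self
    refine le_trans (le_of_eq ?_) (mul_le_mul_right hE _)
    rw [← ENNReal.ofReal_mul (by norm_num)]; congr 1; ring
  push Not at hE
  set e : ℝ := (2 / 3) ^ j / 2 with hedef
  have he : 0 < e := by positivity
  have heg : e ^ 2 * S ≤ g / 2 := by
    rw [hedef, hgdef, pow_succ (1 / 2 : ℝ), div_pow, ← pow_mul, mul_comm j 2, pow_mul]
    have : ((2 : ℝ) / 3) ^ 2 = 4 / 9 := by norm_num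
    rw [this]
    have : ((4 : ℝ) / 9) ^ j ≤ (1 / 2) ^ j := pow_le_pow_left₀ (by norm_num) (by norm_num) j
    nlinarith
  have hgam := gam_pos d K
  have hlc := continuous_linePt_height n x
  have hvc : Continuous fun t => smoothInd A h (linePt n x t) :=
    (continuous_smoothInd A hh).comp hlc
  have hind : ∀ t, A.indicator (fun _ => (1 : ℝ)) (linePt n x t) = 0 ∨
      A.indicator (fun _ => (1 : ℝ)) (linePt n x t) = 1 := fun t => indicator_eq_zero_or_self _ _ _
  have hindc : ∀ t, Aᶜ.indicator (fun _ => (1 : ℝ)) (linePt n x t)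
      = 1 - A.indicator (fun _ => (1 : ℝ)) (linePt n x t) := fun t => by
    by_cases ht : linePt n x t ∈ A <;> simp [ht]
  obtain ⟨t1, ht1, -, hw1, hv1⟩ := exists_good measurableSet_Iio hL (by linarith) he.le hg heg
    (f := fun t => A.indicator (fun _ => (1 : ℝ)) (linePt n x t)) hind hvc h1 hE
  obtain ⟨t2, ht2, -, hw2, hv2⟩ := exists_good measurableSet_Ioi hL (by linarith) he.le hg heg
    (f := fun t => Aᶜ.indicator (fun _ => (1 : ℝ)) (linePt n x t))
    (fun t => indicator_eq_zero_or_self _ _ _)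
    (v := fun t => 1 - smoothInd A h (linePt n x t)) (continuous_const.sub hvc) h2
    (by
      refine lt_of_eq_of_lt ?_ hE
      refine lintegral_congr fun t => ?_
      rw [hindc, sub_sub_sub_cancel_left, abs_sub_comm])
  have h12 : t1 ≤ t2 := (le_of_lt ht1).trans (le_of_lt ht2)
  have hseg : ∀ t ∈ Icc t1 t2,
      gam d K * e ≤ S ^ d * gauss (√(S ^ 2 - h ^ 2)) (c - linePt n x t) := fun t ht => by
    have hmem : linePt n x t ∈ cyl n c (K * S) :=
      (lineInv_mem (lineInv_cyl hn c (K * S)) x t).2 hx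
    have hwl := weight_le hn hS hh hh4 hL hL4 ho hmem 0
    simp only [inner_linePt hn, norm_zero, add_zero, ne_eq, OfNat.ofNat_ne_zero, not_false_eq_true,
      zero_pow, mul_zero, zero_div, neg_zero, Real.exp_zero, mul_one] at hwl
    refine le_trans (mul_le_mul_of_nonneg_left ?_ hgam.le) hwl
    rcases le_total t o with hto | hto
    · refine hw1.trans (Real.exp_le_exp.2 (div_le_div_of_nonneg_right ?_ (by positivity)))
      nlinarith [ht.1]
    · refine hw2.trans (Real.exp_le_exp.2 (div_le_div_of_nonneg_right ?_ (by positivity)))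
      nlinarith [ht.2]
  refine le_trans ?_ le_self_add
  have hflux := flux_le hn A hh x h12
  calc ENNReal.ofReal g
      = ENNReal.ofReal (5 / (2 * gam d K) * S * (3 / 4) ^ j) *
          (ENNReal.ofReal (gam d K * e) * ENNReal.ofReal (2 / 5)) := by
        rw [← ENNReal.ofReal_mul (by positivity), ← ENNReal.ofReal_mul (by positivity)]
        congr 1
        rw [hgdef, hedef, pow_succ (1 / 2 : ℝ),
          show ((1 : ℝ) / 2) ^ j = (2 / 3) ^ j * (3 / 4) ^ j by rw [← mul_pow]; norm_num]
        field_simp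
    _ ≤ ENNReal.ofReal (5 / (2 * gam d K) * S * (3 / 4) ^ j) *
          (ENNReal.ofReal (gam d K * e) *
            ∫⁻ t in Icc t1 t2, ENNReal.ofReal (defect A n h (linePt n x t))) := by
        gcongr
        exact (ENNReal.ofReal_le_ofReal (by linarith)).trans hflux
    _ ≤ _ := by
        gcongr
        rw [← lintegral_const_mul' _ _ ENNReal.ofReal_ne_top]
        refine le_trans (setLIntegral_mono' measurableSet_Icc fun t ht => ?_)
          (setLIntegral_le_lintegral _ _)
        rw [← ENNReal.ofReal_mul (by positivity), dens, ← mul_assoc]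
        exact ENNReal.ofReal_le_ofReal
          (mul_le_mul_of_nonneg_right (hseg t ht) (defect_nonneg A hn h _))

/-- column minimum of the interface. -/
noncomputable def colMin (A : Set (Pt d)) (n : Pt d) (o L t₀ : ℝ) (x : Pt d) : ℝ≥0∞ :=
  min (∫⁻ t in Iio t₀, ENNReal.ofReal (wt o L t * A.indicator (fun _ => (1 : ℝ)) (linePt n x t)))
    (∫⁻ t in Ioi t₀, ENNReal.ofReal (wt o L t * Aᶜ.indicator (fun _ => (1 : ℝ)) (linePt n x t)))

theorem measurable_colMin (hA : MeasurableSet A) (n : Pt d) (o L t₀ : ℝ) :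
    Measurable (colMin A n o L t₀) := by
  have hw : Measurable fun p : ℝ × Pt d => wt o L p.1 :=
    ((continuous_wt o L).comp continuous_fst).measurable
  exact (measurable_line_lintegral
      (F := fun t y => ENNReal.ofReal (wt o L t * A.indicator (fun _ => (1 : ℝ)) y))
      (hw.mul ((measurable_const.indicator hA).comp measurable_snd)).ennreal_ofReal _).min
    (measurable_line_lintegral
      (F := fun t y => ENNReal.ofReal (wt o L t * Aᶜ.indicator (fun _ => (1 : ℝ)) y))
      (hw.mul ((measurable_const.indicator hA.compl).comp measurable_snd)).ennreal_ofReal _)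

/-- disagreement between the set and the mollification along a line. -/
noncomputable def colErr (A : Set (Pt d)) (n : Pt d) (o L h : ℝ) (x : Pt d) : ℝ≥0∞ :=
  ∫⁻ t, ENNReal.ofReal (wt o L t *
    |A.indicator (fun _ => (1 : ℝ)) (linePt n x t) - smoothInd A h (linePt n x t)|)

theorem measurable_colErr (hA : MeasurableSet A) (n : Pt d) (o L : ℝ) {h : ℝ} (hh : 0 < h) :
    Measurable (colErr A n o L h) :=
  measurable_line_lintegral
    (F := fun t y => ENNReal.ofReal (wt o L t *
      |A.indicator (fun _ => (1 : ℝ)) y - smoothInd A h y|))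
    (((continuous_wt o L).measurable.comp measurable_fst).mul
      ((((measurable_const.indicator hA).sub (continuous_smoothInd A hh).measurable).abs).comp
        measurable_snd)).ennreal_ofReal _

theorem colErr_le (hA : MeasurableSet A) (hn : ‖n‖ = 1) {K S o L h : ℝ} (hS : 0 < S) (J : ℕ)
    (hJ1 : lvl S (J + 1) ≤ h) (hJ : h ≤ lvl S J) (hL : 0 < L) (hL4 : L ≤ S / 4) {c : Pt d}
    (ho : |o - ⟪c, n⟫| ≤ K * S) {P : Set (Pt d)} (hP : MeasurableSet P) (hPL : LineInv n P)
    (hPc : P ⊆ cyl n c (K * S)) :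
    ∫⁻ x in P ∩ slab n, colErr A n o L h x
      ≤ ENNReal.ofReal (3 * stepC d K * h) * volume (P ∩ slab n)
        + ENNReal.ofReal (2 * stepC d K * S * (2 / 3) ^ J) * wsum A n S c := by
  have hh : 0 < h := (lvl_pos hS _).trans_le hJ1
  refine le_trans (le_of_eq ?_) (dist_le hA hn hS J hJ1 hJ hL hL4 ho hP hPL hPc)
  rw [setLIntegral_lines hn hP hPL (F := fun y => ENNReal.ofReal
    (wt o L ⟪y, n⟫ * |A.indicator (fun _ => (1 : ℝ)) y - smoothInd A h y|))]
  · refine lintegral_congr fun x => ?_
    simp only [colErr, inner_linePt hn]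
  · exact (((continuous_wt o L).comp (by fun_prop : Continuous fun y : Pt d => ⟪y, n⟫)).measurable.mul
      ((measurable_const.indicator hA).sub (continuous_smoothInd A hh).measurable).abs).ennreal_ofReal

end TubeAux

namespace TubeAux

theorem setLIntegral_tube {n : Pt d} (hn : ‖n‖ = 1) {P : Set (Pt d)} (hP : MeasurableSet P)
    (hL : LineInv n P) (a b : ℝ) {F : Pt d → ℝ≥0∞} (hF : Measurable F) :
    ∫⁻ y in tube n P a b, F y = ∫⁻ x in P ∩ slab n, ∫⁻ t in Icc a b, F (linePt n x t) := by
  have hH : MeasurableSet {y : Pt d | ⟪y, n⟫ ∈ Icc a b} :=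
    (by fun_prop : Continuous fun y : Pt d => ⟪y, n⟫).measurable measurableSet_Icc
  rw [show tube n P a b = {y : Pt d | ⟪y, n⟫ ∈ Icc a b} ∩ P from Set.inter_comm _ _,
    ← setLIntegral_indicator hH, setLIntegral_lines hn hP hL (hF.indicator hH)]
  refine lintegral_congr fun x => ?_
  rw [← lintegral_indicator measurableSet_Icc]
  refine lintegral_congr fun t => ?_
  by_cases ht : t ∈ Icc a b
  · rw [indicator_of_mem ht, indicator_of_mem]
    show ⟪linePt n x t, n⟫ ∈ Icc a b
    rwa [inner_linePt hn]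
  · rw [indicator_of_notMem ht, indicator_of_notMem]
    show ¬ ⟪linePt n x t, n⟫ ∈ Icc a b
    rwa [inner_linePt hn]

theorem volume_inter_tube {n : Pt d} (hn : ‖n‖ = 1) {A P : Set (Pt d)} (hA : MeasurableSet A)
    (hP : MeasurableSet P) (hL : LineInv n P) (a b : ℝ) :
    volume (A ∩ tube n P a b) = ∫⁻ x in P ∩ slab n, ∫⁻ t in Icc a b,
      ENNReal.ofReal (A.indicator (fun _ => (1 : ℝ)) (linePt n x t)) := by
  rw [← setLIntegral_tube hn hP hL a b
    (measurable_const.indicator hA).ennreal_ofReal]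
  have e : (fun y => ENNReal.ofReal (A.indicator (fun _ => (1 : ℝ)) y))
      = A.indicator fun _ => (1 : ℝ≥0∞) := by
    funext y
    by_cases hy : y ∈ A <;> simp [hy]
  rw [e, setLIntegral_indicator hA, setLIntegral_one]

theorem exists_level {S h : ℝ} (hS : 0 < S) (hh : 0 < h) (h8 : h ≤ S / 8) :
    ∃ J, lvl S (J + 1) ≤ h ∧ h ≤ lvl S J := by
  obtain ⟨J, hJ1, hJ2⟩ := exists_nat_pow_near_of_lt_one (x := h / (S / 8)) (y := (1 / 2 : ℝ))
    (by positivity) ((div_le_one (by positivity)).2 h8) (by norm_num) (by norm_num)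
  rw [lt_div_iff₀ (by positivity)] at hJ1
  rw [div_le_iff₀ (by positivity)] at hJ2
  exact ⟨J, hJ1.le, hJ2⟩

end TubeAux

open TubeAux in
/-- drops of the mollification along lines cost defect. -/
theorem crossArea : CrossArea := by
  intro d A _ n hn l a b θ P hl hP hPL hdrop
  rw [setLIntegral_tube hn hP hPL a b (continuous_defect A n hl).measurable.ennreal_ofReal,
    ← setLIntegral_const]
  refine setLIntegral_mono' (hP.inter (measurableSet_slab n)) fun x hx => ?_
  obtain ⟨t, t', h1, h2, h3, h4⟩ := hdrop x hx.1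
  exact ((ENNReal.ofReal_le_ofReal h4).trans (flux_le hn A hl x h2)).trans
    (lintegral_mono_set (Icc_subset_Icc h1 h3))

open TubeAux in
/-- one step of the mollification moves little weighted volume. -/
theorem stepVol : StepVol := fun d K _ =>
  ⟨stepC d K, stepC_pos d K, fun A hA n hn S o L c l l' P hS hl hll hl4 hL hL4 ho hP hPL hPc =>
    step_le hA hn hS hl hll hl4 hL hL4 ho hP hPL hPc⟩

open TubeAux in
/-- in a column the set and its complement are rarely both on the wrong sides. -/
theorem columnMin : ColumnMin := by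
  intro d K hK
  have hgam := gam_pos d K
  have hC := stepC_pos d K
  set C := stepC d K
  obtain ⟨p, hp⟩ := exists_pow_lt_of_lt_one (show (0 : ℝ) < 1 / (15 * C) by positivity)
    (show (1 / 2 : ℝ) < 1 by norm_num)
  rw [lt_div_iff₀ (by positivity)] at hp
  set C1 := 5 / (2 * gam d K) with hC1
  refine ⟨4 * (C1 * (4 / 3) ^ p + 60 * C), by positivity,
    fun A hA n hn S o L t₀ c P hS hL hL4 ho hP hPL hPc => ?_⟩
  change ∫⁻ x in P ∩ slab n, colMin A n o L t₀ x ≤ _
  have hmm := measurable_colMin hA n o L t₀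
  set g : ℕ → ℝ := fun j => S * (1 / 2) ^ (j + 1) with hgdef
  have hg : ∀ j, 0 < g j := fun j => by positivity
  set Aj : ℕ → Set (Pt d) := fun j =>
    P ∩ colMin A n o L t₀ ⁻¹' Ioc (ENNReal.ofReal (g j)) (ENNReal.ofReal (2 * g j)) with hAj
  have hAjm : ∀ j, MeasurableSet (Aj j) := fun j => hP.inter (hmm measurableSet_Ioc)
  have hAjL : ∀ j, LineInv n (Aj j) := fun j => lineInv_inter_pre hPL fun x t => by
    simp only [mem_preimage, colMin, linePt_add_smul hn]
  have hAjc : ∀ j, Aj j ⊆ cyl n c (K * S) := fun j => inter_subset_left.trans hPc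
  have hAjV : ∀ j, volume (Aj j ∩ slab n) ≠ ∞ := fun j =>
    area_ne_top hn (by positivity : (0 : ℝ) < K * S) (hAjc j)
  set ex : ℕ → ℝ≥0∞ := fun k => ENNReal.ofReal ((3 / 4) ^ k * excess A n S c (lvl S k)) with hex
  -- one layer
  have hlayer : ∀ j, ENNReal.ofReal (g j / 2) * volume (Aj j ∩ slab n)
      ≤ ENNReal.ofReal (C1 * S * (4 / 3) ^ p) * ex (j + p)
        + ENNReal.ofReal (20 * C * S * (2 / 3) ^ j) * wsum A n S c := fun j => by
    set h := lvl S (j + p) with hh
    have hh0 : 0 < h := lvl_pos hS _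
    have hh4 : h ≤ S / 4 := (lvl_le hS _).trans (by linarith)
    have hpt : ∀ x ∈ Aj j ∩ slab n, ENNReal.ofReal (g j) ≤
        ENNReal.ofReal (C1 * S * (3 / 4) ^ j) * (∫⁻ t, dens A n S c h (linePt n x t))
          + ENNReal.ofReal 10 * colErr A n o L h x := by
      rintro x ⟨⟨hxP, hxm⟩, -⟩
      exact column_alt hn hS hh0 hh4 hL hL4 ho (hPc hxP) j
        (hxm.1.trans_le (min_le_left _ _)) (hxm.1.trans_le (min_le_right _ _))
    have hint := setLIntegral_mono' (μ := volume) ((hAjm j).inter (measurableSet_slab n)) hpt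
    rw [setLIntegral_const, lintegral_add_right _ ((measurable_colErr hA n o L hh0).const_mul _),
      lintegral_const_mul' _ _ ENNReal.ofReal_ne_top,
      lintegral_const_mul' _ _ ENNReal.ofReal_ne_top] at hint
    refine absorb (b := 30 * C * h) (by positivity) ?_ (hAjV j) (hint.trans ?_)
    · have e : 30 * C * h = g j * ((15 / 2) * C * (1 / 2) ^ p) := by
        simp only [hh, lvl, hgdef, pow_add, pow_succ]; ring
      rw [e]
      have := mul_le_mul_of_nonneg_left hp.le (hg j).le
      nlinarith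
    refine (add_le_add (mul_le_mul_right (lintegral_dens_lines_le hn A c hh0 (by linarith) _) _)
      (mul_le_mul_right (colErr_le hA hn hS (j + p)
        (by rw [lvl_succ]; linarith) le_rfl hL hL4 ho (hAjm j) (hAjL j) (hAjc j)) _)).trans ?_
    rw [mul_add (ENNReal.ofReal 10), ← mul_assoc (ENNReal.ofReal 10),
      ← mul_assoc (ENNReal.ofReal 10), ← ENNReal.ofReal_mul (by norm_num : (0 : ℝ) ≤ 10),
      ← ENNReal.ofReal_mul (by norm_num : (0 : ℝ) ≤ 10), add_left_comm,
      show 10 * (3 * C * h) = 30 * C * h by ring]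
    refine add_le_add le_rfl (add_le_add (le_of_eq ?_) (mul_le_mul_left
      (ENNReal.ofReal_le_ofReal ?_) _))
    · rw [hex, ← ENNReal.ofReal_mul (by positivity), ← ENNReal.ofReal_mul (by positivity)]
      congr 1
      rw [pow_add (3 / 4 : ℝ)]
      have : ((4 : ℝ) / 3) ^ p * (3 / 4) ^ p = 1 := by rw [← mul_pow]; norm_num
      calc C1 * S * (3 / 4) ^ j * excess A n S c h
          = C1 * S * ((4 / 3) ^ p * (3 / 4) ^ p) * (3 / 4) ^ j * excess A n S c h := by
            rw [this, mul_one]
        _ = _ := by ring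
    · have : ((2 : ℝ) / 3) ^ (j + p) ≤ (2 / 3) ^ j :=
        pow_le_pow_of_le_one (by norm_num) (by norm_num) (by omega)
      nlinarith [mul_le_mul_of_nonneg_left this (mul_nonneg hC.le hS.le)]
  -- all layers
  have hcover : ∀ x ∈ P ∩ slab n, colMin A n o L t₀ x
      ≤ ∑' j, (Aj j).indicator (fun _ => ENNReal.ofReal (2 * g j)) x := by
    intro x hx
    rcases eq_or_ne (colMin A n o L t₀ x) 0 with h0 | h0
    · rw [h0]; exact zero_le
    have hS' : colMin A n o L t₀ x ≤ ENNReal.ofReal S := by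
      refine (min_le_left _ _).trans (le_trans (lintegral_mono fun t => ENNReal.ofReal_le_ofReal
        ?_) ((setLIntegral_le_lintegral _ _).trans ((lintegral_wt_le hL o).trans
          (ENNReal.ofReal_le_ofReal (by linarith)))))
      exact mul_le_of_le_one_right (wt_pos _ _ _).le
        (indicator_le_self' (fun _ _ => zero_le_one) _)
    have hfin : colMin A n o L t₀ x ≠ ∞ := ne_top_of_le_ne_top ENNReal.ofReal_ne_top hS'
    set m := (colMin A n o L t₀ x).toReal with hm
    have hm0 : 0 < m := ENNReal.toReal_pos h0 hfin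
    have hmS : m ≤ S := ENNReal.toReal_le_of_le_ofReal hS.le hS'
    obtain ⟨j, hj1, hj2⟩ := exists_nat_pow_near_of_lt_one (x := m / S) (y := (1 / 2 : ℝ))
      (by positivity) ((div_le_one hS).2 hmS) (by norm_num) (by norm_num)
    rw [lt_div_iff₀ hS] at hj1
    rw [div_le_iff₀ hS] at hj2
    have hxj : x ∈ Aj j := by
      refine ⟨hx.1, ?_, ?_⟩
      · rw [← ENNReal.ofReal_toReal hfin, ← hm, ENNReal.ofReal_lt_ofReal_iff hm0]
        simp only [hgdef]; linarith
      · rw [← ENNReal.ofReal_toReal hfin, ← hm]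
        refine ENNReal.ofReal_le_ofReal ?_
        simp only [hgdef, pow_succ]; linarith
    refine le_trans ?_ (ENNReal.le_tsum j)
    rw [indicator_of_mem hxj]
    exact hxj.2.2
  refine (setLIntegral_mono' (hP.inter (measurableSet_slab n)) hcover).trans ?_
  rw [lintegral_tsum fun j => (measurable_const.indicator (hAjm j)).aemeasurable]
  calc ∑' j, ∫⁻ x in P ∩ slab n, (Aj j).indicator (fun _ => ENNReal.ofReal (2 * g j)) x
      ≤ ∑' j, ENNReal.ofReal 4 * (ENNReal.ofReal (C1 * S * (4 / 3) ^ p) * ex (j + p)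
        + ENNReal.ofReal (20 * C * S * (2 / 3) ^ j) * wsum A n S c) := by
        refine ENNReal.tsum_le_tsum fun j => le_trans ?_ (mul_le_mul_right (hlayer j) _)
        rw [setLIntegral_indicator (hAjm j), setLIntegral_const, ← mul_assoc (ENNReal.ofReal 4),
          ← ENNReal.ofReal_mul (by norm_num : (0 : ℝ) ≤ 4), show 4 * (g j / 2) = 2 * g j by ring]
        refine mul_le_mul_right (measure_mono ?_) _
        exact fun y hy => ⟨hy.1, hy.2.2⟩
    _ = ENNReal.ofReal 4 * (ENNReal.ofReal (C1 * S * (4 / 3) ^ p) * (∑' j, ex (j + p))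
        + ENNReal.ofReal (60 * C * S) * wsum A n S c) := by
        rw [ENNReal.tsum_mul_left, ENNReal.tsum_add, ENNReal.tsum_mul_left, ENNReal.tsum_mul_right,
          ← ENNReal.ofReal_tsum_of_nonneg (fun j => by positivity)
            ((summable_geometric_of_lt_one (by norm_num) (by norm_num)).mul_left _),
          tsum_mul_left, tsum_geometric_of_lt_one (by norm_num) (by norm_num),
          show 20 * C * S * (1 - (2 / 3 : ℝ))⁻¹ = 60 * C * S by norm_num; ring]
    _ ≤ ENNReal.ofReal 4 * (ENNReal.ofReal (C1 * S * (4 / 3) ^ p) * wsum A n S c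
        + ENNReal.ofReal (60 * C * S) * wsum A n S c) := by
        gcongr
        exact ENNReal.tsum_comp_le_tsum_of_injective (fun a b hab => by simpa using hab) ex
    _ = _ := by
        rw [← add_mul, ← ENNReal.ofReal_add (by positivity) (by positivity), ← mul_assoc,
          ← ENNReal.ofReal_mul (by norm_num : (0 : ℝ) ≤ 4)]
        congr 2; ring

open TubeAux in
/-- few points of the set lie below a slab of small mollification. -/
theorem vertLemma : VertLemma := by
  intro d K lam hK hlam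
  obtain ⟨Cm, hCm, hcol⟩ := columnMin d K hK
  have hK0 : 0 < K := lt_of_lt_of_le one_pos hK
  have hC := stepC_pos d K
  set C := stepC d K
  set w0 := Real.exp (-(8 * K ^ 2)) with hw0def
  have hw0 : 0 < w0 := Real.exp_pos _
  set κ := w0 * min 1 (lam / (4 * K)) with hκdef
  have hκ : 0 < κ := by positivity
  refine ⟨Cm / κ + 20 * K * C / (w0 * lam), min (1 / 8) (w0 * lam / (15 * C)), by positivity,
    by positivity, fun A hA n hn S c l₀ a b u u' P hS hl hlθ hab hbu hu' hP hPL hball hsmall => ?_⟩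
  have hl8 : l₀ ≤ S / 8 := hlθ.trans
    (le_trans (mul_le_mul_of_nonneg_right (min_le_left _ _) hS.le) (le_of_eq (by ring)))
  have hlC : 15 * C * l₀ ≤ w0 * lam * S := by
    have := hlθ.trans (mul_le_mul_of_nonneg_right (min_le_right _ _) hS.le)
    rw [div_mul_eq_mul_div, le_div_iff₀ (by positivity)] at this
    linarith
  have hlamS : 0 < lam * S := mul_pos hlam hS
  set o := ⟪c, n⟫ with hodef
  set L := S / 4 with hLdef
  have hL : 0 < L := by positivity
  have ho : |o - ⟪c, n⟫| ≤ K * S := by simp [hodef]; positivity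
  have hgeo : ∀ x ∈ P, ∀ t ∈ Icc a u',
      |t - o| ≤ K * S ∧ ‖linePt n x 0 - linePt n c 0‖ ≤ K * S := fun x hx t ht => by
    have hy : linePt n x t ∈ tube n P a u' :=
      ⟨(lineInv_mem hPL x t).2 hx, by rw [inner_linePt hn]; exact ht⟩
    have hb := hball hy
    rw [Metric.mem_closedBall, dist_eq_norm] at hb
    refine ⟨?_, ?_⟩
    · have h2 := abs_real_inner_le_norm (linePt n x t - c) n
      rw [inner_sub_left, inner_linePt hn, hn, mul_one] at h2
      exact h2.trans hb
    · have h2 := norm_linePt_zero_le hn (linePt n x t - c)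
      rw [linePt_zero_sub, linePt_linePt hn] at h2
      exact h2.trans hb
  have hPc : P ⊆ cyl n c (K * S) := fun x hx => (hgeo x hx a ⟨le_rfl, by linarith⟩).2
  have hwt : ∀ x ∈ P, ∀ t ∈ Icc a u', w0 ≤ wt o L t := fun x hx t ht => by
    obtain ⟨h1, h2⟩ := abs_le.1 (hgeo x hx t ht).1
    refine Real.exp_le_exp.2 ?_
    rw [le_div_iff₀ (by positivity), hLdef]
    nlinarith
  set I : Pt d → ℝ → ℝ := fun x t => A.indicator (fun _ => (1 : ℝ)) (linePt n x t) with hI
  have hI01 : ∀ x t, 0 ≤ I x t ∧ I x t ≤ 1 := fun x t => by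
    by_cases h : linePt n x t ∈ A <;> simp [hI, h]
  have hIm : Measurable fun p : ℝ × Pt d => ENNReal.ofReal (A.indicator (fun _ => (1 : ℝ)) p.2) :=
    ((measurable_const.indicator hA).comp measurable_snd).ennreal_ofReal
  set q : Pt d → ℝ≥0∞ := fun x => ∫⁻ t in Ioo u (u + lam * S), ENNReal.ofReal (I x t) with hq
  have hqm : Measurable q := measurable_line_lintegral
    (F := fun _ y => ENNReal.ofReal (A.indicator (fun _ => (1 : ℝ)) y)) hIm _
  set Q := P ∩ q ⁻¹' Ioi (ENNReal.ofReal (lam * S / 2)) with hQdef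
  have hQm : MeasurableSet Q := hP.inter (hqm measurableSet_Ioi)
  have hQL : LineInv n Q := lineInv_inter_pre hPL fun x t => by
    simp only [mem_preimage, hq, hI, linePt_add_smul hn]
  have hQc : Q ⊆ cyl n c (K * S) := inter_subset_left.trans hPc
  obtain ⟨J, hJ1, hJ2⟩ := exists_level hS hl hl8
  -- the bad columns
  have hbad : ENNReal.ofReal (w0 * lam * S / 5) * volume (Q ∩ slab n)
      ≤ ENNReal.ofReal (2 * C * S) * wsum A n S c := by
    have hpt : ∀ x ∈ Q ∩ slab n,
        ENNReal.ofReal (2 * w0 * lam * S / 5) ≤ colErr A n o L l₀ x := by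
      rintro x ⟨⟨hxP, hxq⟩, -⟩
      calc ENNReal.ofReal (2 * w0 * lam * S / 5)
          = ENNReal.ofReal (4 / 5 * w0) * ENNReal.ofReal (lam * S / 2) := by
            rw [← ENNReal.ofReal_mul (by positivity)]; congr 1; ring
        _ ≤ ENNReal.ofReal (4 / 5 * w0) * q x := mul_le_mul_right (le_of_lt hxq) _
        _ ≤ _ := by
            rw [hq, ← lintegral_const_mul' _ _ ENNReal.ofReal_ne_top]
            refine le_trans (setLIntegral_mono' measurableSet_Ioo fun t ht => ?_)
              (setLIntegral_le_lintegral _ _)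
            rw [← ENNReal.ofReal_mul (by positivity)]
            refine ENNReal.ofReal_le_ofReal ?_
            by_cases hA' : linePt n x t ∈ A
            · have htu : t ∈ Icc a u' := ⟨by linarith [ht.1], by linarith [ht.2]⟩
              have hv := hsmall (linePt n x t)
                ⟨(lineInv_mem hPL x t).2 hxP, by
                  rw [inner_linePt hn]; exact ⟨ht.1.le, by linarith [ht.2]⟩⟩
              simp only [hI, indicator_of_mem hA', mul_one]
              rw [abs_of_nonneg (by linarith)]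
              nlinarith [hwt x hxP t htu]
            · simp only [hI, indicator_of_notMem hA', mul_zero]
              exact mul_nonneg (wt_pos _ _ _).le (abs_nonneg _)
    have hint := setLIntegral_mono' (μ := volume) (hQm.inter (measurableSet_slab n)) hpt
    rw [setLIntegral_const] at hint
    have h := absorb (b := 3 * C * l₀) (by positivity) (by linarith)
      (area_ne_top hn (by positivity : (0 : ℝ) < K * S) hQc)
      (hint.trans (colErr_le hA hn hS J hJ1 hJ2 hL le_rfl ho hQm hQL hQc))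
    rw [show 2 * w0 * lam * S / 5 / 2 = w0 * lam * S / 5 by ring] at h
    refine h.trans (mul_le_mul_left (ENNReal.ofReal_le_ofReal ?_) _)
    exact mul_le_of_le_one_right (by positivity) (pow_le_one₀ (by norm_num) (by norm_num))
  -- every column
  have hpt : ∀ x ∈ P ∩ slab n, ∫⁻ t in Icc a b, ENNReal.ofReal (I x t) ≤
      ENNReal.ofReal κ⁻¹ * colMin A n o L u x + Q.indicator (fun _ => ENNReal.ofReal (2 * (K * S))) x := by
    rintro x ⟨hxP, -⟩
    set pA := ∫⁻ t in Icc a b, ENNReal.ofReal (I x t) with hpA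
    have hp2 : pA ≤ ENNReal.ofReal (2 * (K * S)) := by
      refine le_trans (lintegral_mono fun t => ENNReal.ofReal_le_one.2 (hI01 x t).2) ?_
      rw [setLIntegral_one, Real.volume_Icc]
      refine ENNReal.ofReal_le_ofReal ?_
      have h1 := (abs_le.1 (hgeo x hxP a ⟨le_rfl, by linarith⟩).1).1
      have h2 := (abs_le.1 (hgeo x hxP b ⟨hab, by linarith⟩).1).2
      linarith
    by_cases hxQ : x ∈ Q
    · rw [indicator_of_mem hxQ]
      exact hp2.trans le_add_self
    rw [indicator_of_notMem hxQ, add_zero]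
    have hq' : q x ≤ ENNReal.ofReal (lam * S / 2) := not_lt.1 fun h => hxQ ⟨hxP, h⟩
    have hA1 : ENNReal.ofReal w0 * pA ≤ ∫⁻ t in Iio u,
        ENNReal.ofReal (wt o L t * A.indicator (fun _ => (1 : ℝ)) (linePt n x t)) := by
      rw [hpA, ← lintegral_const_mul' _ _ ENNReal.ofReal_ne_top,
        ← Measure.restrict_congr_set Ico_ae_eq_Icc]
      refine le_trans (setLIntegral_mono' measurableSet_Ico fun t ht => ?_)
        (lintegral_mono_set fun t ht => lt_of_lt_of_le ht.2 hbu)
      rw [← ENNReal.ofReal_mul hw0.le]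
      exact ENNReal.ofReal_le_ofReal (mul_le_mul_of_nonneg_right
        (hwt x hxP t ⟨ht.1, by linarith [ht.2]⟩) (hI01 x t).1)
    have hA2 : ENNReal.ofReal (w0 * (lam * S / 2)) ≤ ∫⁻ t in Ioi u,
        ENNReal.ofReal (wt o L t * Aᶜ.indicator (fun _ => (1 : ℝ)) (linePt n x t)) := by
      have hsum : ENNReal.ofReal (lam * S) = q x +
          ∫⁻ t in Ioo u (u + lam * S), ENNReal.ofReal (1 - I x t) := by
        have hm : Measurable fun t => ENNReal.ofReal (I x t) :=
          hIm.comp (measurable_id.prodMk (continuous_linePt_height n x).measurable)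
        rw [hq, ← lintegral_add_left hm]
        simp only [← ENNReal.ofReal_add (hI01 x _).1 (sub_nonneg.2 (hI01 x _).2),
          add_sub_cancel, ENNReal.ofReal_one]
        rw [setLIntegral_one, Real.volume_Ioo, add_sub_cancel_left]
      have hrest : ENNReal.ofReal (lam * S / 2)
          ≤ ∫⁻ t in Ioo u (u + lam * S), ENNReal.ofReal (1 - I x t) := by
        refine ENNReal.le_of_add_le_add_left (ENNReal.ofReal_ne_top (r := lam * S / 2)) ?_
        rw [← ENNReal.ofReal_add (by positivity) (by positivity), add_halves, hsum]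
        exact add_le_add hq' le_rfl
      rw [ENNReal.ofReal_mul hw0.le]
      refine (mul_le_mul_right hrest _).trans ?_
      rw [← lintegral_const_mul' _ _ ENNReal.ofReal_ne_top]
      refine le_trans (setLIntegral_mono' measurableSet_Ioo fun t ht => ?_)
        (lintegral_mono_set fun t ht => ht.1)
      rw [← ENNReal.ofReal_mul hw0.le]
      refine ENNReal.ofReal_le_ofReal ?_
      have e : 1 - I x t = Aᶜ.indicator (fun _ => (1 : ℝ)) (linePt n x t) := by
        by_cases h : linePt n x t ∈ A <;> simp [hI, h]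
      rw [← e]
      exact mul_le_mul_of_nonneg_right
        (hwt x hxP t ⟨by linarith [ht.1], by linarith [ht.2]⟩) (sub_nonneg.2 (hI01 x t).2)
    have hκp : ENNReal.ofReal κ * pA ≤ colMin A n o L u x := by
      refine le_min ((mul_le_mul_left (ENNReal.ofReal_le_ofReal ?_) _).trans hA1)
        (le_trans ?_ hA2)
      · exact mul_le_of_le_one_right hw0.le (min_le_left _ _)
      · refine (mul_le_mul_right hp2 _).trans ?_
        rw [← ENNReal.ofReal_mul hκ.le]
        refine ENNReal.ofReal_le_ofReal ?_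
        calc κ * (2 * (K * S)) ≤ w0 * (lam / (4 * K)) * (2 * (K * S)) := by
              rw [hκdef]; gcongr; exact min_le_right _ _
          _ = _ := by field_simp; ring
    calc pA = ENNReal.ofReal κ⁻¹ * (ENNReal.ofReal κ * pA) := by
          rw [← mul_assoc, ← ENNReal.ofReal_mul (by positivity), inv_mul_cancel₀ hκ.ne',
            ENNReal.ofReal_one, one_mul]
      _ ≤ _ := mul_le_mul_right hκp _
  rw [volume_inter_tube hn hA hP hPL]
  refine (setLIntegral_mono' (hP.inter (measurableSet_slab n)) hpt).trans ?_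
  rw [lintegral_add_left ((measurable_colMin hA n o L u).const_mul _),
    lintegral_const_mul' _ _ ENNReal.ofReal_ne_top, setLIntegral_indicator hQm, setLIntegral_const]
  refine (add_le_add (mul_le_mul_right (hcol A hA n hn S o L u c P hS hL le_rfl ho hP hPL hPc) _)
    (le_trans (mul_le_mul_right (measure_mono (fun y hy => ⟨hy.1, hy.2.2⟩ :
        Q ∩ (P ∩ slab n) ⊆ Q ∩ slab n)) _)
      (?_ : _ ≤ ENNReal.ofReal (20 * K * C / (w0 * lam) * S) * wsum A n S c))).trans ?_
  · calc ENNReal.ofReal (2 * (K * S)) * volume (Q ∩ slab n)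
        = ENNReal.ofReal (10 * K / (w0 * lam)) *
            (ENNReal.ofReal (w0 * lam * S / 5) * volume (Q ∩ slab n)) := by
          rw [← mul_assoc (ENNReal.ofReal _), ← ENNReal.ofReal_mul (by positivity)]
          congr 2; field_simp; ring
      _ ≤ ENNReal.ofReal (10 * K / (w0 * lam)) *
            (ENNReal.ofReal (2 * C * S) * wsum A n S c) := mul_le_mul_right hbad _
      _ = _ := by
          rw [← mul_assoc, ← ENNReal.ofReal_mul (by positivity)]
          congr 2; field_simp; ring
  · refine le_of_eq ?_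
    rw [← mul_assoc, ← ENNReal.ofReal_mul (by positivity), ← add_mul,
      ← ENNReal.ofReal_add (by positivity) (by positivity)]
    congr 2; field_simp

end Vale.Agent.P137
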