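import Vale.Agent.P137.LocalCrescent
import Vale.Agent.P137.LocalSelect
import Vale.Agent.P137.LocalAlign
import Vale.Agent.P137.LocalRegime
import Vale.Agent.P137.LocalShell
import Vale.Agent.P137.LocalTilt
import Vale.Agent.P137.Chain
import Vale.Agent.P137.Cell
import Vale.Agent.P137.Tube
import Vale.Agent.P137.Budget

/-! # P137, module F: the local inequality -/

namespace Vale.Agent.P137

open MeasureTheory Set Filter Topology
open scoped RealInnerProductSpace ENNReal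

variable {d : ℕ}

/-! ### layer cake over a ball -/

theorem efrac_cake {f : Pt d → ℝ} (hfm : Measurable f) (hf : Integrable f) (hf0 : ∀ x, 0 ≤ f x)
    (c : Pt d) {r : ℝ} (hr : 0 < r) :
    IntegrableOn (fun s => efrac {x | s < f x} c r) (Ioi 0) ∧
      ∫ s in Ioi (0 : ℝ), efrac {x | s < f x} c r = bavg f c r := by
  set μ := (volume : Measure (Pt d)).restrict (Metric.ball c r) with hμ
  set u := (volume (Metric.ball c r)).toReal with hu
  have hu0 : 0 < u := by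
    rw [hu, toReal_volume_ball c hr]
    exact mul_pos (pow_pos hr d) unitVol_pos
  have e : ∀ s : ℝ, efrac {x | s < f x} c r = μ.real {x | s < f x} / u := fun s => by
    rw [efrac, measureReal_def, hμ, Measure.restrict_apply (measurableSet_lt measurable_const hfm)]
  have h0 : 0 ≤ᵐ[μ] f := ae_of_all _ hf0
  have hI := Integrable.integral_eq_integral_meas_lt (μ := μ) hf.restrict h0
  have hfin : ∫⁻ s in Ioi (0 : ℝ), μ {x | s < f x} < ∞ := by
    rw [← lintegral_eq_lintegral_meas_lt μ h0 hf.restrict.aemeasurable]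
    exact Integrable.lintegral_lt_top hf.restrict
  have hint : IntegrableOn (fun s => μ.real {x | s < f x}) (Ioi 0) :=
    integrable_toReal_of_lintegral_ne_top
      (Antitone.measurable (f := fun s : ℝ => μ {x | s < f x})
        fun _ _ hst => measure_mono fun _ hx => lt_of_le_of_lt hst hx).aemeasurable
      hfin.ne
  simp only [e]
  refine ⟨hint.div_const u, ?_⟩
  rw [integral_div, ← hI, bavg]

/-! ### one layer against one ball -/

theorem efrac_eq_compl {A : Set (Pt d)} (hA : MeasurableSet A) (c : Pt d) {r : ℝ} (hr : 0 < r) :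
    efrac A c r = 1 - efrac Aᶜ c r := by
  have := efrac_compl hA c hr
  linarith

theorem layer_trivial (A : Set (Pt d)) (K : ℝ) (ν c : Pt d) (ρ : ℝ) (q : Pt d) (r : ℝ) {κ : ℝ}
    (hκ0 : 0 ≤ κ) (hκ : κ ≤ 1) : layX A K ν c ρ + κ * layOsc A K ν c ρ q r ≤ 3 := by
  have a1 := efrac_nonneg A c ρ
  have a2 := efrac_le_one A c ρ
  have b1 := efrac_nonneg A (bigCtr K ν c ρ) (K * ρ)
  have b2 := efrac_le_one A (bigCtr K ν c ρ) (K * ρ)
  have c1 := efrac_nonneg A q (r / 4)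
  have c2 := efrac_le_one A q (r / 4)
  have o1 : |efrac A c ρ - efrac A q (r / 4)| ≤ 1 := abs_le.2 ⟨by linarith, by linarith⟩
  have o2 : |efrac A (bigCtr K ν c ρ) (K * ρ) - efrac A q (r / 4)| ≤ 1 :=
    abs_le.2 ⟨by linarith, by linarith⟩
  have ho : layOsc A K ν c ρ q r ≤ 2 := by unfold layOsc; linarith
  have hx : layX A K ν c ρ ≤ 1 := by unfold layX; linarith
  have := mul_le_mul_of_nonneg_left ho hκ0
  linarith

/-- if the complement in the enlarged ball is a small multiple of the loss plus a charge, the layer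
is charged. -/
theorem layer_gain {A : Set (Pt d)} (hA : MeasurableSet A) {K Λ κ C r ρ : ℝ} {ν c q : Pt d}
    (hd : 1 ≤ d) (hK : 1 ≤ K) (hΛ0 : 0 ≤ Λ) (hΛ : 4 * Λ ≤ K ^ d) (hκ0 : 0 ≤ κ)
    (hκ : κ ≤ 1 / (6 * 8 ^ d)) (hC : 0 ≤ C) (hr : 0 < r) (hρ : r ≤ ρ) (hρ' : ρ ≤ 2 * r)
    (hcq : ‖c - q‖ ≤ r / 100) {v : ℝ} (hv : 0 ≤ v)
    (hgain : volume (Aᶜ ∩ Metric.ball (bigCtr K ν c ρ) (K * ρ)) ≤
      ENNReal.ofReal Λ * volume (Aᶜ ∩ Metric.ball c ρ) + ENNReal.ofReal (C * r * v)) :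
    r ^ (d - 1) * (layX A K ν c ρ + κ * layOsc A K ν c ρ q r) ≤ 2 * C / unitVol d * v := by
  have hρ0 : 0 < ρ := by linarith
  have hu := unitVol_pos (d := d)
  have hK0 : 0 < K * ρ := by positivity
  set G := (volume (Aᶜ ∩ Metric.ball (bigCtr K ν c ρ) (K * ρ))).toReal with hG
  set L := (volume (Aᶜ ∩ Metric.ball c ρ)).toReal with hL
  have hfin : volume (Aᶜ ∩ Metric.ball c ρ) ≠ ∞ :=
    measure_ne_top_of_subset inter_subset_right measure_ball_lt_top.ne
  have hG' : G ≤ Λ * L + C * r * v := by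
    refine (ENNReal.toReal_mono (ENNReal.add_ne_top.2
      ⟨ENNReal.mul_ne_top ENNReal.ofReal_ne_top hfin, ENNReal.ofReal_ne_top⟩) hgain).trans_eq ?_
    rw [ENNReal.toReal_add (ENNReal.mul_ne_top ENNReal.ofReal_ne_top hfin) ENNReal.ofReal_ne_top,
      ENNReal.toReal_mul, ENNReal.toReal_ofReal hΛ0, ENNReal.toReal_ofReal (by positivity)]
  have eB : efrac Aᶜ c ρ = L / (ρ ^ d * unitVol d) := by rw [efrac, toReal_volume_ball c hρ0]
  have eB' : efrac Aᶜ (bigCtr K ν c ρ) (K * ρ) = G / ((K * ρ) ^ d * unitVol d) := by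
    rw [efrac, toReal_volume_ball _ hK0]
  set x := efrac Aᶜ c ρ with hx
  set y := efrac Aᶜ (bigCtr K ν c ρ) (K * ρ) with hy
  have hcore : efrac Aᶜ q (r / 4) ≤ 8 ^ d * x := by
    have hsub : Metric.ball q (r / 4) ⊆ Metric.ball c ρ :=
      Metric.ball_subset_ball' (by rw [dist_eq_norm, norm_sub_rev]; linarith)
    have h1 : (volume (Aᶜ ∩ Metric.ball q (r / 4))).toReal ≤ L :=
      ENNReal.toReal_mono hfin (measure_mono (inter_subset_inter_right _ hsub))
    have h2 : ρ ^ d ≤ 8 ^ d * (r / 4) ^ d := by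
      rw [← mul_pow]
      exact pow_le_pow_left₀ hρ0.le (by linarith) d
    rw [eB, efrac, toReal_volume_ball q (by linarith), div_le_iff₀ (by positivity)]
    have : 0 ≤ L := ENNReal.toReal_nonneg
    calc _ ≤ L := h1
      _ = L / (ρ ^ d * unitVol d) * (ρ ^ d * unitVol d) := by field_simp
      _ ≤ L / (ρ ^ d * unitVol d) * (8 ^ d * (r / 4) ^ d * unitVol d) := by gcongr
      _ = _ := by ring
  have hx0 : 0 ≤ x := efrac_nonneg _ _ _
  have hy0 : 0 ≤ y := efrac_nonneg _ _ _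
  have hq0 : 0 ≤ efrac Aᶜ q (r / 4) := efrac_nonneg _ _ _
  have hX : layX A K ν c ρ = y - x := by
    rw [layX, efrac_eq_compl hA c hρ0, efrac_eq_compl hA _ hK0, ← hx, ← hy]; ring
  have hO : layOsc A K ν c ρ q r ≤ y + 3 * 8 ^ d * x := by
    rw [layOsc, efrac_eq_compl hA c hρ0, efrac_eq_compl hA _ hK0,
      efrac_eq_compl hA q (by linarith : (0 : ℝ) < r / 4), ← hx, ← hy]
    have h8 : x ≤ 8 ^ d * x := le_mul_of_one_le_left hx0 (one_le_pow₀ (by norm_num))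
    have o1 : |1 - x - (1 - efrac Aᶜ q (r / 4))| ≤ x + efrac Aᶜ q (r / 4) :=
      abs_le.2 ⟨by linarith, by linarith⟩
    have o2 : |1 - y - (1 - efrac Aᶜ q (r / 4))| ≤ y + efrac Aᶜ q (r / 4) :=
      abs_le.2 ⟨by linarith, by linarith⟩
    linarith
  have h88 : (1 : ℝ) ≤ 8 ^ d := one_le_pow₀ (by norm_num)
  have hk1 : κ * (3 * 8 ^ d) ≤ 1 / 2 := by
    rw [le_div_iff₀ (by positivity)] at hκ
    linarith
  have hk2 : κ ≤ 1 := by
    have : 3 * κ ≤ κ * (3 * 8 ^ d) := by nlinarith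
    linarith
  have hmain : layX A K ν c ρ + κ * layOsc A K ν c ρ q r ≤ 2 * y - x / 2 := by
    have h1 := mul_le_mul_of_nonneg_left hO hκ0
    have h2 := mul_le_mul_of_nonneg_right hk2 hy0
    have h3 := mul_le_mul_of_nonneg_right hk1 hx0
    rw [hX]
    linarith
  have hy' : 2 * y - x / 2 ≤ 2 * C * r * v / ((K * ρ) ^ d * unitVol d) := by
    rw [eB, eB']
    have hKd : Λ * L * 4 ≤ K ^ d * L := by
      have : 0 ≤ L := ENNReal.toReal_nonneg
      nlinarith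
    have e : L / (ρ ^ d * unitVol d) / 2 = K ^ d * L / 2 / ((K * ρ) ^ d * unitVol d) := by
      rw [mul_pow]; field_simp
    rw [e, mul_div_assoc', div_sub_div_same]
    gcongr
    linarith
  obtain ⟨D, hD⟩ : ∃ D, d = D + 1 := ⟨d - 1, by omega⟩
  calc r ^ (d - 1) * (layX A K ν c ρ + κ * layOsc A K ν c ρ q r)
      ≤ r ^ (d - 1) * (2 * C * r * v / ((K * ρ) ^ d * unitVol d)) :=
        mul_le_mul_of_nonneg_left (hmain.trans hy') (by positivity)
    _ = r ^ d / (K * ρ) ^ d * (2 * C / unitVol d * v) := by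
        rw [show d - 1 = D by omega, show r ^ d = r ^ D * r by rw [← pow_succ, ← hD]]
        field_simp
    _ ≤ 1 * (2 * C / unitVol d * v) := by
        gcongr
        rw [div_le_one (by positivity)]
        exact pow_le_pow_left₀ hr.le (hρ.trans (le_mul_of_one_le_left hρ0.le hK)) d
    _ = _ := one_mul _

/-- the enlarged ball outside the ball: either high above the tangent plane or in the low crescent. -/
theorem bigBall_subset {K t r ρ a R : ℝ} {ν c n : Pt d} (hν : ‖ν‖ = 1) (hK : 1 ≤ K) (hr : 0 < r)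
    (hρ : r ≤ ρ) (hρ' : ρ ≤ 2 * r) (ha : ‖n - ν‖ ≤ a) (haK : 4 * K * a ≤ 2 * t) (ht : t ≤ 1 / 8)
    (hR0 : 0 ≤ R) (hR : 16 * K * t * r ^ 2 ≤ R ^ 2) :
    Metric.ball (bigCtr K ν c ρ) (K * ρ) ⊆ Metric.ball c ρ ∪
      (Metric.ball (bigCtr K ν c ρ) (K * ρ) ∩ {y | 2 * t * r < ⟪y - botPt ν c ρ, n⟫}) ∪
      (crescent K ν c ρ ∩ {y | wDist ν c ρ y ≤ R}) := by
  intro y hy
  by_cases h1 : y ∈ Metric.ball c ρ
  · exact Or.inl (Or.inl h1)
  by_cases h2 : 2 * t * r < ⟪y - botPt ν c ρ, n⟫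
  · exact Or.inl (Or.inr ⟨hy, h2⟩)
  have hu : ‖y - botPt ν c ρ‖ ≤ 4 * K * r := by
    have e : y - botPt ν c ρ = (y - bigCtr K ν c ρ) + (K * ρ) • ν := by
      simp only [botPt, bigCtr]; module
    rw [e]
    refine (norm_add_le _ _).trans ?_
    rw [Metric.mem_ball, dist_eq_norm] at hy
    rw [norm_smul, hν, mul_one, Real.norm_eq_abs,
      abs_of_nonneg (mul_nonneg (by linarith) (by linarith))]
    have : K * ρ ≤ K * (2 * r) := by gcongr
    linarith
  have hh : ⟪y - botPt ν c ρ, ν⟫ ≤ 4 * t * r := by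
    have e : ⟪y - botPt ν c ρ, ν⟫ = ⟪y - botPt ν c ρ, n⟫ + ⟪y - botPt ν c ρ, ν - n⟫ := by
      rw [inner_sub_right]; ring
    have h3 := (le_abs_self _).trans (abs_real_inner_le_norm (y - botPt ν c ρ) (ν - n))
    rw [norm_sub_rev ν n] at h3
    have h4 : ‖y - botPt ν c ρ‖ * ‖n - ν‖ ≤ 4 * K * r * a := by gcongr
    have h5 : 4 * K * a * r ≤ 2 * t * r := by gcongr
    rw [e]
    linarith [not_lt.1 h2]
  have hlow : ⟪y - botPt ν c ρ, ν⟫ ≤ ρ / 2 := by
    have : t * r ≤ 1 / 8 * r := by gcongr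
    linarith
  have hcr : y ∈ crescent K ν c ρ := ⟨hy, h1, hlow⟩
  obtain ⟨g1, g2, -⟩ := crescent_geom hν (hr.trans_le hρ) hcr
  refine Or.inr ⟨hcr, ?_⟩
  show wDist ν c ρ y ≤ R
  refine le_of_pow_le_pow_left₀ two_ne_zero hR0 (g2.trans (le_trans ?_ hR))
  calc 2 * K * ρ * ⟪y - botPt ν c ρ, ν⟫ ≤ 2 * K * (2 * r) * (4 * t * r) := by gcongr
    _ = 16 * K * t * r ^ 2 := by ring

/-- the tilted part of the crescent is paid by the loss and one coarse charge. -/
theorem tilt_charge {K ε θ₀ Cν Cq Ct Ca cT M P : ℝ} {p : ℕ}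
    (hT : ∀ (A : Set (Pt d)), MeasurableSet A → ∀ (r ρ : ℝ) (c n ν : Pt d),
      0 < r → r ≤ ρ → ρ ≤ 2 * r → ‖n‖ = 1 → ‖ν‖ = 1 → ‖n - ν‖ ≤ θ₀ →
        |smoothInd A (3 * (M * r)) (botPt n c ρ) - 1 / 2| ≤ Cq * ‖n - ν‖ / M ∨
        volume (Aᶜ ∩ crescent K ν c ρ ∩
            {y | ‖linePt ν y 0 - linePt ν (botPt ν c ρ) 0‖ ≤ 8 / ε * ‖n - ν‖ * r}) ≤
          ENNReal.ofReal (Cq * ‖n - ν‖) * volume (Aᶜ ∩ Metric.ball c ρ)
          + ENNReal.ofReal (Ct * r) * wsum A n (P * (M * r)) (botPt n c ρ))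
    (hAl : AlignConst d ((2 : ℝ) ^ p) cT Ca) (hd : 2 ≤ d) (hK : 0 ≤ K) (hθ₀ : 0 < θ₀)
    (hCν : 0 ≤ Cν) (hCq : 0 ≤ Cq) (hCt : 0 ≤ Ct) (hM : 1 ≤ M)
    (hP1 : 1 ≤ P) (hp : 4 * P ≤ (2 : ℝ) ^ p) (hm4 : 2 * Cν * Cq + 1 < M)
    (hm5 : 100 * K / θ₀ < M) (hm7 : 100 * K * Cq < M)
    {A : Set (Pt d)} (hA : MeasurableSet A) {r ρ : ℝ} {c q n ν : Pt d} (hr : 0 < r) (hρ : r ≤ ρ)
    (hρ' : ρ ≤ 2 * r) (hcq : ‖c - q‖ ≤ r / 100) (hν : ‖ν‖ = 1)
    (hal : Aligned A n (M * r) q) (hflux : cT ≤ M * r * ‖gradInd A (M * r) q‖)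
    (hnν : ‖n - ν‖ ≤ 100 * K / M)
    (hna : ‖n - ν‖ ≤ Cν * |smoothInd A (3 * (M * r)) (botPt n c ρ) - 1 / 2|) :
    volume (Aᶜ ∩ crescent K ν c ρ ∩ {y | wDist ν c ρ y ≤ 8 / ε * ‖n - ν‖ * r}) ≤
      1 * volume (Aᶜ ∩ Metric.ball c ρ)
        + ENNReal.ofReal (Ct * Ca * r) * wexc A ((2 : ℝ) ^ p * (M * r)) q := by
  have hM0 : 0 < M := by linarith
  have hMr : 0 < M * r := by positivity
  have haθ : ‖n - ν‖ ≤ θ₀ := by
    refine hnν.trans ?_
    rw [div_lt_iff₀ hθ₀] at hm5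
    rw [div_le_iff₀ hM0]
    linarith
  rcases hT A hA r ρ c n ν hr hρ hρ' hal.1 hν haθ with h | h
  · have ha0 : ‖n - ν‖ = 0 := by
      have h1 := hna.trans (mul_le_mul_of_nonneg_left h hCν)
      rw [← mul_div_assoc, le_div_iff₀ hM0] at h1
      have h2 : (2 * Cν * Cq + 1) * ‖n - ν‖ ≤ M * ‖n - ν‖ := by gcongr
      linarith [norm_nonneg (n - ν), mul_nonneg (mul_nonneg hCν hCq) (norm_nonneg (n - ν))]
    rw [volume_crescent_line (by omega) hν hr hρ _ fun y hy => ⟨hy.1.2, by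
      have : wDist ν c ρ y ≤ 8 / ε * ‖n - ν‖ * r := hy.2
      rwa [ha0, mul_zero, zero_mul] at this⟩]
    exact zero_le
  · refine h.trans (add_le_add (mul_le_mul' ?_ le_rfl) ?_)
    · rw [← ENNReal.ofReal_one]
      refine ENNReal.ofReal_le_ofReal ?_
      calc Cq * ‖n - ν‖ ≤ Cq * (100 * K / M) := by gcongr
        _ ≤ 1 := by
            rw [← mul_div_assoc, div_le_one hM0]
            linarith
    · have hPp : 4 * P * (M * r) ≤ (2 : ℝ) ^ p * (M * r) := by gcongr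
      have hPM : M * r ≤ P * (M * r) := le_mul_of_one_le_left hMr.le hP1
      have hr3 : 3 * r ≤ (2 : ℝ) ^ p * (M * r) := by
        have : 1 * r ≤ M * r := by gcongr
        linarith
      have hPp2 : M * r ≤ (2 : ℝ) ^ p * (P * (M * r)) := by
        calc M * r ≤ 1 * (P * (M * r)) := by linarith
          _ ≤ _ := mul_le_mul_of_nonneg_right (one_le_pow₀ one_le_two) (by linarith)
      have hxq : ‖q - botPt n c ρ‖ ≤ 3 * r := by
        have e : q - botPt n c ρ = (q - c) + ρ • n := by simp only [botPt]; module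
        rw [e]
        refine (norm_add_le _ _).trans ?_
        rw [norm_smul, hal.1, mul_one, Real.norm_eq_abs, abs_of_nonneg (by linarith), norm_sub_rev]
        linarith
      have h1 := (hAl A hA n (M * r) (P * (M * r)) q (botPt n c ρ) q hMr hPp2 (by linarith)
        (hxq.trans hr3) (hxq.trans hr3) hal hflux ((2 : ℝ) ^ p * (M * r)) (by linarith)
        (by linarith) le_rfl).1
      refine (mul_le_mul' le_rfl h1).trans ?_
      rw [← mul_assoc, ← ENNReal.ofReal_mul (by positivity), mul_right_comm Ct r Ca]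

/-- adding the parts of the enlarged ball. -/
theorem gain_bound {A : Set (Pt d)} {K t r ρ a C₀ CR Ct Cc R : ℝ} {ν c n : Pt d}
    {V : ℝ≥0∞} {v : ℝ} {T : Set (Pt d)} (hν : ‖ν‖ = 1) (hK : 1 ≤ K) (hr : 0 < r) (hρ : r ≤ ρ)
    (hρ' : ρ ≤ 2 * r) (ha : ‖n - ν‖ ≤ a) (haK : 4 * K * a ≤ 2 * t) (ht : t ≤ 1 / 8)
    (hC₀ : 0 ≤ C₀) (hCR : 0 ≤ CR) (hCt : 0 ≤ Ct) (hCc : 0 ≤ Cc) (hR0 : 0 ≤ R)
    (hR : 16 * K * t * r ^ 2 ≤ R ^ 2)
    (hhigh : volume (Aᶜ ∩ Metric.ball (bigCtr K ν c ρ) (K * ρ) ∩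
      {y | 2 * t * r < ⟪y - botPt ν c ρ, n⟫}) ≤ ENNReal.ofReal (CR * r) * V)
    (htilt : volume T ≤ 1 * volume (Aᶜ ∩ Metric.ball c ρ) + ENNReal.ofReal (Ct * r) * V)
    (hlow : volume (Aᶜ ∩ crescent K ν c ρ ∩ {y | wDist ν c ρ y ≤ R}) ≤
      ENNReal.ofReal (C₀ * √K ^ (d + 1) + 1) * volume (Aᶜ ∩ Metric.ball c ρ) + volume T
        + ENNReal.ofReal (Cc * r) * V)
    (hv : ENNReal.ofReal v = V) :
    volume (Aᶜ ∩ Metric.ball (bigCtr K ν c ρ) (K * ρ)) ≤
      ENNReal.ofReal (C₀ * √K ^ (d + 1) + 3) * volume (Aᶜ ∩ Metric.ball c ρ)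
        + ENNReal.ofReal ((CR + Cc + Ct) * r * v) := by
  set FB := volume (Aᶜ ∩ Metric.ball c ρ)
  have hsub : Aᶜ ∩ Metric.ball (bigCtr K ν c ρ) (K * ρ) ⊆ (Aᶜ ∩ Metric.ball c ρ) ∪
      (Aᶜ ∩ Metric.ball (bigCtr K ν c ρ) (K * ρ) ∩ {y | 2 * t * r < ⟪y - botPt ν c ρ, n⟫}) ∪
      (Aᶜ ∩ crescent K ν c ρ ∩ {y | wDist ν c ρ y ≤ R}) := by
    rintro y ⟨hy1, hy2⟩
    rcases bigBall_subset hν hK hr hρ hρ' ha haK ht hR0 hR hy2 with (h | h) | h
    · exact Or.inl (Or.inl ⟨hy1, h⟩)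
    · exact Or.inl (Or.inr ⟨⟨hy1, h.1⟩, h.2⟩)
    · exact Or.inr ⟨⟨hy1, h.1⟩, h.2⟩
  calc _ ≤ FB + ENNReal.ofReal (CR * r) * V + (ENNReal.ofReal (C₀ * √K ^ (d + 1) + 1) * FB
        + (1 * FB + ENNReal.ofReal (Ct * r) * V) + ENNReal.ofReal (Cc * r) * V) := by
        refine (measure_mono hsub).trans ((measure_union_le _ _).trans (add_le_add
          ((measure_union_le _ _).trans (add_le_add le_rfl hhigh)) (hlow.trans ?_)))
        exact add_le_add (add_le_add le_rfl htilt) le_rfl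
    _ = _ := by
        rw [ENNReal.ofReal_mul (p := (CR + Cc + Ct) * r) (by positivity), hv,
          show C₀ * √K ^ (d + 1) + 3 = (C₀ * √K ^ (d + 1) + 1) + 2 by ring,
          ENNReal.ofReal_add (by positivity) zero_le_two, ENNReal.ofReal_ofNat,
          show (CR + Cc + Ct) * r = CR * r + Cc * r + Ct * r by ring,
          ENNReal.ofReal_add (add_nonneg (mul_nonneg hCR hr.le) (mul_nonneg hCc hr.le))
            (mul_nonneg hCt hr.le),
          ENNReal.ofReal_add (mul_nonneg hCR hr.le) (mul_nonneg hCc hr.le)]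
        ring

theorem low_radius_le {K t : ℝ} {P₀ : ℕ} {k : ℤ} (hK : 2 ≤ K)
    (ht : t ≤ (1 / 4) ^ P₀ / (16 * K)) :
    16 * K * t * ((2 : ℝ) ^ k) ^ 2 ≤ ((2 : ℝ) ^ (k - (P₀ : ℤ))) ^ 2 := by
  rw [le_div_iff₀ (by positivity)] at ht
  rw [zpow_sub₀ (by norm_num), zpow_natCast, div_pow ((2 : ℝ) ^ k), ← pow_mul (2 : ℝ) P₀ 2,
    mul_comm P₀ 2, pow_mul (2 : ℝ) 2 P₀, show ((2 : ℝ) ^ 2) = 4 by norm_num,
    le_div_iff₀ (by positivity)]
  calc 16 * K * t * ((2 : ℝ) ^ k) ^ 2 * 4 ^ P₀ ≤ (1 / 4) ^ P₀ * ((2 : ℝ) ^ k) ^ 2 * 4 ^ P₀ := by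
        gcongr
        linarith
    _ = ((2 : ℝ) ^ k) ^ 2 := by rw [mul_right_comm, ← mul_pow]; norm_num

theorem lam_le {K C₀ : ℝ} (hd : 2 ≤ d) (hC₀ : 0 ≤ C₀) (hK : (4 * (C₀ + 2)) ^ 2 ≤ K) :
    4 * (C₀ * √K ^ (d + 1) + 3) ≤ K ^ d := by
  have hs : 4 * (C₀ + 2) ≤ √K := Real.le_sqrt_of_sq_le hK
  have hK0 : 0 ≤ K := le_trans (sq_nonneg _) hK
  have hs2 : 3 / 2 ≤ √K := by linarith
  have hp1 : 3 / 2 ≤ √K ^ (d + 1) := hs2.trans (le_self_pow₀ (by linarith) (by omega))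
  calc 4 * (C₀ * √K ^ (d + 1) + 3) ≤ 4 * (C₀ + 2) * √K ^ (d + 1) := by linarith
    _ ≤ √K * √K ^ (d + 1) := by gcongr
    _ = √K ^ (d + 2) := by ring
    _ ≤ √K ^ (2 * d) := pow_le_pow_right₀ (by linarith) (by omega)
    _ = K ^ d := by rw [pow_mul, Real.sq_sqrt hK0]

/-- all the layers of a function can be handled with one enlargement. -/
theorem layer_local (hE : ExcessSum) (hCG : ChainGauss) (hAl : AlignLemma) (hR : RegimeLemma)
    (hSh : ShellLemma) (hF : FlatCellLemma) (hT : TiltLemma) (hP : CellProfile) (hX : CellFlux)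
    (hd : 2 ≤ d) :
    ∃ (K κ C : ℝ) (V : Set (Pt d) → ℤ → (Fin d → ℤ) → ℝ≥0∞), 2 ≤ K ∧ 0 < κ ∧ 0 < C ∧
      (∀ A : Set (Pt d), MeasurableSet A → volume A < ∞ →
        ∑' (k : ℤ) (z : Fin d → ℤ), V A k z ≤ ENNReal.ofReal C * gper A) ∧
      ∀ (k : ℤ) (z : Fin d → ℤ) (c : Pt d) (ρ : ℝ), InClass k z c ρ →
      ∀ 𝒜 : Set (Set (Pt d)), (∀ A ∈ 𝒜, MeasurableSet A) → IsChain (· ⊆ ·) 𝒜 →
        ∃ ν : Pt d, ‖ν‖ = 1 ∧ ∀ A ∈ 𝒜,
          ENNReal.ofReal (((2 : ℝ) ^ k) ^ (d - 1) *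
              (layX A K ν c ρ + κ * layOsc A K ν c ρ (classPt k z) ((2 : ℝ) ^ k)))
            ≤ ENNReal.ofReal C * V A k z := by
  obtain ⟨K₀, hK₀, hR⟩ := hR d hd
  obtain ⟨C₀, hC₀, hCh⟩ := crescent_chain hP hX hF hSh hAl hd
  set K := max K₀ ((4 * (C₀ + 2)) ^ 2) with hK
  have hK2 : 2 ≤ K := hK₀.trans (le_max_left _ _)
  obtain ⟨t₀, ht₀, hR⟩ := hR K (le_max_left _ _)
  obtain ⟨ε, θ, c₀, lam, hε, hε1, hθ, hc₀, hlam, P₀, hCh⟩ := hCh K hK2
  have hA₀ : 1 ≤ 8 / ε := by rw [le_div_iff₀ hε]; linarith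
  obtain ⟨Cq, θ₀, hCq, hθ₀, hT⟩ := hT d hd K hK2 (8 / ε) hA₀
  obtain ⟨K', εF, cT, δF, hK', hεF, hcT, hδF, hX⟩ := hX d 1 le_rfl
  obtain ⟨Cν, hCν, hdir⟩ := exists_dir d hcT
  set t := min t₀ (min (1 / 8) ((1 / 4) ^ P₀ / (16 * K))) with ht
  have ht0 : 0 < t := by rw [ht]; positivity
  obtain ⟨κR, M₀, hκR, hM₀, hR⟩ := hR t ht0 (min_le_left _ _)
  obtain ⟨m, hm⟩ := pow_unbounded_of_one_lt (max M₀ (max (100 * K) (max (Cν * ((d : ℝ) + 1))
    (max (2 * Cν * Cq + 1) (max (100 * K / θ₀) (max (200 * K ^ 2 / t) (100 * K * Cq)))))))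
    (one_lt_two : (1 : ℝ) < 2)
  set M := (2 : ℝ) ^ m with hM
  simp only [max_lt_iff] at hm
  obtain ⟨hm1, hm2, hm3, hm4, hm5, hm6, hm7⟩ := hm
  have hM0 : 0 < M := by positivity
  obtain ⟨εR, hεR, hR⟩ := hR M hm1.le
  set εT := min (min εR εF) (K / M) with hεT
  have hεT0 : 0 < εT := by rw [hεT]; positivity
  obtain ⟨δR, hδR, hR⟩ := hR εT hεT0 ((min_le_left _ _).trans (min_le_left _ _))
  obtain ⟨δP, hδP, hP⟩ := hP d (max 1 K') εT (le_max_left _ _) hεT0
  set δ := min (min δR δP) δF with hδ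
  have hδ0 : 0 < δ := by rw [hδ]; positivity
  obtain ⟨CR, hCR, hR⟩ := hR δ hδ0 ((min_le_left _ _).trans (min_le_left _ _))
  obtain ⟨η, hη, hP⟩ := hP δ hδ0 ((min_le_left _ _).trans (min_le_right _ _))
  obtain ⟨θa, Cc, hθa, hCc, hCh⟩ := hCh m cT hcT
  obtain ⟨Ct, P, hCt, hP1, hT⟩ := hT M (one_le_pow₀ one_le_two)
  obtain ⟨p, hp⟩ := pow_unbounded_of_one_lt (4 * P) (one_lt_two : (1 : ℝ) < 2)
  obtain ⟨Ca, hCa, hAl'⟩ := hAl d ((2 : ℝ) ^ p) cT (one_le_pow₀ one_le_two) hcT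
  set κ := min κR (1 / (6 * 8 ^ d)) with hκ
  have hκ0 : 0 < κ := by rw [hκ]; positivity
  have hκ1 : κ ≤ 1 := (min_le_right _ _).trans (by
    rw [div_le_one (by positivity)]
    linarith [one_le_pow₀ (M₀ := ℝ) (show (1 : ℝ) ≤ 8 by norm_num) (n := d)])
  set e₀ : Pt d := EuclideanSpace.single (⟨0, by omega⟩ : Fin d) (1 : ℝ) with he₀d
  have he₀ : ‖e₀‖ = 1 := by rw [he₀d, PiLp.norm_single, norm_one]
  obtain ⟨C1, hC1, hs1⟩ := sum_topV hE d m
  obtain ⟨C2, hC2, hs2⟩ := sum_topV hE d (m + 2)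
  obtain ⟨C3, hC3, hs3⟩ := sum_topV hE d (m + p)
  obtain ⟨C4, hC4, hs4⟩ := sum_linV hE d hlam 8
  obtain ⟨C5, hC5, hs5⟩ := sum_angV hE d hd hlam hθa
  obtain ⟨C6, hC6, hs6⟩ := sum_zetaV hE hCG hAl d e₀ hlam hε hε1 hθ hc₀
  have hu := unitVol_pos (d := d)
  set Cg := CR + Cc + Ct * Ca with hCg
  have hCg0 : 0 < Cg := by positivity
  set CT := 3 / η + CR + 2 * Cg / unitVol d + (C1 + C2 + C3 + C4 + C5 + C6) + 1 with hCT
  have hCTp : 0 ≤ 3 / η ∧ 0 ≤ 2 * Cg / unitVol d := ⟨by positivity, by positivity⟩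
  have hlamK := lam_le hd hC₀.le (le_max_right K₀ ((4 * (C₀ + 2)) ^ 2))
  rw [← hK] at hlamK
  have htiltC := fun {A : Set (Pt d)} (hA : MeasurableSet A) {r ρ : ℝ} {c q n ν : Pt d}
      (hr : 0 < r) (hρ : r ≤ ρ) (hρ' : ρ ≤ 2 * r) =>
    tilt_charge hT hAl' hd (by linarith) hθ₀ hCν.le hCq.le hCt.le (one_le_pow₀ one_le_two) hP1 hp.le
      hm4 hm5 hm7 hA hr hρ hρ' (c := c) (q := q) (n := n) (ν := ν)
  refine ⟨K, κ, CT, fun A k z => topV m A k z + topV (m + p) A k z + (linV lam 8 A k z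
    + angV lam θa A k z + zetaV e₀ lam ε θ c₀ A k z + topV (m + 2) A k z),
    hK2, hκ0, by positivity, ?_, ?_⟩
  · intro A hA hAv
    simp only [ENNReal.tsum_add]
    refine (add_le_add (add_le_add (hs1 A hA hAv) (hs3 A hA hAv)) (add_le_add (add_le_add
      (add_le_add (hs4 A hA hAv) (hs5 A hA hAv)) (hs6 A hA hAv)) (hs2 A hA hAv))).trans ?_
    simp only [← add_mul]
    refine mul_le_mul' ?_ le_rfl
    rw [← ENNReal.ofReal_add hC1 hC3, ← ENNReal.ofReal_add hC4 hC5,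
      ← ENNReal.ofReal_add (add_nonneg hC4 hC5) hC6,
      ← ENNReal.ofReal_add (add_nonneg (add_nonneg hC4 hC5) hC6) hC2,
      ← ENNReal.ofReal_add (add_nonneg hC1 hC3)
        (add_nonneg (add_nonneg (add_nonneg hC4 hC5) hC6) hC2)]
    refine ENNReal.ofReal_le_ofReal ?_
    rw [hCT]
    linarith [hCTp.1, hCTp.2]
  intro k z c ρ hcl 𝒜 hmeas hch
  set r := (2 : ℝ) ^ k with hr
  have hr0 : 0 < r := by positivity
  set q := classPt k z with hq
  obtain ⟨hρ, hρ', hcq⟩ := hcl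
  have hcq : ‖c - q‖ ≤ r / 100 := hcq.trans (le_of_eq (by rw [tau, hr]; field_simp))
  have eMr : (2 : ℝ) ^ (k + (m : ℤ)) = M * r := by
    rw [zpow_add₀ (by norm_num), zpow_natCast, hM, hr]; ring
  set kind := {A ∈ 𝒜 | cT ≤ M * r * ‖gradInd A (M * r) q‖ ∧
    ∃ b : ℝ, |b| ≤ 10 * K * r ∧ ProfileAt A (cellDir A (M * r) q e₀) (M * r) q 1 εT δ b} with hkind
  obtain ⟨ν, hν, hνA⟩ := hdir e₀ he₀ K M εT δ (by linarith) (by linarith) hm3.le hεT0.le
    (min_le_right _ _) hδ0 r ρ c q hr0 (by linarith) hρ'.le (by linarith) kind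
    (hch.mono (sep_subset _ _))
    (fun A hA => ⟨hmeas A hA.1, cellDir_aligned _ _ _ he₀, hA.2⟩)
  refine ⟨ν, hν, fun A hA => ?_⟩
  have hAm := hmeas A hA
  set n := cellDir A (M * r) q e₀ with hn
  have hal : Aligned A n (M * r) q := cellDir_aligned _ _ _ he₀
  have hw : wsum A n (M * r) q = topV m A k z := by
    rw [topV, eMr, wsum_eq_wexc excessBasics hAm (by positivity) hal]
  set V := topV m A k z + topV (m + p) A k z + (linV lam 8 A k z + angV lam θa A k z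
    + zetaV e₀ lam ε θ c₀ A k z + topV (m + 2) A k z) with hV
  show _ ≤ ENNReal.ofReal CT * V
  have hVtop : topV m A k z ≤ V := le_trans le_self_add le_self_add
  have hVp : topV (m + p) A k z ≤ V := le_trans le_add_self le_self_add
  have hVc : linV lam 8 A k z + angV lam θa A k z + zetaV e₀ lam ε θ c₀ A k z
    + topV (m + 2) A k z ≤ V := le_add_self
  rcases eq_or_ne V ∞ with hVi | hVi
  · rw [hVi, ENNReal.mul_top]
    · exact le_top
    · rw [ne_eq, ENNReal.ofReal_eq_zero, not_le]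
      positivity
  have hv : ENNReal.ofReal V.toReal = V := ENNReal.ofReal_toReal hVi
  have hv0 : 0 ≤ V.toReal := ENNReal.toReal_nonneg
  have finish : ∀ {a b : ℝ}, a ≤ b * V.toReal → 0 ≤ b → b ≤ CT →
      ENNReal.ofReal a ≤ ENNReal.ofReal CT * V := by
    intro a b h1 h2 h3
    refine (ENNReal.ofReal_le_ofReal h1).trans ?_
    rw [ENNReal.ofReal_mul h2, hv]
    exact mul_le_mul' (ENNReal.ofReal_le_ofReal h3) le_rfl
  have hwtop : topV m A k z ≠ ∞ := ne_top_of_le_ne_top hVi hVtop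
  set E := (topV m A k z).toReal with hEdef
  have hEV : E ≤ V.toReal := ENNReal.toReal_mono hVi hVtop
  have hrd : 0 < r ^ (d - 1) := by positivity
  have hMr : 0 < M * r := by positivity
  -- a cell with a large excess
  by_cases hbig : η * (M * r) ^ (d - 1) < E
  · refine finish (b := 3 / η) ?_ (by positivity) (by rw [hCT]; linarith [hCTp.2])
    have h1 : r ^ (d - 1) ≤ (M * r) ^ (d - 1) :=
      pow_le_pow_left₀ hr0.le (le_mul_of_one_le_left hr0.le (one_le_pow₀ one_le_two)) _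
    calc r ^ (d - 1) * (layX A K ν c ρ + κ * layOsc A K ν c ρ q r) ≤ r ^ (d - 1) * 3 :=
          mul_le_mul_of_nonneg_left (layer_trivial A K ν c ρ q r hκ0.le hκ1) hrd.le
      _ ≤ 3 / η * (η * (M * r) ^ (d - 1)) := by
          rw [show 3 / η * (η * (M * r) ^ (d - 1)) = 3 * (M * r) ^ (d - 1) by field_simp]
          linarith
      _ ≤ 3 / η * V.toReal := by
          gcongr
          linarith
  -- a profile
  obtain ⟨b, hb⟩ := hP A hAm n (M * r) q hMr hal (by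
    rw [hw, ← ENNReal.ofReal_toReal hwtop]
    exact ENNReal.ofReal_le_ofReal (not_lt.1 hbig))
  have hb1 : ProfileAt A n (M * r) q 1 εT δ b := fun y hy =>
    hb y (Metric.closedBall_subset_closedBall (by gcongr; exact le_max_left _ _) hy)
  have hwr : wsum A n (M * r) q ≤ ENNReal.ofReal (E / r ^ (d - 1) * r ^ (d - 1)) := by
    rw [hw, div_mul_cancel₀ _ hrd.ne', ENNReal.ofReal_toReal hwtop]
  obtain ⟨hRout, hRin⟩ := hR A hAm r ρ b (E / r ^ (d - 1)) q c n ν hr0 hρ hρ'.le hcq hal.1 hν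
    (by positivity) hwr hb1
  have hreg : layX A K ν c ρ + κR * layOsc A K ν c ρ q r ≤ CR * (E / r ^ (d - 1)) →
      ENNReal.ofReal (r ^ (d - 1) * (layX A K ν c ρ + κ * layOsc A K ν c ρ q r))
        ≤ ENNReal.ofReal CT * V := by
    intro h
    refine finish (b := CR) ?_ hCR.le (by rw [hCT]; linarith [hCTp.1, hCTp.2])
    have ho : 0 ≤ layOsc A K ν c ρ q r := by unfold layOsc; positivity
    calc r ^ (d - 1) * (layX A K ν c ρ + κ * layOsc A K ν c ρ q r)
        ≤ r ^ (d - 1) * (CR * (E / r ^ (d - 1))) := by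
          gcongr
          refine le_trans ?_ h
          gcongr
          exact min_le_left _ _
      _ = CR * E := by field_simp
      _ ≤ CR * V.toReal := by gcongr
  rcases lt_or_ge (10 * K * r) |b| with hbout | hbin
  · exact hreg (hRout hbout)
  have hflux : cT ≤ M * r * ‖gradInd A (M * r) q‖ := by
    rw [← hal.2]
    refine hX A hAm n (M * r) δ b q hMr hal.1 hδ0 (min_le_right _ _)
      (hbin.trans ?_) fun y hy => ?_
    · rw [one_mul]
      exact mul_le_mul_of_nonneg_right (by linarith) hr0.le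
    obtain ⟨g1, g2⟩ := hb y (Metric.closedBall_subset_closedBall (by gcongr; exact le_max_right _ _) hy)
    have e1 : εT ≤ εF := (min_le_left _ _).trans (min_le_right _ _)
    have e2 : εT * (M * r) ≤ εF * (M * r) := by gcongr
    exact ⟨fun h => le_trans (by linarith) (g1 (le_trans (by linarith) h)),
      fun h => le_trans (g2 (h.trans (by linarith))) e1⟩
  obtain ⟨hnν, hna⟩ := hνA A ⟨hA, hflux, b, hbin, hb1⟩
  rw [← hn] at hnν hna
  obtain ⟨hRfar, hRhigh⟩ := hRin hnν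
  rcases lt_or_ge (t * r) |b - ⟪botPt ν c ρ - q, n⟫| with hfar | hclose
  · exact hreg (hRfar hfar)
  -- the crescent
  have hhigh : volume (Aᶜ ∩ Metric.ball (bigCtr K ν c ρ) (K * ρ) ∩
      {y | 2 * t * r < ⟪y - botPt ν c ρ, n⟫}) ≤ ENNReal.ofReal (CR * r) * V := by
    rw [← ENNReal.ofReal_toReal (measure_ne_top_of_subset
      (inter_subset_left.trans inter_subset_right) measure_ball_lt_top.ne)]
    refine (ENNReal.ofReal_le_ofReal (hRhigh hclose)).trans ?_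
    rw [← hv, ← ENNReal.ofReal_mul (by positivity)]
    refine ENNReal.ofReal_le_ofReal ?_
    obtain ⟨D, hD⟩ : ∃ D, d = D + 1 := ⟨d - 1, by omega⟩
    calc CR * (E / r ^ (d - 1)) * r ^ d = CR * r * E := by
          rw [show r ^ d = r ^ (d - 1) * r by rw [← pow_succ]; congr 1; omega]
          field_simp
      _ ≤ _ := by gcongr
  have hp' : (2 : ℝ) ^ (k + ((m + p : ℕ) : ℤ)) = (2 : ℝ) ^ p * (M * r) := by
    rw [zpow_add₀ (by norm_num), zpow_natCast, pow_add, hM, hr]; ring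
  have hPV : wexc A ((2 : ℝ) ^ p * (M * r)) q ≤ V := le_trans (le_of_eq (by rw [topV, hp'])) hVp
  have htilt := htiltC hAm hr0 hρ hρ'.le hcq hν hal hflux hnν hna
  have hlow := hCh e₀ he₀ A hAm k z c ρ ν hρ hρ'.le hcq hν (by rw [eMr]; exact hflux)
  rw [eMr] at hlow
  have htK : 4 * K * (100 * K / M) ≤ 2 * t := by
    rw [← mul_div_assoc, div_le_iff₀ hM0]
    rw [div_lt_iff₀ ht0] at hm6
    linarith
  have hgain := gain_bound hν (by linarith) hr0 hρ hρ'.le hnν htK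
    ((min_le_right _ _).trans (min_le_left _ _)) hC₀.le hCR.le (mul_nonneg hCt.le hCa.le) hCc.le
    (by positivity) (low_radius_le (k := k) hK2 ((min_le_right _ _).trans (min_le_right _ _))) hhigh
    (htilt.trans (add_le_add le_rfl (mul_le_mul' le_rfl hPV)))
    (hlow.trans (add_le_add le_rfl (mul_le_mul' le_rfl hVc))) hv
  exact finish (layer_gain hAm (by omega) (by linarith) (by positivity) hlamK hκ0.le
    (min_le_right _ _) hCg0.le hr0 hρ hρ'.le hcq hv0 hgain) hCTp.2 (by rw [hCT]; linarith [hCTp.1])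

/-- the local inequality from its pieces. -/
theorem localIneq_of (hE : ExcessSum) (hCG : ChainGauss) (hAl : AlignLemma) (hR : RegimeLemma)
    (hSh : ShellLemma) (hF : FlatCellLemma) (hT : TiltLemma) (hP : CellProfile) (hX : CellFlux) :
    LocalIneq := by
  intro d hd
  obtain ⟨K, κ, C, V, hK, hκ, hC, hsum, hlay⟩ := layer_local hE hCG hAl hR hSh hF hT hP hX hd
  refine ⟨C / κ * C, fun A k z => ENNReal.ofReal (C / (κ * ((2 : ℝ) ^ k) ^ (d - 1))) * V A k z,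
    by positivity, ?_, ?_⟩
  · intro A hA hAv
    calc ∑' (k : ℤ) (z : Fin d → ℤ), ENNReal.ofReal (((2 : ℝ) ^ k) ^ (d - 1)) *
          (ENNReal.ofReal (C / (κ * ((2 : ℝ) ^ k) ^ (d - 1))) * V A k z)
        = ENNReal.ofReal (C / κ) * ∑' (k : ℤ) (z : Fin d → ℤ), V A k z := by
          rw [← ENNReal.tsum_mul_left]
          refine tsum_congr fun k => ?_
          rw [← ENNReal.tsum_mul_left]
          refine tsum_congr fun z => ?_
          rw [← mul_assoc, ← ENNReal.ofReal_mul (by positivity)]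
          congr 2
          field_simp
      _ ≤ _ := by
          rw [ENNReal.ofReal_mul (by positivity), mul_assoc]
          exact mul_le_mul' le_rfl (hsum A hA hAv)
  intro f hfm hf hf0 k z c ρ hcl
  have hρ0 : 0 < ρ := (by positivity : (0 : ℝ) < (2 : ℝ) ^ k).trans_le hcl.1
  set q := classPt k z with hq
  set r := (2 : ℝ) ^ k with hr
  have hr0 : 0 < r := by positivity
  set 𝒜 : Set (Set (Pt d)) := (fun s : ℝ => {x | s < f x}) '' Ioi 0 with h𝒜
  obtain ⟨ν, hν, hall⟩ := hlay k z c ρ hcl 𝒜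
    (by rintro _ ⟨s, -, rfl⟩; exact measurableSet_lt measurable_const hfm)
    (by
      rintro _ ⟨s, -, rfl⟩ _ ⟨u, -, rfl⟩ -
      rcases le_total s u with h | h
      · exact Or.inr fun x hx => lt_of_le_of_lt h hx
      · exact Or.inl fun x hx => lt_of_le_of_lt h hx)
  refine ⟨bigCtr K ν c ρ, K * ρ, ?_, mul_le_mul_of_nonneg_right hK hρ0.le, fun hlt => ?_⟩
  · refine Metric.ball_subset_ball' ?_
    rw [dist_eq_norm, show c - bigCtr K ν c ρ = -(((K - 1) * ρ) • ν) by simp only [bigCtr]; module,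
      norm_neg, norm_smul, hν, mul_one, Real.norm_eq_abs,
      abs_of_nonneg (mul_nonneg (by linarith) hρ0.le)]
    linarith
  set eB := fun s : ℝ => efrac {x | s < f x} c ρ with heB
  set eB' := fun s : ℝ => efrac {x | s < f x} (bigCtr K ν c ρ) (K * ρ) with heB'
  set eS := fun s : ℝ => efrac {x | s < f x} q (r / 4) with heS
  obtain ⟨iB, vB⟩ := efrac_cake hfm hf hf0 c hρ0
  obtain ⟨iB', vB'⟩ := efrac_cake hfm hf hf0 (bigCtr K ν c ρ) (by positivity : 0 < K * ρ)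
  obtain ⟨iS, vS⟩ := efrac_cake hfm hf hf0 q (by positivity : (0 : ℝ) < r / 4)
  set O := fun s : ℝ => |eB s - eS s| + |eB' s - eS s| with hO
  have iX : IntegrableOn (fun s => eB s - eB' s) (Ioi 0) := Integrable.sub iB iB'
  have iO : IntegrableOn O (Ioi 0) :=
    Integrable.add (Integrable.sub iB iS).abs (Integrable.sub iB' iS).abs
  have iT : IntegrableOn (fun s => eB s - eB' s + κ * O s) (Ioi 0) :=
    Integrable.add iX (Integrable.const_mul iO κ)
  set a := |bavg f c ρ - bavg f q (r / 4)| + |bavg f (bigCtr K ν c ρ) (K * ρ) - bavg f q (r / 4)|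
    with ha
  have h1 : κ * a ≤ ∫ s in Ioi (0 : ℝ), (eB s - eB' s + κ * O s) := by
    rw [integral_add iX (Integrable.const_mul iO κ), integral_const_mul, integral_sub iB iB', vB, vB']
    have h2 : a ≤ ∫ s in Ioi (0 : ℝ), O s := by
      have j1 : IntegrableOn (fun s => |eB s - eS s|) (Ioi 0) := (Integrable.sub iB iS).abs
      have j2 : IntegrableOn (fun s => |eB' s - eS s|) (Ioi 0) := (Integrable.sub iB' iS).abs
      rw [ha, hO]
      beta_reduce
      rw [integral_add j1 j2]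
      refine add_le_add ?_ ?_
      · rw [← vB, ← vS, ← integral_sub iB iS]
        exact abs_integral_le_integral_abs
      · rw [← vB', ← vS, ← integral_sub iB' iS]
        exact abs_integral_le_integral_abs
    have := mul_le_mul_of_nonneg_left h2 hκ.le
    linarith
  have h3 : ENNReal.ofReal (κ * a) ≤
      ∫⁻ s in Ioi (0 : ℝ), ENNReal.ofReal (C / r ^ (d - 1)) * V {x | s < f x} k z := by
    refine (ENNReal.ofReal_le_ofReal (h1.trans (integral_mono iT iT.pos_part fun s => le_max_left _ _))).trans ?_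
    rw [ofReal_integral_eq_lintegral_ofReal iT.pos_part (ae_of_all _ fun s => le_max_right _ _)]
    refine setLIntegral_mono' measurableSet_Ioi fun s hs => ?_
    have h4 := hall _ (mem_image_of_mem _ hs)
    rw [ENNReal.ofReal_mul (by positivity)] at h4
    have e : ENNReal.ofReal (max (eB s - eB' s + κ * O s) 0) =
        ENNReal.ofReal (eB s - eB' s + κ * O s) := by
      rcases le_total (eB s - eB' s + κ * O s) 0 with h | h
      · rw [max_eq_right h, ENNReal.ofReal_zero, ENNReal.ofReal_eq_zero.2 h]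
      · rw [max_eq_left h]
    rw [e]
    have hrp : (0 : ℝ) < r ^ (d - 1) := by positivity
    have e2 : ENNReal.ofReal (C / r ^ (d - 1)) = ENNReal.ofReal (1 / r ^ (d - 1)) * ENNReal.ofReal C := by
      rw [← ENNReal.ofReal_mul (by positivity)]; congr 1; ring
    rw [e2, mul_assoc]
    refine le_trans (le_of_eq ?_) (mul_le_mul' le_rfl h4)
    rw [← mul_assoc, ← ENNReal.ofReal_mul (by positivity), one_div, inv_mul_cancel₀ hrp.ne',
      ENNReal.ofReal_one, one_mul]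
    rfl
  calc ENNReal.ofReal a = ENNReal.ofReal (1 / κ) * ENNReal.ofReal (κ * a) := by
        rw [← ENNReal.ofReal_mul (by positivity), ← mul_assoc, one_div, inv_mul_cancel₀ hκ.ne',
          one_mul]
    _ ≤ ENNReal.ofReal (1 / κ) *
          ∫⁻ s in Ioi (0 : ℝ), ENNReal.ofReal (C / r ^ (d - 1)) * V {x | s < f x} k z :=
        mul_le_mul' le_rfl h3
    _ = _ := by
        rw [← lintegral_const_mul' _ _ ENNReal.ofReal_ne_top]
        refine setLIntegral_congr_fun measurableSet_Ioi fun s _ => ?_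
        rw [← mul_assoc, ← ENNReal.ofReal_mul (by positivity)]
        congr 2
        rw [hr]
        field_simp

/-- the local inequality. -/
theorem localIneq : LocalIneq :=
  have hCG : ChainGauss := chainGauss smoothBasics smoothConv smoothLimit lineFubini gaussDom excessBasics
  localIneq_of excessSum hCG alignLemma (regimeLemma vertLemma) (shellLemma lineFubini columnMin)
    (flatCellLemma lineFubini smoothBasics vertLemma) (tiltLemma lineFubini hCG columnMin)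
    (cellProfile smoothBasics smoothConv gaussDom stepVol smoothLimit lineFubini)
    (cellFlux smoothBasics smoothConv lineFubini)

end Vale.Agent.P137
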