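import Vale.Agent.P137.LocalSum
import Vale.Agent.P137.Gauss

/-! # P137, module F: the chain of cells below the bottom point of a ball -/

namespace Vale.Agent.P137

open MeasureTheory Set Filter Topology
open scoped RealInnerProductSpace ENNReal

variable {d : ℕ}

theorem cellDir_aligned (A : Set (Pt d)) (S : ℝ) (c : Pt d) {e : Pt d} (he : ‖e‖ = 1) :
    Aligned A (cellDir A S c e) S c := by
  unfold cellDir
  by_cases hg : gradInd A S c = 0
  · rw [if_pos hg]
    exact ⟨he, by simp [hg]⟩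
  · rw [if_neg hg]
    have hne := norm_ne_zero_iff.2 hg
    refine ⟨by rw [norm_smul, norm_inv, norm_norm, inv_mul_cancel₀ hne], ?_⟩
    rw [real_inner_smul_right, real_inner_self_eq_norm_sq]
    field_simp

/-- horizontal distance from the bottom point. -/
noncomputable def wDist (ν c : Pt d) (ρ : ℝ) (y : Pt d) : ℝ :=
  ‖linePt ν y 0 - linePt ν (botPt ν c ρ) 0‖

theorem wDist_nonneg (ν c : Pt d) (ρ : ℝ) (y : Pt d) : 0 ≤ wDist ν c ρ y := norm_nonneg _

theorem continuous_wDist (ν c : Pt d) (ρ : ℝ) : Continuous (wDist ν c ρ) :=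
  ((continuous_linePt ν 0).sub continuous_const).norm

theorem volume_crescent_wDist_le (hd : 1 ≤ d) {K r ρ R : ℝ} {ν c : Pt d} (hν : ‖ν‖ = 1)
    (hr : 0 < r) (hρ : r ≤ ρ) (hR : 0 < R) (S : Set (Pt d))
    (hS : ∀ y ∈ S, y ∈ crescent K ν c ρ ∧ wDist ν c ρ y ≤ R) :
    volume S ≤ ENNReal.ofReal (2 ^ d * unitVol d * R ^ (d + 1) / r) := by
  refine (measure_mono (μ := volume) fun y hy => ?_).trans
    ((volume_crescent_le lineFubini hν hd (hr.trans_le hρ) hR (K := K) (c := c)).trans ?_)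
  · exact ⟨(hS y hy).1, (hS y hy).2⟩
  · refine ENNReal.ofReal_le_ofReal ?_
    have := unitVol_pos (d := d)
    gcongr

theorem volume_crescent_line (hd : 1 ≤ d) {K r ρ : ℝ} {ν c : Pt d} (hν : ‖ν‖ = 1) (hr : 0 < r)
    (hρ : r ≤ ρ) (S : Set (Pt d)) (hS : ∀ y ∈ S, y ∈ crescent K ν c ρ ∧ wDist ν c ρ y ≤ 0) :
    volume S = 0 := by
  refine le_antisymm ?_ zero_le
  have h : Tendsto (fun R : ℝ => ENNReal.ofReal (2 ^ d * unitVol d * R ^ (d + 1) / r))
      (𝓝[>] 0) (𝓝 0) := by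
    have h0 : Continuous fun R : ℝ => ENNReal.ofReal (2 ^ d * unitVol d * R ^ (d + 1) / r) :=
      ENNReal.continuous_ofReal.comp (by fun_prop)
    have := h0.tendsto 0
    simp only [ne_eq, Nat.succ_ne_zero, not_false_eq_true, zero_pow, mul_zero, zero_div,
      ENNReal.ofReal_zero] at this
    exact this.mono_left nhdsWithin_le_nhds
  exact ge_of_tendsto h (eventually_nhdsWithin_of_forall fun R hR =>
    volume_crescent_wDist_le hd hν hr hρ hR S
      fun y hy => ⟨(hS y hy).1, (hS y hy).2.trans (le_of_lt hR)⟩)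

/-- a cell with small excess and small flux sees a nearly constant layer. -/
theorem cell_flat (hP : CellProfile) (hX : CellFlux) (hF : FlatCellLemma) {d : ℕ} (hd : 2 ≤ d)
    {K : ℝ} (hK : 2 ≤ K) : ∃ η c₀ C : ℝ, 0 < η ∧ 0 < c₀ ∧ 0 < C ∧
    ∀ (A : Set (Pt d)), MeasurableSet A → ∀ (r ρ S : ℝ) (c q n ν : Pt d),
    0 < r → r ≤ ρ → ρ ≤ 2 * r → 0 < S → S ≤ r → ‖ν‖ = 1 → Aligned A n S q →
    ‖q - botPt ν c ρ‖ ≤ S / 100 → wsum A n S q ≤ ENNReal.ofReal (η * S ^ (d - 1)) →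
    S * ‖gradInd A S q‖ < c₀ →
    volume (Aᶜ ∩ crescent K ν c ρ ∩ {y | wDist ν c ρ y ≤ S / 4}) ≤
      ENNReal.ofReal (C * S / r) *
        volume (Aᶜ ∩ Metric.ball c ρ ∩ Metric.ball (botPt ν c ρ) S)
      + ENNReal.ofReal (C * S) * wsum A n S q := by
  obtain ⟨η₀, C, hη₀, hC, hF⟩ := hF d hd K hK
  obtain ⟨δF, hδF, hF⟩ := hF η₀ hη₀ le_rfl
  obtain ⟨K', εX, c₀, δX, hK', hεX, hc₀, hδX, hX⟩ := hX d 2 (by norm_num)
  set εc := min (min εX η₀) 1 with hεc
  have hεc0 : 0 < εc := by rw [hεc]; positivity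
  obtain ⟨δP, hδP, hP⟩ := hP d K' εc (by linarith) hεc0
  set δ := min (min δF δX) δP with hδ
  have hδ0 : 0 < δ := by rw [hδ]; positivity
  obtain ⟨η, hη, hP⟩ := hP δ hδ0 (min_le_right _ _)
  refine ⟨min η η₀, c₀, C, lt_min hη hη₀, hc₀, hC, ?_⟩
  intro A hA r ρ S c q n ν hr hρ hρ' hS hSr hν hal hq hsmall hflux
  obtain ⟨b, hb⟩ := hP A hA n S q hS hal (hsmall.trans (ENNReal.ofReal_le_ofReal (by
    gcongr; exact min_le_left _ _)))
  have hbig : 2 * S < |b| := by
    by_contra hh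
    have := hX A hA n S δ b q hS hal.1 hδ0 ((min_le_left _ _).trans (min_le_right _ _))
      (not_lt.1 hh) (fun y hy => by
        obtain ⟨h1, h2⟩ := hb y hy
        have e1 : εc * S ≤ εX * S := by
          gcongr; exact (min_le_left _ _).trans (min_le_left _ _)
        have e2 : εc ≤ εX := (min_le_left _ _).trans (min_le_left _ _)
        exact ⟨fun h => le_trans (by linarith) (h1 (le_trans (by linarith) h)),
          fun h => le_trans (h2 (h.trans (by linarith))) e2⟩)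
    rw [hal.2] at this
    linarith
  refine hF δ hδ0 ((min_le_left _ _).trans (min_le_left _ _)) A hA r ρ S c q n ν hr hρ hρ' hS hSr
    hal.1 hν hq (hsmall.trans (ENNReal.ofReal_le_ofReal (by gcongr; exact min_le_right _ _))) ?_
  have hin : ∀ y ∈ Metric.closedBall q S, y ∈ Metric.closedBall q (K' * S) ∧
      |⟪y - q, n⟫| ≤ S := by
    intro y hy
    refine ⟨Metric.closedBall_subset_closedBall (le_mul_of_one_le_left hS.le (by linarith)) hy, ?_⟩
    rw [Metric.mem_closedBall, dist_eq_norm] at hy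
    refine (abs_real_inner_le_norm _ _).trans ?_
    rw [hal.1, mul_one]
    exact hy
  have hεS : εc * S ≤ S := mul_le_of_le_one_left hS.le (min_le_right _ _)
  have hεη : εc ≤ η₀ := (min_le_left _ _).trans (min_le_right _ _)
  rcases lt_abs.1 hbig with h | h
  · refine Or.inl fun y hy => ?_
    obtain ⟨hy1, hy2⟩ := hin y hy
    exact ((hb y hy1).2 (by linarith [(abs_le.1 hy2).2])).trans hεη
  · refine Or.inr fun y hy => ?_
    obtain ⟨hy1, hy2⟩ := hin y hy
    linarith [(hb y hy1).1 (by linarith [(abs_le.1 hy2).1])]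

/-- the annuli of the shells overlap at most four times. -/
theorem tsum_annuli_le {a : ℝ} (ha : 0 < a) {S : Set (Pt d)} (hS : MeasurableSet S)
    (w : Pt d → ℝ) (hw : Measurable w) :
    ∑' i : ℤ, volume (S ∩ {y | (2 : ℝ) ^ i / a / 4 ≤ w y ∧ w y ≤ 2 * (2 : ℝ) ^ i / a})
      ≤ 4 * volume S := by
  classical
  set T : ℤ → Set (Pt d) := fun i => {y | (2 : ℝ) ^ i / a / 4 ≤ w y ∧ w y ≤ 2 * (2 : ℝ) ^ i / a}
  have hT : ∀ i, MeasurableSet (T i) := fun i =>
    (measurableSet_le measurable_const hw).inter (measurableSet_le hw measurable_const)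
  have e : ∀ i, volume (S ∩ T i) = ∫⁻ y in S, (T i).indicator (fun _ => (1 : ℝ≥0∞)) y := by
    intro i
    rw [setLIntegral_indicator (hT i), setLIntegral_const, one_mul, inter_comm]
  calc ∑' i : ℤ, volume (S ∩ T i)
      = ∫⁻ y in S, ∑' i : ℤ, (T i).indicator (fun _ => (1 : ℝ≥0∞)) y := by
        simp only [e]
        exact (lintegral_tsum fun i => (measurable_const.indicator (hT i)).aemeasurable).symm
    _ ≤ ∫⁻ _ in S, (4 : ℝ≥0∞) := by
        refine lintegral_mono fun y => ?_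
        rcases le_or_gt (w y) 0 with h | h
        · have : ∀ i, y ∉ T i := fun i hi => by
            have h1 : 0 < (2 : ℝ) ^ i / a / 4 := by positivity
            linarith [hi.1]
          simp [this]
        · obtain ⟨N, hN1, hN2⟩ := exists_mem_Ico_zpow (show 0 < 4 * a * w y by positivity)
            (one_lt_two : (1 : ℝ) < 2)
          have hz : ∀ i, y ∈ T i → i ∈ Finset.Icc (N - 3) N := by
            intro i hi
            have h1 : (2 : ℝ) ^ i ≤ 4 * a * w y := by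
              have := hi.1
              rw [div_le_iff₀ (by norm_num), div_le_iff₀ ha] at this
              linarith
            have h2 : 4 * a * w y ≤ (2 : ℝ) ^ (i + 3) := by
              have := hi.2
              rw [le_div_iff₀ ha] at this
              rw [zpow_add₀ (by norm_num)]
              norm_num
              linarith
            have h3 := h1.trans_lt hN2
            have h4 := hN1.trans h2
            rw [zpow_lt_zpow_iff_right₀ one_lt_two] at h3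
            rw [zpow_le_zpow_iff_right₀ one_lt_two] at h4
            simp only [Finset.mem_Icc]
            omega
          rw [tsum_eq_sum (s := Finset.Icc (N - 3) N) fun i hi =>
            indicator_of_notMem (mt (hz i) hi) _]
          refine (Finset.sum_le_card_nsmul _ _ 1 fun i _ => indicator_le_self _ _ y).trans ?_
          rw [Int.card_Icc, show (N + 1 - (N - 3)).toNat = 4 by omega]
          simp
    _ = 4 * volume S := setLIntegral_const _ _

/-- the comparison constants used by the chain. -/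
def AlignConst (d : ℕ) (Ka c₀ Ca : ℝ) : Prop :=
  ∀ (A : Set (Pt d)), MeasurableSet A → ∀ (n : Pt d) (S S' : ℝ) (c c' c'' : Pt d),
  0 < S → S ≤ Ka * S' → S' ≤ Ka * S → ‖c - c'‖ ≤ Ka * S → ‖c'' - c'‖ ≤ Ka * S →
  Aligned A n S c → c₀ ≤ S * ‖gradInd A S c‖ → ∀ S'' : ℝ, 4 * S' ≤ S'' → 4 * S ≤ S'' →
  S'' ≤ Ka * S →
    wsum A n S' c' ≤ ENNReal.ofReal Ca * wexc A S'' c'' ∧
    ∀ N : Pt d, Aligned A N S'' c'' →
      ENNReal.ofReal (‖n - N‖ ^ 2 * S ^ (d - 1)) ≤ ENNReal.ofReal Ca * wexc A S'' c''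

/-- two directions compared through a common third one. -/
theorem dir_jump {S₁ Ca : ℝ} {n₁ n₂ N : Pt d} {S₂ : ℝ} {X : ℝ≥0∞} (h0 : 0 ≤ S₁)
    (h12 : S₁ ≤ S₂) (hCa : 0 ≤ Ca)
    (h1 : ENNReal.ofReal (‖n₁ - N‖ ^ 2 * S₁ ^ (d - 1)) ≤ ENNReal.ofReal Ca * X)
    (h2 : ENNReal.ofReal (‖n₂ - N‖ ^ 2 * S₂ ^ (d - 1)) ≤ ENNReal.ofReal Ca * X) :
    ENNReal.ofReal (‖n₁ - n₂‖ ^ 2 * S₁ ^ (d - 1)) ≤ ENNReal.ofReal (4 * Ca) * X := by
  have hsq : ‖n₁ - n₂‖ ^ 2 ≤ 2 * ‖n₁ - N‖ ^ 2 + 2 * ‖n₂ - N‖ ^ 2 := by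
    have := norm_sub_le_norm_sub_add_norm_sub n₁ N n₂
    rw [norm_sub_rev N n₂] at this
    nlinarith [norm_nonneg (n₁ - n₂), sq_nonneg (‖n₁ - N‖ - ‖n₂ - N‖)]
  have hp : S₁ ^ (d - 1) ≤ S₂ ^ (d - 1) := pow_le_pow_left₀ h0 h12 _
  calc ENNReal.ofReal (‖n₁ - n₂‖ ^ 2 * S₁ ^ (d - 1))
      ≤ ENNReal.ofReal (2 * (‖n₁ - N‖ ^ 2 * S₁ ^ (d - 1)) + 2 * (‖n₂ - N‖ ^ 2 * S₂ ^ (d - 1))) := by
        refine ENNReal.ofReal_le_ofReal ?_
        calc ‖n₁ - n₂‖ ^ 2 * S₁ ^ (d - 1)
            ≤ (2 * ‖n₁ - N‖ ^ 2 + 2 * ‖n₂ - N‖ ^ 2) * S₁ ^ (d - 1) := by gcongr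
          _ ≤ _ := by nlinarith [mul_le_mul_of_nonneg_left hp (sq_nonneg ‖n₂ - N‖)]
    _ ≤ ENNReal.ofReal 2 * (ENNReal.ofReal Ca * X) + ENNReal.ofReal 2 * (ENNReal.ofReal Ca * X) := by
        refine ENNReal.ofReal_add_le.trans ?_
        rw [ENNReal.ofReal_mul zero_le_two, ENNReal.ofReal_mul zero_le_two]
        gcongr
    _ = _ := by
        rw [← add_mul, ← ENNReal.ofReal_add zero_le_two zero_le_two, ← mul_assoc,
          ← ENNReal.ofReal_mul (by norm_num)]
        norm_num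

/-- small steps add up to a small total. -/
theorem chain_dist_le (n : ℤ → Pt d) (i : ℤ) (N : ℕ) {b : ℝ} (hb : 0 ≤ b)
    (h : ∀ m : ℕ, m < N → ‖n (i + m) - n (i + m + 1)‖ ≤ b * (5 / 6) ^ m) :
    ‖n i - n (i + N)‖ ≤ 6 * b := by
  have key : ∀ M : ℕ, M ≤ N → ‖n i - n (i + M)‖ ≤ 6 * b * (1 - (5 / 6 : ℝ) ^ M) := by
    intro M
    induction M with
    | zero => simp
    | succ M ih =>
      intro hM
      have h1 := ih (by omega)
      have h2 := h M (by omega)
      have e : i + ((M + 1 : ℕ) : ℤ) = i + M + 1 := by push_cast; ring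
      rw [e, pow_succ]
      have := norm_sub_le_norm_sub_add_norm_sub (n i) (n (i + M)) (n (i + M + 1))
      linarith
  refine (key N le_rfl).trans ?_
  have : (0 : ℝ) ≤ (5 / 6 : ℝ) ^ N := by positivity
  nlinarith

end Vale.Agent.P137
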