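import Vale.Agent.P137.LocalCells

/-! # P137, module F: the shells of the crescent against the cells below the class -/

namespace Vale.Agent.P137

open MeasureTheory Set Filter Topology
open scoped RealInnerProductSpace ENNReal

variable {d : ℕ}

/-- the chosen cell centre of scale `2 ^ e`. -/
noncomputable def cellPt (lam : ℝ) (cc : ℤ → Fin d → ℤ) (e : ℤ) : Pt d :=
  gridPt (lam * (2 : ℝ) ^ e) (cc e)

/-- a ball of a class with cells of every scale around its bottom point. -/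
structure CellCtx (A : Set (Pt d)) (k : ℤ) (z : Fin d → ℤ) (c : Pt d) (ρ : ℝ) (ν e₀ : Pt d)
    (lam ε : ℝ) (cc : ℤ → Fin d → ℤ) : Prop where
  meas : MeasurableSet A
  dim : 2 ≤ d
  unit₀ : ‖e₀‖ = 1
  unit : ‖ν‖ = 1
  le_rad : (2 : ℝ) ^ k ≤ ρ
  rad_le : ρ ≤ 2 * (2 : ℝ) ^ k
  ctr : ‖c - classPt k z‖ ≤ (2 : ℝ) ^ k / 100
  pos : 0 < ε
  le_one : ε ≤ 1
  cells : ∀ e, ‖cellPt lam cc e - botPt ν c ρ‖ ≤ ε ^ 2 / 100 * (2 : ℝ) ^ e

/-- the direction of a chosen cell. -/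
noncomputable def cellN (A : Set (Pt d)) (lam : ℝ) (cc : ℤ → Fin d → ℤ) (e₀ : Pt d) (e : ℤ) : Pt d :=
  cellDir A ((2 : ℝ) ^ e) (cellPt lam cc e) e₀

/-- excess attached to a chosen cell. -/
noncomputable def cellX (A : Set (Pt d)) (lam : ℝ) (cc : ℤ → Fin d → ℤ) (e : ℤ) : ℝ≥0∞ :=
  wexc A ((2 : ℝ) ^ e) (cellPt lam cc e)

/-- small excess and a definite flux. -/
def GoodCell (A : Set (Pt d)) (lam η c₀ : ℝ) (cc : ℤ → Fin d → ℤ) (e : ℤ) : Prop :=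
  cellX A lam cc e ≤ ENNReal.ofReal (η * ((2 : ℝ) ^ e) ^ (d - 1)) ∧
    c₀ ≤ (2 : ℝ) ^ e * ‖gradInd A ((2 : ℝ) ^ e) (cellPt lam cc e)‖

variable {A : Set (Pt d)} {k : ℤ} {z : Fin d → ℤ} {c : Pt d} {ρ : ℝ} {ν e₀ : Pt d} {lam ε : ℝ}
  {cc : ℤ → Fin d → ℤ}

namespace CellCtx

theorem close (h : CellCtx A k z c ρ ν e₀ lam ε cc) (e : ℤ) :
    ‖cellPt lam cc e - botPt ν c ρ‖ ≤ (2 : ℝ) ^ e / 100 := by
  refine (h.cells e).trans ?_
  have h1 : ε ^ 2 ≤ 1 := pow_le_one₀ h.pos.le h.le_one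
  have : (0 : ℝ) < (2 : ℝ) ^ e := by positivity
  nlinarith

theorem close_pair (h : CellCtx A k z c ρ ν e₀ lam ε cc) (e e' : ℤ) :
    ‖cellPt lam cc e - cellPt lam cc e'‖ ≤ (2 : ℝ) ^ e / 100 + (2 : ℝ) ^ e' / 100 := by
  have h1 := norm_sub_le_norm_sub_add_norm_sub (cellPt lam cc e) (botPt ν c ρ) (cellPt lam cc e')
  rw [norm_sub_rev (botPt ν c ρ) (cellPt lam cc e')] at h1
  linarith [h.close e, h.close e']

theorem bot_near (h : CellCtx A k z c ρ ν e₀ lam ε cc) :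
    ‖botPt ν c ρ - classPt k z‖ ≤ 3 * (2 : ℝ) ^ k := by
  rw [botPt, sub_right_comm]
  refine (norm_sub_le _ _).trans ?_
  have hk : (0 : ℝ) < (2 : ℝ) ^ k := by positivity
  rw [norm_smul, h.unit, mul_one, Real.norm_eq_abs, abs_of_pos (hk.trans_le h.le_rad)]
  linarith [h.ctr, h.rad_le]

theorem near (h : CellCtx A k z c ρ ν e₀ lam ε cc) {e : ℤ} (he : e ≤ k + 3) :
    Near k z (cellPt lam cc e) := by
  have h1 : (2 : ℝ) ^ e ≤ (2 : ℝ) ^ (k + 3) := zpow_le_zpow_right₀ one_le_two he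
  rw [zpow_add₀ (by norm_num), show (2 : ℝ) ^ (3 : ℤ) = 8 by norm_num] at h1
  show ‖_ - classPt k z‖ ≤ _
  linarith [norm_sub_le_norm_sub_add_norm_sub (cellPt lam cc e) (botPt ν c ρ) (classPt k z),
    h.close e, h.bot_near, (by positivity : (0 : ℝ) < (2 : ℝ) ^ k)]

theorem aligned (h : CellCtx A k z c ρ ν e₀ lam ε cc) (e : ℤ) :
    Aligned A (cellN A lam cc e₀ e) ((2 : ℝ) ^ e) (cellPt lam cc e) :=
  cellDir_aligned _ _ _ h.unit₀

theorem le_linV (h : CellCtx A k z c ρ ν e₀ lam ε cc) {e : ℤ} (he : e ≤ k + 3) :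
    ENNReal.ofReal ((2 : ℝ) ^ (e - k)) * cellX A lam cc e ≤ linV lam 8 A k z := by
  classical
  rw [linV]
  refine le_trans ?_ (ENNReal.le_tsum e)
  refine le_trans ?_ (ENNReal.le_tsum (cc e))
  rw [if_pos ⟨by omega, h.near he⟩]
  exact le_rfl

/-- volume of one shell. -/
theorem volume_shell (h : CellCtx A k z c ρ ν e₀ lam ε cc) (K : ℝ) (i : ℤ) :
    volume (Aᶜ ∩ shell K ν c ρ ((2 : ℝ) ^ i)) ≤ ENNReal.ofReal (2 ^ d * unitVol d * 2 ^ (d + 1) *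
      (2 : ℝ) ^ k * (((2 : ℝ) ^ (i - k)) ^ 2 * ((2 : ℝ) ^ i) ^ (d - 1))) := by
  obtain ⟨D, hD⟩ : ∃ D, d = D + 2 := ⟨d - 2, by have := h.dim; omega⟩
  refine (volume_crescent_wDist_le (by omega) h.unit (by positivity) h.le_rad
    (by positivity : (0 : ℝ) < 2 * (2 : ℝ) ^ i) _
    fun y hy => ⟨hy.2.1, hy.2.2.2.le⟩).trans (ENNReal.ofReal_le_ofReal (le_of_eq ?_))
  rw [zpow_sub₀ (by norm_num : (2 : ℝ) ≠ 0), mul_pow, show d - 1 = D + 1 by omega, hD]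
  field_simp
  ring

/-- everything below the highest bad cell. -/
theorem low_cells (h : CellCtx A k z c ρ ν e₀ lam ε cc) {K η c₀ Cf : ℝ} (hη : 0 < η) (hCf : 0 ≤ Cf)
    (hflat : ∀ (A : Set (Pt d)), MeasurableSet A → ∀ (r ρ S : ℝ) (c q n ν : Pt d),
      0 < r → r ≤ ρ → ρ ≤ 2 * r → 0 < S → S ≤ r → ‖ν‖ = 1 → Aligned A n S q →
      ‖q - botPt ν c ρ‖ ≤ S / 100 → wsum A n S q ≤ ENNReal.ofReal (η * S ^ (d - 1)) →
      S * ‖gradInd A S q‖ < c₀ →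
      volume (Aᶜ ∩ crescent K ν c ρ ∩ {y | wDist ν c ρ y ≤ S / 4}) ≤
        ENNReal.ofReal (Cf * S / r) *
          volume (Aᶜ ∩ Metric.ball c ρ ∩ Metric.ball (botPt ν c ρ) S)
        + ENNReal.ofReal (Cf * S) * wsum A n S q)
    {P₁ : ℕ} (hP₁ : Cf ≤ (2 : ℝ) ^ P₁) :
    ∃ L : Set (Pt d), volume L ≤ ENNReal.ofReal 1 * volume (Aᶜ ∩ Metric.ball c ρ)
        + ENNReal.ofReal ((2 ^ d * unitVol d / η + Cf) * (2 : ℝ) ^ k) * linV lam 8 A k z ∧
      ∀ i : ℤ, i + 4 ≤ k - (P₁ : ℤ) → Aᶜ ∩ shell K ν c ρ ((2 : ℝ) ^ i) ⊆ L ∨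
        ∀ e, i + 4 ≤ e → e ≤ k - (P₁ : ℤ) → GoodCell A lam η c₀ cc e := by
  classical
  by_cases hbad : ∃ e, e ≤ k - (P₁ : ℤ) ∧ ¬ GoodCell A lam η c₀ cc e
  swap
  · simp only [not_exists, not_and, not_not] at hbad
    exact ⟨∅, by simp, fun i _ => Or.inr fun e _ he => hbad e he⟩
  obtain ⟨J, ⟨hJ, hJbad⟩, hJmax⟩ := Int.exists_greatest_of_bdd
    (P := fun e => e ≤ k - (P₁ : ℤ) ∧ ¬ GoodCell A lam η c₀ cc e)
    ⟨k - (P₁ : ℤ), fun e he => he.1⟩ hbad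
  set r := (2 : ℝ) ^ k with hr
  have hr0 : 0 < r := by positivity
  set U := 2 ^ d * unitVol d with hU
  have hU0 : 0 < U := by have := unitVol_pos (d := d); rw [hU]; positivity
  refine ⟨Aᶜ ∩ crescent K ν c ρ ∩ {y | wDist ν c ρ y ≤ (2 : ℝ) ^ J / 4}, ?_, fun i _ => ?_⟩
  · have hS0 : (0 : ℝ) < (2 : ℝ) ^ J := by positivity
    have hSr : (2 : ℝ) ^ J ≤ r := zpow_le_zpow_right₀ one_le_two (by omega)
    have eJ : (2 : ℝ) ^ (J - k) = (2 : ℝ) ^ J / r := by rw [zpow_sub₀ (by norm_num), hr]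
    have hlin := h.le_linV (e := J) (by omega)
    rw [eJ] at hlin
    by_cases hX1 : cellX A lam cc J ≤ ENNReal.ofReal (η * ((2 : ℝ) ^ J) ^ (d - 1))
    · have hfl : (2 : ℝ) ^ J * ‖gradInd A ((2 : ℝ) ^ J) (cellPt lam cc J)‖ < c₀ :=
        not_le.1 fun h' => hJbad ⟨hX1, h'⟩
      have hw := wsum_eq_wexc excessBasics h.meas hS0 (h.aligned J)
      refine (hflat A h.meas r ρ _ c _ _ ν hr0 h.le_rad h.rad_le hS0 hSr h.unit (h.aligned J)
        (h.close J) (hw.le.trans hX1) hfl).trans (add_le_add ?_ ?_)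
      · refine mul_le_mul' (ENNReal.ofReal_le_ofReal ?_) (measure_mono inter_subset_left)
        have h1 : (2 : ℝ) ^ J ≤ (2 : ℝ) ^ (k - (P₁ : ℤ)) := zpow_le_zpow_right₀ one_le_two hJ
        rw [zpow_sub₀ (by norm_num : (2 : ℝ) ≠ 0) k, zpow_natCast, ← hr,
          le_div_iff₀ (by positivity)] at h1
        rw [div_le_one hr0]
        calc Cf * (2 : ℝ) ^ J ≤ (2 : ℝ) ^ P₁ * (2 : ℝ) ^ J := by gcongr
          _ ≤ r := by linarith
      · rw [hw]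
        refine le_trans ?_ (mul_le_mul' le_rfl hlin)
        rw [← mul_assoc, ← ENNReal.ofReal_mul (by positivity)]
        refine mul_le_mul' (ENNReal.ofReal_le_ofReal ?_) le_rfl
        rw [mul_assoc (_ + _) r, mul_div_cancel₀ _ hr0.ne']
        gcongr
        exact le_add_of_nonneg_left (by positivity)
    · refine le_trans ?_ le_add_self
      refine (volume_crescent_wDist_le (by have := h.dim; omega) h.unit hr0 h.le_rad hS0 _
        fun y hy => ⟨hy.1.2, le_trans hy.2 (by linarith)⟩).trans ?_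
      refine le_trans ?_ (mul_le_mul' le_rfl hlin)
      rw [← mul_assoc, ← ENNReal.ofReal_mul (by positivity)]
      refine le_trans ?_ (mul_le_mul' le_rfl (not_le.1 hX1).le)
      rw [← ENNReal.ofReal_mul (by positivity), ← hU]
      refine ENNReal.ofReal_le_ofReal ?_
      obtain ⟨D, hD⟩ : ∃ D, d = D + 1 := ⟨d - 1, by have := h.dim; omega⟩
      calc U * ((2 : ℝ) ^ J) ^ (d + 1) / r
          = U / η * (2 : ℝ) ^ J * (η * ((2 : ℝ) ^ J) ^ (d - 1)) * ((2 : ℝ) ^ J / r) := by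
            rw [show d - 1 = D by omega, show d + 1 = D + 2 by omega]
            field_simp
            ring
        _ ≤ U / η * (2 : ℝ) ^ J * (η * ((2 : ℝ) ^ J) ^ (d - 1)) * 1 := by
            gcongr
            exact (div_le_one hr0).2 hSr
        _ ≤ (U / η + Cf) * (2 : ℝ) ^ J * (η * ((2 : ℝ) ^ J) ^ (d - 1)) := by
            rw [mul_one]
            gcongr
            linarith
        _ = _ := by rw [mul_assoc (_ + _) r, mul_div_cancel₀ _ hr0.ne']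
  · by_cases hi : i + 4 ≤ J
    · refine Or.inl fun y hy => ⟨⟨hy.1, hy.2.1⟩, ?_⟩
      have h1 : (2 : ℝ) ^ (i + 4) ≤ (2 : ℝ) ^ J := zpow_le_zpow_right₀ one_le_two hi
      rw [zpow_add₀ (by norm_num), show (2 : ℝ) ^ (4 : ℤ) = 16 by norm_num] at h1
      have h2 : wDist ν c ρ y < 2 * (2 : ℝ) ^ i := hy.2.2.2
      have h3 : (0 : ℝ) < (2 : ℝ) ^ i := by positivity
      show wDist ν c ρ y ≤ _
      linarith
    · refine Or.inr fun e he he' => ?_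
      by_contra hb
      have := hJmax e ⟨he', hb⟩
      omega

/-- the last cell compared with the class cell. -/
theorem top_jump (h : CellCtx A k z c ρ ν e₀ lam ε cc) (K : ℝ) {Ca cA : ℝ} (hCa : 0 < Ca)
    {m P₁ : ℕ} (hAl : AlignConst d ((2 : ℝ) ^ (m + P₁ + 8)) cA Ca)
    (hflux : cA ≤ (2 : ℝ) ^ (k - (P₁ : ℤ)) *
      ‖gradInd A ((2 : ℝ) ^ (k - (P₁ : ℤ))) (cellPt lam cc (k - (P₁ : ℤ)))‖)
    (hfT : cA ≤ (2 : ℝ) ^ (k + (m : ℤ)) * ‖gradInd A ((2 : ℝ) ^ (k + (m : ℤ))) (classPt k z)‖)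
    {i : ℤ} (hi : i ≤ k) (hjump : ε / 4 * (2 : ℝ) ^ (i - k) <
      ‖cellN A lam cc e₀ (k - (P₁ : ℤ)) - cellDir A ((2 : ℝ) ^ (k + (m : ℤ))) (classPt k z) e₀‖) :
    volume (Aᶜ ∩ shell K ν c ρ ((2 : ℝ) ^ i)) ≤
      ENNReal.ofReal (2 ^ d * unitVol d * 2 ^ (d + 1) * (4 * Ca) * (4 / ε) ^ 2 *
          ((2 : ℝ) ^ P₁) ^ (d - 1) * (2 : ℝ) ^ k) *
        (ENNReal.ofReal ((2 : ℝ) ^ (i - k)) * topV (m + 2) A k z) := by
  set r := (2 : ℝ) ^ k with hr
  have hr0 : 0 < r := by positivity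
  set q := classPt k z with hq
  set S'' := (2 : ℝ) ^ (k + ((m + 2 : ℕ) : ℤ)) with hS''
  have hS''e : S'' = 4 * ((2 : ℝ) ^ m * r) := by
    rw [hS'', zpow_add₀ (by norm_num : (2 : ℝ) ≠ 0), zpow_natCast, pow_add, ← hr]; ring
  have hmr : (2 : ℝ) ^ (k + (m : ℤ)) = 2 ^ m * r := by
    rw [zpow_add₀ (by norm_num), zpow_natCast]; ring
  set e₁ := k - (P₁ : ℤ) with he₁
  have he1r : (2 : ℝ) ^ e₁ = r / (2 : ℝ) ^ P₁ := by
    rw [he₁, zpow_sub₀ (by norm_num), zpow_natCast]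
  set Ka := (2 : ℝ) ^ (m + P₁ + 8) with hKa
  have hKa1 : 1 ≤ Ka := one_le_pow₀ one_le_two
  have hKa4 : 4 ≤ Ka := by
    rw [hKa, show (4 : ℝ) = 2 ^ 2 by norm_num]
    exact pow_le_pow_right₀ one_le_two (by omega)
  have hKe : Ka * (2 : ℝ) ^ e₁ = 256 * (2 ^ m * r) := by
    rw [he1r, hKa, pow_add, pow_add]
    field_simp
    ring
  have hle : (2 : ℝ) ^ e₁ ≤ 2 ^ m * r := by
    rw [← hmr]
    exact zpow_le_zpow_right₀ one_le_two (by omega)
  have hmr0 : r ≤ 2 ^ m * r := le_mul_of_one_le_left hr0.le (one_le_pow₀ one_le_two)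
  have he1r' : (2 : ℝ) ^ e₁ ≤ r := zpow_le_zpow_right₀ one_le_two (by omega)
  have hdist : ‖q - cellPt lam cc e₁‖ ≤ 256 * (2 ^ m * r) := by
    have h1 := norm_sub_le_norm_sub_add_norm_sub (cellPt lam cc e₁) (botPt ν c ρ) q
    rw [norm_sub_rev q]
    have h2 : (0 : ℝ) < (2 : ℝ) ^ e₁ := by positivity
    linarith [h.close e₁, h.bot_near]
  have hN := cellDir_aligned A S'' q h.unit₀
  have hself : ∀ S : ℝ, 0 < S → S ≤ Ka * S := fun S hS => le_mul_of_one_le_left hS.le hKa1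
  have h1 := (hAl A h.meas _ ((2 : ℝ) ^ e₁) ((2 : ℝ) ^ e₁) _ (cellPt lam cc e₁) q (by positivity)
    (hself _ (by positivity)) (hself _ (by positivity)) (by simp; positivity)
    (by rw [hKe]; exact hdist) (h.aligned e₁) hflux S''
    (by linarith) (by linarith) (by rw [hKe]; linarith)).2 _ hN
  have h2 := (hAl A h.meas (cellDir A ((2 : ℝ) ^ (k + (m : ℤ))) q e₀) ((2 : ℝ) ^ (k + (m : ℤ)))
    ((2 : ℝ) ^ (k + (m : ℤ))) q q q (by positivity) (hself _ (by positivity))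
    (hself _ (by positivity)) (by simp; positivity) (by simp; positivity)
    (cellDir_aligned _ _ _ h.unit₀) hfT S'' (by linarith) (by linarith)
    (by rw [hmr, hS''e]; gcongr)).2 _ hN
  have h3 := dir_jump (by positivity) (by rw [hmr]; exact hle) hCa.le h1 h2
  have hσ0 : (0 : ℝ) < (2 : ℝ) ^ (i - k) := by positivity
  have h4 : ENNReal.ofReal ((ε / 4 * (2 : ℝ) ^ (i - k)) ^ 2 * ((2 : ℝ) ^ e₁) ^ (d - 1))
      ≤ ENNReal.ofReal (4 * Ca) * wexc A S'' q := by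
    refine le_trans (ENNReal.ofReal_le_ofReal ?_) h3
    have := h.pos
    exact mul_le_mul_of_nonneg_right (pow_le_pow_left₀ (by positivity) hjump.le 2) (by positivity)
  refine (h.volume_shell K i).trans ?_
  set U := 2 ^ d * unitVol d * 2 ^ (d + 1) with hU
  have hU0 : 0 ≤ U := by have := unitVol_pos (d := d); rw [hU]; positivity
  set σ := (2 : ℝ) ^ (i - k) with hσ
  have hσ1 : σ ≤ 1 := zpow_le_one_of_nonpos₀ one_le_two (by omega)
  have hs : (2 : ℝ) ^ i = σ * r := by rw [hσ, hr, ← zpow_add₀ (by norm_num)]; congr 1; ring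
  have hε := h.pos
  calc ENNReal.ofReal (U * r * (σ ^ 2 * ((2 : ℝ) ^ i) ^ (d - 1)))
      ≤ ENNReal.ofReal (U * (4 / ε) ^ 2 * ((2 : ℝ) ^ P₁) ^ (d - 1) * r * σ) *
          ENNReal.ofReal ((ε / 4 * σ) ^ 2 * ((2 : ℝ) ^ e₁) ^ (d - 1)) := by
        rw [← ENNReal.ofReal_mul (by positivity)]
        refine ENNReal.ofReal_le_ofReal ?_
        rw [hs, mul_pow σ r]
        calc U * r * (σ ^ 2 * (σ ^ (d - 1) * r ^ (d - 1)))
            ≤ U * r * (σ ^ 2 * (σ * r ^ (d - 1))) := by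
              gcongr
              exact pow_le_of_le_one hσ0.le hσ1 (by have := h.dim; omega)
          _ = _ := by
              rw [he1r, div_pow r]
              field_simp
    _ ≤ ENNReal.ofReal (U * (4 / ε) ^ 2 * ((2 : ℝ) ^ P₁) ^ (d - 1) * r * σ) *
          (ENNReal.ofReal (4 * Ca) * wexc A S'' q) := by gcongr
    _ = _ := by
        rw [topV, ← hS'', ← mul_assoc, ← mul_assoc, ← ENNReal.ofReal_mul (by positivity),
          ← ENNReal.ofReal_mul (by positivity), ← hq]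
        congr 2
        ring

/-- a jump inside the chain. -/
theorem inner_jump (h : CellCtx A k z c ρ ν e₀ lam ε cc) (K : ℝ) {Ka Ca cA : ℝ} (hKa : 16 ≤ Ka)
    (hCa : 0 < Ca) (hAl : AlignConst d Ka cA Ca) {i : ℤ} {n : ℕ}
    (hf1 : cA ≤ (2 : ℝ) ^ (i + 4 + n) *
      ‖gradInd A ((2 : ℝ) ^ (i + 4 + n)) (cellPt lam cc (i + 4 + n))‖)
    (hf2 : cA ≤ (2 : ℝ) ^ (i + 4 + n + 1) *
      ‖gradInd A ((2 : ℝ) ^ (i + 4 + n + 1)) (cellPt lam cc (i + 4 + n + 1))‖)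
    (hjump : ε / 16 * (2 : ℝ) ^ (i - k) * (5 / 6) ^ n <
      ‖cellN A lam cc e₀ (i + 4 + n) - cellN A lam cc e₀ (i + 4 + n + 1)‖) :
    ENNReal.ofReal ((4 : ℝ) ^ (i - k) *
        ((ε / 16) ^ 2 / (4 * Ca) * (25 / 36) ^ n * ((2 : ℝ) ^ (i + (n : ℤ))) ^ (d - 1)))
      ≤ cellX A lam cc (i + n + 7) ∧
    volume (Aᶜ ∩ shell K ν c ρ ((2 : ℝ) ^ i)) ≤
      ENNReal.ofReal (2 ^ d * unitVol d * 2 ^ (d + 1) * (2 : ℝ) ^ k) *
        ENNReal.ofReal ((4 : ℝ) ^ (i - k) * ((2 : ℝ) ^ i) ^ (d - 1)) := by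
  have e4 : (4 : ℝ) ^ (i - k) = ((2 : ℝ) ^ (i - k)) ^ 2 := by
    rw [← zpow_natCast, ← zpow_mul, mul_comm, zpow_mul]
    norm_num
  set e := i + 4 + (n : ℤ) with he
  have e7 : i + (n : ℤ) + 7 = e + 3 := by omega
  refine ⟨?_, ?_⟩
  · have he0 : (0 : ℝ) < (2 : ℝ) ^ e := by positivity
    have t3 : (2 : ℝ) ^ (e + 3) = 8 * (2 : ℝ) ^ e := by
      rw [zpow_add₀ (by norm_num)]; norm_num; ring
    have t1 : (2 : ℝ) ^ (e + 1) = 2 * (2 : ℝ) ^ e := by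
      rw [zpow_add₀ (by norm_num)]; norm_num; ring
    have hbig : 16 * (2 : ℝ) ^ e ≤ Ka * (2 : ℝ) ^ e := by gcongr
    have hbig' : 16 * (2 : ℝ) ^ (e + 1) ≤ Ka * (2 : ℝ) ^ (e + 1) := by gcongr
    have hN := cellDir_aligned A ((2 : ℝ) ^ (e + 3)) (cellPt lam cc (e + 3)) h.unit₀
    have h1 := (hAl A h.meas _ ((2 : ℝ) ^ e) ((2 : ℝ) ^ e) _ (cellPt lam cc e)
      (cellPt lam cc (e + 3)) he0 (by linarith) (by linarith) (by simp; positivity)
      (by linarith [h.close_pair (e + 3) e]) (h.aligned e) hf1 _ (by linarith) (by linarith)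
      (by linarith)).2 _ hN
    have h2 := (hAl A h.meas _ ((2 : ℝ) ^ (e + 1)) ((2 : ℝ) ^ (e + 1)) _ (cellPt lam cc (e + 1))
      (cellPt lam cc (e + 3)) (by positivity) (by linarith) (by linarith) (by simp; positivity)
      (by linarith [h.close_pair (e + 3) (e + 1)]) (h.aligned (e + 1)) hf2 _ (by linarith)
      (by linarith) (by linarith)).2 _ hN
    have h3 := dir_jump he0.le (by linarith) hCa.le h1 h2
    have h5 : ENNReal.ofReal ((ε / 16 * (2 : ℝ) ^ (i - k) * (5 / 6) ^ n) ^ 2 *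
        ((2 : ℝ) ^ (i + (n : ℤ))) ^ (d - 1)) ≤ ENNReal.ofReal (4 * Ca) * cellX A lam cc (e + 3) := by
      refine le_trans (ENNReal.ofReal_le_ofReal ?_) h3
      have := h.pos
      refine mul_le_mul (pow_le_pow_left₀ (by positivity) hjump.le 2)
        (pow_le_pow_left₀ (by positivity) (zpow_le_zpow_right₀ one_le_two (by omega)) _)
        (by positivity) (by positivity)
    rw [e7]
    calc _ = ENNReal.ofReal (1 / (4 * Ca)) *
          ENNReal.ofReal ((ε / 16 * (2 : ℝ) ^ (i - k) * (5 / 6) ^ n) ^ 2 *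
            ((2 : ℝ) ^ (i + (n : ℤ))) ^ (d - 1)) := by
          rw [← ENNReal.ofReal_mul (by positivity)]
          congr 1
          rw [e4, mul_pow (ε / 16 * (2 : ℝ) ^ (i - k)), ← pow_mul, mul_comm n 2, pow_mul]
          norm_num
          field_simp
      _ ≤ ENNReal.ofReal (1 / (4 * Ca)) * (ENNReal.ofReal (4 * Ca) * cellX A lam cc (e + 3)) := by
          gcongr
      _ = _ := by
          rw [← mul_assoc, ← ENNReal.ofReal_mul (by positivity), one_div,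
            inv_mul_cancel₀ (by positivity), ENNReal.ofReal_one, one_mul]
  · have := unitVol_pos (d := d)
    refine (h.volume_shell K i).trans (le_of_eq ?_)
    rw [← ENNReal.ofReal_mul (by positivity), e4]

/-- a straight shell. -/
theorem straight_shell (h : CellCtx A k z c ρ ν e₀ lam ε cc) {K C₁ Cs θ : ℝ} (hCs : 0 ≤ Cs)
    (hSh : ∀ (A : Set (Pt d)), MeasurableSet A → ∀ (r ρ s : ℝ) (c q n ν : Pt d),
      0 < r → r ≤ ρ → ρ ≤ 2 * r → 0 < s → s ≤ ε ^ 2 * r → ‖n‖ = 1 → ‖ν‖ = 1 →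
      ‖n - ν‖ ≤ ε * s / r → ‖q - botPt ν c ρ‖ ≤ ε ^ 2 * s →
      volume (Aᶜ ∩ shell K ν c ρ s) ≤
        ENNReal.ofReal (C₁ * √K ^ (d + 1)) *
          volume (Aᶜ ∩ Metric.ball c ρ ∩
            {y | s / (√(40 * K)) / 4 ≤ ‖linePt ν y 0 - linePt ν (botPt ν c ρ) 0‖ ∧
              ‖linePt ν y 0 - linePt ν (botPt ν c ρ) 0‖ ≤ 2 * s / √(40 * K)})
        + ENNReal.ofReal (Cs * s ^ 2 / r) *
          volume (slab n ∩ cyl n q (4 * s) ∩
            {x | θ * (s / r) ^ 2 ≤ zDev A n ⟪q, n⟫ (ε * s) q x})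
        + ENNReal.ofReal (Cs * s) * wsum A n (4 * s) q)
    {Ka Ca cA : ℝ} (hKa : 16 ≤ Ka) (hAl : AlignConst d Ka cA Ca) {P₁ : ℕ}
    (hP₁ : 1 / ε ^ 2 ≤ (2 : ℝ) ^ P₁) {i : ℤ} (hi : i + 4 ≤ k - (P₁ : ℤ))
    (hfl : cA ≤ (2 : ℝ) ^ (i + 4) * ‖gradInd A ((2 : ℝ) ^ (i + 4)) (cellPt lam cc (i + 4))‖)
    (nT : Pt d) (ha : ‖nT - ν‖ ≤ ε / 4 * (2 : ℝ) ^ (i - k))
    (htop : ‖cellN A lam cc e₀ (k - (P₁ : ℤ)) - nT‖ ≤ ε / 4 * (2 : ℝ) ^ (i - k))
    (hjump : ∀ n : ℕ, i + 4 + n < k - (P₁ : ℤ) →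
      ‖cellN A lam cc e₀ (i + 4 + n) - cellN A lam cc e₀ (i + 4 + n + 1)‖
        ≤ ε / 16 * (2 : ℝ) ^ (i - k) * (5 / 6) ^ n) :
    volume (Aᶜ ∩ shell K ν c ρ ((2 : ℝ) ^ i)) ≤
      ENNReal.ofReal (C₁ * √K ^ (d + 1)) * volume (Aᶜ ∩ Metric.ball c ρ ∩
        {y | (2 : ℝ) ^ i / √(40 * K) / 4 ≤ wDist ν c ρ y ∧
          wDist ν c ρ y ≤ 2 * (2 : ℝ) ^ i / √(40 * K)})
      + ENNReal.ofReal (Cs * (2 : ℝ) ^ k) * (ENNReal.ofReal ((4 : ℝ) ^ (i - k)) *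
          volume (devSet A (cellN A lam cc e₀ (i + 4)) (cellPt lam cc (i + 4)) ((2 : ℝ) ^ i) ε
            (θ * (4 : ℝ) ^ (i - k))))
      + ENNReal.ofReal (Cs * Ca * (2 : ℝ) ^ k) *
          (ENNReal.ofReal ((2 : ℝ) ^ (i + 7 - k)) * cellX A lam cc (i + 7)) := by
  set r := (2 : ℝ) ^ k with hr
  set s := (2 : ℝ) ^ i with hs
  have hr0 : 0 < r := by positivity
  have hs0 : 0 < s := by positivity
  have eσ : (2 : ℝ) ^ (i - k) = s / r := by rw [zpow_sub₀ (by norm_num)]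
  have e4 : (4 : ℝ) ^ (i - k) = (s / r) ^ 2 := by
    rw [← eσ, ← zpow_natCast, ← zpow_mul, mul_comm, zpow_mul]
    norm_num
  have hε := h.pos
  obtain ⟨N, hN⟩ : ∃ N : ℕ, k - (P₁ : ℤ) = i + 4 + N := ⟨(k - (P₁ : ℤ) - (i + 4)).toNat, by omega⟩
  have hch := chain_dist_le (cellN A lam cc e₀) (i + 4) N (b := ε / 16 * (2 : ℝ) ^ (i - k))
    (by positivity) fun mm hmm => hjump mm (by omega)
  rw [← hN] at hch
  have htilt : ‖cellN A lam cc e₀ (i + 4) - ν‖ ≤ ε * s / r := by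
    have hb0 : 0 ≤ ε * (2 : ℝ) ^ (i - k) := by positivity
    have h1 := norm_sub_le_norm_sub_add_norm_sub (cellN A lam cc e₀ (i + 4))
      (cellN A lam cc e₀ (k - (P₁ : ℤ))) ν
    have h2 := norm_sub_le_norm_sub_add_norm_sub (cellN A lam cc e₀ (k - (P₁ : ℤ))) nT ν
    rw [mul_div_assoc, ← eσ]
    linarith
  have t4 : (2 : ℝ) ^ (i + 4) = 16 * s := by
    rw [zpow_add₀ (by norm_num), hs]; norm_num; ring
  have t7 : (2 : ℝ) ^ (i + 7) = 128 * s := by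
    rw [zpow_add₀ (by norm_num), hs]; norm_num; ring
  have hsε : s ≤ ε ^ 2 * r := by
    have h1 : (2 : ℝ) ^ i ≤ (2 : ℝ) ^ (k - (P₁ : ℤ)) := zpow_le_zpow_right₀ one_le_two (by omega)
    rw [zpow_sub₀ (by norm_num) k, zpow_natCast, le_div_iff₀ (by positivity), ← hr, ← hs] at h1
    rw [div_le_iff₀ (by positivity)] at hP₁
    calc s = s * 1 := (mul_one s).symm
      _ ≤ s * ((2 : ℝ) ^ P₁ * ε ^ 2) := mul_le_mul_of_nonneg_left hP₁ hs0.le
      _ = s * (2 : ℝ) ^ P₁ * ε ^ 2 := by ring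
      _ ≤ r * ε ^ 2 := by gcongr
      _ = ε ^ 2 * r := mul_comm _ _
  have hq : ‖cellPt lam cc (i + 4) - botPt ν c ρ‖ ≤ ε ^ 2 * s := by
    refine (h.cells (i + 4)).trans ?_
    rw [t4]
    linarith [mul_pos (pow_pos hε 2) hs0]
  refine (hSh A h.meas r ρ s c _ _ ν hr0 h.le_rad h.rad_le hs0 hsε (h.aligned (i + 4)).1 h.unit
    htilt hq).trans (add_le_add (add_le_add le_rfl ?_) ?_)
  · rw [← mul_assoc, ← ENNReal.ofReal_mul (by positivity), e4, devSet]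
    refine mul_le_mul' (ENNReal.ofReal_le_ofReal (le_of_eq ?_)) le_rfl
    field_simp
  · have hbig : 16 * (16 * s) ≤ Ka * (16 * s) := by gcongr
    have hbig2 : 16 * (4 * s) ≤ Ka * (4 * s) := by gcongr
    have h1 := (hAl A h.meas _ ((2 : ℝ) ^ (i + 4)) (4 * s) _ (cellPt lam cc (i + 4))
      (cellPt lam cc (i + 7)) (by positivity) (by rw [t4]; linarith) (by rw [t4]; linarith)
      (by simp; positivity) (by rw [t4]; linarith [h.close_pair (i + 7) (i + 4)])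
      (h.aligned (i + 4)) hfl ((2 : ℝ) ^ (i + 7))
      (by linarith) (by linarith) (by rw [t7, t4]; linarith)).1
    refine (mul_le_mul' le_rfl h1).trans ?_
    rw [← mul_assoc, ← mul_assoc, ← ENNReal.ofReal_mul (by positivity), cellX]
    refine mul_le_mul' ?_ le_rfl
    rcases le_or_gt Ca 0 with hc | hc
    · rw [ENNReal.ofReal_eq_zero.2 (mul_nonpos_of_nonneg_of_nonpos (by positivity) hc)]
      exact zero_le
    rw [← ENNReal.ofReal_mul (by positivity)]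
    refine ENNReal.ofReal_le_ofReal ?_
    rw [zpow_sub₀ (by norm_num) (i + 7), t7, ← hr]
    field_simp
    linarith

open Classical in
theorem sum_zeta (h : CellCtx A k z c ρ ν e₀ lam ε cc) (θ c₀ : ℝ) :
    ∑' i : ℤ, (if i + 4 ≤ k + 3 ∧
        c₀ ≤ (2 : ℝ) ^ (i + 4) * ‖gradInd A ((2 : ℝ) ^ (i + 4)) (cellPt lam cc (i + 4))‖ then
      ENNReal.ofReal ((4 : ℝ) ^ (i - k)) *
        volume (devSet A (cellN A lam cc e₀ (i + 4)) (cellPt lam cc (i + 4)) ((2 : ℝ) ^ i) ε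
          (θ * (4 : ℝ) ^ (i - k)))
      else 0) ≤ zetaV e₀ lam ε θ c₀ A k z := by
  rw [zetaV]
  nth_rw 2 [← (Equiv.addRight (4 : ℤ)).tsum_eq]
  refine ENNReal.tsum_le_tsum fun i => le_trans ?_ (ENNReal.le_tsum (cc (i + 4)))
  simp only [Equiv.coe_addRight, add_sub_cancel_right]
  split_ifs with g g' g'
  · exact le_rfl
  · exact absurd ⟨h.near g.1, g.2⟩ g'
  · exact zero_le
  · exact le_rfl

open Classical in
theorem sum_lin (h : CellCtx A k z c ρ ν e₀ lam ε cc) :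
    ∑' i : ℤ, (if i + 7 ≤ k + 3 then
      ENNReal.ofReal ((2 : ℝ) ^ (i + 7 - k)) * cellX A lam cc (i + 7) else 0) ≤ linV lam 8 A k z := by
  rw [linV]
  nth_rw 2 [← (Equiv.addRight (7 : ℤ)).tsum_eq]
  refine ENNReal.tsum_le_tsum fun i => le_trans ?_ (ENNReal.le_tsum (cc (i + 7)))
  simp only [Equiv.coe_addRight]
  by_cases g : i + 7 ≤ k + 3
  · have g' : i + 7 ≤ k + 8 ∧ Near k z (gridPt (lam * (2 : ℝ) ^ (i + 7)) (cc (i + 7))) :=
      ⟨by omega, h.near g⟩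
    rw [if_pos g]
    exact le_of_eq (@if_pos _ (_) g' _ _ _).symm
  · rw [if_neg g]
    exact zero_le

/-- the charge of a jump at distance `n` above the shell `i`. -/
noncomputable def angTerm (A : Set (Pt d)) (k : ℤ) (lam θ : ℝ) (cc : ℤ → Fin d → ℤ) (i : ℤ)
    (n : ℕ) : ℝ≥0∞ :=
  open Classical in
  if i + n + 7 ≤ k + 3 ∧ ENNReal.ofReal ((4 : ℝ) ^ (i - k) *
      (θ * (25 / 36) ^ n * ((2 : ℝ) ^ (i + (n : ℤ))) ^ (d - 1))) ≤ cellX A lam cc (i + n + 7) then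
    ENNReal.ofReal ((4 : ℝ) ^ (i - k) * ((2 : ℝ) ^ i) ^ (d - 1))
  else 0

theorem sum_ang (h : CellCtx A k z c ρ ν e₀ lam ε cc) (θ : ℝ) :
    ∑' (i : ℤ) (n : ℕ), angTerm A k lam θ cc i n ≤ angV lam θ A k z := by
  classical
  calc ∑' (i : ℤ) (n : ℕ), angTerm A k lam θ cc i n
      = ∑' (j : ℤ) (n : ℕ), angTerm A k lam θ cc (j - n) n := by
        rw [ENNReal.tsum_comm, ENNReal.tsum_comm (f := fun (j : ℤ) (n : ℕ) =>
          angTerm A k lam θ cc (j - n) n)]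
        exact tsum_congr fun n =>
          ((Equiv.subRight (n : ℤ)).tsum_eq fun i => angTerm A k lam θ cc i n).symm
    _ ≤ _ := by
        rw [angV]
        nth_rw 2 [← (Equiv.addRight (7 : ℤ)).tsum_eq]
        refine ENNReal.tsum_le_tsum fun j => le_trans ?_ (ENNReal.le_tsum (cc (j + 7)))
        simp only [Equiv.coe_addRight, add_sub_cancel_right, angTerm, sub_add_cancel]
        by_cases hj : j + 7 ≤ k + 3
        · rw [if_pos (show Near k z (gridPt (lam * (2 : ℝ) ^ (j + 7)) (cc (j + 7))) from h.near hj)]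
          refine ENNReal.tsum_le_tsum fun n => ?_
          split_ifs with g g' g'
          · exact le_rfl
          · exact absurd g.2 g'
          · exact zero_le
          · exact le_rfl
        · simp [hj]

end CellCtx

end Vale.Agent.P137
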