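import Vale.Agent.P137.LocalChain

/-! # P137, module F: the low part of the crescent -/

namespace Vale.Agent.P137

open MeasureTheory Set Filter Topology
open scoped RealInnerProductSpace ENNReal

/-- one shell above the bad cells and above the tilted region is charged. -/
theorem shell_charged {d : ℕ} {A : Set (Pt d)} {k : ℤ} {z : Fin d → ℤ} {c : Pt d} {ρ : ℝ}
    {ν e₀ : Pt d} {lam ε : ℝ} {cc : ℤ → Fin d → ℤ} (h : CellCtx A k z c ρ ν e₀ lam ε cc)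
    {K C₁ Cs θ η c₀ : ℝ} (hCs : 0 ≤ Cs)
    (hSh : ∀ (A : Set (Pt d)), MeasurableSet A → ∀ (r ρ s : ℝ) (c q n ν : Pt d),
      0 < r → r ≤ ρ → ρ ≤ 2 * r → 0 < s → s ≤ ε ^ 2 * r → ‖n‖ = 1 → ‖ν‖ = 1 →
      ‖n - ν‖ ≤ ε * s / r → ‖q - botPt ν c ρ‖ ≤ ε ^ 2 * s →
      volume (Aᶜ ∩ shell K ν c ρ s) ≤
        ENNReal.ofReal (C₁ * √K ^ (d + 1)) *
          volume (Aᶜ ∩ Metric.ball c ρ ∩
            {y | s / (√(40 * K)) / 4 ≤ ‖linePt ν y 0 - linePt ν (botPt ν c ρ) 0‖ ∧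
              ‖linePt ν y 0 - linePt ν (botPt ν c ρ) 0‖ ≤ 2 * s / √(40 * K)})
        + ENNReal.ofReal (Cs * s ^ 2 / r) *
          volume (slab n ∩ cyl n q (4 * s) ∩
            {x | θ * (s / r) ^ 2 ≤ zDev A n ⟪q, n⟫ (ε * s) q x})
        + ENNReal.ofReal (Cs * s) * wsum A n (4 * s) q)
    {Ca cA : ℝ} (hCa : 0 < Ca) {m P₁ : ℕ} (hAl : AlignConst d ((2 : ℝ) ^ (m + P₁ + 8)) cA Ca)
    (hP₁ : 1 / ε ^ 2 ≤ (2 : ℝ) ^ P₁) (hcA : cA ≤ c₀)
    (hfT : cA ≤ (2 : ℝ) ^ (k + (m : ℤ)) * ‖gradInd A ((2 : ℝ) ^ (k + (m : ℤ))) (classPt k z)‖)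
    {i : ℤ} (hi : i + 4 ≤ k - (P₁ : ℤ))
    (ha : 8 / ε * ‖cellDir A ((2 : ℝ) ^ (k + (m : ℤ))) (classPt k z) e₀ - ν‖ * (2 : ℝ) ^ k
      < 2 * (2 : ℝ) ^ i)
    (hg : ∀ e, i + 4 ≤ e → e ≤ k - (P₁ : ℤ) → GoodCell A lam η c₀ cc e) :
    volume (Aᶜ ∩ shell K ν c ρ ((2 : ℝ) ^ i)) ≤
      ENNReal.ofReal (C₁ * √K ^ (d + 1)) * volume (Aᶜ ∩ Metric.ball c ρ ∩
        {y | (2 : ℝ) ^ i / √(40 * K) / 4 ≤ wDist ν c ρ y ∧
          wDist ν c ρ y ≤ 2 * (2 : ℝ) ^ i / √(40 * K)})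
      + ENNReal.ofReal (Cs * (2 : ℝ) ^ k) *
          (open Classical in
            if i + 4 ≤ k + 3 ∧ c₀ ≤ (2 : ℝ) ^ (i + 4) *
                ‖gradInd A ((2 : ℝ) ^ (i + 4)) (cellPt lam cc (i + 4))‖ then
              ENNReal.ofReal ((4 : ℝ) ^ (i - k)) *
                volume (devSet A (cellN A lam cc e₀ (i + 4)) (cellPt lam cc (i + 4)) ((2 : ℝ) ^ i) ε
                  (θ * (4 : ℝ) ^ (i - k)))
            else 0)
      + ENNReal.ofReal (Cs * Ca * (2 : ℝ) ^ k) *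
          (if i + 7 ≤ k + 3 then ENNReal.ofReal ((2 : ℝ) ^ (i + 7 - k)) * cellX A lam cc (i + 7)
            else 0)
      + ENNReal.ofReal (2 ^ d * unitVol d * 2 ^ (d + 1) * (2 : ℝ) ^ k) *
          ∑' n : ℕ, CellCtx.angTerm A k lam ((ε / 16) ^ 2 / (4 * Ca)) cc i n
      + ENNReal.ofReal (2 ^ d * unitVol d * 2 ^ (d + 1) * (4 * Ca) * (4 / ε) ^ 2 *
            ((2 : ℝ) ^ P₁) ^ (d - 1) * (2 : ℝ) ^ k) *
          (if i ≤ k then ENNReal.ofReal ((2 : ℝ) ^ (i - k)) * topV (m + 2) A k z else 0) := by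
  have hKa : (16 : ℝ) ≤ (2 : ℝ) ^ (m + P₁ + 8) := by
    rw [show (16 : ℝ) = 2 ^ 4 by norm_num]
    exact pow_le_pow_right₀ one_le_two (by omega)
  have hgA : ∀ e, i + 4 ≤ e → e ≤ k - (P₁ : ℤ) →
      cA ≤ (2 : ℝ) ^ e * ‖gradInd A ((2 : ℝ) ^ e) (cellPt lam cc e)‖ :=
    fun e h1 h2 => hcA.trans (hg e h1 h2).2
  set nT := cellDir A ((2 : ℝ) ^ (k + (m : ℤ))) (classPt k z) e₀ with hnT
  by_cases htop : ε / 4 * (2 : ℝ) ^ (i - k) < ‖cellN A lam cc e₀ (k - (P₁ : ℤ)) - nT‖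
  · refine le_trans ?_ le_add_self
    rw [if_pos (show i ≤ k by omega)]
    exact h.top_jump K hCa hAl (hgA _ hi le_rfl) hfT (by omega) htop
  by_cases hjump : ∃ n : ℕ, i + 4 + n < k - (P₁ : ℤ) ∧ ε / 16 * (2 : ℝ) ^ (i - k) * (5 / 6) ^ n <
      ‖cellN A lam cc e₀ (i + 4 + n) - cellN A lam cc e₀ (i + 4 + n + 1)‖
  · obtain ⟨n, hn1, hn2⟩ := hjump
    refine le_trans (le_trans ?_ le_add_self) le_self_add
    refine le_trans ?_ (mul_le_mul' le_rfl (ENNReal.le_tsum n))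
    obtain ⟨h1, h2⟩ := h.inner_jump K hKa hCa hAl (hgA _ (by omega) (by omega))
      (hgA _ (by omega) (by omega)) hn2
    rw [CellCtx.angTerm, if_pos ⟨by omega, h1⟩]
    exact h2
  simp only [not_exists, not_and, not_lt] at hjump
  refine le_trans ?_ (le_trans le_self_add le_self_add)
  rw [if_pos ⟨by omega, (hg (i + 4) le_rfl hi).2⟩, if_pos (show i + 7 ≤ k + 3 by omega)]
  refine h.straight_shell hCs hSh hKa hAl hP₁ hi (hgA _ le_rfl hi) nT ?_ (not_lt.1 htop) hjump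
  have hk : (0 : ℝ) < (2 : ℝ) ^ k := by positivity
  have := h.pos
  rw [div_mul_eq_mul_div, div_mul_eq_mul_div, div_lt_iff₀ h.pos] at ha
  rw [zpow_sub₀ (by norm_num), ← mul_div_assoc, le_div_iff₀ hk]
  linarith

/-- the crescent below the level `2 ^ (k - P₀)`, up to the tilted part, is paid by a bounded
multiple of the loss and by the charges of the class. -/
theorem crescent_chain (hP : CellProfile) (hX : CellFlux) (hF : FlatCellLemma) (hSh : ShellLemma)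
    (hAl : AlignLemma) {d : ℕ} (hd : 2 ≤ d) :
    ∃ C₀ : ℝ, 0 < C₀ ∧ ∀ K, 2 ≤ K → ∃ ε θ c₀ lam : ℝ,
      0 < ε ∧ ε ≤ 1 ∧ 0 < θ ∧ 0 < c₀ ∧ 0 < lam ∧ ∃ P₀ : ℕ, ∀ (m : ℕ) (cT : ℝ), 0 < cT →
      ∃ θa C : ℝ, 0 < θa ∧ 0 < C ∧
      ∀ (e₀ : Pt d), ‖e₀‖ = 1 → ∀ (A : Set (Pt d)), MeasurableSet A →
      ∀ (k : ℤ) (z : Fin d → ℤ) (c : Pt d) (ρ : ℝ) (ν : Pt d),
      (2 : ℝ) ^ k ≤ ρ → ρ ≤ 2 * (2 : ℝ) ^ k → ‖c - classPt k z‖ ≤ (2 : ℝ) ^ k / 100 → ‖ν‖ = 1 →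
      cT ≤ (2 : ℝ) ^ (k + (m : ℤ)) * ‖gradInd A ((2 : ℝ) ^ (k + (m : ℤ))) (classPt k z)‖ →
      volume (Aᶜ ∩ crescent K ν c ρ ∩ {y | wDist ν c ρ y ≤ (2 : ℝ) ^ (k - (P₀ : ℤ))}) ≤
        ENNReal.ofReal (C₀ * √K ^ (d + 1) + 1) * volume (Aᶜ ∩ Metric.ball c ρ)
        + volume (Aᶜ ∩ crescent K ν c ρ ∩ {y | wDist ν c ρ y ≤
            8 / ε * ‖cellDir A ((2 : ℝ) ^ (k + (m : ℤ))) (classPt k z) e₀ - ν‖ * (2 : ℝ) ^ k})
        + ENNReal.ofReal (C * (2 : ℝ) ^ k) *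
            (linV lam 8 A k z + angV lam θa A k z + zetaV e₀ lam ε θ c₀ A k z
              + topV (m + 2) A k z) := by
  classical
  obtain ⟨C₁, hC₁, hSh⟩ := hSh d hd
  refine ⟨4 * C₁, by positivity, fun K hK => ?_⟩
  obtain ⟨εS, hεS, hSh⟩ := hSh K hK
  set ε := min εS 1 with hε
  have hε0 : 0 < ε := by rw [hε]; positivity
  have hε1 : ε ≤ 1 := min_le_right _ _
  obtain ⟨Cs, θ, hCs, hθ, hSh⟩ := hSh ε hε0 (min_le_left _ _)
  obtain ⟨η, c₀, Cf, hη, hc₀, hCf, hflat⟩ := cell_flat hP hX hF hd hK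
  set lam := ε ^ 2 / (100 * (d + 1)) with hlam
  have hlam0 : 0 < lam := by rw [hlam]; positivity
  obtain ⟨P₁, hP₁⟩ := pow_unbounded_of_one_lt (max (1 / ε ^ 2) Cf) (one_lt_two : (1 : ℝ) < 2)
  refine ⟨ε, θ, c₀, lam, hε0, hε1, hθ, hc₀, hlam0, P₁ + 4, fun m cT hcT => ?_⟩
  set cA := min c₀ cT with hcA
  have hcA0 : 0 < cA := lt_min hc₀ hcT
  obtain ⟨Ca, hCa, hAl⟩ := hAl d ((2 : ℝ) ^ (m + P₁ + 8)) cA (one_le_pow₀ one_le_two) hcA0
  set U := 2 ^ d * unitVol d with hU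
  have hU0 : 0 < U := by have := unitVol_pos (d := d); rw [hU]; positivity
  set T := U * 2 ^ (d + 1) * (4 * Ca) * (4 / ε) ^ 2 * ((2 : ℝ) ^ P₁) ^ (d - 1) with hT
  have hT0 : 0 ≤ T := by rw [hT]; positivity
  refine ⟨(ε / 16) ^ 2 / (4 * Ca), U / η + Cf + Cs + Cs * Ca + U * 2 ^ (d + 1) + 2 * T,
    by positivity, by positivity, ?_⟩
  intro e₀ he₀ A hA k z c ρ ν hρ hρ' hcq hν hfT
  set r := (2 : ℝ) ^ k with hr
  have hr0 : 0 < r := by positivity
  -- the cells around the bottom point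
  have hcells : ∀ e : ℤ, ∃ cz : Fin d → ℤ,
      ‖gridPt (lam * (2 : ℝ) ^ e) cz - botPt ν c ρ‖ ≤ ((d : ℝ) + 1) * (lam * (2 : ℝ) ^ e) :=
    fun e => exists_gridPt_near (by positivity) _
  choose cc hcc using hcells
  have h : CellCtx A k z c ρ ν e₀ lam ε cc :=
    ⟨hA, hd, he₀, hν, hρ, hρ', hcq, hε0, hε1, fun e => (hcc e).trans (le_of_eq (by
      rw [hlam]; field_simp))⟩
  obtain ⟨L, hLvol, hL⟩ := h.low_cells hη hCf.le hflat ((le_max_right _ _).trans hP₁.le)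
  set a := ‖cellDir A ((2 : ℝ) ^ (k + (m : ℤ))) (classPt k z) e₀ - ν‖
  set cres := Aᶜ ∩ crescent K ν c ρ
  set Tilt := cres ∩ {y | wDist ν c ρ y ≤ 8 / ε * a * r}
  set Line := cres ∩ {y | wDist ν c ρ y ≤ 0}
  set Sel : ℤ → Set (Pt d) := fun i =>
    if i + 4 ≤ k - (P₁ : ℤ) ∧ 8 / ε * a * r < 2 * (2 : ℝ) ^ i ∧
        ∀ e, i + 4 ≤ e → e ≤ k - (P₁ : ℤ) → GoodCell A lam η c₀ cc e
      then Aᶜ ∩ shell K ν c ρ ((2 : ℝ) ^ i) else ∅ with hSel
  have hcover : cres ∩ {y | wDist ν c ρ y ≤ (2 : ℝ) ^ (k - ((P₁ + 4 : ℕ) : ℤ))}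
      ⊆ Line ∪ Tilt ∪ L ∪ ⋃ i, Sel i := by
    rintro y ⟨hy, hy'⟩
    rcases (wDist_nonneg ν c ρ y).eq_or_lt with h0 | h0
    · exact Or.inl (Or.inl (Or.inl ⟨hy, h0.symm.le⟩))
    obtain ⟨i, hi1, hi2⟩ := exists_mem_Ico_zpow h0 (one_lt_two : (1 : ℝ) < 2)
    have hi : i + 4 ≤ k - (P₁ : ℤ) := by
      have := hi1.trans hy'
      rw [zpow_le_zpow_iff_right₀ one_lt_two] at this
      omega
    have e2 : (2 : ℝ) ^ (i + 1) = 2 * (2 : ℝ) ^ i := by rw [zpow_add_one₀ (by norm_num)]; ring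
    rw [e2] at hi2
    have hyF : y ∈ Aᶜ ∩ shell K ν c ρ ((2 : ℝ) ^ i) := ⟨hy.1, hy.2, hi1, hi2⟩
    by_cases ha : 8 / ε * a * r < 2 * (2 : ℝ) ^ i
    · rcases hL i hi with hl | hl
      · exact Or.inl (Or.inr (hl hyF))
      · exact Or.inr (mem_iUnion.2 ⟨i, by
          simp only [hSel]
          rw [if_pos ⟨hi, ha, hl⟩]
          exact hyF⟩)
    · exact Or.inl (Or.inl (Or.inr ⟨hy, le_trans hi2.le (not_lt.1 ha)⟩))
  set V := linV lam 8 A k z + angV lam ((ε / 16) ^ 2 / (4 * Ca)) A k z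
    + zetaV e₀ lam ε θ c₀ A k z + topV (m + 2) A k z
  set FB := volume (Aᶜ ∩ Metric.ball c ρ)
  have hsum : ∑' i, volume (Sel i) ≤
      ENNReal.ofReal (C₁ * √K ^ (d + 1)) * (4 * FB)
        + ENNReal.ofReal (Cs * r) * V + ENNReal.ofReal (Cs * Ca * r) * V
        + ENNReal.ofReal (U * 2 ^ (d + 1) * r) * V + ENNReal.ofReal (T * r) * (2 * V) := by
    refine le_trans (ENNReal.tsum_le_tsum (g := fun i =>
      ENNReal.ofReal (C₁ * √K ^ (d + 1)) * volume (Aᶜ ∩ Metric.ball c ρ ∩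
        {y | (2 : ℝ) ^ i / √(40 * K) / 4 ≤ wDist ν c ρ y ∧
          wDist ν c ρ y ≤ 2 * (2 : ℝ) ^ i / √(40 * K)})
      + ENNReal.ofReal (Cs * r) *
          (if i + 4 ≤ k + 3 ∧ c₀ ≤ (2 : ℝ) ^ (i + 4) *
              ‖gradInd A ((2 : ℝ) ^ (i + 4)) (cellPt lam cc (i + 4))‖ then
            ENNReal.ofReal ((4 : ℝ) ^ (i - k)) *
              volume (devSet A (cellN A lam cc e₀ (i + 4)) (cellPt lam cc (i + 4)) ((2 : ℝ) ^ i) ε
                (θ * (4 : ℝ) ^ (i - k)))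
          else 0)
      + ENNReal.ofReal (Cs * Ca * r) *
          (if i + 7 ≤ k + 3 then ENNReal.ofReal ((2 : ℝ) ^ (i + 7 - k)) * cellX A lam cc (i + 7)
            else 0)
      + ENNReal.ofReal (U * 2 ^ (d + 1) * r) *
          ∑' n : ℕ, CellCtx.angTerm A k lam ((ε / 16) ^ 2 / (4 * Ca)) cc i n
      + ENNReal.ofReal (T * r) *
          (if i ≤ k then ENNReal.ofReal ((2 : ℝ) ^ (i - k)) * topV (m + 2) A k z else 0))
      fun i => ?_) (le_trans (le_of_eq ?_)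
      (add_le_add (add_le_add (add_le_add (add_le_add
        (mul_le_mul' le_rfl (tsum_annuli_le (a := √(40 * K)) (Real.sqrt_pos.2 (by linarith))
          (hA.compl.inter measurableSet_ball) (wDist ν c ρ) (continuous_wDist ν c ρ).measurable))
        (mul_le_mul' le_rfl ((h.sum_zeta θ c₀).trans (le_trans le_add_self le_self_add))))
        (mul_le_mul' le_rfl (h.sum_lin.trans (le_trans le_self_add (le_trans le_self_add le_self_add)))))
        (mul_le_mul' le_rfl ((h.sum_ang _).trans (le_trans le_add_self (le_trans le_self_add le_self_add)))))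
        (mul_le_mul' le_rfl (show ∑' i : ℤ, (if i ≤ k then
          ENNReal.ofReal ((2 : ℝ) ^ (i - k)) * topV (m + 2) A k z else 0) ≤ 2 * V from ?_))))
    · by_cases hs : i + 4 ≤ k - (P₁ : ℤ) ∧ 8 / ε * a * r < 2 * (2 : ℝ) ^ i ∧
          ∀ e, i + 4 ≤ e → e ≤ k - (P₁ : ℤ) → GoodCell A lam η c₀ cc e
      · rw [show Sel i = Aᶜ ∩ shell K ν c ρ ((2 : ℝ) ^ i) from if_pos hs]
        exact shell_charged h hCs.le hSh hCa hAl ((le_max_left _ _).trans hP₁.le) (min_le_left _ _)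
          ((min_le_right _ _).trans hfT) hs.1 hs.2.1 hs.2.2
      · rw [show Sel i = ∅ from if_neg hs, measure_empty]
        exact zero_le
    · simp only [ENNReal.tsum_add, ENNReal.tsum_mul_left]
    · calc ∑' i : ℤ, (if i ≤ k then ENNReal.ofReal ((2 : ℝ) ^ (i - k)) * topV (m + 2) A k z else 0)
          = (∑' n : ℤ, if n ≤ 0 then ENNReal.ofReal ((2 : ℝ) ^ n) else 0) * topV (m + 2) A k z := by
            rw [← ENNReal.tsum_mul_right, ← (Equiv.addRight k).tsum_eq]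
            refine tsum_congr fun n => ?_
            simp only [Equiv.coe_addRight, add_sub_cancel_right, ite_mul, zero_mul]
            by_cases hn : n ≤ 0
            · rw [if_pos hn, if_pos (by omega)]
            · rw [if_neg hn, if_neg (by omega)]
        _ ≤ 2 * V := mul_le_mul' ((tsum_zpow_upto le_rfl 0).trans (by simp)) le_add_self
  have hLine : volume Line = 0 :=
    volume_crescent_line (by omega) hν hr0 hρ _ fun y hy => ⟨hy.1.2, hy.2⟩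
  calc volume (cres ∩ {y | wDist ν c ρ y ≤ (2 : ℝ) ^ (k - ((P₁ + 4 : ℕ) : ℤ))})
      ≤ volume Line + volume Tilt + volume L + ∑' i, volume (Sel i) := by
        refine (measure_mono hcover).trans
          ((measure_union_le _ _).trans (add_le_add ?_ (measure_iUnion_le _)))
        exact (measure_union_le _ _).trans (add_le_add (measure_union_le _ _) le_rfl)
    _ ≤ 0 + volume Tilt + (ENNReal.ofReal 1 * FB + ENNReal.ofReal ((U / η + Cf) * r) * V)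
        + (ENNReal.ofReal (C₁ * √K ^ (d + 1)) * (4 * FB)
          + ENNReal.ofReal (Cs * r) * V + ENNReal.ofReal (Cs * Ca * r) * V
          + ENNReal.ofReal (U * 2 ^ (d + 1) * r) * V + ENNReal.ofReal (T * r) * (2 * V)) := by
        refine add_le_add (add_le_add (add_le_add hLine.le le_rfl) (hLvol.trans ?_)) hsum
        refine add_le_add le_rfl (mul_le_mul' le_rfl ?_)
        exact le_trans le_self_add (le_trans le_self_add le_self_add)
    _ = _ := by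
        have i1 : 0 ≤ U / η + Cf := by positivity
        have i2 : 0 ≤ U * 2 ^ (d + 1) := by positivity
        have i3 : 0 ≤ Cs * Ca := by positivity
        rw [show ENNReal.ofReal ((U / η + Cf + Cs + Cs * Ca + U * 2 ^ (d + 1) + 2 * T) * r)
            = ENNReal.ofReal ((U / η + Cf) * r) + ENNReal.ofReal (Cs * r)
              + ENNReal.ofReal (Cs * Ca * r) + ENNReal.ofReal (U * 2 ^ (d + 1) * r)
              + 2 * ENNReal.ofReal (T * r) by
            have e : 2 * ENNReal.ofReal (T * r) = ENNReal.ofReal (2 * T * r) := by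
              rw [show 2 * T * r = 2 * (T * r) from mul_assoc 2 T r,
                ENNReal.ofReal_mul (p := 2) (q := T * r) zero_le_two, ENNReal.ofReal_ofNat]
            rw [e, ← ENNReal.ofReal_add (by positivity) (by positivity),
              ← ENNReal.ofReal_add (by positivity) (by positivity),
              ← ENNReal.ofReal_add (by positivity) (by positivity),
              ← ENNReal.ofReal_add (by positivity) (by positivity)]
            congr 1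
            ring,
          show ENNReal.ofReal (4 * C₁ * √K ^ (d + 1) + 1)
            = 4 * ENNReal.ofReal (C₁ * √K ^ (d + 1)) + ENNReal.ofReal 1 by
              rw [ENNReal.ofReal_add (by positivity) zero_le_one, mul_assoc,
                ENNReal.ofReal_mul (by norm_num : (0 : ℝ) ≤ 4)]
              norm_num]
        ring

end Vale.Agent.P137
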