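import Vale.Agent.P137.Interface

/-! # P137, module F: definitions and statements of the pieces of the local inequality

A class is `(k, z)` with `r = 2 ^ k`, centre `q = classPt k z`; a ball of the class is `(c, ρ)`, its
enlargement in direction `ν` is the homothetic ball of ratio `K` about the bottom point
`x = c - ρ • ν`.  For a layer `A` (upper set, `F = Aᶜ`), `layX = eA(B) - eA(B')`,
`layOsc = |eA(B) - eA(core)| + |eA(B') - eA(core)|`.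
All charges `…V` have the dimension of a perimeter; `W = r ^ (1 - d) * V`.
-/

namespace Vale.Agent.P137

open MeasureTheory Set Filter Topology
open scoped RealInnerProductSpace ENNReal

variable {d : ℕ}

/-- volume fraction of `A` in a ball. -/
noncomputable def efrac (A : Set (Pt d)) (c : Pt d) (r : ℝ) : ℝ :=
  (volume (A ∩ Metric.ball c r)).toReal / (volume (Metric.ball c r)).toReal

/-- bottom point of the ball `(c, ρ)` in direction `ν`. -/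
noncomputable def botPt (ν c : Pt d) (ρ : ℝ) : Pt d := c - ρ • ν

/-- centre of the enlarged ball. -/
noncomputable def bigCtr (K : ℝ) (ν c : Pt d) (ρ : ℝ) : Pt d := c + ((K - 1) * ρ) • ν

/-- increment of a layer. -/
noncomputable def layX (A : Set (Pt d)) (K : ℝ) (ν c : Pt d) (ρ : ℝ) : ℝ :=
  efrac A c ρ - efrac A (bigCtr K ν c ρ) (K * ρ)

/-- oscillation of a layer against the core ball `(q, r / 4)`. -/
noncomputable def layOsc (A : Set (Pt d)) (K : ℝ) (ν c : Pt d) (ρ : ℝ) (q : Pt d) (r : ℝ) : ℝ :=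
  |efrac A c ρ - efrac A q (r / 4)| +
    |efrac A (bigCtr K ν c ρ) (K * ρ) - efrac A q (r / 4)|

/-- the low part of the enlarged ball outside the ball. -/
def crescent (K : ℝ) (ν c : Pt d) (ρ : ℝ) : Set (Pt d) :=
  {y | y ∈ Metric.ball (bigCtr K ν c ρ) (K * ρ) ∧ y ∉ Metric.ball c ρ ∧
    ⟪y - botPt ν c ρ, ν⟫ ≤ ρ / 2}

/-- the part of the crescent at horizontal distance about `s` from the bottom point. -/
def shell (K : ℝ) (ν c : Pt d) (ρ s : ℝ) : Set (Pt d) :=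
  crescent K ν c ρ ∩
    {y | s ≤ ‖linePt ν y 0 - linePt ν (botPt ν c ρ) 0‖ ∧
      ‖linePt ν y 0 - linePt ν (botPt ν c ρ) 0‖ < 2 * s}

/-- geometrically weighted aligned excess at the levels below `S / 8`. -/
noncomputable def wexc (A : Set (Pt d)) (S : ℝ) (c : Pt d) : ℝ≥0∞ :=
  ∑' j : ℕ, ENNReal.ofReal ((3 / 4) ^ j * exc A S c ((1 / 2) ^ j * (S / 8)))

/-- the profile statement of `CellProfile`. -/
def ProfileAt (A : Set (Pt d)) (n : Pt d) (S : ℝ) (c : Pt d) (R ε δ b : ℝ) : Prop :=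
  ∀ y ∈ Metric.closedBall c (R * S),
    (b + ε * S ≤ ⟪y - c, n⟫ → 1 - ε ≤ smoothInd A (δ * S) y) ∧
    (⟪y - c, n⟫ ≤ b - ε * S → smoothInd A (δ * S) y ≤ ε)

/-- the direction of the mollified gradient, with a fixed fallback. -/
noncomputable def cellDir (A : Set (Pt d)) (S : ℝ) (c : Pt d) (e : Pt d) : Pt d :=
  open Classical in
  if gradInd A S c = 0 then e else ‖gradInd A S c‖⁻¹ • gradInd A S c

/-- squared height deviation detected in a cell. -/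
noncomputable def zDev (A : Set (Pt d)) (n : Pt d) (o lam : ℝ) (c x : Pt d) : ℝ :=
  (hgt0 (gaussWin o lam) A n x - hgt (gaussWin o lam) A n (lam / 2) c) ^ 2

/-! ## statements -/

/-- direction change between comparable scales is controlled by excess, and so is the excess
relative to a direction taken at a smaller comparable scale. -/
def AlignLemma : Prop := ∀ (d : ℕ) (K c₀ : ℝ), 1 ≤ K → 0 < c₀ → ∃ C : ℝ, 0 < C ∧
  ∀ (A : Set (Pt d)), MeasurableSet A → ∀ (n : Pt d) (S S' : ℝ) (c c' c'' : Pt d),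
  0 < S → S ≤ K * S' → S' ≤ K * S → ‖c - c'‖ ≤ K * S → ‖c'' - c'‖ ≤ K * S →
  Aligned A n S c → c₀ ≤ S * ‖gradInd A S c‖ → ∀ S'' : ℝ, 4 * S' ≤ S'' → 4 * S ≤ S'' →
  S'' ≤ K * S →
    wsum A n S' c' ≤ ENNReal.ofReal C * wexc A S'' c'' ∧
    ∀ N : Pt d, Aligned A N S'' c'' →
      ENNReal.ofReal (‖n - N‖ ^ 2 * S ^ (d - 1)) ≤ ENNReal.ofReal C * wexc A S'' c''

/-- all layers away from the crescent regime. -/
def RegimeLemma : Prop := ∀ d : ℕ, 2 ≤ d → ∃ K₀ : ℝ, 2 ≤ K₀ ∧ ∀ K, K₀ ≤ K →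
  ∃ t₀ : ℝ, 0 < t₀ ∧ ∀ t, 0 < t → t ≤ t₀ → ∃ κ M₀ : ℝ, 0 < κ ∧ 0 < M₀ ∧
  ∀ M, M₀ ≤ M → ∃ ε₀ : ℝ, 0 < ε₀ ∧ ∀ ε, 0 < ε → ε ≤ ε₀ → ∃ δ₀ : ℝ, 0 < δ₀ ∧
  ∀ δ, 0 < δ → δ ≤ δ₀ → ∃ C : ℝ, 0 < C ∧
  ∀ (A : Set (Pt d)), MeasurableSet A → ∀ (r ρ b w : ℝ) (q c n ν : Pt d),
  0 < r → r ≤ ρ → ρ ≤ 2 * r → ‖c - q‖ ≤ r / 100 → ‖n‖ = 1 → ‖ν‖ = 1 → 0 ≤ w →
  wsum A n (M * r) q ≤ ENNReal.ofReal (w * r ^ (d - 1)) →
  ProfileAt A n (M * r) q 1 ε δ b →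
    (10 * K * r < |b| → layX A K ν c ρ + κ * layOsc A K ν c ρ q r ≤ C * w) ∧
    (‖n - ν‖ ≤ 100 * K / M →
      (t * r < |b - ⟪botPt ν c ρ - q, n⟫| →
        layX A K ν c ρ + κ * layOsc A K ν c ρ q r ≤ C * w) ∧
      (|b - ⟪botPt ν c ρ - q, n⟫| ≤ t * r →
        (volume (Aᶜ ∩ Metric.ball (bigCtr K ν c ρ) (K * ρ) ∩
          {y | 2 * t * r < ⟪y - botPt ν c ρ, n⟫})).toReal ≤ C * w * r ^ d))

/-- a shell seen in a frame that is straight up to `ε s / r`. -/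
def ShellLemma : Prop := ∀ d : ℕ, 2 ≤ d → ∃ C₀ : ℝ, 0 < C₀ ∧ ∀ K, 2 ≤ K →
  ∃ ε₀ : ℝ, 0 < ε₀ ∧ ∀ ε, 0 < ε → ε ≤ ε₀ → ∃ C θ : ℝ, 0 < C ∧ 0 < θ ∧
  ∀ (A : Set (Pt d)), MeasurableSet A → ∀ (r ρ s : ℝ) (c q n ν : Pt d),
  0 < r → r ≤ ρ → ρ ≤ 2 * r → 0 < s → s ≤ ε ^ 2 * r → ‖n‖ = 1 → ‖ν‖ = 1 →
  ‖n - ν‖ ≤ ε * s / r → ‖q - botPt ν c ρ‖ ≤ ε ^ 2 * s →
  volume (Aᶜ ∩ shell K ν c ρ s) ≤
    ENNReal.ofReal (C₀ * (√K) ^ (d + 1)) *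
      volume (Aᶜ ∩ Metric.ball c ρ ∩
        {y | s / (√(40 * K)) / 4 ≤ ‖linePt ν y 0 - linePt ν (botPt ν c ρ) 0‖ ∧
          ‖linePt ν y 0 - linePt ν (botPt ν c ρ) 0‖ ≤ 2 * s / √(40 * K)})
    + ENNReal.ofReal (C * s ^ 2 / r) *
      volume (slab n ∩ cyl n q (4 * s) ∩
        {x | θ * (s / r) ^ 2 ≤ zDev A n ⟪q, n⟫ (ε * s) q x})
    + ENNReal.ofReal (C * s) * wsum A n (4 * s) q

/-- the crescent shells below a cell on which the mollification is nearly constant. -/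
def FlatCellLemma : Prop := ∀ d : ℕ, 2 ≤ d → ∀ K, 2 ≤ K → ∃ η₀ C : ℝ, 0 < η₀ ∧ 0 < C ∧
  ∀ η, 0 < η → η ≤ η₀ → ∃ δ₀ : ℝ, 0 < δ₀ ∧ ∀ δ, 0 < δ → δ ≤ δ₀ →
  ∀ (A : Set (Pt d)), MeasurableSet A → ∀ (r ρ S : ℝ) (c q n ν : Pt d),
  0 < r → r ≤ ρ → ρ ≤ 2 * r → 0 < S → S ≤ r → ‖n‖ = 1 → ‖ν‖ = 1 →
  ‖q - botPt ν c ρ‖ ≤ S / 100 → wsum A n S q ≤ ENNReal.ofReal (η * S ^ (d - 1)) →
  (∀ y ∈ Metric.closedBall q S, smoothInd A (δ * S) y ≤ η) ∨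
      (∀ y ∈ Metric.closedBall q S, 1 - η ≤ smoothInd A (δ * S) y) →
  volume (Aᶜ ∩ crescent K ν c ρ ∩
      {y | ‖linePt ν y 0 - linePt ν (botPt ν c ρ) 0‖ ≤ S / 4}) ≤
    ENNReal.ofReal (C * S / r) *
      volume (Aᶜ ∩ Metric.ball c ρ ∩ Metric.ball (botPt ν c ρ) S)
    + ENNReal.ofReal (C * S) * wsum A n S q

/-- the shells inside the misaligned region: either the layer height is nearly tangent or they are
charged. -/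
def TiltLemma : Prop := ∀ d : ℕ, 2 ≤ d → ∀ K, 2 ≤ K → ∀ A₀, 1 ≤ A₀ →
  ∃ Cq θ₀ : ℝ, 0 < Cq ∧ 0 < θ₀ ∧ ∀ M, 1 ≤ M → ∃ C P : ℝ, 0 < C ∧ 1 ≤ P ∧
  ∀ (A : Set (Pt d)), MeasurableSet A → ∀ (r ρ : ℝ) (c n ν : Pt d),
  0 < r → r ≤ ρ → ρ ≤ 2 * r → ‖n‖ = 1 → ‖ν‖ = 1 → ‖n - ν‖ ≤ θ₀ →
    |smoothInd A (3 * (M * r)) (botPt n c ρ) - 1 / 2| ≤ Cq * ‖n - ν‖ / M ∨
    volume (Aᶜ ∩ crescent K ν c ρ ∩
        {y | ‖linePt ν y 0 - linePt ν (botPt ν c ρ) 0‖ ≤ A₀ * ‖n - ν‖ * r}) ≤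
      ENNReal.ofReal (Cq * ‖n - ν‖) * volume (Aᶜ ∩ Metric.ball c ρ)
      + ENNReal.ofReal (C * r) * wsum A n (P * (M * r)) (botPt n c ρ)

end Vale.Agent.P137
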