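import Vale.Agent.P137.LocalBase

/-! # P137, module F: the class charges and their sums over all classes -/

namespace Vale.Agent.P137

open MeasureTheory Set Filter Topology
open scoped RealInnerProductSpace ENNReal

variable {d : ℕ}

/-! ### the charges -/

/-- the point `p` belongs to the neighbourhood of the class `(k, z)`. -/
def Near (k : ℤ) (z : Fin d → ℤ) (p : Pt d) : Prop := ‖p - classPt k z‖ ≤ 4 * (2 : ℝ) ^ k

/-- geometric charge of the cells below the class scale. -/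
noncomputable def linV (lam : ℝ) (P : ℤ) (A : Set (Pt d)) (k : ℤ) (z : Fin d → ℤ) : ℝ≥0∞ :=
  open Classical in
  ∑' (e : ℤ) (c : Fin d → ℤ),
    if e ≤ k + P ∧ Near k z (gridPt (lam * (2 : ℝ) ^ e) c) then
      ENNReal.ofReal ((2 : ℝ) ^ (e - k)) * wexc A ((2 : ℝ) ^ e) (gridPt (lam * (2 : ℝ) ^ e) c)
    else 0

/-- charge of the class cell at `m` levels above the class scale. -/
noncomputable def topV (m : ℕ) (A : Set (Pt d)) (k : ℤ) (z : Fin d → ℤ) : ℝ≥0∞ :=
  wexc A ((2 : ℝ) ^ (k + (m : ℤ))) (classPt k z)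

/-- charge of the shells above which some direction turns too much. -/
noncomputable def angV (lam θ : ℝ) (A : Set (Pt d)) (k : ℤ) (z : Fin d → ℤ) : ℝ≥0∞ :=
  open Classical in
  ∑' (e : ℤ) (c : Fin d → ℤ),
    if Near k z (gridPt (lam * (2 : ℝ) ^ e) c) then
      ∑' n : ℕ,
        if ENNReal.ofReal ((4 : ℝ) ^ (e - 7 - (n : ℤ) - k) *
              (θ * (25 / 36) ^ n * ((2 : ℝ) ^ (e - 7)) ^ (d - 1)))
            ≤ wexc A ((2 : ℝ) ^ e) (gridPt (lam * (2 : ℝ) ^ e) c) then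
          ENNReal.ofReal ((4 : ℝ) ^ (e - 7 - (n : ℤ) - k) *
            ((2 : ℝ) ^ (e - 7 - (n : ℤ))) ^ (d - 1))
        else 0
    else 0

/-- the place in a cell where the height deviates from the tangent plane. -/
def devSet (A : Set (Pt d)) (n p : Pt d) (s ε θ' : ℝ) : Set (Pt d) :=
  slab n ∩ cyl n p (4 * s) ∩ {x | θ' ≤ zDev A n ⟪p, n⟫ (ε * s) p x}

/-- charge of the deviation of heights. -/
noncomputable def zetaV (e₀ : Pt d) (lam ε θ c₀ : ℝ) (A : Set (Pt d)) (k : ℤ) (z : Fin d → ℤ) :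
    ℝ≥0∞ :=
  open Classical in
  ∑' (e : ℤ) (c : Fin d → ℤ),
    if Near k z (gridPt (lam * (2 : ℝ) ^ e) c) ∧
        c₀ ≤ (2 : ℝ) ^ e * ‖gradInd A ((2 : ℝ) ^ e) (gridPt (lam * (2 : ℝ) ^ e) c)‖ then
      ENNReal.ofReal ((4 : ℝ) ^ (e - 4 - k)) *
        volume (devSet A (cellDir A ((2 : ℝ) ^ e) (gridPt (lam * (2 : ℝ) ^ e) c) e₀)
          (gridPt (lam * (2 : ℝ) ^ e) c) ((2 : ℝ) ^ (e - 4)) ε (θ * (4 : ℝ) ^ (e - 4 - k)))
    else 0

/-! ### generic sums -/

theorem tsum_swap_four {α β γ δ : Type*} (F : α → β → γ → δ → ℝ≥0∞) :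
    ∑' (a) (b) (c) (e), F a b c e = ∑' (c) (e) (a) (b), F a b c e := by
  calc ∑' (a) (b) (c) (e), F a b c e = ∑' (a) (c) (b) (e), F a b c e :=
        tsum_congr fun a => ENNReal.tsum_comm
    _ = ∑' (c) (a) (b) (e), F a b c e := ENNReal.tsum_comm
    _ = ∑' (c) (a) (e) (b), F a b c e := tsum_congr fun c => tsum_congr fun a => ENNReal.tsum_comm
    _ = ∑' (c) (e) (a) (b), F a b c e := tsum_congr fun c => ENNReal.tsum_comm

open Classical in
/-- geometric series over the integers, cut above. -/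
theorem tsum_zpow_upto {b : ℝ} (hb : 2 ≤ b) (N : ℤ) :
    ∑' n : ℤ, (if n ≤ N then ENNReal.ofReal (b ^ n) else 0) ≤ ENNReal.ofReal (2 * b ^ N) := by
  have hb0 : 0 < b := by linarith
  have hsupp : Function.support (fun n : ℤ => if n ≤ N then ENNReal.ofReal (b ^ n) else 0)
      ⊆ Set.range fun m : ℕ => N - (m : ℤ) := by
    intro n hn
    simp only [Function.mem_support, ne_eq, ite_eq_right_iff, not_forall] at hn
    obtain ⟨hn, -⟩ := hn
    exact ⟨(N - n).toNat, by simp only; omega⟩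
  have hinj : Function.Injective fun m : ℕ => N - (m : ℤ) := by
    intro a b h
    simp only at h
    omega
  rw [← hinj.tsum_eq hsupp]
  have e : ∀ m : ℕ, (if N - (m : ℤ) ≤ N then ENNReal.ofReal (b ^ (N - (m : ℤ))) else 0)
      = ENNReal.ofReal (b ^ N * (b⁻¹) ^ m) := by
    intro m
    rw [if_pos (by omega), zpow_sub₀ hb0.ne', zpow_natCast, inv_pow, div_eq_mul_inv]
  simp only [e]
  have h1 : b⁻¹ ≤ 1 / 2 := by rw [one_div]; exact inv_anti₀ two_pos hb
  have hs : Summable fun m : ℕ => b ^ N * b⁻¹ ^ m :=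
    (summable_geometric_of_lt_one (by positivity) (by linarith)).mul_left _
  rw [← ENNReal.ofReal_tsum_of_nonneg (fun m => by positivity) hs]
  refine ENNReal.ofReal_le_ofReal ?_
  rw [tsum_mul_left, tsum_geometric_of_lt_one (by positivity) (by linarith), mul_comm]
  refine mul_le_mul_of_nonneg_right ?_ (by positivity)
  rw [inv_le_comm₀ (by linarith) two_pos]
  linarith

open Classical in
/-- the sum of the powers of four below a threshold is at most twice the threshold. -/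
theorem tsum_four_thresh {w : ℝ} (hw : 0 < w) (X : ℝ≥0∞) :
    ∑' n : ℤ, (if ENNReal.ofReal ((4 : ℝ) ^ n * w) ≤ X then ENNReal.ofReal ((4 : ℝ) ^ n) else 0)
      ≤ ENNReal.ofReal (2 / w) * X := by
  rcases eq_or_ne X ∞ with rfl | hX
  · rw [ENNReal.mul_top (by simp [hw])]
    exact le_top
  obtain ⟨x, hx, rfl⟩ : ∃ x : ℝ, 0 ≤ x ∧ X = ENNReal.ofReal x :=
    ⟨X.toReal, ENNReal.toReal_nonneg, (ENNReal.ofReal_toReal hX).symm⟩
  rcases hx.eq_or_lt with rfl | hx
  · have : ∀ n : ℤ, ¬ ENNReal.ofReal ((4 : ℝ) ^ n * w) ≤ ENNReal.ofReal 0 := by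
      intro n
      rw [ENNReal.ofReal_le_ofReal_iff le_rfl, not_le]
      positivity
    simp only [if_neg (this _), tsum_zero, zero_le]
  · obtain ⟨N, hN1, hN2⟩ := exists_mem_Ico_zpow (div_pos hx hw) (show (1 : ℝ) < 4 by norm_num)
    calc _ ≤ ∑' n : ℤ, (if n ≤ N then ENNReal.ofReal ((4 : ℝ) ^ n) else 0) := by
          refine ENNReal.tsum_le_tsum fun n => ?_
          by_cases h : ENNReal.ofReal ((4 : ℝ) ^ n * w) ≤ ENNReal.ofReal x
          · rw [if_pos h, if_pos]
            rw [ENNReal.ofReal_le_ofReal_iff hx.le, ← le_div_iff₀ hw] at h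
            have := h.trans_lt hN2
            rw [zpow_lt_zpow_iff_right₀ (by norm_num : (1 : ℝ) < 4)] at this
            omega
          · rw [if_neg h]
            exact zero_le
      _ ≤ ENNReal.ofReal (2 * (4 : ℝ) ^ N) := tsum_zpow_upto (by norm_num) N
      _ ≤ _ := by
          rw [← ENNReal.ofReal_mul (by positivity)]
          refine ENNReal.ofReal_le_ofReal ?_
          calc 2 * (4 : ℝ) ^ N ≤ 2 * (x / w) := by linarith
            _ = 2 / w * x := by ring

theorem tsum_four_thresh_shift {w : ℝ} (hw : 0 < w) (v : ℝ) (i : ℤ) (X : ℝ≥0∞)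
    [∀ k : ℤ, Decidable (ENNReal.ofReal ((4 : ℝ) ^ (i - k) * w) ≤ X)] :
    ∑' k : ℤ, (if ENNReal.ofReal ((4 : ℝ) ^ (i - k) * w) ≤ X then
        ENNReal.ofReal ((4 : ℝ) ^ (i - k) * v) else 0)
      ≤ ENNReal.ofReal (2 * v / w) * X := by
  classical
  rw [← (Equiv.subLeft i).tsum_eq]
  calc _ = ∑' n : ℤ, (if ENNReal.ofReal ((4 : ℝ) ^ n * w) ≤ X then
          ENNReal.ofReal ((4 : ℝ) ^ n) else 0) * ENNReal.ofReal v := by
        refine tsum_congr fun n => ?_
        simp only [Equiv.subLeft_apply, sub_sub_cancel]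
        split_ifs
        · rw [← ENNReal.ofReal_mul (by positivity)]
        · rw [zero_mul]
    _ = (∑' n : ℤ, (if ENNReal.ofReal ((4 : ℝ) ^ n * w) ≤ X then
          ENNReal.ofReal ((4 : ℝ) ^ n) else 0)) * ENNReal.ofReal v := ENNReal.tsum_mul_right
    _ ≤ ENNReal.ofReal (2 / w) * X * ENNReal.ofReal v := by
        gcongr
        exact tsum_four_thresh hw X
    _ = _ := by
        rw [mul_right_comm, ← ENNReal.ofReal_mul (by positivity)]
        congr 2
        ring

open Classical in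
/-- few grid points are near a point. -/
theorem tsum_grid_count {h Q : ℝ} (hh : 0 < h) (hQ : 0 ≤ Q) (p : Pt d) (a : ℝ≥0∞) :
    ∑' z : Fin d → ℤ, (if ‖p - gridPt h z‖ ≤ Q * h then a else 0)
      ≤ ENNReal.ofReal ((2 * Q + 1) ^ d) * a := by
  set T : Finset (Fin d → ℤ) :=
    Fintype.piFinset fun i => Finset.Icc ⌈p i / h - Q⌉ ⌊p i / h + Q⌋ with hT
  have hsub : ∀ z, ‖p - gridPt h z‖ ≤ Q * h → z ∈ T := by
    intro z hz
    rw [hT, Fintype.mem_piFinset]
    intro i
    have h1 := (norm_gridPt_sub h z p i).trans_eq (norm_sub_rev _ _)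
    have h2 := abs_le.1 (h1.trans hz)
    have e : p i / h * h = p i := div_mul_cancel₀ _ hh.ne'
    rw [Finset.mem_Icc, Int.ceil_le, Int.le_floor]
    constructor <;> nlinarith
  rw [tsum_eq_sum (s := T) fun z hz => if_neg (mt (hsub z) hz)]
  calc ∑ z ∈ T, (if ‖p - gridPt h z‖ ≤ Q * h then a else 0) ≤ ∑ _z ∈ T, a := by
        refine Finset.sum_le_sum fun z _ => ?_
        split_ifs <;> simp
    _ = (T.card : ℝ≥0∞) * a := by simp
    _ ≤ _ := by
        gcongr
        rw [← ENNReal.ofReal_natCast]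
        refine ENNReal.ofReal_le_ofReal ?_
        rw [hT, Fintype.card_piFinset, Nat.cast_prod]
        calc ∏ i : Fin d, ((Finset.Icc ⌈p i / h - Q⌉ ⌊p i / h + Q⌋).card : ℝ)
            ≤ ∏ _i : Fin d, (2 * Q + 1) := by
              refine Finset.prod_le_prod (fun i _ => by positivity) fun i _ => ?_
              rw [Int.card_Icc]
              rcases le_or_gt (⌊p i / h + Q⌋ + 1 - ⌈p i / h - Q⌉) 0 with h0 | h0
              · rw [Int.toNat_of_nonpos h0]
                push_cast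
                linarith
              · have : (((⌊p i / h + Q⌋ + 1 - ⌈p i / h - Q⌉).toNat : ℕ) : ℝ)
                    = ((⌊p i / h + Q⌋ + 1 - ⌈p i / h - Q⌉ : ℤ) : ℝ) := by
                  exact_mod_cast Int.toNat_of_nonneg h0.le
                rw [this]
                push_cast
                linarith [Int.floor_le (p i / h + Q), Int.le_ceil (p i / h - Q)]
          _ = (2 * Q + 1) ^ d := by simp

theorem tau_pos : 0 < tau d := by unfold tau; positivity

open Classical in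
theorem tsum_near (k : ℤ) (p : Pt d) (a : ℝ≥0∞) :
    ∑' z : Fin d → ℤ, (if Near k z p then a else 0)
      ≤ ENNReal.ofReal ((2 * (4 / tau d) + 1) ^ d) * a := by
  have hk : (0 : ℝ) < (2 : ℝ) ^ k := by positivity
  have := tsum_grid_count (h := tau d * (2 : ℝ) ^ k) (Q := 4 / tau d)
    (mul_pos tau_pos hk) (by have := tau_pos (d := d); positivity) p a
  refine le_trans (le_of_eq (tsum_congr fun z => ?_)) this
  have e : 4 / tau d * (tau d * (2 : ℝ) ^ k) = 4 * (2 : ℝ) ^ k := by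
    field_simp [(tau_pos (d := d)).ne']
  rw [e]
  exact if_congr Iff.rfl rfl rfl

/-! ### excess -/

theorem wsum_eq_wexc (hE : ExcessBasics) {A : Set (Pt d)} (hA : MeasurableSet A) {n : Pt d}
    {S : ℝ} {c : Pt d} (hS : 0 < S) (hn : Aligned A n S c) : wsum A n S c = wexc A S c := by
  unfold wsum wexc
  refine tsum_congr fun j => ?_
  have h1 : ((1 : ℝ) / 2) ^ j ≤ 1 := pow_le_one₀ (by norm_num) (by norm_num)
  rw [(hE d A hA n S c hS hn.1).2.2 hn _ (by positivity) (by nlinarith)]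

/-- the weighted excesses of a grid are affordable. -/
theorem sum_wexc (hS : ExcessSum) (d : ℕ) {lam : ℝ} (hlam : 0 < lam) :
    ∃ C : ℝ, 0 ≤ C ∧ ∀ A : Set (Pt d), MeasurableSet A → volume A < ∞ →
      ∑' (e : ℤ) (c : Fin d → ℤ), wexc A ((2 : ℝ) ^ e) (gridPt (lam * (2 : ℝ) ^ e) c)
        ≤ ENNReal.ofReal C * gper A := by
  obtain ⟨C, hC⟩ := hS d lam hlam
  have hs : Summable fun j : ℕ => (3 / 4 : ℝ) ^ j * (max C 0 * ((j : ℝ) + 4)) := by
    have h1 := summable_pow_mul_geometric_of_norm_lt_one 1 (r := (3 / 4 : ℝ)) (by norm_num)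
    have h0 := summable_geometric_of_lt_one (r := (3 / 4 : ℝ)) (by norm_num) (by norm_num)
    refine ((h1.mul_left (max C 0)).add (h0.mul_left (4 * max C 0))).congr fun j => ?_
    ring
  refine ⟨∑' j : ℕ, (3 / 4 : ℝ) ^ j * (max C 0 * ((j : ℝ) + 4)),
    tsum_nonneg fun j => by positivity, fun A hA hAv => ?_⟩
  rw [ENNReal.ofReal_tsum_of_nonneg (fun j => by positivity) hs, ← ENNReal.tsum_mul_right]
  simp only [wexc]
  rw [tsum_congr fun _ => ENNReal.tsum_comm, ENNReal.tsum_comm]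
  refine ENNReal.tsum_le_tsum fun j => ?_
  have e : ∀ i : ℤ, (1 / 2 : ℝ) ^ j * ((2 : ℝ) ^ i / 8) = (2 : ℝ) ^ (i - ((j + 3 : ℕ) : ℤ)) := by
    intro i
    rw [zpow_sub₀ (by norm_num), zpow_natCast, pow_add, one_div, inv_pow]
    field_simp
    ring
  simp only [e, ENNReal.ofReal_mul (show (0 : ℝ) ≤ (3 / 4) ^ j by positivity),
    ENNReal.tsum_mul_left]
  rw [mul_assoc]
  gcongr
  refine (hC A hA hAv (j + 3) (by omega)).trans ?_
  refine mul_le_mul_left (ENNReal.ofReal_le_ofReal ?_) _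
  push_cast
  nlinarith [le_max_left C 0, (Nat.cast_nonneg j : (0 : ℝ) ≤ (j : ℝ))]

/-! ### the sums over classes -/

theorem sum_topV (hS : ExcessSum) (d : ℕ) (m : ℕ) :
    ∃ C : ℝ, 0 ≤ C ∧ ∀ A : Set (Pt d), MeasurableSet A → volume A < ∞ →
      ∑' (k : ℤ) (z : Fin d → ℤ), topV m A k z ≤ ENNReal.ofReal C * gper A := by
  obtain ⟨C, hC0, hC⟩ := sum_wexc hS d (lam := tau d / 2 ^ m)
    (div_pos tau_pos (by positivity))
  refine ⟨C, hC0, fun A hA hAv => le_trans (le_of_eq ?_) (hC A hA hAv)⟩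
  rw [← (Equiv.addRight (m : ℤ)).tsum_eq
    fun e => ∑' c, wexc A ((2 : ℝ) ^ e) (gridPt (tau d / 2 ^ m * (2 : ℝ) ^ e) c)]
  refine tsum_congr fun k => tsum_congr fun z => ?_
  simp only [Equiv.coe_addRight, topV, classPt]
  congr 2
  rw [zpow_add₀ (by norm_num), zpow_natCast]
  field_simp

theorem sum_linV (hS : ExcessSum) (d : ℕ) {lam : ℝ} (hlam : 0 < lam) (P : ℤ) :
    ∃ C : ℝ, 0 ≤ C ∧ ∀ A : Set (Pt d), MeasurableSet A → volume A < ∞ →
      ∑' (k : ℤ) (z : Fin d → ℤ), linV lam P A k z ≤ ENNReal.ofReal C * gper A := by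
  classical
  obtain ⟨C, hC0, hC⟩ := sum_wexc hS d hlam
  set N : ℝ := (2 * (4 / tau d) + 1) ^ d with hN
  have hN0 : 0 ≤ N := by have := tau_pos (d := d); positivity
  refine ⟨2 * (2 : ℝ) ^ P * N * C, by positivity, fun A hA hAv => ?_⟩
  unfold linV
  rw [tsum_swap_four, ENNReal.ofReal_mul (by positivity), mul_assoc]
  refine le_trans ?_ (mul_le_mul_right (hC A hA hAv) _)
  rw [← ENNReal.tsum_mul_left]
  refine ENNReal.tsum_le_tsum fun e => ?_
  rw [← ENNReal.tsum_mul_left]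
  refine ENNReal.tsum_le_tsum fun c => ?_
  set X := wexc A ((2 : ℝ) ^ e) (gridPt (lam * (2 : ℝ) ^ e) c)
  calc ∑' (k : ℤ) (z : Fin d → ℤ),
        (if e ≤ k + P ∧ Near k z (gridPt (lam * (2 : ℝ) ^ e) c)
          then ENNReal.ofReal ((2 : ℝ) ^ (e - k)) * X else 0)
      ≤ ∑' k : ℤ, ENNReal.ofReal N *
          ((if e - k ≤ P then ENNReal.ofReal ((2 : ℝ) ^ (e - k)) else 0) * X) := by
        refine ENNReal.tsum_le_tsum fun k => ?_
        by_cases hk : e ≤ k + P
        · rw [if_pos (by omega : e - k ≤ P)]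
          simp only [hk, true_and]
          exact tsum_near k _ _
        · simp [hk]
    _ = ENNReal.ofReal N *
          ((∑' n : ℤ, if n ≤ P then ENNReal.ofReal ((2 : ℝ) ^ n) else 0) * X) := by
        rw [ENNReal.tsum_mul_left, ENNReal.tsum_mul_right, ← (Equiv.subLeft e).tsum_eq
          fun n => if n ≤ P then ENNReal.ofReal ((2 : ℝ) ^ n) else 0]
        simp only [Equiv.subLeft_apply]
    _ ≤ _ := by
        rw [ENNReal.ofReal_mul (by positivity), ← mul_assoc, mul_comm (ENNReal.ofReal (2 * _))]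
        gcongr
        exact tsum_zpow_upto le_rfl P

theorem sum_angV (hS : ExcessSum) (d : ℕ) (hd : 2 ≤ d) {lam θ : ℝ} (hlam : 0 < lam) (hθ : 0 < θ) :
    ∃ C : ℝ, 0 ≤ C ∧ ∀ A : Set (Pt d), MeasurableSet A → volume A < ∞ →
      ∑' (k : ℤ) (z : Fin d → ℤ), angV lam θ A k z ≤ ENNReal.ofReal C * gper A := by
  classical
  obtain ⟨C, hC0, hC⟩ := sum_wexc hS d hlam
  set N : ℝ := (2 * (4 / tau d) + 1) ^ d with hN
  have hN0 : 0 ≤ N := by have := tau_pos (d := d); positivity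
  refine ⟨N * (2 / θ * 4) * C, by positivity, fun A hA hAv => ?_⟩
  unfold angV
  rw [tsum_swap_four, ENNReal.ofReal_mul (by positivity), mul_assoc]
  refine le_trans ?_ (mul_le_mul_right (hC A hA hAv) _)
  rw [← ENNReal.tsum_mul_left]
  refine ENNReal.tsum_le_tsum fun e => ?_
  rw [← ENNReal.tsum_mul_left]
  refine ENNReal.tsum_le_tsum fun c => ?_
  set X := wexc A ((2 : ℝ) ^ e) (gridPt (lam * (2 : ℝ) ^ e) c)
  set w : ℕ → ℝ := fun n => θ * (25 / 36) ^ n * ((2 : ℝ) ^ (e - 7)) ^ (d - 1) with hw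
  set v : ℕ → ℝ := fun n => ((2 : ℝ) ^ (e - 7 - (n : ℤ))) ^ (d - 1) with hv
  have hwp : ∀ n, 0 < w n := fun n => by positivity
  have hratio : ∀ n, 2 * v n / w n ≤ 2 / θ * (18 / 25) ^ n := by
    intro n
    have hx : (0 : ℝ) < ((2 : ℝ) ^ (e - 7)) ^ (d - 1) := by positivity
    have hh : ((1 / 2 : ℝ) ^ n) ^ (d - 1) ≤ (1 / 2) ^ n :=
      pow_le_of_le_one (by positivity) (pow_le_one₀ (by norm_num) (by norm_num)) (by omega)
    have e1 : v n = ((2 : ℝ) ^ (e - 7)) ^ (d - 1) * ((1 / 2 : ℝ) ^ n) ^ (d - 1) := by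
      simp only [hv]
      rw [← mul_pow, zpow_sub₀ (by norm_num : (2 : ℝ) ≠ 0) (e - 7), zpow_natCast, one_div,
        inv_pow, div_eq_mul_inv]
    have e2 : (25 / 36 : ℝ) ^ n * (18 / 25) ^ n = (1 / 2) ^ n := by
      rw [← mul_pow]; norm_num
    rw [div_le_iff₀ (hwp n), e1]
    calc 2 * (((2 : ℝ) ^ (e - 7)) ^ (d - 1) * ((1 / 2 : ℝ) ^ n) ^ (d - 1))
        ≤ 2 * (((2 : ℝ) ^ (e - 7)) ^ (d - 1) * (1 / 2 : ℝ) ^ n) := by gcongr
      _ = 2 / θ * (18 / 25) ^ n * w n := by
          simp only [hw]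
          rw [← e2]
          field_simp
  calc ∑' (k : ℤ) (z : Fin d → ℤ), (if Near k z (gridPt (lam * (2 : ℝ) ^ e) c) then
        ∑' n : ℕ, (if ENNReal.ofReal ((4 : ℝ) ^ (e - 7 - (n : ℤ) - k) * w n) ≤ X then
          ENNReal.ofReal ((4 : ℝ) ^ (e - 7 - (n : ℤ) - k) * v n) else 0) else 0)
      ≤ ∑' k : ℤ, ENNReal.ofReal N * ∑' n : ℕ,
          (if ENNReal.ofReal ((4 : ℝ) ^ (e - 7 - (n : ℤ) - k) * w n) ≤ X then
            ENNReal.ofReal ((4 : ℝ) ^ (e - 7 - (n : ℤ) - k) * v n) else 0) :=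
        ENNReal.tsum_le_tsum fun k => tsum_near k _ _
    _ ≤ ENNReal.ofReal N * ∑' n : ℕ, ENNReal.ofReal (2 / θ * (18 / 25) ^ n) * X := by
        rw [ENNReal.tsum_mul_left, ENNReal.tsum_comm]
        gcongr with n
        refine (tsum_four_thresh_shift (hwp n) _ _ X).trans ?_
        gcongr
        exact hratio n
    _ ≤ _ := by
        rw [ENNReal.tsum_mul_right, ENNReal.ofReal_mul hN0, mul_assoc,
          ← ENNReal.ofReal_tsum_of_nonneg (fun n => by positivity)
            ((summable_geometric_of_lt_one (by norm_num) (by norm_num)).mul_left _)]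
        gcongr
        rw [tsum_mul_left, tsum_geometric_of_lt_one (by norm_num) (by norm_num)]
        gcongr
        norm_num

theorem measurable_zDev {A : Set (Pt d)} (hA : MeasurableSet A) (n : Pt d) (o lam : ℝ) (c : Pt d) :
    Measurable (zDev A n o lam c) := by
  have hl : Continuous fun p : Pt d × ℝ => linePt n p.1 p.2 := by unfold linePt; fun_prop
  have hg : Continuous fun p : Pt d × ℝ => gaussWin o lam 0 p.2 := by
    unfold gaussWin gauss1; fun_prop
  have hm : StronglyMeasurable fun p : Pt d × ℝ =>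
      gaussWin o lam 0 p.2 * A.indicator (fun _ => (1 : ℝ)) (linePt n p.1 p.2) :=
    (hg.measurable.mul ((measurable_const.indicator hA).comp hl.measurable)).stronglyMeasurable
  unfold zDev hgt0
  exact ((hm.integral_prod_right' (ν := volume)).measurable.sub_const _).pow_const 2

theorem sum_zetaV (hS : ExcessSum) (hCG : ChainGauss) (hAl : AlignLemma) (d : ℕ) (e₀ : Pt d)
    {lam ε θ c₀ : ℝ} (hlam : 0 < lam) (hε : 0 < ε) (hε1 : ε ≤ 1) (hθ : 0 < θ)
    (hc₀ : 0 < c₀) :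
    ∃ C : ℝ, 0 ≤ C ∧ ∀ A : Set (Pt d), MeasurableSet A → volume A < ∞ →
      ∑' (k : ℤ) (z : Fin d → ℤ), zetaV e₀ lam ε θ c₀ A k z ≤ ENNReal.ofReal C * gper A := by
  classical
  obtain ⟨Cs, hCs0, hCs⟩ := sum_wexc hS d hlam
  set Kc : ℝ := max (4 / ε) 4 with hKc
  obtain ⟨Cc, K', hCc, hK', hCG⟩ := hCG d Kc (le_trans (by norm_num) (le_max_right _ _))
  have hK'4 : 4 ≤ K' := le_trans (le_max_right _ _) hK'
  obtain ⟨p, hp⟩ := pow_unbounded_of_one_lt K' (one_lt_two : (1 : ℝ) < 2)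
  set Ka : ℝ := (2 : ℝ) ^ p * (((d : ℝ) + 1) * lam + 1) with hKa
  have hKa2 : (2 : ℝ) ^ p ≤ Ka :=
    le_mul_of_one_le_right (by positivity) (le_add_of_nonneg_left (by positivity))
  obtain ⟨Ca, hCa, hAl⟩ := hAl d Ka c₀ (by linarith) hc₀
  set N : ℝ := (2 * (4 / tau d) + 1) ^ d with hN
  have hN0 : 0 ≤ N := by have := tau_pos (d := d); positivity
  set M : ℝ := (2 * (((d : ℝ) + 1) * (2 : ℝ) ^ p) + 1) ^ d with hM
  refine ⟨N * (2 / θ * (Cc * Ca)) * M * Cs, by positivity, fun A hA hAv => ?_⟩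
  -- swap
  unfold zetaV
  rw [tsum_swap_four]
  -- one cell is paid by a coarser one
  have key : ∀ (e : ℤ) (c : Fin d → ℤ),
      ∑' (k : ℤ) (z : Fin d → ℤ),
        (if Near k z (gridPt (lam * (2 : ℝ) ^ e) c) ∧
            c₀ ≤ (2 : ℝ) ^ e * ‖gradInd A ((2 : ℝ) ^ e) (gridPt (lam * (2 : ℝ) ^ e) c)‖ then
          ENNReal.ofReal ((4 : ℝ) ^ (e - 4 - k)) *
            volume (devSet A (cellDir A ((2 : ℝ) ^ e) (gridPt (lam * (2 : ℝ) ^ e) c) e₀)
              (gridPt (lam * (2 : ℝ) ^ e) c) ((2 : ℝ) ^ (e - 4)) ε (θ * (4 : ℝ) ^ (e - 4 - k)))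
        else 0)
      ≤ ENNReal.ofReal (N * (2 / θ * (Cc * Ca))) *
        ∑' c' : Fin d → ℤ,
          (if ‖gridPt (lam * (2 : ℝ) ^ (e + (p : ℤ))) c' - gridPt (lam * (2 : ℝ) ^ e) c‖
              ≤ ((d : ℝ) + 1) * (lam * (2 : ℝ) ^ (e + (p : ℤ))) then
            wexc A ((2 : ℝ) ^ (e + (p : ℤ))) (gridPt (lam * (2 : ℝ) ^ (e + (p : ℤ))) c')
          else 0) := by
    intro e c
    set q := gridPt (lam * (2 : ℝ) ^ e) c with hq
    set n := cellDir A ((2 : ℝ) ^ e) q e₀ with hn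
    by_cases hflux : c₀ ≤ (2 : ℝ) ^ e * ‖gradInd A ((2 : ℝ) ^ e) q‖
    swap
    · simp [hflux]
    simp only [hflux, and_true]
    have hg : gradInd A ((2 : ℝ) ^ e) q ≠ 0 := by
      intro h
      rw [h, norm_zero, mul_zero] at hflux
      linarith
    have hal : Aligned A n ((2 : ℝ) ^ e) q := by
      have hne := norm_ne_zero_iff.2 hg
      rw [hn, cellDir, if_neg hg]
      refine ⟨by rw [norm_smul, norm_inv, norm_norm, inv_mul_cancel₀ hne], ?_⟩
      rw [real_inner_smul_right, real_inner_self_eq_norm_sq]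
      field_simp
    set s : ℝ := (2 : ℝ) ^ (e - 4) with hs
    have hs0 : 0 < s := by positivity
    have es : (2 : ℝ) ^ e = 16 * s := by
      rw [hs, show (16 : ℝ) = (2 : ℝ) ^ (4 : ℤ) by norm_num, ← zpow_add₀ (by norm_num)]
      congr 1
      ring
    -- the square deviation of the cell
    set Ω : Set (Pt d) := slab n ∩ cyl n q (4 * s) with hΩ
    have hΩm : MeasurableSet Ω := (measurableSet_slab n).inter (measurableSet_cyl _ _ _)
    set Z : Pt d → ℝ := zDev A n ⟪q, n⟫ (ε * s) q with hZ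
    have hZm : Measurable Z := measurable_zDev hA n _ _ _
    have h1 : ∑' k : ℤ, ENNReal.ofReal ((4 : ℝ) ^ (e - 4 - k)) *
        volume (devSet A n q s ε (θ * (4 : ℝ) ^ (e - 4 - k)))
        ≤ ENNReal.ofReal (2 / θ) * ∫⁻ x in Ω, ENNReal.ofReal (Z x) := by
      have h2 : ∀ k : ℤ, ENNReal.ofReal ((4 : ℝ) ^ (e - 4 - k)) *
          volume (devSet A n q s ε (θ * (4 : ℝ) ^ (e - 4 - k)))
          = ∫⁻ x in Ω, {x | θ * (4 : ℝ) ^ (e - 4 - k) ≤ Z x}.indicator
              (fun _ => ENNReal.ofReal ((4 : ℝ) ^ (e - 4 - k))) x := by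
        intro k
        rw [setLIntegral_indicator (measurableSet_le measurable_const hZm), setLIntegral_const,
          inter_comm]
        rfl
      simp only [h2]
      rw [← lintegral_tsum fun k =>
          (measurable_const.indicator (measurableSet_le measurable_const hZm)).aemeasurable,
        ← lintegral_const_mul _ hZm.ennreal_ofReal]
      refine lintegral_mono fun x => le_trans (le_of_eq ?_)
        ((tsum_four_thresh_shift hθ 1 (e - 4) (ENNReal.ofReal (Z x))).trans_eq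
          (by rw [mul_one]))
      refine tsum_congr fun k => ?_
      have hpos : 0 < (4 : ℝ) ^ (e - 4 - k) * θ := by positivity
      rw [indicator_apply, mul_one]
      refine if_congr ?_ rfl rfl
      rw [mem_ofPred_eq, mul_comm θ]
      exact ⟨ENNReal.ofReal_le_ofReal, fun h => ((ENNReal.ofReal_le_ofReal_iff'.1 h)).resolve_right
        (not_le.2 hpos)⟩
    -- chain
    have h3 : ∫⁻ x in Ω, ENNReal.ofReal (Z x) ≤ ENNReal.ofReal Cc * wsum A n (K' * (4 * s)) q := by
      have h4 := (hCG A hA n hal.1 (4 * s) (ε * s) ⟪q, n⟫ q (by positivity) ?_ ?_ (by simp; positivity)).1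
      · refine le_trans (lintegral_mono_set ?_) h4
        rintro x ⟨hx1, hx2⟩
        exact ⟨hx1, le_trans (show ‖_‖ ≤ 4 * s from hx2)
          (le_mul_of_one_le_left (by positivity) (le_trans (by norm_num) (le_max_right _ _)))⟩
      · rw [div_le_iff₀ (by positivity)]
        have : 4 ≤ ε * Kc := by
          have := le_max_left (4 / ε) 4
          rw [div_le_iff₀ hε] at this
          linarith
        nlinarith
      · have : 4 ≤ Kc := le_max_right _ _
        nlinarith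
    -- the coarse point
    have hbig : (0 : ℝ) < lam * (2 : ℝ) ^ (e + (p : ℤ)) := by positivity
    obtain ⟨c', hc'⟩ := exists_gridPt_near hbig q
    set q' := gridPt (lam * (2 : ℝ) ^ (e + (p : ℤ))) c'
    have ep : (2 : ℝ) ^ (e + (p : ℤ)) = (2 : ℝ) ^ p * (16 * s) := by
      rw [zpow_add₀ (by norm_num), zpow_natCast, es]; ring
    have h5 : wsum A n (K' * (4 * s)) q
        ≤ ENNReal.ofReal Ca * wexc A ((2 : ℝ) ^ (e + (p : ℤ))) q' := by
      refine (hAl A hA n ((2 : ℝ) ^ e) (K' * (4 * s)) q q q' (by positivity) ?_ ?_ ?_ ?_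
        hal hflux ((2 : ℝ) ^ (e + (p : ℤ))) ?_ ?_ ?_).1
      · rw [es]
        nlinarith [mul_le_mul (hp.le.trans hKa2) hK'4 (by norm_num) (by linarith)]
      · rw [es]
        nlinarith [mul_le_mul_of_nonneg_right (hp.le.trans hKa2) hs0.le]
      · simp only [sub_self, norm_zero]
        positivity
      · refine hc'.trans ?_
        rw [ep, es, hKa]
        nlinarith [mul_pos (show (0 : ℝ) < (2 : ℝ) ^ p by positivity) hs0]
      · rw [ep]; nlinarith
      · rw [ep, es]; nlinarith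
      · rw [ep, es]
        nlinarith
    -- sum
    calc ∑' (k : ℤ) (z : Fin d → ℤ), (if Near k z q then
          ENNReal.ofReal ((4 : ℝ) ^ (e - 4 - k)) *
            volume (devSet A n q s ε (θ * (4 : ℝ) ^ (e - 4 - k))) else 0)
        ≤ ∑' k : ℤ, ENNReal.ofReal N * (ENNReal.ofReal ((4 : ℝ) ^ (e - 4 - k)) *
            volume (devSet A n q s ε (θ * (4 : ℝ) ^ (e - 4 - k)))) :=
          ENNReal.tsum_le_tsum fun k => tsum_near k _ _
      _ ≤ ENNReal.ofReal N * (ENNReal.ofReal (2 / θ) * (ENNReal.ofReal Cc *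
            (ENNReal.ofReal Ca * wexc A ((2 : ℝ) ^ (e + (p : ℤ))) q'))) := by
          rw [ENNReal.tsum_mul_left]
          gcongr
          exact h1.trans (mul_le_mul_right (h3.trans (mul_le_mul_right h5 _)) _)
      _ ≤ _ := by
          rw [ENNReal.ofReal_mul hN0, ENNReal.ofReal_mul (by positivity),
            ENNReal.ofReal_mul hCc.le]
          simp only [mul_assoc]
          gcongr
          exact le_trans (le_of_eq (if_pos hc').symm) (ENNReal.le_tsum c')
  refine (ENNReal.tsum_le_tsum fun e => ENNReal.tsum_le_tsum fun c => key e c).trans ?_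
  simp only [ENNReal.tsum_mul_left]
  rw [mul_assoc (N * _) M Cs,
    ENNReal.ofReal_mul (p := N * (2 / θ * (Cc * Ca))) (q := M * Cs) (by positivity), mul_assoc]
  gcongr
  rw [ENNReal.ofReal_mul (by positivity), mul_assoc]
  refine le_trans ?_ (mul_le_mul_right (hCs A hA hAv) _)
  rw [← (Equiv.addRight (p : ℤ)).tsum_eq fun e => ∑' c', wexc A ((2 : ℝ) ^ e)
    (gridPt (lam * (2 : ℝ) ^ e) c'), ← ENNReal.tsum_mul_left]
  refine ENNReal.tsum_le_tsum fun e => ?_
  simp only [Equiv.coe_addRight]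
  rw [ENNReal.tsum_comm, ← ENNReal.tsum_mul_left]
  refine ENNReal.tsum_le_tsum fun c' => ?_
  have := tsum_grid_count (h := lam * (2 : ℝ) ^ e) (Q := ((d : ℝ) + 1) * (2 : ℝ) ^ p)
    (by positivity) (by positivity) (gridPt (lam * (2 : ℝ) ^ (e + (p : ℤ))) c')
    (wexc A ((2 : ℝ) ^ (e + (p : ℤ))) (gridPt (lam * (2 : ℝ) ^ (e + (p : ℤ))) c'))
  refine le_trans (le_of_eq (tsum_congr fun c => ?_)) this
  refine if_congr ?_ rfl rfl
  rw [zpow_add₀ (by norm_num : (2 : ℝ) ≠ 0), zpow_natCast]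
  constructor <;> intro h <;> linarith

end Vale.Agent.P137
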